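import Mathlib

/-!
Row 106 (S0140): the Cauchy-Schwarz layer of the costs (note 12142), abstract form.
`S` = times of the test, `Y` = points of the backward cone, `P` = momenta,
`g (s,y,p)` = (density) * (indicator of the shell).
-/

set_option autoImplicit false

open MeasureTheory
open scoped ENNReal

namespace Crest.Agent.R106.Cost

variable {α S Y P : Type*} [MeasurableSpace α] [MeasurableSpace S] [MeasurableSpace Y]
  [MeasurableSpace P]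

theorem conj_two_two : (2 : ℝ).HolderConjugate 2 := by
  rw [Real.holderConjugate_iff]; norm_num

/-- Cauchy-Schwarz for the Lebesgue integral of nonnegative functions. -/
theorem cs (μ : Measure α) {f g : α → ℝ≥0∞} (hf : AEMeasurable f μ) (hg : AEMeasurable g μ) :
    ∫⁻ a, f a * g a ∂μ ≤ (∫⁻ a, f a ^ (2 : ℝ) ∂μ) ^ (1 / (2 : ℝ))
      * (∫⁻ a, g a ^ (2 : ℝ) ∂μ) ^ (1 / (2 : ℝ)) := by
  simpa using ENNReal.lintegral_mul_le_Lp_mul_Lq μ conj_two_two hf hg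

theorem rpow_half_two (a : ℝ≥0∞) : (a ^ (1 / (2 : ℝ))) ^ (2 : ℝ) = a := by
  rw [← ENNReal.rpow_mul]; norm_num


/-- squared form of Cauchy-Schwarz -/
theorem cs_sq (μ : Measure α) {f g : α → ℝ≥0∞} (hf : AEMeasurable f μ) (hg : AEMeasurable g μ) :
    (∫⁻ a, f a * g a ∂μ) ^ (2 : ℝ) ≤ (∫⁻ a, f a ^ (2 : ℝ) ∂μ) * (∫⁻ a, g a ^ (2 : ℝ) ∂μ) := by
  refine (ENNReal.rpow_le_rpow (cs μ hf hg) (by norm_num)).trans ?_
  rw [ENNReal.mul_rpow_of_nonneg _ _ (by norm_num : (0 : ℝ) ≤ 2), rpow_half_two, rpow_half_two]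

/-- If `G ≤ M` pointwise then `∫ G² ≤ M ∫ G`. -/
theorem lintegral_sq_le (μ : Measure α) {G : α → ℝ≥0∞} {M : ℝ≥0∞}
    (hG : ∀ a, G a ≤ M) (hGm : AEMeasurable G μ) :
    ∫⁻ a, G a ^ (2 : ℝ) ∂μ ≤ M * ∫⁻ a, G a ∂μ := by
  rw [← lintegral_const_mul'' M hGm]
  refine lintegral_mono fun a => ?_
  have : G a ^ (2 : ℝ) = G a * G a := by
    rw [show (2 : ℝ) = 1 + 1 by norm_num, ENNReal.rpow_add_of_nonneg _ _ (by norm_num) (by norm_num),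
      ENNReal.rpow_one]
  rw [this]
  exact mul_le_mul_left (hG a) _

/-- (CS0) one cone: `∫_y K(y) ∫_p g ≤ (∫ K²)^{1/2} (M ∫_y ∫_p g)^{1/2}`. -/
theorem cone_cs (ν : Measure Y) (π : Measure P) [SFinite π] {g : Y → P → ℝ≥0∞}
    {K : Y → ℝ≥0∞} {M : ℝ≥0∞}
    (hg : Measurable (Function.uncurry g)) (hK : Measurable K)
    (hM : ∀ y, ∫⁻ p, g y p ∂π ≤ M) :
    ∫⁻ y, K y * ∫⁻ p, g y p ∂π ∂ν ≤
      (∫⁻ y, K y ^ (2 : ℝ) ∂ν) ^ (1 / (2 : ℝ)) * (M * ∫⁻ y, ∫⁻ p, g y p ∂π ∂ν) ^ (1 / (2 : ℝ)) := by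
  have hG : Measurable fun y => ∫⁻ p, g y p ∂π := hg.lintegral_prod_right'
  refine (cs ν hK.aemeasurable hG.aemeasurable).trans ?_
  gcongr
  exact lintegral_sq_le ν hM hG.aemeasurable

/-- (CS0) squared. -/
theorem cone_cs_sq (ν : Measure Y) (π : Measure P) [SFinite π] {g : Y → P → ℝ≥0∞}
    {K : Y → ℝ≥0∞} {M : ℝ≥0∞}
    (hg : Measurable (Function.uncurry g)) (hK : Measurable K)
    (hM : ∀ y, ∫⁻ p, g y p ∂π ≤ M) :
    (∫⁻ y, K y * ∫⁻ p, g y p ∂π ∂ν) ^ (2 : ℝ) ≤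
      (∫⁻ y, K y ^ (2 : ℝ) ∂ν) * (M * ∫⁻ y, ∫⁻ p, g y p ∂π ∂ν) := by
  have hG : Measurable fun y => ∫⁻ p, g y p ∂π := hg.lintegral_prod_right'
  refine (cs_sq ν hK.aemeasurable hG.aemeasurable).trans ?_
  gcongr
  exact lintegral_sq_le ν hM hG.aemeasurable

/-- (CS1) integrated over the time interval: `K` = the good part of the fields, energy flux
`∫_{C(s)} K² ≤ E` on every cone. -/
theorem cs1 (σ : Measure S) (ν : Measure Y) (π : Measure P) [SFinite π] [SFinite ν]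
    {g : S → Y → P → ℝ≥0∞} {K : S → Y → ℝ≥0∞} {E M : ℝ≥0∞}
    (hg : Measurable fun z : S × Y × P => g z.1 z.2.1 z.2.2)
    (hK : Measurable (Function.uncurry K))
    (hE : ∀ s, ∫⁻ y, K s y ^ (2 : ℝ) ∂ν ≤ E)
    (hM : ∀ s y, ∫⁻ p, g s y p ∂π ≤ M) :
    ∫⁻ s, ∫⁻ y, K s y * ∫⁻ p, g s y p ∂π ∂ν ∂σ ≤
      (σ Set.univ) ^ (1 / (2 : ℝ)) *
        (E * (M * ∫⁻ s, ∫⁻ y, ∫⁻ p, g s y p ∂π ∂ν ∂σ)) ^ (1 / (2 : ℝ)) := by
  have hg1 : ∀ s, Measurable (Function.uncurry (g s)) := fun s =>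
    hg.comp (measurable_const.prodMk measurable_id)
  have hgy : Measurable fun z : S × Y => ∫⁻ p, g z.1 z.2 p ∂π := by
    have : Measurable fun w : (S × Y) × P => g w.1.1 w.1.2 w.2 :=
      hg.comp ((measurable_fst.comp measurable_fst).prodMk
        ((measurable_snd.comp measurable_fst).prodMk measurable_snd))
    exact this.lintegral_prod_right'
  have hm : Measurable fun s => ∫⁻ y, ∫⁻ p, g s y p ∂π ∂ν := hgy.lintegral_prod_right'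
  have h1 : ∀ s, ∫⁻ y, K s y * ∫⁻ p, g s y p ∂π ∂ν ≤
      1 * (E * (M * ∫⁻ y, ∫⁻ p, g s y p ∂π ∂ν)) ^ (1 / (2 : ℝ)) := by
    intro s
    rw [one_mul, ENNReal.mul_rpow_of_nonneg _ _ (by norm_num : (0 : ℝ) ≤ 1 / 2)]
    refine (cone_cs ν π (hg1 s) (hK.comp (measurable_const.prodMk measurable_id))
      (hM s)).trans ?_
    gcongr
    exact hE s
  refine (lintegral_mono h1).trans ?_
  have hm1 : Measurable fun s => M * ∫⁻ y, ∫⁻ p, g s y p ∂π ∂ν := hm.const_mul M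
  have hm2 : Measurable fun s => E * (M * ∫⁻ y, ∫⁻ p, g s y p ∂π ∂ν) := hm1.const_mul E
  have hm' : AEMeasurable (fun s => (E * (M * ∫⁻ y, ∫⁻ p, g s y p ∂π ∂ν)) ^ (1 / (2 : ℝ))) σ :=
    (hm2.pow_const _).aemeasurable
  refine (cs σ (f := fun _ => 1) aemeasurable_const hm').trans ?_
  simp only [ENNReal.one_rpow, lintegral_const, one_mul]
  gcongr
  simp only [rpow_half_two]
  rw [lintegral_const_mul _ hm1, lintegral_const_mul _ hm]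

/-- (CS2) the version with a space-time `L²` bound of `K` (the part `√ε |B|`). -/
theorem cs2 (σ : Measure S) (ν : Measure Y) (π : Measure P) [SFinite π] [SFinite ν]
    {g : S → Y → P → ℝ≥0∞} {K : S → Y → ℝ≥0∞} {E M : ℝ≥0∞}
    (hg : Measurable fun z : S × Y × P => g z.1 z.2.1 z.2.2)
    (hK : Measurable (Function.uncurry K))
    (hE : ∫⁻ s, ∫⁻ y, K s y ^ (2 : ℝ) ∂ν ∂σ ≤ E)
    (hM : ∀ s y, ∫⁻ p, g s y p ∂π ≤ M) :
    ∫⁻ s, ∫⁻ y, K s y * ∫⁻ p, g s y p ∂π ∂ν ∂σ ≤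
      E ^ (1 / (2 : ℝ)) * (M * ∫⁻ s, ∫⁻ y, ∫⁻ p, g s y p ∂π ∂ν ∂σ) ^ (1 / (2 : ℝ)) := by
  have hgy : Measurable fun z : S × Y => ∫⁻ p, g z.1 z.2 p ∂π := by
    have : Measurable fun w : (S × Y) × P => g w.1.1 w.1.2 w.2 :=
      hg.comp ((measurable_fst.comp measurable_fst).prodMk
        ((measurable_snd.comp measurable_fst).prodMk measurable_snd))
    exact this.lintegral_prod_right'
  have hm : Measurable fun s => ∫⁻ y, ∫⁻ p, g s y p ∂π ∂ν := hgy.lintegral_prod_right'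
  have hK2 : Measurable fun s => ∫⁻ y, K s y ^ (2 : ℝ) ∂ν :=
    (hK.pow_const (2 : ℝ)).lintegral_prod_right'
  have h1 : ∀ s, ∫⁻ y, K s y * ∫⁻ p, g s y p ∂π ∂ν ≤
      (∫⁻ y, K s y ^ (2 : ℝ) ∂ν) ^ (1 / (2 : ℝ)) *
        (M * ∫⁻ y, ∫⁻ p, g s y p ∂π ∂ν) ^ (1 / (2 : ℝ)) := fun s =>
    cone_cs ν π (hg.comp (measurable_const.prodMk measurable_id))
      (hK.comp (measurable_const.prodMk measurable_id)) (hM s)
  refine (lintegral_mono h1).trans ?_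
  have hm1 : Measurable fun s => M * ∫⁻ y, ∫⁻ p, g s y p ∂π ∂ν := hm.const_mul M
  refine (cs σ (hK2.pow_const _).aemeasurable (hm1.pow_const _).aemeasurable).trans ?_
  simp only [rpow_half_two]
  rw [lintegral_const_mul _ hm]
  gcongr

/-- (CS1) pointwise in `s`, squared: `h2(s)² ≤ E (M μ_s)`. -/
theorem cs1_pt (ν : Measure Y) (π : Measure P) [SFinite π]
    {g : Y → P → ℝ≥0∞} {K : Y → ℝ≥0∞} {E M : ℝ≥0∞}
    (hg : Measurable (Function.uncurry g)) (hK : Measurable K)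
    (hE : ∫⁻ y, K y ^ (2 : ℝ) ∂ν ≤ E)
    (hM : ∀ y, ∫⁻ p, g y p ∂π ≤ M) :
    (∫⁻ y, K y * ∫⁻ p, g y p ∂π ∂ν) ^ (2 : ℝ) ≤ E * (M * ∫⁻ y, ∫⁻ p, g y p ∂π ∂ν) := by
  refine (cone_cs_sq ν π hg hK hM).trans ?_
  gcongr







end Crest.Agent.R106.Cost
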