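import Crest.Agent.R106.AbsDefs
import Crest.Agent.R106.CostCS
import Crest.Agent.R106.NumDefs

-- ▼ part R106/AbsSum
section

/-!
# Row 106, node ABS (helper72): the dyadic partition and sums over shells.
-/

set_option autoImplicit false

open MeasureTheory Set
open scoped ENNReal

namespace Crest.Agent.R106.Abs

/-- shell indices `(r,i,j,m,n)`: `R ~ 2^r`, `dl ~ 2^i`, `ep ~ 2^j`, `D ~ 2^m`, `ga ~ 2^n`. -/
abbrev KI := ℤ × ℤ × ℤ × ℤ × ℤ

variable {Z : Type} [MeasurableSpace Z]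

/-- the dyadic exponent. -/
theorem dy_exists {x : ℝ} (hx : 0 < x) :
    (2 : ℝ) ^ (Int.log 2 x) ≤ x ∧ x < 2 * (2 : ℝ) ^ (Int.log 2 x) := by
  constructor
  · have := Int.zpow_log_le_self (b := 2) (r := x) (by norm_num) hx
    simpa using this
  · have := Int.lt_zpow_succ_log_self (R := ℝ) (b := 2) (by norm_num) x
    rw [zpow_add_one₀ (by norm_num)] at this
    simp only [Nat.cast_ofNat] at this
    linarith

theorem dy_unique {x : ℝ} {k : ℤ} (h1 : (2 : ℝ) ^ k ≤ x) (h2 : x < 2 * (2 : ℝ) ^ k) :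
    k = Int.log 2 x := by
  have hx : 0 < x := lt_of_lt_of_le (by positivity) h1
  obtain ⟨h3, h4⟩ := dy_exists hx
  have e1 : (2 : ℝ) ^ k < (2 : ℝ) ^ (Int.log 2 x + 1) := by
    rw [zpow_add_one₀ (by norm_num)]; linarith
  have e2 : (2 : ℝ) ^ (Int.log 2 x) < (2 : ℝ) ^ (k + 1) := by
    rw [zpow_add_one₀ (by norm_num)]; linarith
  have e1' := (zpow_lt_zpow_iff_right₀ (by norm_num : (1 : ℝ) < 2)).1 e1
  have e2' := (zpow_lt_zpow_iff_right₀ (by norm_num : (1 : ℝ) < 2)).1 e2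
  omega

namespace TD

/-- the dyadic shell of index `k`. -/
def shk (T : TD Z) (k : KI) (s : ℝ) : Set Z :=
  T.sh ((2 : ℝ) ^ k.1) ((2 : ℝ) ^ k.2.1) ((2 : ℝ) ^ k.2.2.1) ((2 : ℝ) ^ k.2.2.2.1)
    ((2 : ℝ) ^ k.2.2.2.2) s

theorem exists_shk (T : TD Z) {s : ℝ} {z : Z} (hR : 0 < T.R s z) (hdl : 0 < T.dl s z)
    (hep : 0 < T.ep s z) (hD : 0 < T.D s z) (hga : 0 < T.ga s z) :
    z ∈ T.shk (Int.log 2 (T.R s z), Int.log 2 (T.dl s z), Int.log 2 (T.ep s z),
      Int.log 2 (T.D s z), Int.log 2 (T.ga s z)) s :=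
  ⟨dy_exists hR, dy_exists hdl, dy_exists hep, dy_exists hD, dy_exists hga⟩

theorem shk_unique (T : TD Z) {s : ℝ} {z : Z} {k : KI} (h : z ∈ T.shk k s) :
    k = (Int.log 2 (T.R s z), Int.log 2 (T.dl s z), Int.log 2 (T.ep s z),
      Int.log 2 (T.D s z), Int.log 2 (T.ga s z)) := by
  obtain ⟨h1, h2, h3, h4, h5⟩ := h
  obtain ⟨k1, k2, k3, k4, k5⟩ := k
  simp only [Prod.mk.injEq]
  exact ⟨dy_unique h1.1 h1.2, dy_unique h2.1 h2.2, dy_unique h3.1 h3.2, dy_unique h4.1 h4.2,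
    dy_unique h5.1 h5.2⟩

theorem measurableSet_sh {T : TD Z} {Tm P Qt : ℝ} (hT : T.Geo Tm P Qt) (R1 d1 e1 D1 Q1 : ℝ) :
    MeasurableSet {x : ℝ × Z | x.2 ∈ T.sh R1 d1 e1 D1 Q1 x.1} := by
  have h1 : ∀ (f : ℝ → Z → ℝ) (c : ℝ), Measurable (Function.uncurry f) →
      MeasurableSet {x : ℝ × Z | c ≤ f x.1 x.2 ∧ f x.1 x.2 < 2 * c} := by
    intro f c hf
    have hf' : Measurable fun x : ℝ × Z => f x.1 x.2 := hf
    exact (measurableSet_le measurable_const hf').inter (measurableSet_lt hf' measurable_const)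
  exact (h1 _ R1 hT.mR).inter ((h1 _ d1 hT.mdl).inter ((h1 _ e1 hT.mep).inter
    ((h1 _ D1 hT.mD).inter (h1 _ Q1 hT.mga))))

theorem measurableSet_shk {T : TD Z} {Tm P Qt : ℝ} (hT : T.Geo Tm P Qt) (k : KI) :
    MeasurableSet {x : ℝ × Z | x.2 ∈ T.shk k x.1} := measurableSet_sh hT _ _ _ _ _

theorem measurableSet_shk_s {T : TD Z} {Tm P Qt : ℝ} (hT : T.Geo Tm P Qt) (k : KI) (s : ℝ) :
    MeasurableSet (T.shk k s) :=
  (measurable_const.prodMk measurable_id : Measurable fun z : Z => (s, z)) (measurableSet_shk hT k)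

theorem pos_of_geo {T : TD Z} {Tm P Qt : ℝ} (hT : T.Geo Tm P Qt) (hQt : 0 < Qt) {s : ℝ}
    (hs : s ∈ Icc T.a T.b) {z : Z} (hw : T.w s z ≠ 0) :
    0 < T.R s z ∧ 0 < T.dl s z ∧ 0 < T.ep s z ∧ 0 < T.D s z ∧ 0 < T.ga s z := by
  have hga : 0 < T.ga s z := by have := hT.ga0 s hs z hw; linarith
  refine ⟨hT.R0 s hs z hw, ?_, ?_, ?_, hga⟩
  · exact lt_of_lt_of_le (by positivity) (hT.dl0 s hs z hw)
  · exact lt_of_lt_of_le (by positivity) (hT.ep0 s hs z hw)
  · exact lt_of_lt_of_le (by positivity) (hT.D0 s hs z hw)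

/-- integral over one shell of one cone. -/
noncomputable def Is (T : TD Z) (G : ℝ → Z → ℝ≥0∞) (k : KI) (s : ℝ) : ℝ≥0∞ :=
  ∫⁻ z in T.shk k s, T.w s z * G s z ∂T.m

/-- integral over one shell. -/
noncomputable def I (T : TD Z) (G : ℝ → Z → ℝ≥0∞) (k : KI) : ℝ≥0∞ :=
  ∫⁻ s in Icc T.a T.b, T.Is G k s

theorem lintegral_eq_tsum_s {T : TD Z} {Tm P Qt : ℝ} (hT : T.Geo Tm P Qt) (hQt : 0 < Qt)
    {G : ℝ → Z → ℝ≥0∞} (hG : Measurable (Function.uncurry G)) {s : ℝ} (hs : s ∈ Icc T.a T.b) :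
    ∫⁻ z, T.w s z * G s z ∂T.m = ∑' k, T.Is G k s := by
  have hms : Measurable fun z => T.w s z * G s z := by
    have h1 : Measurable fun z : Z => T.w s z := hT.mw.comp (measurable_const.prodMk measurable_id)
    have h2 : Measurable fun z : Z => G s z := hG.comp (measurable_const.prodMk measurable_id)
    exact h1.mul h2
  have key : ∀ z, T.w s z * G s z =
      ∑' k, (T.shk k s).indicator (fun z => T.w s z * G s z) z := by
    intro z
    by_cases hw : T.w s z = 0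
    · have : ∀ k, (T.shk k s).indicator (fun z => T.w s z * G s z) z = 0 := by
        intro k
        simp [Set.indicator, hw]
      simp [this, hw]
    · obtain ⟨p1, p2, p3, p4, p5⟩ := pos_of_geo hT hQt hs hw
      rw [tsum_eq_single _ (fun k hk => ?_), Set.indicator_of_mem (T.exists_shk p1 p2 p3 p4 p5)]
      apply Set.indicator_of_notMem
      intro hz
      exact hk (T.shk_unique hz)
  calc ∫⁻ z, T.w s z * G s z ∂T.m
      = ∫⁻ z, ∑' k, (T.shk k s).indicator (fun z => T.w s z * G s z) z ∂T.m :=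
        lintegral_congr key
    _ = ∑' k, ∫⁻ z, (T.shk k s).indicator (fun z => T.w s z * G s z) z ∂T.m :=
        lintegral_tsum fun k => (hms.indicator (measurableSet_shk_s hT k s)).aemeasurable
    _ = ∑' k, T.Is G k s := by
        congr 1
        funext k
        rw [lintegral_indicator (measurableSet_shk_s hT k s)]
        rfl

theorem measurable_Is {T : TD Z} {Tm P Qt : ℝ} (hT : T.Geo Tm P Qt)
    {G : ℝ → Z → ℝ≥0∞} (hG : Measurable (Function.uncurry G)) (k : KI) :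
    Measurable (T.Is G k) := by
  have := hT.sf
  have h0 : Measurable fun x : ℝ × Z => T.w x.1 x.2 * G x.1 x.2 := hT.mw.mul hG
  have h1 : Measurable ({x : ℝ × Z | x.2 ∈ T.shk k x.1}.indicator
      fun x : ℝ × Z => T.w x.1 x.2 * G x.1 x.2) := h0.indicator (measurableSet_shk hT k)
  have h2 := h1.lintegral_prod_right' (ν := T.m)
  have e : T.Is G k = fun s => ∫⁻ z, {x : ℝ × Z | x.2 ∈ T.shk k x.1}.indicator
      (fun x : ℝ × Z => T.w x.1 x.2 * G x.1 x.2) (s, z) ∂T.m := by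
    funext s
    unfold Is
    rw [← lintegral_indicator (measurableSet_shk_s hT k s)]
    rfl
  rw [e]
  exact h2

theorem measurable_Itot {T : TD Z} {Tm P Qt : ℝ} (hT : T.Geo Tm P Qt)
    {G : ℝ → Z → ℝ≥0∞} (hG : Measurable (Function.uncurry G)) :
    Measurable fun s => ∫⁻ z, T.w s z * G s z ∂T.m := by
  have := hT.sf
  have h0 : Measurable fun x : ℝ × Z => T.w x.1 x.2 * G x.1 x.2 := hT.mw.mul hG
  exact h0.lintegral_prod_right'

theorem lintegral_eq_tsum {T : TD Z} {Tm P Qt : ℝ} (hT : T.Geo Tm P Qt) (hQt : 0 < Qt)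
    {G : ℝ → Z → ℝ≥0∞} (hG : Measurable (Function.uncurry G)) :
    ∫⁻ s in Icc T.a T.b, ∫⁻ z, T.w s z * G s z ∂T.m = ∑' k, T.I G k := by
  calc ∫⁻ s in Icc T.a T.b, ∫⁻ z, T.w s z * G s z ∂T.m
      = ∫⁻ s in Icc T.a T.b, ∑' k, T.Is G k s :=
        setLIntegral_congr_fun measurableSet_Icc fun s hs => lintegral_eq_tsum_s hT hQt hG hs
    _ = ∑' k, T.I G k := lintegral_tsum fun k => (measurable_Is hT hG k).aemeasurable

/-- a point of the shell `k` that is seen and lies in the region `reg`. -/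
def Act (T : TD Z) (reg : ℝ → Z → Prop) (k : KI) : Prop :=
  ∃ s ∈ Icc T.a T.b, ∃ z ∈ T.shk k s, T.w s z ≠ 0 ∧ reg s z

theorem Is_le {T : TD Z} {Tm P Qt : ℝ} (hT : T.Geo Tm P Qt) {G : ℝ → Z → ℝ≥0∞} {k : KI}
    {c : ℝ≥0∞} {s : ℝ} (h : ∀ z ∈ T.shk k s, T.w s z ≠ 0 → G s z ≤ c) :
    T.Is G k s ≤ c * T.kap s (T.shk k s) := by
  unfold Is kap
  have hm : Measurable fun z : Z => T.w s z := hT.mw.comp (measurable_const.prodMk measurable_id)
  rw [← lintegral_const_mul c hm]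
  refine setLIntegral_mono' (measurableSet_shk_s hT k s) fun z hz => ?_
  by_cases hw : T.w s z = 0
  · simp [hw]
  · rw [mul_comm]
    gcongr
    exact h z hz hw

theorem I_le {T : TD Z} {Tm P Qt : ℝ} (hT : T.Geo Tm P Qt) {G : ℝ → Z → ℝ≥0∞} {k : KI}
    {c : ℝ≥0∞} (h : ∀ s ∈ Icc T.a T.b, ∀ z ∈ T.shk k s, T.w s z ≠ 0 → G s z ≤ c) :
    T.I G k ≤ c * T.nu (T.shk k) := by
  have hmk : Measurable fun s => T.kap s (T.shk k s) := by
    have h0 := measurable_Is hT (G := fun _ _ => 1) measurable_const k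
    have e : (fun s => T.kap s (T.shk k s)) = T.Is (fun _ _ => 1) k := by
      funext s
      simp [Is, kap]
    rw [e]
    exact h0
  unfold I nu
  rw [← lintegral_const_mul c hmk]
  exact setLIntegral_mono' measurableSet_Icc fun s hs => Is_le hT (h s hs)

theorem Is_eq_zero {T : TD Z} {Tm P Qt : ℝ} (hT : T.Geo Tm P Qt) {G : ℝ → Z → ℝ≥0∞} {k : KI}
    {s : ℝ} (h : ∀ z ∈ T.shk k s, T.w s z ≠ 0 → G s z = 0) : T.Is G k s = 0 := by
  have := Is_le hT (G := G) (c := 0) (s := s) (k := k) fun z hz hw => (h z hz hw).le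
  simpa using this

theorem I_eq_zero {T : TD Z} {Tm P Qt : ℝ} (hT : T.Geo Tm P Qt) {G : ℝ → Z → ℝ≥0∞} {k : KI}
    (h : ∀ s ∈ Icc T.a T.b, ∀ z ∈ T.shk k s, T.w s z ≠ 0 → G s z = 0) : T.I G k = 0 := by
  have := I_le hT (G := G) (c := 0) (k := k) fun s hs z hz hw => (h s hs z hz hw).le
  simpa using this

end TD

/-- sums over all shells from sums over finite sets. -/
theorem tsum_le_of_finset {ι : Type*} {x : ι → ℝ} (hx : ∀ k, 0 ≤ x k) {A : ι → Prop}
    [DecidablePred A] {B : ℝ}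
    (h : ∀ K : Finset ι, (∀ k ∈ K, A k) → ∑ k ∈ K, x k ≤ B) :
    ∑' k, (if A k then ENNReal.ofReal (x k) else 0) ≤ ENNReal.ofReal B := by
  rw [ENNReal.tsum_eq_iSup_sum]
  refine iSup_le fun K => ?_
  rw [← Finset.sum_filter, ← ENNReal.ofReal_sum_of_nonneg fun k _ => hx k]
  apply ENNReal.ofReal_le_ofReal
  apply h
  intro k hk
  exact (Finset.mem_filter.1 hk).2

end Crest.Agent.R106.Abs
end

-- ▼ part R106/AbsKer
section

/-!
# Row 106, node ABS (helper72): kernels on a shell are bounded by their values at the corner.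
-/

set_option autoImplicit false

open MeasureTheory Set
open scoped ENNReal

namespace Crest.Agent.R106.Abs

variable {d d1 e e1 D D1 g Q1 R R1 : ℝ}

theorem sqrt_le_two_mul {x y : ℝ} (h : x ≤ 4 * y) : √x ≤ 2 * √y := by
  calc √x ≤ √(4 * y) := Real.sqrt_le_sqrt h
    _ = 2 * √y := by
      rw [Real.sqrt_mul (by norm_num), show (4 : ℝ) = 2 ^ 2 by norm_num,
        Real.sqrt_sq (by norm_num)]

theorem kT_corner (hd1 : 0 < d1) (he1 : 0 < e1) (hQ1 : 0 < Q1) (hR1 : 0 < R1)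
    (hd : d1 ≤ d ∧ d < 2 * d1) (he : e1 ≤ e ∧ e < 2 * e1) (hg : Q1 ≤ g ∧ g < 2 * Q1)
    (hR : R1 ≤ R ∧ R < 2 * R1) : kT d e g R ≤ 2 * kT d1 e1 Q1 R1 := by
  unfold kT
  have hs : √(d * e) ≤ 2 * √(d1 * e1) := by
    apply sqrt_le_two_mul
    nlinarith [hd.1, hd.2, he.1, he.2, mul_nonneg (sub_nonneg.2 hd.2.le) he1.le,
      mul_nonneg (sub_nonneg.2 he.2.le) (hd1.le.trans hd.1)]
  rw [← mul_div_assoc]
  have hb : Q1 ^ 2 * e1 ^ 2 * R1 ^ 2 ≤ g ^ 2 * e ^ 2 * R ^ 2 := by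
    have h1 : Q1 ^ 2 ≤ g ^ 2 := pow_le_pow_left₀ hQ1.le hg.1 2
    have h2 : e1 ^ 2 ≤ e ^ 2 := pow_le_pow_left₀ he1.le he.1 2
    have h3 : R1 ^ 2 ≤ R ^ 2 := pow_le_pow_left₀ hR1.le hR.1 2
    gcongr
  have hn : 0 ≤ e + √(d * e) := by
    have : 0 ≤ e := he1.le.trans he.1
    positivity
  apply div_le_div₀ _ _ (by positivity) hb
  · positivity
  · linarith [he.2]

theorem kS_corner (hd1 : 0 < d1) (he1 : 0 < e1) (hQ1 : 0 < Q1) (hR1 : 0 < R1)
    (hd : d1 ≤ d ∧ d < 2 * d1) (he : e1 ≤ e ∧ e < 2 * e1) (hg : Q1 ≤ g ∧ g < 2 * Q1)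
    (hR : R1 ≤ R ∧ R < 2 * R1) : kS d e g R ≤ 2 * kS d1 e1 Q1 R1 := by
  unfold kS
  have hs : √d ≤ 2 * √d1 := sqrt_le_two_mul (by linarith [hd.2])
  rw [← mul_div_assoc]
  have hb : Q1 * e1 * R1 ≤ g * e * R :=
    mul_le_mul (mul_le_mul hg.1 he.1 he1.le (hQ1.le.trans hg.1)) hR.1 hR1.le
      (mul_nonneg (hQ1.le.trans hg.1) (he1.le.trans he.1))
  exact div_le_div₀ (by positivity) hs (by positivity) hb

theorem kSe_corner (hd1 : 0 < d1) (he1 : 0 < e1) (hQ1 : 0 < Q1) (hR1 : 0 < R1)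
    (hd : d1 ≤ d ∧ d < 2 * d1) (he : e1 ≤ e ∧ e < 2 * e1) (hg : Q1 ≤ g ∧ g < 2 * Q1)
    (hR : R1 ≤ R ∧ R < 2 * R1) :
    kS d e g R * √e ≤ 4 * (kS d1 e1 Q1 R1 * √e1) := by
  have h1 := kS_corner hd1 he1 hQ1 hR1 hd he hg hR
  have hs : √e ≤ 2 * √e1 := sqrt_le_two_mul (by linarith [he.2])
  have h0 : 0 ≤ kS d1 e1 Q1 R1 := by unfold kS; positivity
  calc kS d e g R * √e ≤ (2 * kS d1 e1 Q1 R1) * (2 * √e1) := by
        apply mul_le_mul h1 hs (Real.sqrt_nonneg _) (by positivity)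
    _ = _ := by ring

theorem kG_corner (hd1 : 0 < d1) (he1 : 0 < e1) (hR1 : 0 < R1)
    (hd : d1 ≤ d ∧ d < 2 * d1) (he : e1 ≤ e ∧ e < 2 * e1)
    (hR : R1 ≤ R ∧ R < 2 * R1) : kG d e R ≤ 2 * kG d1 e1 R1 := by
  unfold kG
  have hs : √(e / d) ≤ 2 * √(e1 / d1) := by
    apply sqrt_le_two_mul
    have hq : e / d ≤ (4 * e1) / d1 := by
      apply div_le_div₀ (by positivity) (by linarith [he.2]) hd1 hd.1
    calc e / d ≤ (4 * e1) / d1 := hq
      _ = 4 * (e1 / d1) := by ring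
  rw [← mul_div_assoc]
  exact div_le_div₀ (by positivity) hs hR1 hR.1

theorem kGam_corner {Qt : ℝ} (hQt : 0 < Qt) (hd1 : 0 < d1) (he1 : 0 < e1) (hR1 : 0 < R1)
    (hd : d1 ≤ d ∧ d < 2 * d1) (he : e1 ≤ e ∧ e < 2 * e1)
    (hR : R1 ≤ R ∧ R < 2 * R1) : kGam Qt d e R ≤ 2 * kGam Qt d1 e1 R1 := by
  unfold kGam
  have hs : √(d * e) ≤ 2 * √(d1 * e1) := by
    apply sqrt_le_two_mul
    nlinarith [hd.1, hd.2, he.1, he.2, mul_nonneg (sub_nonneg.2 hd.2.le) he1.le,
      mul_nonneg (sub_nonneg.2 he.2.le) (hd1.le.trans hd.1)]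
  rw [← mul_div_assoc]
  have hb : Qt ^ 2 * d1 ^ 2 * R1 ^ 2 ≤ Qt ^ 2 * d ^ 2 * R ^ 2 := by
    have h2 : d1 ^ 2 ≤ d ^ 2 := pow_le_pow_left₀ hd1.le hd.1 2
    have h3 : R1 ^ 2 ≤ R ^ 2 := pow_le_pow_left₀ hR1.le hR.1 2
    gcongr
  apply div_le_div₀ _ _ (by positivity) hb
  · positivity
  · linarith [hd.2]

theorem kC_corner {Qt : ℝ} (hQt : 0 < Qt) (hd1 : 0 < d1) (he1 : 0 < e1) (hR1 : 0 < R1)
    (hd : d1 ≤ d ∧ d < 2 * d1) (he : e1 ≤ e ∧ e < 2 * e1)
    (hR : R1 ≤ R ∧ R < 2 * R1) : kC Qt d e R ≤ 2 * kC Qt d1 e1 R1 := by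
  unfold kC
  have hs : √e ≤ 2 * √e1 := sqrt_le_two_mul (by linarith [he.2])
  rw [← mul_div_assoc]
  have hb : Qt * d1 * R1 ≤ Qt * d * R :=
    mul_le_mul (mul_le_mul_of_nonneg_left hd.1 hQt.le) hR.1 hR1.le
      (mul_nonneg hQt.le (hd1.le.trans hd.1))
  exact div_le_div₀ (by positivity) hs (by positivity) hb

theorem kcut_corner (hd1 : 0 < d1) (he1 : 0 < e1) (hD1 : 0 < D1) (hR1 : 0 < R1)
    (hd : d1 ≤ d ∧ d < 2 * d1) (he : e1 ≤ e ∧ e < 2 * e1) (hD : D1 ≤ D ∧ D < 2 * D1)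
    (hR : R1 ≤ R ∧ R < 2 * R1) : kcut d e D R ≤ 2 * kcut d1 e1 D1 R1 := by
  unfold kcut
  have hm : 0 < min d1 e1 := lt_min hd1 he1
  have hs : √(D / min d e) ≤ 2 * √(D1 / min d1 e1) := by
    apply sqrt_le_two_mul
    have hq : D / min d e ≤ (4 * D1) / min d1 e1 := by
      apply div_le_div₀ (by positivity) (by linarith [hD.2]) hm
      exact min_le_min hd.1 he.1
    calc D / min d e ≤ (4 * D1) / min d1 e1 := hq
      _ = 4 * (D1 / min d1 e1) := by ring
  rw [← mul_div_assoc]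
  have hb : R1 ^ 2 ≤ R ^ 2 := pow_le_pow_left₀ hR1.le hR.1 2
  exact div_le_div₀ (by positivity) hs (by positivity) hb

end Crest.Agent.R106.Abs
end

-- ▼ part R106/AbsL2
section

/-!
# Row 106, node ABS (helper72): occupation numbers and `L²` facts of the shells.
-/

set_option autoImplicit false

open MeasureTheory Set
open scoped ENNReal

namespace Crest.Agent.R106.Abs

/-- Cauchy-Schwarz, natural powers. -/
theorem cs_nat {α : Type*} [MeasurableSpace α] (μ : Measure α) {f g : α → ℝ≥0∞}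
    (hf : AEMeasurable f μ) (hg : AEMeasurable g μ) :
    (∫⁻ a, f a * g a ∂μ) ^ 2 ≤ (∫⁻ a, f a ^ 2 ∂μ) * (∫⁻ a, g a ^ 2 ∂μ) := by
  have h := Cost.cs_sq μ hf hg
  have e : ∀ x : ℝ≥0∞, x ^ (2 : ℝ) = x ^ 2 := fun x => by
    rw [← ENNReal.rpow_natCast]; norm_num
  simpa only [e] using h

theorem le_ofReal_sqrt {x : ℝ≥0∞} {t : ℝ} (ht : 0 ≤ t) (h : x ^ 2 ≤ ENNReal.ofReal t) :
    x ≤ ENNReal.ofReal (√t) := by
  by_contra hc
  push Not at hc
  have h1 : ENNReal.ofReal (√t) ^ 2 < x ^ 2 := by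
    exact ENNReal.pow_lt_pow_left (by norm_num) hc
  rw [← ENNReal.ofReal_pow (Real.sqrt_nonneg t), Real.sq_sqrt ht] at h1
  exact absurd h (not_le.2 h1)

/-! corner values of the shell `k` -/
noncomputable def kR (k : KI) : ℝ := (2 : ℝ) ^ k.1
noncomputable def kd (k : KI) : ℝ := (2 : ℝ) ^ k.2.1
noncomputable def ke (k : KI) : ℝ := (2 : ℝ) ^ k.2.2.1
noncomputable def kD (k : KI) : ℝ := (2 : ℝ) ^ k.2.2.2.1
noncomputable def kQ (k : KI) : ℝ := (2 : ℝ) ^ k.2.2.2.2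

theorem kR_pos (k : KI) : 0 < kR k := by unfold kR; positivity
theorem kd_pos (k : KI) : 0 < kd k := by unfold kd; positivity
theorem ke_pos (k : KI) : 0 < ke k := by unfold ke; positivity
theorem kD_pos (k : KI) : 0 < kD k := by unfold kD; positivity
theorem kQ_pos (k : KI) : 0 < kQ k := by unfold kQ; positivity

variable {Z : Type} [MeasurableSpace Z]

namespace TD


/-- occupation number of the shell `k`. -/
noncomputable def mu (T : TD Z) (k : KI) : ℝ := (T.nu (T.shk k)).toReal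

/-- bound of the cone occupation number of the shell `k`. -/
noncomputable def mus (C : ℝ) (k : KI) : ℝ :=
  C * min (kR k ^ 3 * kd k * kQ k ^ 3 * min (ke k) (kD k)) (1 / (kQ k * ke k))

theorem mu_nonneg (T : TD Z) (k : KI) : 0 ≤ T.mu k := ENNReal.toReal_nonneg

theorem mus_nonneg {C : ℝ} (hC : 0 ≤ C) (k : KI) : 0 ≤ mus C k := by
  have := kR_pos k; have := kd_pos k; have := ke_pos k; have := kD_pos k; have := kQ_pos k
  unfold mus
  positivity

variable {T : TD Z} {C Tm P Qt : ℝ}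

theorem nu_ne_top (hT : T.Core C Tm P Qt) (k : KI) : T.nu (T.shk k) ≠ ∞ :=
  ne_top_of_le_ne_top ENNReal.ofReal_ne_top
    (hT.cc _ _ _ _ _ (kR_pos k) (kd_pos k) (ke_pos k) (kD_pos k) (kQ_pos k))

theorem nu_eq (hT : T.Core C Tm P Qt) (k : KI) : T.nu (T.shk k) = ENNReal.ofReal (T.mu k) :=
  (ENNReal.ofReal_toReal (nu_ne_top hT k)).symm

theorem kap_le (hC : 0 ≤ C) (hT : T.CoreAB C Tm P Qt) (k : KI) {s : ℝ} (hs : s ∈ Icc T.a T.b) :
    T.kap s (T.shk k s) ≤ ENNReal.ofReal (mus C k) := by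
  unfold mus
  rw [mul_min_of_nonneg _ _ hC]
  rcases min_choice (C * (kR k ^ 3 * kd k * kQ k ^ 3 * min (ke k) (kD k)))
    (C * (1 / (kQ k * ke k))) with h | h
  · rw [h]
    exact hT.ca _ _ _ _ _ (kR_pos k) (kd_pos k) (ke_pos k) (kD_pos k) (kQ_pos k) s hs
  · rw [h]
    exact hT.cb _ _ _ _ _ (kR_pos k) (kd_pos k) (ke_pos k) (kD_pos k) (kQ_pos k) s hs

theorem measurable_kap (hT : T.Geo Tm P Qt) (k : KI) : Measurable fun s => T.kap s (T.shk k s) := by
  have h0 := measurable_Is hT (G := fun _ _ => 1) measurable_const k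
  have e : (fun s => T.kap s (T.shk k s)) = T.Is (fun _ _ => 1) k := by
    funext s
    simp [Is, kap]
  rw [e]
  exact h0

/-- `μ ≤ l · μ_s`. -/
theorem mu_le_mul (hT : T.Core C Tm P Qt) (hab : T.a ≤ T.b) (k : KI)
    {x : ℝ} (hx0 : 0 ≤ x) (hx : ∀ s ∈ Icc T.a T.b, T.kap s (T.shk k s) ≤ ENNReal.ofReal x) :
    T.mu k ≤ (T.b - T.a) * x := by
  have h : T.nu (T.shk k) ≤ ENNReal.ofReal ((T.b - T.a) * x) := by
    calc T.nu (T.shk k) ≤ ∫⁻ s in Icc T.a T.b, ENNReal.ofReal x :=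
          setLIntegral_mono' measurableSet_Icc hx
      _ = ENNReal.ofReal ((T.b - T.a) * x) := by
          rw [lintegral_const, Measure.restrict_apply_univ, Real.volume_Icc,
            mul_comm, ← ENNReal.ofReal_mul (by linarith)]
  rw [nu_eq hT k] at h
  exact (ENNReal.ofReal_le_ofReal_iff (mul_nonneg (by linarith) hx0)).1 h

/-- the integral of `Kg` over one shell of one cone -/
noncomputable def HK (T : TD Z) (k : KI) (s : ℝ) : ℝ≥0∞ :=
  ∫⁻ z in T.shk k s, T.w s z * ENNReal.ofReal (T.Kg s z) ∂T.m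

theorem measurable_HK (hT : T.Geo Tm P Qt) (k : KI) : Measurable (T.HK k) := by
  have hm : Measurable (Function.uncurry fun s z => ENNReal.ofReal (T.Kg s z)) :=
    hT.mKg.ennreal_ofReal
  exact measurable_Is hT hm k

theorem int_HK_sq (hC : 0 ≤ C) (hT : T.Core C Tm P Qt) (k : KI) :
    ∫⁻ s in Icc T.a T.b, T.HK k s ^ 2 ≤
      ENNReal.ofReal (C * (kQ k ^ 3 * min (ke k) (kD k)) * T.mu k) := by
  have hke := ke_pos k; have hkD := kD_pos k; have hkQ := kQ_pos k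
  calc ∫⁻ s in Icc T.a T.b, T.HK k s ^ 2
      ≤ ∫⁻ s in Icc T.a T.b, ENNReal.ofReal (C * (kQ k ^ 3 * min (ke k) (kD k))) *
          T.kap s (T.shk k s) :=
        setLIntegral_mono' measurableSet_Icc fun s hs =>
          hT.cA _ _ _ _ _ (kR_pos k) (kd_pos k) (ke_pos k) (kD_pos k) (kQ_pos k) s hs
    _ = ENNReal.ofReal (C * (kQ k ^ 3 * min (ke k) (kD k))) * T.nu (T.shk k) := by
        rw [lintegral_const_mul _ (measurable_kap hT.toGeo k)]
        rfl
    _ = _ := by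
        rw [nu_eq hT k, ← ENNReal.ofReal_mul (by positivity)]

/-- (i) -/
theorem int_HK (hC : 0 ≤ C) (hT : T.Core C Tm P Qt) (hab : T.a ≤ T.b) (k : KI) {l : ℝ}
    (hl : T.b - T.a ≤ l) :
    ∫⁻ s in Icc T.a T.b, T.HK k s ≤
      ENNReal.ofReal (√(l * (C * (kQ k ^ 3 * min (ke k) (kD k)) * T.mu k))) := by
  have hke := ke_pos k; have hkD := kD_pos k; have hkQ := kQ_pos k
  have hmu := T.mu_nonneg k
  have hl0 : 0 ≤ l := by linarith
  apply le_ofReal_sqrt (by positivity)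
  have h := cs_nat (volume.restrict (Icc T.a T.b)) (f := fun _ => 1) (g := T.HK k)
    aemeasurable_const (measurable_HK hT.toGeo k).aemeasurable
  simp only [one_mul, one_pow, lintegral_const, Measure.restrict_apply_univ, Real.volume_Icc] at h
  refine h.trans ?_
  rw [ENNReal.ofReal_mul hl0]
  gcongr
  exact int_HK_sq hC hT k

theorem int_kap_sq (hC : 0 ≤ C) (hT : T.Core C Tm P Qt) (hab : T.a ≤ T.b) (k : KI) {l : ℝ}
    (hl : T.b - T.a ≤ l) :
    ∫⁻ s in Icc T.a T.b, T.kap s (T.shk k s) ^ 2 ≤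
      ENNReal.ofReal (mus C k * min (T.mu k) (l * mus C k)) := by
  have hms := mus_nonneg hC k
  have hmu := T.mu_nonneg k
  have hl0 : 0 ≤ l := by linarith
  rcases min_choice (T.mu k) (l * mus C k) with h | h
  · rw [h, ENNReal.ofReal_mul hms, ← nu_eq hT k]
    unfold nu
    rw [← lintegral_const_mul _ (measurable_kap hT.toGeo k)]
    refine setLIntegral_mono' measurableSet_Icc fun s hs => ?_
    rw [sq]
    gcongr
    exact kap_le hC hT.toCoreAB k hs
  · rw [h]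
    calc ∫⁻ s in Icc T.a T.b, T.kap s (T.shk k s) ^ 2
        ≤ ∫⁻ s in Icc T.a T.b, ENNReal.ofReal (mus C k ^ 2) := by
          refine setLIntegral_mono' measurableSet_Icc fun s hs => ?_
          rw [ENNReal.ofReal_pow hms]
          gcongr
          exact kap_le hC hT.toCoreAB k hs
      _ = ENNReal.ofReal (mus C k ^ 2) * ENNReal.ofReal (T.b - T.a) := by
          rw [lintegral_const, Measure.restrict_apply_univ, Real.volume_Icc]
      _ ≤ _ := by
          rw [← ENNReal.ofReal_mul (by positivity)]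
          apply ENNReal.ofReal_le_ofReal
          nlinarith [mul_le_mul_of_nonneg_left hl (sq_nonneg (mus C k))]

/-- (ii) -/
theorem int_HK_kap (hC : 0 ≤ C) (hT : T.Core C Tm P Qt) (hab : T.a ≤ T.b) (k k' : KI) {l : ℝ}
    (hl : T.b - T.a ≤ l) :
    ∫⁻ s in Icc T.a T.b, T.HK k s * T.kap s (T.shk k' s) ≤
      ENNReal.ofReal (√(C * (kQ k ^ 3 * min (ke k) (kD k)) * T.mu k) *
        √(mus C k' * min (T.mu k') (l * mus C k'))) := by
  have hke := ke_pos k; have hkD := kD_pos k; have hkQ := kQ_pos k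
  have hmu := T.mu_nonneg k
  have hmu' := T.mu_nonneg k'
  have hms := mus_nonneg hC k'
  have hl0 : 0 ≤ l := by linarith
  have h1 : 0 ≤ C * (kQ k ^ 3 * min (ke k) (kD k)) * T.mu k := by positivity
  rw [← Real.sqrt_mul h1]
  apply le_ofReal_sqrt (by positivity)
  have h := cs_nat (volume.restrict (Icc T.a T.b)) (f := T.HK k)
    (g := fun s => T.kap s (T.shk k' s)) (measurable_HK hT.toGeo k).aemeasurable
    (measurable_kap hT.toGeo k').aemeasurable
  refine h.trans ?_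
  rw [ENNReal.ofReal_mul h1]
  gcongr
  · exact int_HK_sq hC hT k
  · exact int_kap_sq hC hT hab k' hl

/-- (iii) -/
theorem int_BK (hC : 0 ≤ C) (hT : T.Core C Tm P Qt) (hab : T.a ≤ T.b) (k : KI) {l : ℝ}
    (hl : T.b - T.a ≤ l) :
    T.I (fun s z => ENNReal.ofReal (T.Bs s z)) k ≤
      ENNReal.ofReal (√(C * ((l + kR k) / kd k * (kQ k ^ 3 * min (ke k) (kD k))) * T.mu k)) := by
  have hke := ke_pos k; have hkD := kD_pos k; have hkQ := kQ_pos k
  have hkR := kR_pos k; have hkd := kd_pos k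
  have hmu := T.mu_nonneg k
  have hl0 : 0 ≤ l := by linarith
  apply le_ofReal_sqrt (by positivity)
  have h := hT.cB _ _ _ _ _ (kR_pos k) (kd_pos k) (ke_pos k) (kD_pos k) (kQ_pos k)
  have hn : T.nu (T.sh (kR k) (kd k) (ke k) (kD k) (kQ k)) = ENNReal.ofReal (T.mu k) :=
    nu_eq hT k
  rw [hn] at h
  refine le_trans h ?_
  rw [← ENNReal.ofReal_mul (by
    have : 0 ≤ T.b - T.a := by linarith
    positivity)]
  apply ENNReal.ofReal_le_ofReal
  gcongr

end TD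

end Crest.Agent.R106.Abs
end

-- ▼ part R106/AbsLine

/-!
# Row 106, node ABS (helper72): kernels as functions of `(s,z)`, the "lines" (sum over shells).
-/

set_option autoImplicit false

open MeasureTheory Set
open scoped ENNReal

namespace Crest.Agent.R106.Abs

open Crest.Agent.R106.Num (cT cA cB cG cCut cb cM cP cH sq2)

variable {Z : Type} [MeasurableSpace Z]

namespace TD

noncomputable def fT (T : TD Z) (s : ℝ) (z : Z) : ℝ≥0∞ :=
  ENNReal.ofReal (kT (T.dl s z) (T.ep s z) (T.ga s z) (T.R s z))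
noncomputable def fSK (T : TD Z) (s : ℝ) (z : Z) : ℝ≥0∞ :=
  ENNReal.ofReal (kS (T.dl s z) (T.ep s z) (T.ga s z) (T.R s z)) * ENNReal.ofReal (T.Kg s z)
noncomputable def fSB (T : TD Z) (s : ℝ) (z : Z) : ℝ≥0∞ :=
  ENNReal.ofReal (kS (T.dl s z) (T.ep s z) (T.ga s z) (T.R s z) * √(T.ep s z)) *
    ENNReal.ofReal (T.Bs s z)
noncomputable def fG (T : TD Z) (Qt : ℝ) (s : ℝ) (z : Z) : ℝ≥0∞ :=
  ENNReal.ofReal (kGam Qt (T.dl s z) (T.ep s z) (T.R s z))
noncomputable def fC (T : TD Z) (Qt : ℝ) (s : ℝ) (z : Z) : ℝ≥0∞ :=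
  ENNReal.ofReal (kC Qt (T.dl s z) (T.ep s z) (T.R s z))
noncomputable def fcut (T : TD Z) (s : ℝ) (z : Z) : ℝ≥0∞ :=
  ENNReal.ofReal (kcut (T.dl s z) (T.ep s z) (T.D s z) (T.R s z))
noncomputable def fb (T : TD Z) (s : ℝ) (z : Z) : ℝ≥0∞ :=
  ENNReal.ofReal (kG (T.dl s z) (T.ep s z) (T.R s z))

section meas

variable {T : TD Z} {Tm P Qt : ℝ}

theorem m_fT (hT : T.Geo Tm P Qt) : Measurable (Function.uncurry T.fT) := by
  have h1 : Measurable fun x : ℝ × Z => T.dl x.1 x.2 := hT.mdl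
  have h2 : Measurable fun x : ℝ × Z => T.ep x.1 x.2 := hT.mep
  have h3 : Measurable fun x : ℝ × Z => T.ga x.1 x.2 := hT.mga
  have h4 : Measurable fun x : ℝ × Z => T.R x.1 x.2 := hT.mR
  unfold fT kT Function.uncurry
  fun_prop

theorem m_fSK (hT : T.Geo Tm P Qt) : Measurable (Function.uncurry T.fSK) := by
  have h1 : Measurable fun x : ℝ × Z => T.dl x.1 x.2 := hT.mdl
  have h2 : Measurable fun x : ℝ × Z => T.ep x.1 x.2 := hT.mep
  have h3 : Measurable fun x : ℝ × Z => T.ga x.1 x.2 := hT.mga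
  have h4 : Measurable fun x : ℝ × Z => T.R x.1 x.2 := hT.mR
  have h5 : Measurable fun x : ℝ × Z => T.Kg x.1 x.2 := hT.mKg
  unfold fSK kS Function.uncurry
  fun_prop

theorem m_fSB (hT : T.Geo Tm P Qt) : Measurable (Function.uncurry T.fSB) := by
  have h1 : Measurable fun x : ℝ × Z => T.dl x.1 x.2 := hT.mdl
  have h2 : Measurable fun x : ℝ × Z => T.ep x.1 x.2 := hT.mep
  have h3 : Measurable fun x : ℝ × Z => T.ga x.1 x.2 := hT.mga
  have h4 : Measurable fun x : ℝ × Z => T.R x.1 x.2 := hT.mR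
  have h5 : Measurable fun x : ℝ × Z => T.Bs x.1 x.2 := hT.mBs
  unfold fSB kS Function.uncurry
  fun_prop

theorem m_fG (hT : T.Geo Tm P Qt) : Measurable (Function.uncurry (T.fG Qt)) := by
  have h1 : Measurable fun x : ℝ × Z => T.dl x.1 x.2 := hT.mdl
  have h2 : Measurable fun x : ℝ × Z => T.ep x.1 x.2 := hT.mep
  have h4 : Measurable fun x : ℝ × Z => T.R x.1 x.2 := hT.mR
  unfold fG kGam Function.uncurry
  fun_prop

theorem m_fC (hT : T.Geo Tm P Qt) : Measurable (Function.uncurry (T.fC Qt)) := by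
  have h1 : Measurable fun x : ℝ × Z => T.dl x.1 x.2 := hT.mdl
  have h2 : Measurable fun x : ℝ × Z => T.ep x.1 x.2 := hT.mep
  have h4 : Measurable fun x : ℝ × Z => T.R x.1 x.2 := hT.mR
  unfold fC kC Function.uncurry
  fun_prop

theorem m_fcut (hT : T.Geo Tm P Qt) : Measurable (Function.uncurry T.fcut) := by
  have h1 : Measurable fun x : ℝ × Z => T.dl x.1 x.2 := hT.mdl
  have h2 : Measurable fun x : ℝ × Z => T.ep x.1 x.2 := hT.mep
  have h3 : Measurable fun x : ℝ × Z => T.D x.1 x.2 := hT.mD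
  have h4 : Measurable fun x : ℝ × Z => T.R x.1 x.2 := hT.mR
  unfold fcut kcut Function.uncurry
  fun_prop

theorem m_fb (hT : T.Geo Tm P Qt) : Measurable (Function.uncurry T.fb) := by
  have h1 : Measurable fun x : ℝ × Z => T.dl x.1 x.2 := hT.mdl
  have h2 : Measurable fun x : ℝ × Z => T.ep x.1 x.2 := hT.mep
  have h4 : Measurable fun x : ℝ × Z => T.R x.1 x.2 := hT.mR
  unfold fb kG Function.uncurry
  fun_prop

theorem ms_inE (hT : T.Geo Tm P Qt) : MeasurableSet {x : ℝ × Z | T.inE P Qt x.1 x.2} := by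
  have h1 : Measurable fun x : ℝ × Z => T.dl x.1 x.2 := hT.mdl
  have h2 : Measurable fun x : ℝ × Z => T.ep x.1 x.2 := hT.mep
  have h3 : Measurable fun x : ℝ × Z => T.ga x.1 x.2 := hT.mga
  exact (measurableSet_le h3 measurable_const).union
    (measurableSet_le ((h1.pow_const 2).const_mul _) (h2.const_mul _))

theorem ms_inC (hT : T.Geo Tm P Qt) : MeasurableSet {x : ℝ × Z | T.inC P Qt x.1 x.2} := by
  have h1 : Measurable fun x : ℝ × Z => T.dl x.1 x.2 := hT.mdl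
  have h2 : Measurable fun x : ℝ × Z => T.ep x.1 x.2 := hT.mep
  have h3 : Measurable fun x : ℝ × Z => T.ga x.1 x.2 := hT.mga
  exact (measurableSet_le measurable_const h3).inter
    (measurableSet_le h2 (((h1.pow_const 2).const_mul _).const_mul _))

theorem ms_inB (hT : T.Geo Tm P Qt) : MeasurableSet {x : ℝ × Z | T.inB P Qt x.1 x.2} := by
  have h1 : Measurable fun x : ℝ × Z => T.dl x.1 x.2 := hT.mdl
  have h2 : Measurable fun x : ℝ × Z => T.ep x.1 x.2 := hT.mep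
  have h3 : Measurable fun x : ℝ × Z => T.ga x.1 x.2 := hT.mga
  exact (measurableSet_le measurable_const h3).inter
    ((measurableSet_le h2 (((h1.pow_const 2).const_mul _).const_mul _)).inter
      (measurableSet_le ((h1.pow_const 2).const_mul _) (h2.const_mul _)))

end meas

open Classical in
/-- `g` restricted to a region. -/
noncomputable def ind (reg : ℝ → Z → Prop) (g : ℝ → Z → ℝ≥0∞) (s : ℝ) (z : Z) : ℝ≥0∞ :=
  if reg s z then g s z else 0

theorem m_ind {reg : ℝ → Z → Prop} {g : ℝ → Z → ℝ≥0∞}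
    (hreg : MeasurableSet {x : ℝ × Z | reg x.1 x.2}) (hg : Measurable (Function.uncurry g)) :
    Measurable (Function.uncurry (ind reg g)) := by
  classical
  exact Measurable.ite hreg hg measurable_const

omit [MeasurableSpace Z] in
theorem ind_le (reg : ℝ → Z → Prop) (g : ℝ → Z → ℝ≥0∞) (s : ℝ) (z : Z) :
    ind reg g s z ≤ g s z := by
  unfold ind
  split_ifs
  · exact le_rfl
  · exact zero_le

theorem Is_mono (T : TD Z) {g g' : ℝ → Z → ℝ≥0∞} (h : ∀ s z, g s z ≤ g' s z) (k : KI) (s : ℝ) :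
    T.Is g k s ≤ T.Is g' k s := by
  unfold Is
  refine lintegral_mono fun z => ?_
  gcongr
  exact h s z

theorem I_mono (T : TD Z) {g g' : ℝ → Z → ℝ≥0∞} (h : ∀ s z, g s z ≤ g' s z) (k : KI) :
    T.I g k ≤ T.I g' k := lintegral_mono fun s => T.Is_mono h k s

open Classical in
/-- integral over a region `≤` sum over the shells that meet it. -/
theorem line {T : TD Z} {Tm P Qt : ℝ} (hT : T.Geo Tm P Qt) (hQt : 0 < Qt)
    {reg : ℝ → Z → Prop} (hreg : MeasurableSet {x : ℝ × Z | reg x.1 x.2})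
    {g : ℝ → Z → ℝ≥0∞} (hg : Measurable (Function.uncurry g))
    {x : KI → ℝ} (hx0 : ∀ k, 0 ≤ x k) (hx : ∀ k, T.I g k ≤ ENNReal.ofReal (x k)) {B : ℝ}
    (hB : ∀ K : Finset KI, (∀ k ∈ K, T.Act reg k) → ∑ k ∈ K, x k ≤ B) :
    ∫⁻ s in Icc T.a T.b, ∫⁻ z, T.w s z * ind reg g s z ∂T.m ≤ ENNReal.ofReal B := by
  rw [lintegral_eq_tsum hT hQt (m_ind hreg hg)]
  refine le_trans (ENNReal.tsum_le_tsum fun k => ?_) (tsum_le_of_finset hx0 hB)
  split_ifs with h
  · exact (T.I_mono (ind_le reg g) k).trans (hx k)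
  · refine (I_eq_zero hT fun s hs z hz hw => ?_).le
    unfold ind
    rw [if_neg]
    intro hr
    exact h ⟨s, hs, z, hz, hw, hr⟩

open Classical in
/-- the same on one cone. -/
theorem line_s {T : TD Z} {Tm P Qt : ℝ} (hT : T.Geo Tm P Qt) (hQt : 0 < Qt)
    {reg : ℝ → Z → Prop} (hreg : MeasurableSet {x : ℝ × Z | reg x.1 x.2})
    {g : ℝ → Z → ℝ≥0∞} (hg : Measurable (Function.uncurry g)) {s : ℝ} (hs : s ∈ Icc T.a T.b)
    {x : KI → ℝ} (hx0 : ∀ k, 0 ≤ x k) (hx : ∀ k, T.Is g k s ≤ ENNReal.ofReal (x k)) {B : ℝ}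
    (hB : ∀ K : Finset KI, (∀ k ∈ K, T.Act reg k) → ∑ k ∈ K, x k ≤ B) :
    ∫⁻ z, T.w s z * ind reg g s z ∂T.m ≤ ENNReal.ofReal B := by
  rw [lintegral_eq_tsum_s hT hQt (m_ind hreg hg) hs]
  refine le_trans (ENNReal.tsum_le_tsum fun k => ?_) (tsum_le_of_finset hx0 hB)
  split_ifs with h
  · exact (T.Is_mono (ind_le reg g) k s).trans (hx k)
  · refine (Is_eq_zero hT fun z hz hw => ?_).le
    unfold ind
    rw [if_neg]
    intro hr
    exact h ⟨s, hs, z, hz, hw, hr⟩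

/-! ### the costs of one shell -/

section cost

variable {T : TD Z} {C Tm P Qt l : ℝ}

theorem mem_shk {k : KI} {s : ℝ} {z : Z} (h : z ∈ T.shk k s) :
    (kR k ≤ T.R s z ∧ T.R s z < 2 * kR k) ∧ (kd k ≤ T.dl s z ∧ T.dl s z < 2 * kd k) ∧
    (ke k ≤ T.ep s z ∧ T.ep s z < 2 * ke k) ∧ (kD k ≤ T.D s z ∧ T.D s z < 2 * kD k) ∧
    (kQ k ≤ T.ga s z ∧ T.ga s z < 2 * kQ k) := h

theorem I_fT (hT : T.Core C Tm P Qt) (k : KI) :
    T.I T.fT k ≤ ENNReal.ofReal (2 * cT (kR k) (kd k) (ke k) (kQ k) (T.mu k)) := by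
  have h := I_le hT.toGeo (G := T.fT) (k := k)
    (c := ENNReal.ofReal (2 * kT (kd k) (ke k) (kQ k) (kR k))) (fun s _ z hz _ => by
      obtain ⟨h1, h2, h3, h4, h5⟩ := mem_shk hz
      exact ENNReal.ofReal_le_ofReal
        (kT_corner (kd_pos k) (ke_pos k) (kQ_pos k) (kR_pos k) h2 h3 h5 h1))
  refine h.trans (le_of_eq ?_)
  have := kR_pos k; have := kd_pos k; have := ke_pos k; have := kQ_pos k
  rw [nu_eq hT k, ← ENNReal.ofReal_mul (by unfold kT; positivity)]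
  congr 1
  unfold kT cT
  ring

theorem I_fG (hT : T.Core C Tm P Qt) (hQt : 0 < Qt) (k : KI) :
    T.I (T.fG Qt) k ≤ ENNReal.ofReal (2 * cG Qt (kR k) (kd k) (ke k) (T.mu k)) := by
  have h := I_le hT.toGeo (G := T.fG Qt) (k := k)
    (c := ENNReal.ofReal (2 * kGam Qt (kd k) (ke k) (kR k))) (fun s _ z hz _ => by
      obtain ⟨h1, h2, h3, h4, h5⟩ := mem_shk hz
      exact ENNReal.ofReal_le_ofReal
        (kGam_corner hQt (kd_pos k) (ke_pos k) (kR_pos k) h2 h3 h1))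
  refine h.trans (le_of_eq ?_)
  have := kR_pos k; have := kd_pos k; have := ke_pos k; have := kQ_pos k
  rw [nu_eq hT k, ← ENNReal.ofReal_mul (by unfold kGam; positivity)]
  congr 1
  unfold kGam cG
  ring

theorem I_fcut (hT : T.Core C Tm P Qt) (k : KI) :
    T.I T.fcut k ≤ ENNReal.ofReal (2 * cCut (kR k) (kd k) (ke k) (kD k) (T.mu k)) := by
  have h := I_le hT.toGeo (G := T.fcut) (k := k)
    (c := ENNReal.ofReal (2 * kcut (kd k) (ke k) (kD k) (kR k))) (fun s _ z hz _ => by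
      obtain ⟨h1, h2, h3, h4, h5⟩ := mem_shk hz
      exact ENNReal.ofReal_le_ofReal
        (kcut_corner (kd_pos k) (ke_pos k) (kD_pos k) (kR_pos k) h2 h3 h4 h1))
  refine h.trans (le_of_eq ?_)
  have := kR_pos k; have := kd_pos k; have := ke_pos k; have := kD_pos k
  rw [nu_eq hT k, ← ENNReal.ofReal_mul (by unfold kcut; positivity)]
  congr 1
  unfold kcut cCut
  ring

theorem kS_eq_sqrt {d e Q R : ℝ} (he : 0 < e) (hQ : 0 < Q) (hR : 0 < R) :
    kS d e Q R = √(d / (Q ^ 2 * e ^ 2 * R ^ 2)) := by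
  unfold kS
  rw [show Q ^ 2 * e ^ 2 * R ^ 2 = (Q * e * R) ^ 2 by ring,
    Real.sqrt_div' _ (by positivity), Real.sqrt_sq (by positivity)]

theorem kSe_eq_sqrt {d e Q R : ℝ} (hd : 0 < d) (he : 0 < e) (hQ : 0 < Q) (hR : 0 < R) :
    kS d e Q R * √e = √(d / (Q ^ 2 * e * R ^ 2)) := by
  rw [kS_eq_sqrt he hQ hR, ← Real.sqrt_mul (by positivity)]
  congr 1
  field_simp

theorem I_mul_le (hT : T.Geo Tm P Qt) {g f : ℝ → Z → ℝ≥0∞} {k : KI} {c : ℝ≥0∞}
    (hf : Measurable (Function.uncurry f))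
    (h : ∀ s ∈ Icc T.a T.b, ∀ z ∈ T.shk k s, T.w s z ≠ 0 → g s z ≤ c * f s z) :
    T.I g k ≤ c * T.I f k := by
  have hmf := measurable_Is hT hf k
  unfold I
  rw [← lintegral_const_mul c hmf]
  refine setLIntegral_mono' measurableSet_Icc fun s hs => ?_
  unfold Is
  have hm : Measurable fun z : Z => T.w s z * f s z :=
    (hT.mw.comp (measurable_const.prodMk measurable_id)).mul
      (hf.comp (measurable_const.prodMk measurable_id))
  rw [← lintegral_const_mul c hm]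
  refine setLIntegral_mono' (measurableSet_shk_s hT k s) fun z hz => ?_
  by_cases hw : T.w s z = 0
  · simp [hw]
  · calc T.w s z * g s z ≤ T.w s z * (c * f s z) := by
          gcongr
          exact h s hs z hz hw
      _ = c * (T.w s z * f s z) := by ring

theorem Is_mul_le (hT : T.Geo Tm P Qt) {g f : ℝ → Z → ℝ≥0∞} {k : KI} {c : ℝ≥0∞} {s : ℝ}
    (hf : Measurable (Function.uncurry f))
    (h : ∀ z ∈ T.shk k s, T.w s z ≠ 0 → g s z ≤ c * f s z) :
    T.Is g k s ≤ c * T.Is f k s := by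
  unfold Is
  have hm : Measurable fun z : Z => T.w s z * f s z :=
    (hT.mw.comp (measurable_const.prodMk measurable_id)).mul
      (hf.comp (measurable_const.prodMk measurable_id))
  rw [← lintegral_const_mul c hm]
  refine setLIntegral_mono' (measurableSet_shk_s hT k s) fun z hz => ?_
  by_cases hw : T.w s z = 0
  · simp [hw]
  · calc T.w s z * g s z ≤ T.w s z * (c * f s z) := by
          gcongr
          exact h z hz hw
      _ = c * (T.w s z * f s z) := by ring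

theorem m_Kg (hT : T.Geo Tm P Qt) :
    Measurable (Function.uncurry fun s z => ENNReal.ofReal (T.Kg s z)) := hT.mKg.ennreal_ofReal

theorem m_Bs (hT : T.Geo Tm P Qt) :
    Measurable (Function.uncurry fun s z => ENNReal.ofReal (T.Bs s z)) := hT.mBs.ennreal_ofReal

theorem Is_fSK_le (hT : T.Core C Tm P Qt) (k : KI) (s : ℝ) :
    T.Is T.fSK k s ≤
      ENNReal.ofReal (2 * kS (kd k) (ke k) (kQ k) (kR k)) * T.HK k s := by
  refine Is_mul_le (f := fun s z => ENNReal.ofReal (T.Kg s z)) hT.toGeo (m_Kg hT.toGeo)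
    (fun z hz _ => ?_)
  obtain ⟨h1, h2, h3, h4, h5⟩ := mem_shk hz
  unfold fSK
  gcongr
  exact kS_corner (kd_pos k) (ke_pos k) (kQ_pos k) (kR_pos k) h2 h3 h5 h1

theorem I_fSK (hC : 0 ≤ C) (hT : T.Core C Tm P Qt) (hab : T.a ≤ T.b) (hl : T.b - T.a ≤ l) (k : KI) :
    T.I T.fSK k ≤
      ENNReal.ofReal (2 * √C * cA l (kR k) (kd k) (ke k) (kD k) (kQ k) (T.mu k)) := by
  have hR := kR_pos k; have hd := kd_pos k; have he := ke_pos k; have hQ := kQ_pos k
  have hD := kD_pos k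
  have hmu := T.mu_nonneg k
  have hl0 : 0 ≤ l := by linarith
  have h1 : T.I T.fSK k ≤ ENNReal.ofReal (2 * kS (kd k) (ke k) (kQ k) (kR k)) *
      ∫⁻ s in Icc T.a T.b, T.HK k s := by
    rw [← lintegral_const_mul _ (measurable_HK hT.toGeo k)]
    exact lintegral_mono fun s => Is_fSK_le hT k s
  have h2 := int_HK hC hT hab k hl
  refine h1.trans ((mul_le_mul_right h2 _).trans (le_of_eq ?_))
  rw [← ENNReal.ofReal_mul (by unfold kS; positivity)]
  congr 1
  have e1 : kS (kd k) (ke k) (kQ k) (kR k) *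
      √(l * (C * (kQ k ^ 3 * min (ke k) (kD k)) * T.mu k)) =
      √C * cA l (kR k) (kd k) (ke k) (kD k) (kQ k) (T.mu k) := by
    unfold cA sq2
    rw [kS_eq_sqrt he hQ hR, ← Real.sqrt_mul (by positivity), ← Real.sqrt_mul hC]
    congr 1
    ring
  rw [mul_assoc, e1, mul_assoc]

theorem I_fSB (hC : 0 ≤ C) (hT : T.Core C Tm P Qt) (hab : T.a ≤ T.b) (hl : T.b - T.a ≤ l) (k : KI) :
    T.I T.fSB k ≤
      ENNReal.ofReal (4 * √C * cB l (kR k) (kd k) (ke k) (kD k) (kQ k) (T.mu k)) := by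
  have hR := kR_pos k; have hd := kd_pos k; have he := ke_pos k; have hQ := kQ_pos k
  have hD := kD_pos k
  have hmu := T.mu_nonneg k
  have hl0 : 0 ≤ l := by linarith
  have h1 : T.I T.fSB k ≤ ENNReal.ofReal (4 * (kS (kd k) (ke k) (kQ k) (kR k) * √(ke k))) *
      T.I (fun s z => ENNReal.ofReal (T.Bs s z)) k := by
    refine I_mul_le hT.toGeo (m_Bs hT.toGeo) (fun s _ z hz _ => ?_)
    obtain ⟨h1, h2, h3, h4, h5⟩ := mem_shk hz
    unfold fSB
    exact mul_le_mul_left (ENNReal.ofReal_le_ofReal (kSe_corner hd he hQ hR h2 h3 h5 h1)) _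
  have h2 := int_BK hC hT hab k hl
  refine h1.trans ((mul_le_mul_right h2 _).trans (le_of_eq ?_))
  rw [← ENNReal.ofReal_mul (by unfold kS; positivity)]
  congr 1
  have e1 : kS (kd k) (ke k) (kQ k) (kR k) * √(ke k) *
      √(C * ((l + kR k) / kd k * (kQ k ^ 3 * min (ke k) (kD k))) * T.mu k) =
      √C * cB l (kR k) (kd k) (ke k) (kD k) (kQ k) (T.mu k) := by
    unfold cB
    rw [kSe_eq_sqrt hd he hQ hR, ← Real.sqrt_mul (by positivity), ← Real.sqrt_mul hC]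
    congr 1
    ring
  rw [mul_assoc, e1, mul_assoc]

theorem Is_fC_le (hT : T.Geo Tm P Qt) (hQt : 0 < Qt) (k : KI) (s : ℝ) :
    T.Is (T.fC Qt) k s ≤
      ENNReal.ofReal (2 * kC Qt (kd k) (ke k) (kR k)) * T.kap s (T.shk k s) := by
  refine Is_le hT fun z hz _ => ?_
  obtain ⟨h1, h2, h3, h4, h5⟩ := mem_shk hz
  exact ENNReal.ofReal_le_ofReal (kC_corner hQt (kd_pos k) (ke_pos k) (kR_pos k) h2 h3 h1)

theorem Is_fC (hC : 0 ≤ C) (hT : T.CoreAB C Tm P Qt) (hQt : 0 < Qt) (k : KI) {s : ℝ}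
    (hs : s ∈ Icc T.a T.b) :
    T.Is (T.fC Qt) k s ≤ ENNReal.ofReal (2 / Qt * cM (kR k) (kd k) (ke k) (mus C k)) := by
  have hR := kR_pos k; have hd := kd_pos k; have he := ke_pos k
  refine (Is_fC_le hT.toGeo hQt k s).trans
    ((mul_le_mul_right (kap_le hC hT k hs) _).trans (le_of_eq ?_))
  rw [← ENNReal.ofReal_mul (by unfold kC; positivity)]
  congr 1
  unfold kC cM
  field_simp

theorem Is_fb (hC : 0 ≤ C) (hT : T.CoreAB C Tm P Qt) (k : KI) {s : ℝ}
    (hs : s ∈ Icc T.a T.b) :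
    T.Is T.fb k s ≤ ENNReal.ofReal (2 * cb (kR k) (kd k) (ke k) (mus C k)) := by
  have hR := kR_pos k; have hd := kd_pos k; have he := ke_pos k
  have h := Is_le hT.toGeo (G := T.fb) (k := k) (s := s)
    (c := ENNReal.ofReal (2 * kG (kd k) (ke k) (kR k))) (fun z hz _ => by
      obtain ⟨h1, h2, h3, h4, h5⟩ := mem_shk hz
      exact ENNReal.ofReal_le_ofReal (kG_corner hd he hR h2 h3 h1))
  refine h.trans ((mul_le_mul_right (kap_le hC hT k hs) _).trans (le_of_eq ?_))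
  rw [← ENNReal.ofReal_mul (by unfold kG; positivity)]
  congr 1
  unfold kG cb
  ring

/-- the product term of the conjugate part. -/
theorem I_prod (hC : 0 ≤ C) (hT : T.Core C Tm P Qt) (hQt : 0 < Qt) (hab : T.a ≤ T.b)
    (hl : T.b - T.a ≤ l) (k k' : KI) :
    ∫⁻ s in Icc T.a T.b, T.Is T.fSK k s * T.Is (T.fC Qt) k' s ≤
      ENNReal.ofReal (2 * √C * cH (kR k) (kd k) (ke k) (kD k) (kQ k) (T.mu k)) *
      ENNReal.ofReal (2 / Qt * √(cM (kR k') (kd k') (ke k') (mus C k') *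
        min (cP (kR k') (kd k') (ke k') (T.mu k'))
          (l * cM (kR k') (kd k') (ke k') (mus C k')))) := by
  have hR := kR_pos k; have hd := kd_pos k; have he := ke_pos k; have hQ := kQ_pos k
  have hD := kD_pos k
  have hR' := kR_pos k'; have hd' := kd_pos k'; have he' := ke_pos k'
  have hmu := T.mu_nonneg k
  have hmu' := T.mu_nonneg k'
  have hms' := mus_nonneg hC k'
  have hl0 : 0 ≤ l := by linarith
  have hmp : Measurable fun s => T.HK k s * T.kap s (T.shk k' s) :=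
    (measurable_HK hT.toGeo k).mul (measurable_kap hT.toGeo k')
  have h1 : ∫⁻ s in Icc T.a T.b, T.Is T.fSK k s * T.Is (T.fC Qt) k' s ≤
      (ENNReal.ofReal (2 * kS (kd k) (ke k) (kQ k) (kR k)) *
        ENNReal.ofReal (2 * kC Qt (kd k') (ke k') (kR k'))) *
      ∫⁻ s in Icc T.a T.b, T.HK k s * T.kap s (T.shk k' s) := by
    rw [← lintegral_const_mul _ hmp]
    refine lintegral_mono fun s => ?_
    calc T.Is T.fSK k s * T.Is (T.fC Qt) k' s
        ≤ (ENNReal.ofReal (2 * kS (kd k) (ke k) (kQ k) (kR k)) * T.HK k s) *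
          (ENNReal.ofReal (2 * kC Qt (kd k') (ke k') (kR k')) * T.kap s (T.shk k' s)) :=
          mul_le_mul' (Is_fSK_le hT k s) (Is_fC_le hT.toGeo hQt k' s)
      _ = _ := by ring
  have h2 := int_HK_kap hC hT hab k k' hl
  refine h1.trans ((mul_le_mul_right h2 _).trans (le_of_eq ?_))
  have p1 : 0 ≤ 2 * kS (kd k) (ke k) (kQ k) (kR k) := by unfold kS; positivity
  have p2 : 0 ≤ 2 * kC Qt (kd k') (ke k') (kR k') := by unfold kC; positivity
  have p3 : 0 ≤ 2 * √C * cH (kR k) (kd k) (ke k) (kD k) (kQ k) (T.mu k) := by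
    unfold cH; positivity
  rw [← ENNReal.ofReal_mul p1, ← ENNReal.ofReal_mul (mul_nonneg p1 p2), ← ENNReal.ofReal_mul p3]
  congr 1
  have e1 : kS (kd k) (ke k) (kQ k) (kR k) *
      √(C * (kQ k ^ 3 * min (ke k) (kD k)) * T.mu k) =
      √C * cH (kR k) (kd k) (ke k) (kD k) (kQ k) (T.mu k) := by
    unfold cH sq2
    rw [kS_eq_sqrt he hQ hR, ← Real.sqrt_mul (by positivity), ← Real.sqrt_mul hC]
    congr 1
    ring
  have e2 : kC Qt (kd k') (ke k') (kR k') *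
      √(mus C k' * min (T.mu k') (l * mus C k')) =
      1 / Qt * √(cM (kR k') (kd k') (ke k') (mus C k') *
        min (cP (kR k') (kd k') (ke k') (T.mu k'))
          (l * cM (kR k') (kd k') (ke k') (mus C k'))) := by
    have hq : 0 ≤ √(ke k') / (kd k' * kR k') := by positivity
    have e3 : min (cP (kR k') (kd k') (ke k') (T.mu k'))
          (l * cM (kR k') (kd k') (ke k') (mus C k')) =
        √(ke k') / (kd k' * kR k') * min (T.mu k') (l * mus C k') := by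
      unfold cP cM
      rw [mul_min_of_nonneg _ _ hq]
      congr 1
      ring
    rw [e3]
    unfold cM
    rw [show √(ke k') / (kd k' * kR k') * mus C k' *
        (√(ke k') / (kd k' * kR k') * min (T.mu k') (l * mus C k')) =
        (√(ke k') / (kd k' * kR k')) ^ 2 * (mus C k' * min (T.mu k') (l * mus C k')) by ring,
      Real.sqrt_mul (sq_nonneg _), Real.sqrt_sq hq]
    unfold kC
    field_simp
  calc 2 * kS (kd k) (ke k) (kQ k) (kR k) * (2 * kC Qt (kd k') (ke k') (kR k')) *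
        (√(C * (kQ k ^ 3 * min (ke k) (kD k)) * T.mu k) *
          √(mus C k' * min (T.mu k') (l * mus C k')))
      = 4 * (kS (kd k) (ke k) (kQ k) (kR k) *
          √(C * (kQ k ^ 3 * min (ke k) (kD k)) * T.mu k)) *
          (kC Qt (kd k') (ke k') (kR k') * √(mus C k' * min (T.mu k') (l * mus C k'))) := by ring
    _ = _ := by rw [e1, e2]; ring

end cost

end TD

end Crest.Agent.R106.Abs
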