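import Crest.Agent.R106.AbsLine
import Mathlib
import Crest.Agent.R106.NumDefs

-- ▼ part R106/AbsH
section

/-!
# Row 106, node ABS (helper72): `∫_J h` from the nine finite-sum inequalities.
-/

set_option autoImplicit false

open MeasureTheory Set
open scoped ENNReal

namespace Crest.Agent.R106.Abs

open Crest.Agent.R106.Num (cT cA cB cG cCut cb cM cP cH sq2)

variable {Z : Type} [MeasurableSpace Z]

/-- what the numbers level delivers for one test. -/
structure Nine (T : TD Z) (C l P Qt bE bC bX bM bHL : ℝ) : Prop where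
  TE : ∀ K : Finset KI, (∀ k ∈ K, T.Act (T.inE P Qt) k) →
    ∑ k ∈ K, cT (kR k) (kd k) (ke k) (kQ k) (T.mu k) ≤ bE
  AE : ∀ K : Finset KI, (∀ k ∈ K, T.Act (T.inE P Qt) k) →
    ∑ k ∈ K, cA l (kR k) (kd k) (ke k) (kD k) (kQ k) (T.mu k) ≤ bE
  BE : ∀ K : Finset KI, (∀ k ∈ K, T.Act (T.inE P Qt) k) →
    ∑ k ∈ K, cB l (kR k) (kd k) (ke k) (kD k) (kQ k) (T.mu k) ≤ bE
  GC : ∀ K : Finset KI, (∀ k ∈ K, T.Act (T.inC P Qt) k) →
    ∑ k ∈ K, cG Qt (kR k) (kd k) (ke k) (T.mu k) ≤ bE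
  CB : ∀ K : Finset KI, (∀ k ∈ K, T.Act (T.inB P Qt) k) →
    ∑ k ∈ K, cCut (kR k) (kd k) (ke k) (kD k) (T.mu k) ≤ bC
  TX : ∀ K : Finset KI, (∀ k ∈ K, T.Act (fun _ _ => True) k) →
    ∑ k ∈ K, cT (kR k) (kd k) (ke k) (kQ k) (T.mu k) ≤ bX
  BX : ∀ K : Finset KI, (∀ k ∈ K, T.Act (T.inC P Qt) k) →
    ∑ k ∈ K, cB l (kR k) (kd k) (ke k) (kD k) (kQ k) (T.mu k) ≤ bX
  MC : ∀ K : Finset KI, (∀ k ∈ K, T.Act (T.inC P Qt) k) →
    ∑ k ∈ K, cM (kR k) (kd k) (ke k) (TD.mus C k) ≤ bM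
  HL : ∀ K : Finset KI, (∀ k ∈ K, T.Act (T.inC P Qt) k) →
    (∑ k ∈ K, cH (kR k) (kd k) (ke k) (kD k) (kQ k) (T.mu k)) *
    (∑ k ∈ K, √(cM (kR k) (kd k) (ke k) (TD.mus C k) *
      min (cP (kR k) (kd k) (ke k) (T.mu k)) (l * cM (kR k) (kd k) (ke k) (TD.mus C k)))) ≤ bHL

namespace TD

variable {T : TD Z} {C Tm P Qt l bE bC bX bM bHL Ch : ℝ}

theorem inE_or_inC (hT : T.Geo Tm P Qt) (hP : 0 < P) (hQt : 0 < Qt) {s : ℝ}
    (hs : s ∈ Icc T.a T.b) {z : Z} (hw : T.w s z ≠ 0) : T.inE P Qt s z ∨ T.inC P Qt s z := by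
  obtain ⟨h1, h2, h3, h4, h5⟩ := pos_of_geo hT hQt hs hw
  have hlam : 0 ≤ lamc P Qt * T.dl s z ^ 2 := by unfold lamc; positivity
  have hP55 : 0 ≤ P ^ (11 / 20 : ℝ) := by positivity
  unfold inE inC
  by_cases hg : T.ga s z ≤ 16 * P ^ (11 / 20 : ℝ)
  · exact Or.inl (Or.inl hg)
  · push Not at hg
    by_cases he : T.ep s z ≤ 2 * (lamc P Qt * T.dl s z ^ 2)
    · exact Or.inr ⟨by linarith, he⟩
    · push Not at he
      exact Or.inl (Or.inr (by linarith))

theorem act_or (hT : T.Geo Tm P Qt) (hP : 0 < P) (hQt : 0 < Qt) {k : KI}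
    (h : T.Act (fun _ _ => True) k) : T.Act (T.inE P Qt) k ∨ T.Act (T.inC P Qt) k := by
  obtain ⟨s, hs, z, hz, hw, -⟩ := h
  rcases inE_or_inC hT hP hQt hs hw with h | h
  · exact Or.inl ⟨s, hs, z, hz, hw, h⟩
  · exact Or.inr ⟨s, hs, z, hz, hw, h⟩

theorem Is_zero_of_not_act (hT : T.Geo Tm P Qt) {k : KI} (h : ¬ T.Act (fun _ _ => True) k)
    (g : ℝ → Z → ℝ≥0∞) {s : ℝ} (hs : s ∈ Icc T.a T.b) : T.Is g k s = 0 := by
  have h0 : ∀ z ∈ T.shk k s, T.w s z = 0 := by
    intro z hz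
    by_contra hw
    exact h ⟨s, hs, z, hz, hw, trivial⟩
  unfold Is
  rw [setLIntegral_congr_fun (g := fun _ => 0) (measurableSet_shk_s hT k s)
    (fun z hz => by simp [h0 z hz])]
  simp

theorem I_zero_of_not_act (hT : T.Geo Tm P Qt) {k : KI} (h : ¬ T.Act (fun _ _ => True) k)
    (g : ℝ → Z → ℝ≥0∞) : T.I g k = 0 := by
  unfold I
  rw [setLIntegral_congr_fun (g := fun _ => 0) measurableSet_Icc
    (fun s hs => Is_zero_of_not_act hT h g hs)]
  simp

theorem gR_eq (hT : T.Geo Tm P Qt) (hQt : 0 < Qt) {s : ℝ}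
    (hs : s ∈ Icc T.a T.b) {z : Z} (hw : T.w s z ≠ 0) :
    ENNReal.ofReal (T.gR s z) = T.fT s z + T.fSK s z + T.fSB s z := by
  obtain ⟨h1, h2, h3, h4, h5⟩ := pos_of_geo hT hQt hs hw
  have h6 := hT.Kg0 s hs z hw
  have h7 := hT.Bs0 s hs z hw
  unfold gR fT fSK fSB
  have e1 : 0 ≤ kT (T.dl s z) (T.ep s z) (T.ga s z) (T.R s z) := by unfold kT; positivity
  have e2 : 0 ≤ kS (T.dl s z) (T.ep s z) (T.ga s z) (T.R s z) := by unfold kS; positivity
  rw [← ENNReal.ofReal_mul e2, ← ENNReal.ofReal_mul (by positivity),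
    ← ENNReal.ofReal_add e1 (by positivity), ← ENNReal.ofReal_add (by positivity) (by positivity)]
  congr 1
  ring

/-- total integral of `g` over the cone of `s`. -/
noncomputable def tot (T : TD Z) (g : ℝ → Z → ℝ≥0∞) (s : ℝ) : ℝ≥0∞ :=
  ∫⁻ z, T.w s z * g s z ∂T.m

theorem measurable_tot (hT : T.Geo Tm P Qt) {g : ℝ → Z → ℝ≥0∞}
    (hg : Measurable (Function.uncurry g)) : Measurable (T.tot g) := measurable_Itot hT hg

theorem m_slice {g : ℝ → Z → ℝ≥0∞} (hT : T.Geo Tm P Qt) (hg : Measurable (Function.uncurry g))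
    (s : ℝ) : Measurable fun z => T.w s z * g s z :=
  (hT.mw.comp (measurable_const.prodMk measurable_id)).mul
    (hg.comp (measurable_const.prodMk measurable_id))


/-- pointwise (in `s`) bound of `h`. -/
theorem h_point (hT : T.Geo Tm P Qt) (hQt : 0 < Qt) {s : ℝ} (hs : s ∈ Icc T.a T.b) :
    T.h Ch P Qt s ≤ ENNReal.ofReal Ch *
      ((1 + T.tot (ind (T.inE P Qt) T.fT) s + T.tot (ind (T.inE P Qt) T.fSK) s +
        T.tot (ind (T.inE P Qt) T.fSB) s + T.tot (ind (T.inC P Qt) (T.fG Qt)) s +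
        T.tot (ind (T.inB P Qt) T.fcut) s) +
        T.Ft s * T.tot (ind (T.inC P Qt) (T.fC Qt)) s) := by
  classical
  unfold h
  refine mul_le_mul_right ?_ _
  have m1 := m_ind (ms_inE hT) (m_fT hT)
  have m2 := m_ind (ms_inE hT) (m_fSK hT)
  have m3 := m_ind (ms_inE hT) (m_fSB hT)
  have m4 := m_ind (ms_inC hT) (m_fG hT)
  have m5 := m_ind (ms_inB hT) (m_fcut hT)
  have m6 := m_ind (ms_inC hT) (m_fC hT)
  have key : ∀ z, T.w s z *
      ((if T.inE P Qt s z then ENNReal.ofReal (T.gR s z) else 0) +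
       (if T.inC P Qt s z then
          ENNReal.ofReal (kGam Qt (T.dl s z) (T.ep s z) (T.R s z)) +
          ENNReal.ofReal (kC Qt (T.dl s z) (T.ep s z) (T.R s z)) * T.Ft s else 0) +
       (if T.inB P Qt s z then
          ENNReal.ofReal (kcut (T.dl s z) (T.ep s z) (T.D s z) (T.R s z)) else 0)) =
      ((((T.w s z * ind (T.inE P Qt) T.fT s z + T.w s z * ind (T.inE P Qt) T.fSK s z) +
        T.w s z * ind (T.inE P Qt) T.fSB s z) + T.w s z * ind (T.inC P Qt) (T.fG Qt) s z) +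
        T.w s z * ind (T.inB P Qt) T.fcut s z) +
        T.Ft s * (T.w s z * ind (T.inC P Qt) (T.fC Qt) s z) := by
    intro z
    by_cases hw : T.w s z = 0
    · simp [hw]
    · have e1 : (if T.inE P Qt s z then ENNReal.ofReal (T.gR s z) else 0) =
          ind (T.inE P Qt) T.fT s z + ind (T.inE P Qt) T.fSK s z + ind (T.inE P Qt) T.fSB s z := by
        unfold ind
        split_ifs
        · exact gR_eq hT hQt hs hw
        · simp
      have e2 : (if T.inC P Qt s z then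
          ENNReal.ofReal (kGam Qt (T.dl s z) (T.ep s z) (T.R s z)) +
          ENNReal.ofReal (kC Qt (T.dl s z) (T.ep s z) (T.R s z)) * T.Ft s else 0) =
          ind (T.inC P Qt) (T.fG Qt) s z + T.Ft s * ind (T.inC P Qt) (T.fC Qt) s z := by
        unfold ind fG fC
        split_ifs
        · ring
        · simp
      have e3 : (if T.inB P Qt s z then
          ENNReal.ofReal (kcut (T.dl s z) (T.ep s z) (T.D s z) (T.R s z)) else 0) =
          ind (T.inB P Qt) T.fcut s z := rfl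
      rw [e1, e2, e3]
      ring
  rw [lintegral_congr key]
  rw [lintegral_add_left, lintegral_add_left, lintegral_add_left, lintegral_add_left,
    lintegral_add_left (m_slice hT m1 s)]
  · rw [lintegral_const_mul _ (m_slice hT m6 s)]
    unfold tot
    refine le_of_eq ?_
    ring
  · exact (m_slice hT m1 s).add (m_slice hT m2 s)
  · exact ((m_slice hT m1 s).add (m_slice hT m2 s)).add (m_slice hT m3 s)
  · exact (((m_slice hT m1 s).add (m_slice hT m2 s)).add (m_slice hT m3 s)).add (m_slice hT m4 s)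
  · exact ((((m_slice hT m1 s).add (m_slice hT m2 s)).add (m_slice hT m3 s)).add
      (m_slice hT m4 s)).add (m_slice hT m5 s)

open Classical in
/-- the part of the force bound that is integrated against `sup Φ`. -/
noncomputable def XX (T : TD Z) (P Qt : ℝ) (s : ℝ) : ℝ≥0∞ :=
  T.tot T.fT s + (∑' k, (if T.Act (T.inC P Qt) k then 0 else T.Is T.fSK k s)) + T.tot T.fSB s

open Classical in
/-- the `L²` part of the force bound. -/
noncomputable def HH (T : TD Z) (P Qt : ℝ) (s : ℝ) : ℝ≥0∞ :=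
  ∑' k, (if T.Act (T.inC P Qt) k then T.Is T.fSK k s else 0)

theorem measurable_XX (hT : T.Geo Tm P Qt) : Measurable (T.XX P Qt) := by
  classical
  refine ((measurable_tot hT (m_fT hT)).add (Measurable.tsum fun k => ?_)).add
    (measurable_tot hT (m_fSB hT))
  by_cases h : T.Act (T.inC P Qt) k
  · simp only [if_pos h]; exact measurable_const
  · simp only [if_neg h]; exact measurable_Is hT (m_fSK hT) k

theorem measurable_HH (hT : T.Geo Tm P Qt) : Measurable (T.HH P Qt) := by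
  classical
  refine Measurable.tsum fun k => ?_
  by_cases h : T.Act (T.inC P Qt) k
  · simp only [if_pos h]; exact measurable_Is hT (m_fSK hT) k
  · simp only [if_neg h]; exact measurable_const

/-- `|F_t| ≤ C (1 + X + H)`. -/
theorem Ft_le (hT : T.Core C Tm P Qt) (hQt : 0 < Qt) {s : ℝ} (hs : s ∈ Icc T.a T.b) :
    T.Ft s ≤ ENNReal.ofReal C * (1 + T.XX P Qt s + T.HH P Qt s) := by
  classical
  refine (hT.cR s hs).trans ?_
  refine mul_le_mul_right ?_ _
  have hG := hT.toGeo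
  have e0 : ∫⁻ z, T.w s z * ENNReal.ofReal (T.gR s z) ∂T.m =
      T.tot T.fT s + T.tot T.fSK s + T.tot T.fSB s := by
    have : ∀ z, T.w s z * ENNReal.ofReal (T.gR s z) =
        (T.w s z * T.fT s z + T.w s z * T.fSK s z) + T.w s z * T.fSB s z := by
      intro z
      by_cases hw : T.w s z = 0
      · simp [hw]
      · rw [gR_eq hG hQt hs hw]; ring
    rw [lintegral_congr this, lintegral_add_left, lintegral_add_left (m_slice hG (m_fT hG) s)]
    · rfl
    · exact (m_slice hG (m_fT hG) s).add (m_slice hG (m_fSK hG) s)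
  have e1 : T.tot T.fSK s = (∑' k, (if T.Act (T.inC P Qt) k then 0 else T.Is T.fSK k s)) +
      T.HH P Qt s := by
    unfold tot HH
    rw [lintegral_eq_tsum_s hG hQt (m_fSK hG) hs, ← ENNReal.tsum_add]
    congr 1
    funext k
    split_ifs <;> simp
  rw [e0, e1]
  unfold XX
  refine le_of_eq ?_
  ring

end TD

end Crest.Agent.R106.Abs
end

-- ▼ part R106/AbsH2
section

/-!
# Row 106, node ABS (helper72): `∫_J h` from the nine finite-sum inequalities, II.
-/

set_option autoImplicit false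

open MeasureTheory Set
open scoped ENNReal

namespace Crest.Agent.R106.Abs

open Crest.Agent.R106.Num (cT cA cB cG cCut cb cM cP cH sq2)

variable {Z : Type} [MeasurableSpace Z]

namespace TD

variable {T : TD Z} {C Tm P Qt l bE bC bX bM bHL Ch : ℝ}

/-- `sup Φ`. -/
theorem Phi_le (hC : 0 ≤ C) (hT : T.Core C Tm P Qt) (hQt : 0 < Qt)
    (hN : Nine T C l P Qt bE bC bX bM bHL) {s : ℝ} (hs : s ∈ Icc T.a T.b) :
    T.tot (ind (T.inC P Qt) (T.fC Qt)) s ≤ ENNReal.ofReal (2 / Qt * bM) := by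
  refine line_s hT.toGeo hQt (ms_inC hT.toGeo) (m_fC hT.toGeo) hs
    (x := fun k => 2 / Qt * cM (kR k) (kd k) (ke k) (mus C k)) (fun k => ?_)
    (fun k => Is_fC hC hT.toCoreAB hQt k hs) (fun K hK => ?_)
  · have hR := kR_pos k; have hd := kd_pos k; have he := ke_pos k
    have := mus_nonneg hC k
    unfold cM
    positivity
  · rw [← Finset.mul_sum]
    exact mul_le_mul_of_nonneg_left (hN.MC K hK) (by positivity)

theorem cT_nonneg (T : TD Z) (k : KI) : 0 ≤ cT (kR k) (kd k) (ke k) (kQ k) (T.mu k) := by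
  have hR := kR_pos k; have hd := kd_pos k; have he := ke_pos k; have hQ := kQ_pos k
  have := T.mu_nonneg k
  unfold cT
  positivity

theorem cG_nonneg (T : TD Z) (hQt : 0 < Qt) (k : KI) :
    0 ≤ cG Qt (kR k) (kd k) (ke k) (T.mu k) := by
  have hR := kR_pos k; have hd := kd_pos k; have he := ke_pos k; have hQ := kQ_pos k
  have := T.mu_nonneg k
  unfold cG
  positivity

theorem cCut_nonneg (T : TD Z) (k : KI) :
    0 ≤ cCut (kR k) (kd k) (ke k) (kD k) (T.mu k) := by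
  have hR := kR_pos k; have hd := kd_pos k; have he := ke_pos k; have hQ := kQ_pos k
  have := T.mu_nonneg k
  unfold cCut
  positivity

theorem cA_nonneg (l : ℝ) (T : TD Z) (k : KI) :
    0 ≤ cA l (kR k) (kd k) (ke k) (kD k) (kQ k) (T.mu k) := by
  unfold cA; positivity

theorem cB_nonneg (l : ℝ) (T : TD Z) (k : KI) :
    0 ≤ cB l (kR k) (kd k) (ke k) (kD k) (kQ k) (T.mu k) := by
  unfold cB; positivity

theorem line_const {hT : T.Geo Tm P Qt} (hQt : 0 < Qt)
    {reg : ℝ → Z → Prop} (hreg : MeasurableSet {x : ℝ × Z | reg x.1 x.2})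
    {g : ℝ → Z → ℝ≥0∞} (hg : Measurable (Function.uncurry g)) {c : ℝ} (hc : 0 ≤ c)
    {x : KI → ℝ} (hx0 : ∀ k, 0 ≤ x k) (hx : ∀ k, T.I g k ≤ ENNReal.ofReal (c * x k)) {B : ℝ}
    (hB : ∀ K : Finset KI, (∀ k ∈ K, T.Act reg k) → ∑ k ∈ K, x k ≤ B) :
    ∫⁻ s in Icc T.a T.b, T.tot (ind reg g) s ≤ ENNReal.ofReal (c * B) := by
  refine line hT hQt hreg hg (x := fun k => c * x k) (fun k => mul_nonneg hc (hx0 k)) hx
    (fun K hK => ?_)
  rw [← Finset.mul_sum]
  exact mul_le_mul_of_nonneg_left (hB K hK) hc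

theorem bE_nonneg (hN : Nine T C l P Qt bE bC bX bM bHL) : 0 ≤ bE := by
  simpa using hN.TE ∅ (by simp)
theorem bX_nonneg (hN : Nine T C l P Qt bE bC bX bM bHL) : 0 ≤ bX := by
  simpa using hN.TX ∅ (by simp)
theorem bC_nonneg (hN : Nine T C l P Qt bE bC bX bM bHL) : 0 ≤ bC := by
  simpa using hN.CB ∅ (by simp)
theorem bM_nonneg (hN : Nine T C l P Qt bE bC bX bM bHL) : 0 ≤ bM := by
  simpa using hN.MC ∅ (by simp)
theorem bHL_nonneg (hN : Nine T C l P Qt bE bC bX bM bHL) : 0 ≤ bHL := by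
  simpa using hN.HL ∅ (by simp)

/-- `∫_J X`. -/
theorem int_XX (hC : 0 ≤ C) (hT : T.Core C Tm P Qt) (hP : 0 < P) (hQt : 0 < Qt)
    (hab : T.a ≤ T.b) (hl : T.b - T.a ≤ l) (hN : Nine T C l P Qt bE bC bX bM bHL) :
    ∫⁻ s in Icc T.a T.b, T.XX P Qt s ≤
      ENNReal.ofReal (2 * bX + 2 * √C * bE + 4 * √C * (bE + bX)) := by
  classical
  have hG := hT.toGeo
  have hE0 := bE_nonneg hN
  have hX0 := bX_nonneg hN
  have m1 := measurable_tot hG (m_fT hG)
  have m2 : Measurable fun s =>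
      ∑' k, (if T.Act (T.inC P Qt) k then 0 else T.Is T.fSK k s) := by
    refine Measurable.tsum fun k => ?_
    by_cases h : T.Act (T.inC P Qt) k
    · simp only [if_pos h]; exact measurable_const
    · simp only [if_neg h]; exact measurable_Is hG (m_fSK hG) k
  have e1 : ∫⁻ s in Icc T.a T.b, T.tot T.fT s ≤ ENNReal.ofReal (2 * bX) := by
    have h := line_const (T := T) (hT := hG) hQt (reg := fun _ _ => True) (by simp)
      (m_fT hG) (by norm_num : (0 : ℝ) ≤ 2) (x := fun k => cT (kR k) (kd k) (ke k) (kQ k) (T.mu k))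
      (fun k => T.cT_nonneg k) (fun k => I_fT hT k) hN.TX
    have e : (ind (fun _ _ => True) T.fT : ℝ → Z → ℝ≥0∞) = T.fT := by
      funext s z; simp [ind]
    rwa [e] at h
  have e2 : ∫⁻ s in Icc T.a T.b, ∑' k, (if T.Act (T.inC P Qt) k then 0 else T.Is T.fSK k s) ≤
      ENNReal.ofReal (2 * √C * bE) := by
    rw [lintegral_tsum (fun k => by
      by_cases h : T.Act (T.inC P Qt) k
      · simp only [if_pos h]; exact aemeasurable_const
      · simp only [if_neg h]; exact (measurable_Is hG (m_fSK hG) k).aemeasurable)]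
    refine le_trans (ENNReal.tsum_le_tsum fun k => ?_)
      (tsum_le_of_finset (A := fun k => T.Act (T.inE P Qt) k)
        (x := fun k => 2 * √C * cA l (kR k) (kd k) (ke k) (kD k) (kQ k) (T.mu k))
        (fun k => mul_nonneg (by positivity) (cA_nonneg l T k)) (fun K hK => ?_))
    · by_cases h : T.Act (T.inC P Qt) k
      · simp only [if_pos h, lintegral_zero]; exact zero_le
      · simp only [if_neg h]
        by_cases hE : T.Act (T.inE P Qt) k
        · rw [if_pos hE]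
          exact I_fSK hC hT hab hl k
        · rw [if_neg hE]
          have hn : ¬ T.Act (fun _ _ => True) k := by
            intro hh
            rcases act_or hG hP hQt hh with h' | h'
            · exact hE h'
            · exact h h'
          exact (I_zero_of_not_act hG hn T.fSK).le
    · rw [← Finset.mul_sum]
      exact mul_le_mul_of_nonneg_left (hN.AE K hK) (by positivity)
  have e3 : ∫⁻ s in Icc T.a T.b, T.tot T.fSB s ≤ ENNReal.ofReal (4 * √C * (bE + bX)) := by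
    unfold tot
    rw [lintegral_eq_tsum hG hQt (m_fSB hG)]
    have hx : ∀ k, 0 ≤ 4 * √C * cB l (kR k) (kd k) (ke k) (kD k) (kQ k) (T.mu k) := fun k =>
      mul_nonneg (by positivity) (cB_nonneg l T k)
    have step : ∀ k, T.I T.fSB k ≤
        (if T.Act (T.inE P Qt) k then
          ENNReal.ofReal (4 * √C * cB l (kR k) (kd k) (ke k) (kD k) (kQ k) (T.mu k)) else 0) +
        (if T.Act (T.inC P Qt) k then
          ENNReal.ofReal (4 * √C * cB l (kR k) (kd k) (ke k) (kD k) (kQ k) (T.mu k)) else 0) := by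
      intro k
      by_cases ha : T.Act (fun _ _ => True) k
      · rcases act_or hG hP hQt ha with h' | h'
        · rw [if_pos h']
          exact (I_fSB hC hT hab hl k).trans le_self_add
        · rw [if_pos h']
          exact (I_fSB hC hT hab hl k).trans le_add_self
      · rw [I_zero_of_not_act hG ha T.fSB]
        exact zero_le
    refine (ENNReal.tsum_le_tsum step).trans ?_
    rw [ENNReal.tsum_add, mul_add, ENNReal.ofReal_add (by positivity) (by positivity)]
    refine add_le_add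
      (tsum_le_of_finset (A := fun k => T.Act (T.inE P Qt) k)
        (x := fun k => 4 * √C * cB l (kR k) (kd k) (ke k) (kD k) (kQ k) (T.mu k)) hx
        (fun K hK => ?_))
      (tsum_le_of_finset (A := fun k => T.Act (T.inC P Qt) k)
        (x := fun k => 4 * √C * cB l (kR k) (kd k) (ke k) (kD k) (kQ k) (T.mu k)) hx
        (fun K hK => ?_))
    · rw [← Finset.mul_sum]
      exact mul_le_mul_of_nonneg_left (hN.BE K hK) (by positivity)
    · rw [← Finset.mul_sum]
      exact mul_le_mul_of_nonneg_left (hN.BX K hK) (by positivity)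
  have m12 : Measurable fun s => T.tot T.fT s +
      ∑' k, (if T.Act (T.inC P Qt) k then 0 else T.Is T.fSK k s) := m1.add m2
  unfold XX
  rw [lintegral_add_left m12, lintegral_add_left m1,
    ENNReal.ofReal_add (by positivity) (by positivity),
    ENNReal.ofReal_add (by positivity) (by positivity)]
  exact add_le_add (add_le_add e1 e2) e3

/-- product of two sums over shells. -/
theorem tsum_mul_tsum_le {ι : Type*} {x y : ι → ℝ} (hx : ∀ k, 0 ≤ x k) (hy : ∀ k, 0 ≤ y k)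
    {A : ι → Prop} [DecidablePred A] {B : ℝ}
    (h : ∀ K : Finset ι, (∀ k ∈ K, A k) → (∑ k ∈ K, x k) * (∑ k ∈ K, y k) ≤ B) :
    (∑' k, (if A k then ENNReal.ofReal (x k) else 0)) *
      (∑' k, (if A k then ENNReal.ofReal (y k) else 0)) ≤ ENNReal.ofReal B := by
  classical
  rw [ENNReal.tsum_eq_iSup_sum, ENNReal.tsum_eq_iSup_sum, ENNReal.iSup_mul]
  refine iSup_le fun K => ?_
  rw [ENNReal.mul_iSup]
  refine iSup_le fun K' => ?_
  rw [← Finset.sum_filter, ← Finset.sum_filter, ← ENNReal.ofReal_sum_of_nonneg fun k _ => hx k,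
    ← ENNReal.ofReal_sum_of_nonneg fun k _ => hy k,
    ← ENNReal.ofReal_mul (Finset.sum_nonneg fun k _ => hx k)]
  apply ENNReal.ofReal_le_ofReal
  set U := K.filter A ∪ K'.filter A with hU
  have h1 : ∑ k ∈ K.filter A, x k ≤ ∑ k ∈ U, x k :=
    Finset.sum_le_sum_of_subset_of_nonneg Finset.subset_union_left fun k _ _ => hx k
  have h2 : ∑ k ∈ K'.filter A, y k ≤ ∑ k ∈ U, y k :=
    Finset.sum_le_sum_of_subset_of_nonneg Finset.subset_union_right fun k _ _ => hy k
  refine (mul_le_mul h1 h2 (Finset.sum_nonneg fun k _ => hy k)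
    (Finset.sum_nonneg fun k _ => hx k)).trans (h U fun k hk => ?_)
  rw [hU, Finset.mem_union, Finset.mem_filter, Finset.mem_filter] at hk
  rcases hk with hk | hk
  · exact hk.2
  · exact hk.2

/-- `∫_J H Φ`. -/
theorem int_HH_Phi (hC : 0 ≤ C) (hT : T.Core C Tm P Qt) (hQt : 0 < Qt)
    (hab : T.a ≤ T.b) (hl : T.b - T.a ≤ l) (hN : Nine T C l P Qt bE bC bX bM bHL) :
    ∫⁻ s in Icc T.a T.b, T.HH P Qt s * T.tot (ind (T.inC P Qt) (T.fC Qt)) s ≤
      ENNReal.ofReal (2 * √C * (2 / Qt) * bHL) := by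
  classical
  have hG := hT.toGeo
  have hl0 : 0 ≤ l := by linarith
  set x : KI → ℝ := fun k => 2 * √C * cH (kR k) (kd k) (ke k) (kD k) (kQ k) (T.mu k) with hx
  set y : KI → ℝ := fun k => 2 / Qt * √(cM (kR k) (kd k) (ke k) (mus C k) *
        min (cP (kR k) (kd k) (ke k) (T.mu k)) (l * cM (kR k) (kd k) (ke k) (mus C k))) with hy
  have hx0 : ∀ k, 0 ≤ x k := fun k => by rw [hx]; simp only; unfold cH; positivity
  have hy0 : ∀ k, 0 ≤ y k := fun k => by rw [hy]; positivity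
  -- expand both factors
  have hPhi : ∀ s ∈ Icc T.a T.b, T.tot (ind (T.inC P Qt) (T.fC Qt)) s ≤
      ∑' k', (if T.Act (T.inC P Qt) k' then T.Is (T.fC Qt) k' s else 0) := by
    intro s hs
    unfold tot
    rw [lintegral_eq_tsum_s hG hQt (m_ind (ms_inC hG) (m_fC hG)) hs]
    refine ENNReal.tsum_le_tsum fun k => ?_
    split_ifs with h
    · exact T.Is_mono (ind_le _ _) k s
    · refine (Is_eq_zero hG fun z hz hw => ?_).le
      unfold ind
      rw [if_neg]
      intro hr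
      exact h ⟨s, hs, z, hz, hw, hr⟩
  have m1 : ∀ k, Measurable fun s => (if T.Act (T.inC P Qt) k then T.Is T.fSK k s else 0) := by
    intro k
    by_cases h : T.Act (T.inC P Qt) k
    · simp only [if_pos h]; exact measurable_Is hG (m_fSK hG) k
    · simp only [if_neg h]; exact measurable_const
  have m2 : ∀ k, Measurable fun s =>
      (if T.Act (T.inC P Qt) k then T.Is (T.fC Qt) k s else 0) := by
    intro k
    by_cases h : T.Act (T.inC P Qt) k
    · simp only [if_pos h]; exact measurable_Is hG (m_fC hG) k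
    · simp only [if_neg h]; exact measurable_const
  calc ∫⁻ s in Icc T.a T.b, T.HH P Qt s * T.tot (ind (T.inC P Qt) (T.fC Qt)) s
      ≤ ∫⁻ s in Icc T.a T.b, ∑' k, ∑' k', (if T.Act (T.inC P Qt) k then T.Is T.fSK k s else 0) *
          (if T.Act (T.inC P Qt) k' then T.Is (T.fC Qt) k' s else 0) := by
        refine setLIntegral_mono' measurableSet_Icc fun s hs => ?_
        refine (mul_le_mul_right (hPhi s hs) _).trans (le_of_eq ?_)
        unfold HH
        rw [← ENNReal.tsum_mul_right]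
        congr 1
        funext k
        rw [← ENNReal.tsum_mul_left]
    _ = ∑' k, ∑' k', ∫⁻ s in Icc T.a T.b, (if T.Act (T.inC P Qt) k then T.Is T.fSK k s else 0) *
          (if T.Act (T.inC P Qt) k' then T.Is (T.fC Qt) k' s else 0) := by
        have m3 : ∀ k k', Measurable fun s =>
            (if T.Act (T.inC P Qt) k then T.Is T.fSK k s else 0) *
            (if T.Act (T.inC P Qt) k' then T.Is (T.fC Qt) k' s else 0) :=
          fun k k' => (m1 k).mul (m2 k')
        have m4 : ∀ k, Measurable fun s => ∑' k',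
            (if T.Act (T.inC P Qt) k then T.Is T.fSK k s else 0) *
            (if T.Act (T.inC P Qt) k' then T.Is (T.fC Qt) k' s else 0) :=
          fun k => Measurable.tsum fun k' => m3 k k'
        rw [lintegral_tsum fun k => (m4 k).aemeasurable]
        congr 1
        funext k
        rw [lintegral_tsum fun k' => (m3 k k').aemeasurable]
    _ ≤ ∑' k, ∑' k', (if T.Act (T.inC P Qt) k then ENNReal.ofReal (x k) else 0) *
          (if T.Act (T.inC P Qt) k' then ENNReal.ofReal (y k') else 0) := by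
        refine ENNReal.tsum_le_tsum fun k => ENNReal.tsum_le_tsum fun k' => ?_
        split_ifs with h h'
        · exact I_prod hC hT hQt hab hl k k'
        · simp
        · simp
        · simp
    _ = (∑' k, (if T.Act (T.inC P Qt) k then ENNReal.ofReal (x k) else 0)) *
          (∑' k, (if T.Act (T.inC P Qt) k then ENNReal.ofReal (y k) else 0)) := by
        rw [← ENNReal.tsum_mul_right]
        congr 1
        funext k
        rw [ENNReal.tsum_mul_left]
    _ ≤ ENNReal.ofReal (2 * √C * (2 / Qt) * bHL) := by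
        refine tsum_mul_tsum_le hx0 hy0 (fun K hK => ?_)
        have h := hN.HL K hK
        rw [hx, hy]
        simp only
        rw [← Finset.mul_sum, ← Finset.mul_sum]
        calc _ = 2 * √C * (2 / Qt) * ((∑ k ∈ K, cH (kR k) (kd k) (ke k) (kD k) (kQ k) (T.mu k)) *
              (∑ k ∈ K, √(cM (kR k) (kd k) (ke k) (TD.mus C k) *
      min (cP (kR k) (kd k) (ke k) (T.mu k)) (l * cM (kR k) (kd k) (ke k) (TD.mus C k))))) := by
              ring
          _ ≤ _ := mul_le_mul_of_nonneg_left h (by positivity)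

/-- all costs together. -/
theorem int_h (hC : 0 ≤ C) (hCh : 0 ≤ Ch) (hT : T.Core C Tm P Qt) (hP : 0 < P) (hQt : 0 < Qt)
    (hab : T.a ≤ T.b) (hl : T.b - T.a ≤ l) (hN : Nine T C l P Qt bE bC bX bM bHL) :
    ∫⁻ s in Icc T.a T.b, T.h Ch P Qt s ≤ ENNReal.ofReal (Ch * (l +
      2 * bE + 2 * √C * bE + 4 * √C * bE + 2 * bE + 2 * bC +
      C * (2 / Qt * bM * (l + (2 * bX + 2 * √C * bE + 4 * √C * (bE + bX))) +
        2 * √C * (2 / Qt) * bHL))) := by
  have hG := hT.toGeo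
  have hl0 : 0 ≤ l := by linarith
  have hE0 := bE_nonneg hN
  have hX0 := bX_nonneg hN
  have hC0 := bC_nonneg hN
  have hM0 := bM_nonneg hN
  have hHL0 := bHL_nonneg hN
  have n1 := measurable_tot hG (m_ind (ms_inE hG) (m_fT hG))
  have n2 := measurable_tot hG (m_ind (ms_inE hG) (m_fSK hG))
  have n3 := measurable_tot hG (m_ind (ms_inE hG) (m_fSB hG))
  have n4 := measurable_tot hG (m_ind (ms_inC hG) (m_fG hG))
  have n5 := measurable_tot hG (m_ind (ms_inB hG) (m_fcut hG))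
  have n6 := measurable_tot hG (m_ind (ms_inC hG) (m_fC hG))
  -- the single lines
  have e0 : ∫⁻ _ in Icc T.a T.b, (1 : ℝ≥0∞) ≤ ENNReal.ofReal l := by
    rw [lintegral_const, one_mul, Measure.restrict_apply_univ, Real.volume_Icc]
    exact ENNReal.ofReal_le_ofReal hl
  have e1 := line_const (T := T) (hT := hG) hQt (ms_inE hG) (m_fT hG) (by norm_num : (0 : ℝ) ≤ 2)
    (x := fun k => cT (kR k) (kd k) (ke k) (kQ k) (T.mu k))
    (fun k => T.cT_nonneg k) (fun k => I_fT hT k) hN.TE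
  have e2 := line_const (T := T) (hT := hG) hQt (ms_inE hG) (m_fSK hG)
    (by positivity : (0 : ℝ) ≤ 2 * √C)
    (x := fun k => cA l (kR k) (kd k) (ke k) (kD k) (kQ k) (T.mu k))
    (fun k => cA_nonneg l T k) (fun k => I_fSK hC hT hab hl k) hN.AE
  have e3 := line_const (T := T) (hT := hG) hQt (ms_inE hG) (m_fSB hG)
    (by positivity : (0 : ℝ) ≤ 4 * √C)
    (x := fun k => cB l (kR k) (kd k) (ke k) (kD k) (kQ k) (T.mu k))
    (fun k => cB_nonneg l T k) (fun k => I_fSB hC hT hab hl k) hN.BE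
  have e4 := line_const (T := T) (hT := hG) hQt (ms_inC hG) (m_fG hG) (by norm_num : (0 : ℝ) ≤ 2)
    (x := fun k => cG Qt (kR k) (kd k) (ke k) (T.mu k))
    (fun k => T.cG_nonneg hQt k) (fun k => I_fG hT hQt k) hN.GC
  have e5 := line_const (T := T) (hT := hG) hQt (ms_inB hG) (m_fcut hG) (by norm_num : (0 : ℝ) ≤ 2)
    (x := fun k => cCut (kR k) (kd k) (ke k) (kD k) (T.mu k))
    (fun k => T.cCut_nonneg k) (fun k => I_fcut hT k) hN.CB
  have e6 := int_XX hC hT hP hQt hab hl hN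
  have e7 := int_HH_Phi hC hT hQt hab hl hN
  -- the conjugate term
  have hX := measurable_XX (T := T) (P := P) (Qt := Qt) hG
  have hH := measurable_HH (T := T) (P := P) (Qt := Qt) hG
  have e8 : ∫⁻ s in Icc T.a T.b, T.Ft s * T.tot (ind (T.inC P Qt) (T.fC Qt)) s ≤
      ENNReal.ofReal (C * (2 / Qt * bM * (l + (2 * bX + 2 * √C * bE + 4 * √C * (bE + bX))) +
        2 * √C * (2 / Qt) * bHL)) := by
    calc ∫⁻ s in Icc T.a T.b, T.Ft s * T.tot (ind (T.inC P Qt) (T.fC Qt)) s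
        ≤ ∫⁻ s in Icc T.a T.b, ENNReal.ofReal C *
            (ENNReal.ofReal (2 / Qt * bM) * (1 + T.XX P Qt s) +
              T.HH P Qt s * T.tot (ind (T.inC P Qt) (T.fC Qt)) s) := by
          refine setLIntegral_mono' measurableSet_Icc fun s hs => ?_
          have h1 := Ft_le hT hQt hs
          have h2 := Phi_le hC hT hQt hN hs
          calc T.Ft s * T.tot (ind (T.inC P Qt) (T.fC Qt)) s
              ≤ (ENNReal.ofReal C * (1 + T.XX P Qt s + T.HH P Qt s)) *
                  T.tot (ind (T.inC P Qt) (T.fC Qt)) s := mul_le_mul_left h1 _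
            _ = ENNReal.ofReal C * (T.tot (ind (T.inC P Qt) (T.fC Qt)) s * (1 + T.XX P Qt s) +
                  T.HH P Qt s * T.tot (ind (T.inC P Qt) (T.fC Qt)) s) := by ring
            _ ≤ _ := by gcongr
      _ = ENNReal.ofReal C * (ENNReal.ofReal (2 / Qt * bM) *
            ((∫⁻ _ in Icc T.a T.b, (1 : ℝ≥0∞)) + ∫⁻ s in Icc T.a T.b, T.XX P Qt s) +
            ∫⁻ s in Icc T.a T.b, T.HH P Qt s * T.tot (ind (T.inC P Qt) (T.fC Qt)) s) := by
          have q1 : Measurable fun s => 1 + T.XX P Qt s := measurable_const.add hX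
          have q2 : Measurable fun s => ENNReal.ofReal (2 / Qt * bM) * (1 + T.XX P Qt s) :=
            q1.const_mul _
          rw [lintegral_const_mul' _ _ ENNReal.ofReal_ne_top,
            lintegral_add_left q2,
            lintegral_const_mul _ q1, lintegral_add_left measurable_const]
      _ ≤ ENNReal.ofReal C * (ENNReal.ofReal (2 / Qt * bM) *
            (ENNReal.ofReal l + ENNReal.ofReal (2 * bX + 2 * √C * bE + 4 * √C * (bE + bX))) +
            ENNReal.ofReal (2 * √C * (2 / Qt) * bHL)) := by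
          gcongr
      _ = _ := by
          rw [← ENNReal.ofReal_add hl0 (by positivity), ← ENNReal.ofReal_mul (by positivity),
            ← ENNReal.ofReal_add (by positivity) (by positivity), ← ENNReal.ofReal_mul hC]
  calc ∫⁻ s in Icc T.a T.b, T.h Ch P Qt s
      ≤ ∫⁻ s in Icc T.a T.b, ENNReal.ofReal Ch *
      ((1 + T.tot (ind (T.inE P Qt) T.fT) s + T.tot (ind (T.inE P Qt) T.fSK) s +
        T.tot (ind (T.inE P Qt) T.fSB) s + T.tot (ind (T.inC P Qt) (T.fG Qt)) s +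
        T.tot (ind (T.inB P Qt) T.fcut) s) +
        T.Ft s * T.tot (ind (T.inC P Qt) (T.fC Qt)) s) :=
        setLIntegral_mono' measurableSet_Icc fun s hs => h_point hG hQt hs
    _ = ENNReal.ofReal Ch * (((∫⁻ _ in Icc T.a T.b, (1 : ℝ≥0∞)) +
        (∫⁻ s in Icc T.a T.b, T.tot (ind (T.inE P Qt) T.fT) s) +
        (∫⁻ s in Icc T.a T.b, T.tot (ind (T.inE P Qt) T.fSK) s) +
        (∫⁻ s in Icc T.a T.b, T.tot (ind (T.inE P Qt) T.fSB) s) +
        (∫⁻ s in Icc T.a T.b, T.tot (ind (T.inC P Qt) (T.fG Qt)) s) +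
        (∫⁻ s in Icc T.a T.b, T.tot (ind (T.inB P Qt) T.fcut) s)) +
        ∫⁻ s in Icc T.a T.b, T.Ft s * T.tot (ind (T.inC P Qt) (T.fC Qt)) s) := by
        have q1 : Measurable fun s => 1 + T.tot (ind (T.inE P Qt) T.fT) s :=
          measurable_const.add n1
        have q2 : Measurable fun s => 1 + T.tot (ind (T.inE P Qt) T.fT) s +
            T.tot (ind (T.inE P Qt) T.fSK) s := q1.add n2
        have q3 : Measurable fun s => 1 + T.tot (ind (T.inE P Qt) T.fT) s +
            T.tot (ind (T.inE P Qt) T.fSK) s + T.tot (ind (T.inE P Qt) T.fSB) s := q2.add n3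
        have q4 : Measurable fun s => 1 + T.tot (ind (T.inE P Qt) T.fT) s +
            T.tot (ind (T.inE P Qt) T.fSK) s + T.tot (ind (T.inE P Qt) T.fSB) s +
            T.tot (ind (T.inC P Qt) (T.fG Qt)) s := q3.add n4
        have q5 : Measurable fun s => 1 + T.tot (ind (T.inE P Qt) T.fT) s +
            T.tot (ind (T.inE P Qt) T.fSK) s + T.tot (ind (T.inE P Qt) T.fSB) s +
            T.tot (ind (T.inC P Qt) (T.fG Qt)) s + T.tot (ind (T.inB P Qt) T.fcut) s := q4.add n5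
        rw [lintegral_const_mul' _ _ ENNReal.ofReal_ne_top,
          lintegral_add_left q5, lintegral_add_left q4, lintegral_add_left q3,
          lintegral_add_left q2, lintegral_add_left q1, lintegral_add_left measurable_const]
    _ ≤ ENNReal.ofReal Ch * ((ENNReal.ofReal l + ENNReal.ofReal (2 * bE) +
        ENNReal.ofReal (2 * √C * bE) + ENNReal.ofReal (4 * √C * bE) + ENNReal.ofReal (2 * bE) +
        ENNReal.ofReal (2 * bC)) +
        ENNReal.ofReal (C * (2 / Qt * bM * (l + (2 * bX + 2 * √C * bE + 4 * √C * (bE + bX))) +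
        2 * √C * (2 / Qt) * bHL))) := by
        gcongr
    _ = _ := by
        rw [← ENNReal.ofReal_add hl0 (by positivity), ← ENNReal.ofReal_add (by positivity) (by positivity),
          ← ENNReal.ofReal_add (by positivity) (by positivity),
          ← ENNReal.ofReal_add (by positivity) (by positivity),
          ← ENNReal.ofReal_add (by positivity) (by positivity),
          ← ENNReal.ofReal_add (by positivity) (by positivity), ← ENNReal.ofReal_mul hCh]


end TD

end Crest.Agent.R106.Abs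
end

-- ▼ part R106/Crit465
section

/-!
Row 106: the critical sum of 12144 in pure real arithmetic.
-/

set_option autoImplicit false

namespace Crest.Agent.R106.Crit465

open Finset

/-- length of the stable window for the nominal energy `Q` -/
noncomputable def ell (c0 P Q : ℝ) : ℝ := c0 * min ((Q / P) ^ 2) (Q / (P * Real.log P))




/-- geometric sum over a finite set of dyadic numbers below a bound -/
lemma sum_two_zpow_le (s : Finset ℤ) (N : ℤ) (h : ∀ k ∈ s, k ≤ N) :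
    ∑ k ∈ s, (2:ℝ) ^ k ≤ 2 * (2:ℝ) ^ N := by
  classical
  -- induct on the size via the images
  have key : ∀ n : ℕ, ∀ s : Finset ℤ, ∀ N : ℤ, s.card ≤ n → (∀ k ∈ s, k ≤ N) →
      ∑ k ∈ s, (2:ℝ) ^ k ≤ 2 * (2:ℝ) ^ N := by
    intro n
    induction n with
    | zero =>
      intro s N hs _
      have : s = ∅ := by
        rw [← Finset.card_eq_zero]; omega
      subst this
      simp only [Finset.sum_empty]
      positivity
    | succ n ih =>
      intro s N hs h
      rcases s.eq_empty_or_nonempty with rfl | hne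
      · simp only [Finset.sum_empty]
        positivity
      · have hm := s.max'_mem hne
        set m := s.max' hne with hmdef
        have h1 : ∑ k ∈ s, (2:ℝ) ^ k = (2:ℝ) ^ m + ∑ k ∈ s.erase m, (2:ℝ) ^ k := by
          rw [Finset.add_sum_erase s (fun k => (2:ℝ) ^ k) hm]
        have h2 : ∑ k ∈ s.erase m, (2:ℝ) ^ k ≤ 2 * (2:ℝ) ^ (m - 1) := by
          apply ih
          · rw [Finset.card_erase_of_mem hm]; omega
          · intro k hk
            have hk1 := Finset.mem_of_mem_erase hk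
            have hk2 := Finset.ne_of_mem_erase hk
            have := s.le_max' k hk1
            have h3 : k ≤ m := this
            omega
        have h3 : (2:ℝ) * (2:ℝ) ^ (m - 1) = (2:ℝ) ^ m := by
          rw [zpow_sub_one₀ (by norm_num)]; field_simp
        have h4 : (2:ℝ) ^ m ≤ (2:ℝ) ^ N := zpow_le_zpow_right₀ (by norm_num) (h m hm)
        rw [h1]
        linarith
  exact key s.card s N le_rfl h

lemma sum_two_zpow_neg_le (s : Finset ℤ) (N : ℤ) (h : ∀ k ∈ s, N ≤ k) :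
    ∑ k ∈ s, (2:ℝ) ^ (-k) ≤ 2 * (2:ℝ) ^ (-N) := by
  classical
  have h1 : ∑ k ∈ s, (2:ℝ) ^ (-k) = ∑ k ∈ s.image (fun k => -k), (2:ℝ) ^ k := by
    rw [Finset.sum_image]
    intro a _ b _ hab
    simpa using hab
  rw [h1]
  apply sum_two_zpow_le
  intro k hk
  rw [Finset.mem_image] at hk
  obtain ⟨a, ha, rfl⟩ := hk
  have := h a ha
  simpa using this

/-- `∑_R min(α R, β / R) ≤ 8 √(α β)` over any finite set of dyadic `R = 2^k`. -/
theorem sum_min_le (s : Finset ℤ) {α β : ℝ} (hα : 0 ≤ α) (hβ : 0 ≤ β) :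
    ∑ k ∈ s, min (α * (2:ℝ) ^ k) (β / (2:ℝ) ^ k) ≤ 8 * Real.sqrt (α * β) := by
  classical
  rcases hα.eq_or_lt with h0 | hα'
  · subst h0
    have : ∀ k ∈ s, min (0 * (2:ℝ) ^ k) (β / (2:ℝ) ^ k) ≤ 0 := by
      intro k _
      rw [zero_mul]; exact min_le_left _ _
    calc _ ≤ ∑ k ∈ s, (0:ℝ) := Finset.sum_le_sum this
      _ ≤ _ := by simp
  rcases hβ.eq_or_lt with h0 | hβ'
  · subst h0
    have : ∀ k ∈ s, min (α * (2:ℝ) ^ k) (0 / (2:ℝ) ^ k) ≤ 0 := by
      intro k _
      rw [zero_div]; exact min_le_right _ _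
    calc _ ≤ ∑ k ∈ s, (0:ℝ) := Finset.sum_le_sum this
      _ ≤ _ := by simp
  -- choose N with 2^N ≤ √(β/α) < 2^(N+1)
  have hr : 0 < Real.sqrt (β / α) := Real.sqrt_pos.2 (div_pos hβ' hα')
  obtain ⟨N, hN1, hN2⟩ := exists_mem_Ico_zpow (y := (2:ℝ)) hr (by norm_num)
  set r := Real.sqrt (β / α) with hrdef
  have hrr : r * r = β / α := Real.mul_self_sqrt (div_nonneg hβ hα)
  have hsq : α * r = Real.sqrt (α * β) := by
    rw [eq_comm, Real.sqrt_eq_iff_mul_self_eq (mul_nonneg hα hβ) (by positivity)]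
    symm
    calc α * r * (α * r) = α * α * (r * r) := by ring
      _ = α * β := by rw [hrr]; field_simp
  have hsq2 : β / r = Real.sqrt (α * β) := by
    rw [← hsq, div_eq_iff hr.ne']
    calc β = α * (β / α) := by field_simp
      _ = α * (r * r) := by rw [hrr]
      _ = α * r * r := by ring
  have hsplit : ∑ k ∈ s, min (α * (2:ℝ) ^ k) (β / (2:ℝ) ^ k) ≤
      ∑ k ∈ s with k ≤ N, α * (2:ℝ) ^ k + ∑ k ∈ s with ¬ k ≤ N, β * (2:ℝ) ^ (-k) := by
    rw [← Finset.sum_filter_add_sum_filter_not s (fun k => k ≤ N)]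
    apply add_le_add
    · exact Finset.sum_le_sum fun k _ => min_le_left _ _
    · refine Finset.sum_le_sum fun k _ => ?_
      refine (min_le_right _ _).trans (le_of_eq ?_)
      rw [zpow_neg, div_eq_mul_inv]
  have h1 : ∑ k ∈ s with k ≤ N, α * (2:ℝ) ^ k ≤ 2 * Real.sqrt (α * β) := by
    rw [← Finset.mul_sum]
    calc α * ∑ k ∈ s with k ≤ N, (2:ℝ) ^ k ≤ α * (2 * (2:ℝ) ^ N) := by
          apply mul_le_mul_of_nonneg_left _ hα
          apply sum_two_zpow_le
          intro k hk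
          exact (Finset.mem_filter.1 hk).2
      _ ≤ α * (2 * r) := by
          apply mul_le_mul_of_nonneg_left _ hα
          linarith
      _ = 2 * (α * r) := by ring
      _ = _ := by rw [hsq]
  have h2 : ∑ k ∈ s with ¬ k ≤ N, β * (2:ℝ) ^ (-k) ≤ 2 * Real.sqrt (α * β) := by
    rw [← Finset.mul_sum]
    calc β * ∑ k ∈ s with ¬ k ≤ N, (2:ℝ) ^ (-k) ≤ β * (2 * (2:ℝ) ^ (-(N+1))) := by
          apply mul_le_mul_of_nonneg_left _ hβ
          apply sum_two_zpow_neg_le
          intro k hk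
          have := (Finset.mem_filter.1 hk).2
          omega
      _ ≤ β * (2 * r⁻¹) := by
          apply mul_le_mul_of_nonneg_left _ hβ
          rw [zpow_neg]
          have : ((2:ℝ) ^ (N+1))⁻¹ ≤ r⁻¹ := inv_anti₀ hr hN2.le
          linarith
      _ = 2 * (β / r) := by rw [div_eq_mul_inv]; ring
      _ = _ := by rw [hsq2]
  have h3 := Real.sqrt_nonneg (α * β)
  linarith

/-- number of dyadic exponents in an interval -/
lemma card_le (s : Finset ℤ) {a b : ℤ} (h : ∀ k ∈ s, a ≤ k ∧ k ≤ b) (hab : a ≤ b) :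
    (s.card : ℝ) ≤ (b - a : ℝ) + 1 := by
  have h1 : s ⊆ Finset.Icc a b := fun k hk => Finset.mem_Icc.2 (h k hk)
  have h2 := Finset.card_le_card h1
  rw [Int.card_Icc] at h2
  have h3 : ((b + 1 - a).toNat : ℤ) = b + 1 - a := Int.toNat_of_nonneg (by omega)
  have h4 : (s.card : ℤ) ≤ b + 1 - a := by
    rw [← h3]; exact_mod_cast h2
  have h5 : ((s.card : ℤ) : ℝ) ≤ ((b + 1 - a : ℤ) : ℝ) := by exact_mod_cast h4
  push_cast at h5
  linarith

end Crest.Agent.R106.Crit465
end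

-- ▼ part R106/NumCrit

/-!
# Row 106, node NUM: the critical sum (helper180)
-/

set_option autoImplicit false

namespace Crest.Agent.R106.Num

open Real Finset

namespace Crit

/-- geometric sum with a general base -/
lemma sum_zpow_le {ρ : ℝ} (hρ : 1 < ρ) (s : Finset ℤ) (N : ℤ) (h : ∀ k ∈ s, k ≤ N) :
    ∑ k ∈ s, ρ ^ k ≤ ρ / (ρ - 1) * ρ ^ N := by
  classical
  have hρ0 : 0 < ρ := by linarith
  have hρ1 : 0 < ρ - 1 := by linarith
  have hA : 0 < ρ / (ρ - 1) := div_pos hρ0 hρ1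
  have key : ∀ n : ℕ, ∀ s : Finset ℤ, ∀ N : ℤ, s.card ≤ n → (∀ k ∈ s, k ≤ N) →
      ∑ k ∈ s, ρ ^ k ≤ ρ / (ρ - 1) * ρ ^ N := by
    intro n
    induction n with
    | zero =>
      intro s N hs _
      have : s = ∅ := by
        rw [← Finset.card_eq_zero]; omega
      subst this
      simp only [Finset.sum_empty]
      positivity
    | succ n ih =>
      intro s N hs h
      rcases s.eq_empty_or_nonempty with rfl | hne
      · simp only [Finset.sum_empty]
        positivity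
      · have hm := s.max'_mem hne
        set m := s.max' hne with hmdef
        have h1 : ∑ k ∈ s, ρ ^ k = ρ ^ m + ∑ k ∈ s.erase m, ρ ^ k := by
          rw [Finset.add_sum_erase s (fun k => ρ ^ k) hm]
        have h2 : ∑ k ∈ s.erase m, ρ ^ k ≤ ρ / (ρ - 1) * ρ ^ (m - 1) := by
          apply ih
          · rw [Finset.card_erase_of_mem hm]; omega
          · intro k hk
            have hk1 := Finset.mem_of_mem_erase hk
            have hk2 := Finset.ne_of_mem_erase hk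
            have h3 : k ≤ m := s.le_max' k hk1
            omega
        have h3 : ρ ^ m + ρ / (ρ - 1) * ρ ^ (m - 1) = ρ / (ρ - 1) * ρ ^ m := by
          rw [zpow_sub_one₀ hρ0.ne']
          field_simp
          ring
        have h4 : ρ ^ m ≤ ρ ^ N := zpow_le_zpow_right₀ hρ.le (h m hm)
        have h5 : ρ / (ρ - 1) * ρ ^ m ≤ ρ / (ρ - 1) * ρ ^ N :=
          mul_le_mul_of_nonneg_left h4 hA.le
        rw [h1]
        linarith
  exact key s.card s N le_rfl h

/-- sum over the radii -/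
lemma sum_fiber (K : Finset Sh) (F : Sh → ℝ) (a b : ℤ × ℤ × ℤ × ℤ → ℝ)
    (ha : ∀ k, 0 ≤ a k) (hb : ∀ k, 0 ≤ b k)
    (hF : ∀ k ∈ K, F k ≤ min (a k.2 * (2 : ℝ) ^ k.1) (b k.2 / (2 : ℝ) ^ k.1)) :
    ∑ k ∈ K, F k ≤ ∑ k' ∈ K.image Prod.snd, 8 * √(a k' * b k') := by
  classical
  rw [← Finset.sum_fiberwise_of_maps_to (g := Prod.snd) (t := K.image Prod.snd)
    (fun k hk => Finset.mem_image_of_mem _ hk)]
  apply Finset.sum_le_sum
  intro k' _
  calc ∑ k ∈ K with k.2 = k', F k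
      ≤ ∑ k ∈ K with k.2 = k', min (a k' * (2 : ℝ) ^ k.1) (b k' / (2 : ℝ) ^ k.1) := by
        apply Finset.sum_le_sum
        intro k hk
        rw [Finset.mem_filter] at hk
        have := hF k hk.1
        rwa [hk.2] at this
    _ = ∑ r ∈ (K.filter (fun k => k.2 = k')).image Prod.fst,
          min (a k' * (2 : ℝ) ^ r) (b k' / (2 : ℝ) ^ r) := by
        rw [Finset.sum_image]
        intro x hx y hy hxy
        simp only [Finset.coe_filter, Set.mem_ofPred_eq] at hx hy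
        exact Prod.ext hxy (hx.2.trans hy.2.symm)
    _ ≤ 8 * √(a k' * b k') := Crit465.sum_min_le _ (ha k') (hb k')

/-- sum over a set that injects into a box -/
lemma sum_le_prod {ι : Type} (S : Finset ι) (φ : ι → ℤ × ℤ × ℤ × ℤ) (hinj : Set.InjOn φ S)
    (I1 I2 Ms Ns : Finset ℤ) (hmaps : ∀ k ∈ S, φ k ∈ I1 ×ˢ I2 ×ˢ Ms ×ˢ Ns)
    (w A : ℤ → ℝ) (hw : ∀ m, 0 ≤ w m) (hA : ∀ n ∈ Ns, 0 ≤ A n) (F : ι → ℝ)
    (hF : ∀ k ∈ S, F k ≤ w (φ k).2.2.1 * A (φ k).2.2.2) :
    ∑ k ∈ S, F k ≤ (I1.card : ℝ) * (I2.card : ℝ) * ((∑ m ∈ Ms, w m) * ∑ n ∈ Ns, A n) := by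
  classical
  calc ∑ k ∈ S, F k ≤ ∑ k ∈ S, w (φ k).2.2.1 * A (φ k).2.2.2 := Finset.sum_le_sum hF
    _ = ∑ x ∈ S.image φ, w x.2.2.1 * A x.2.2.2 := by
        rw [Finset.sum_image hinj]
    _ ≤ ∑ x ∈ I1 ×ˢ I2 ×ˢ Ms ×ˢ Ns, w x.2.2.1 * A x.2.2.2 := by
        apply Finset.sum_le_sum_of_subset_of_nonneg
        · intro x hx
          obtain ⟨k, hk, rfl⟩ := Finset.mem_image.1 hx
          exact hmaps k hk
        · intro x hx _
          simp only [Finset.mem_product] at hx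
          exact mul_nonneg (hw _) (hA _ hx.2.2.2)
    _ = (I1.card : ℝ) * (I2.card : ℝ) * ((∑ m ∈ Ms, w m) * ∑ n ∈ Ns, A n) := by
        rw [Finset.sum_product]
        simp only [Finset.sum_product, Finset.sum_const, nsmul_eq_mul]
        rw [Finset.sum_mul_sum]
        ring

lemma win_pos {c0 P Q : ℝ} (hc : 0 < c0) (hP : 1 < P) (hQ : 0 < Q) : 0 < win c0 P Q := by
  have hL : 0 < Real.log P := Real.log_pos hP
  have hP0 : 0 < P := by linarith
  unfold win
  apply mul_pos hc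
  apply lt_min <;> positivity

lemma win_le_left {c0 P Q : ℝ} (hc : 0 ≤ c0) : win c0 P Q ≤ c0 * (Q / P) ^ 2 :=
  mul_le_mul_of_nonneg_left (min_le_left _ _) hc

lemma win_le_right {c0 P Q : ℝ} (hc : 0 ≤ c0) : win c0 P Q ≤ c0 * (Q / (P * Real.log P)) :=
  mul_le_mul_of_nonneg_left (min_le_right _ _) hc

/-- `Q² / ℓ_Q ≤ (P + L Q)² / c0` -/
lemma sq_div_win {c0 P Q : ℝ} (hc : 0 < c0) (hP : 1 < P) (hQ : 0 < Q) :
    Q ^ 2 / win c0 P Q ≤ (P + Real.log P * Q) ^ 2 / c0 := by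
  have hL : 0 < Real.log P := Real.log_pos hP
  have hP0 : 0 < P := by linarith
  rw [div_le_div_iff₀ (win_pos hc hP hQ) hc]
  have h1 : Q ^ 2 ≤ (P + Real.log P * Q) ^ 2 * min ((Q / P) ^ 2) (Q / (P * Real.log P)) := by
    rcases min_cases ((Q / P) ^ 2) (Q / (P * Real.log P)) with h | h
    · rw [h.1, ← mul_pow]
      apply pow_le_pow_left₀ hQ.le
      rw [mul_div_assoc', le_div_iff₀ hP0]
      have : 0 ≤ Real.log P * Q * Q := by positivity
      nlinarith
    · rw [h.1, mul_div_assoc', le_div_iff₀ (by positivity)]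
      have h4 : 4 * (P * (Real.log P * Q)) ≤ (P + Real.log P * Q) ^ 2 := by
        nlinarith [sq_nonneg (P - Real.log P * Q)]
      have h5 : 4 * (P * (Real.log P * Q)) * Q ≤ (P + Real.log P * Q) ^ 2 * Q :=
        mul_le_mul_of_nonneg_right h4 hQ.le
      have h6 : 0 ≤ P * (Real.log P * Q) * Q := by positivity
      nlinarith
  unfold win
  calc Q ^ 2 * c0 ≤ ((P + Real.log P * Q) ^ 2 * min ((Q / P) ^ 2) (Q / (P * Real.log P))) * c0 :=
        mul_le_mul_of_nonneg_right h1 hc.le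
    _ = (P + Real.log P * Q) ^ 2 * (c0 * min ((Q / P) ^ 2) (Q / (P * Real.log P))) := by ring

/-- the coefficient of `R` -/
noncomputable def al (C l dl ep D Q : ℝ) : ℝ :=
  √(D / min dl ep) * C * l * dl * Q ^ 3 * min ep D

/-- the coefficient of `1/R` -/
noncomputable def be (C l lQ dl ep D Q : ℝ) : ℝ :=
  √(D / min dl ep) * C * (1 + 2 * l / lQ) / (Q * √(D * max dl D) * √D)

lemma cut_le_a {C c0 P Qt R dl ep D Q mu mus : ℝ} (hG : Geo C P Qt R dl ep D Q)
    (hO : Occ C c0 P Qt R dl ep D Q mu mus) :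
    cCut R dl ep D mu ≤ al C (win c0 P Qt) dl ep D Q * R := by
  have hR := hG.R_pos
  unfold cCut al
  calc √(D / min dl ep) / R ^ 2 * mu
      ≤ √(D / min dl ep) / R ^ 2 * (C * (win c0 P Qt * (R ^ 3 * dl * Q ^ 3 * min ep D))) :=
        mul_le_mul_of_nonneg_left hO.a (by positivity)
    _ = √(D / min dl ep) * C * win c0 P Qt * dl * Q ^ 3 * min ep D * R := by
        field_simp

lemma cut_le_b {C c0 P Qt R dl ep D Q mu mus : ℝ} (hC : 0 ≤ C) (hc0 : 0 < c0) (hP : 1 < P)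
    (hG : Geo C P Qt R dl ep D Q) (hO : Occ C c0 P Qt R dl ep D Q mu mus)
    (hQ : P ^ (11 / 20 : ℝ) ≤ Q) (hQt : P ^ (11 / 20 : ℝ) ≤ Qt)
    (hD : P ^ (-(1 / 10) : ℝ) ≤ D) (hR : R ≤ win c0 P Qt) :
    cCut R dl ep D mu ≤ be C (win c0 P Qt) (win c0 P Q) dl ep D Q / R := by
  have hR0 := hG.R_pos
  have hQ0 := hG.Q_pos
  have hD0 := hG.D_pos
  have hdl := hG.dl_pos
  have hP0 : 0 < P := by linarith
  have hlQ : 0 < win c0 P Q := win_pos hc0 hP hQ0
  have hsD : P ^ (-(1 / 20) : ℝ) ≤ √D := by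
    apply Real.le_sqrt_of_sq_le
    calc (P ^ (-(1 / 20) : ℝ)) ^ 2 = P ^ (-(1 / 10) : ℝ) := by
          rw [← Real.rpow_natCast, ← Real.rpow_mul hP0.le]
          norm_num
      _ ≤ D := hD
  have hgen : ∀ q : ℝ, P ^ (11 / 20 : ℝ) ≤ q → P ^ (2 / 5 : ℝ) ≤ √D * q := by
    intro q hq
    calc P ^ (2 / 5 : ℝ) ≤ P ^ (1 / 2 : ℝ) :=
          Real.rpow_le_rpow_of_exponent_le hP.le (by norm_num)
      _ = P ^ (-(1 / 20) : ℝ) * P ^ (11 / 20 : ℝ) := by
          rw [← Real.rpow_add hP0]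
          norm_num
      _ ≤ √D * q := by
          apply mul_le_mul hsD hq (by positivity) (by positivity)
  have hd := hO.d hQ (hgen Q hQ) (hgen Qt hQt)
  have hmx : 0 < max dl D := lt_max_of_lt_left hdl
  have hs1 : 0 < √(D * max dl D) := Real.sqrt_pos.2 (by positivity)
  have hs2 : 0 < √D := Real.sqrt_pos.2 hD0
  unfold cCut be
  calc √(D / min dl ep) / R ^ 2 * mu
      ≤ √(D / min dl ep) / R ^ 2 * (C * (R / (Q * √(D * max dl D)) *
          (1 + (win c0 P Qt + R) / win c0 P Q) / √D)) :=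
        mul_le_mul_of_nonneg_left hd (by positivity)
    _ ≤ √(D / min dl ep) / R ^ 2 * (C * (R / (Q * √(D * max dl D)) *
          (1 + 2 * win c0 P Qt / win c0 P Q) / √D)) := by
        gcongr
        linarith
    _ = √(D / min dl ep) * C * (1 + 2 * win c0 P Qt / win c0 P Q) /
          (Q * √(D * max dl D) * √D) / R := by
        field_simp

lemma al_mul_be {C P Qt R dl ep D Q l lQ : ℝ} (hC : 1 ≤ C) (hl : 0 ≤ l) (hlQ : 0 < lQ)
    (hG : Geo C P Qt R dl ep D Q) :
    al C l dl ep D Q * be C l lQ dl ep D Q ≤ C ^ 4 * (l * Q ^ 2 * (1 + 2 * l / lQ)) * √D := by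
  have hQ0 := hG.Q_pos
  have hD0 := hG.D_pos
  have hdl := hG.dl_pos
  have hep := hG.ep_pos
  have hC0 : 0 < C := by linarith
  have hmx : 0 < max dl D := lt_max_of_lt_left hdl
  have hmn : 0 < min dl ep := lt_min hdl hep
  have hmn' : 0 < min ep D := lt_min hep hD0
  have hs2 : 0 < √D := Real.sqrt_pos.2 hD0
  have hs3 : 0 < √(max dl D) := Real.sqrt_pos.2 hmx
  -- the geometric factor
  have key : dl * min ep D ≤ C ^ 2 * √D * (min dl ep * √(max dl D)) := by
    have hCC : C ≤ C ^ 2 := by nlinarith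
    have case2 : dl ≤ C * ep → dl * min ep D ≤ C ^ 2 * √D * (min dl ep * √(max dl D)) := by
      intro h
      have h1 : dl ≤ C * min dl ep := by
        rcases min_cases dl ep with h2 | h2
        · rw [h2.1]; nlinarith
        · rw [h2.1]; exact h
      have h2 : min ep D ≤ √D * √(max dl D) := by
        calc min ep D ≤ D := min_le_right _ _
          _ = √D * √D := (Real.mul_self_sqrt hD0.le).symm
          _ ≤ √D * √(max dl D) := by
              apply mul_le_mul_of_nonneg_left _ hs2.le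
              exact Real.sqrt_le_sqrt (le_max_right _ _)
      calc dl * min ep D ≤ (C * min dl ep) * (√D * √(max dl D)) :=
            mul_le_mul h1 h2 hmn'.le (by positivity)
        _ = C * (√D * (min dl ep * √(max dl D))) := by ring
        _ ≤ C ^ 2 * (√D * (min dl ep * √(max dl D))) := by
            apply mul_le_mul_of_nonneg_right hCC (by positivity)
        _ = C ^ 2 * √D * (min dl ep * √(max dl D)) := by ring
    rcases hG.zone with h | h | h
    · obtain ⟨-, h2, h3⟩ := h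
      have h1 : ep ≤ C * min dl ep := by
        rcases min_cases dl ep with h4 | h4
        · rw [h4.1]; exact h3
        · rw [h4.1]; nlinarith
      have h4 : √dl ≤ C * √D := by
        calc √dl ≤ √(C ^ 2 * D) := by
              apply Real.sqrt_le_sqrt
              nlinarith
          _ = C * √D := by
              rw [Real.sqrt_mul (by positivity), Real.sqrt_sq hC0.le]
      have h5 : dl ≤ C * √D * √(max dl D) := by
        calc dl = √dl * √dl := (Real.mul_self_sqrt hdl.le).symm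
          _ ≤ (C * √D) * √(max dl D) := by
              apply mul_le_mul h4 _ (by positivity) (by positivity)
              exact Real.sqrt_le_sqrt (le_max_left _ _)
      calc dl * min ep D ≤ dl * ep := mul_le_mul_of_nonneg_left (min_le_left _ _) hdl.le
        _ ≤ (C * √D * √(max dl D)) * (C * min dl ep) :=
            mul_le_mul h5 h1 hep.le (by positivity)
        _ = C ^ 2 * √D * (min dl ep * √(max dl D)) := by ring
    · exact case2 h.2.2
    · exact case2 h.1
  have hmul : al C l dl ep D Q * be C l lQ dl ep D Q =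
      C ^ 2 * (l * Q ^ 2 * (1 + 2 * l / lQ)) * ((dl * min ep D) / (min dl ep * √(max dl D))) := by
    unfold al be
    have e1 : √(D / min dl ep) * √(D / min dl ep) = D / min dl ep :=
      Real.mul_self_sqrt (by positivity)
    have e2 : √(D * max dl D) * √D = D * √(max dl D) := by
      rw [Real.sqrt_mul hD0.le]
      calc √D * √(max dl D) * √D = (√D * √D) * √(max dl D) := by ring
        _ = D * √(max dl D) := by rw [Real.mul_self_sqrt hD0.le]
    have e3 : Q * √(D * max dl D) * √D = Q * (D * √(max dl D)) := by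
      rw [mul_assoc, e2]
    rw [e3]
    calc √(D / min dl ep) * C * l * dl * Q ^ 3 * min ep D *
          (√(D / min dl ep) * C * (1 + 2 * l / lQ) / (Q * (D * √(max dl D))))
        = (√(D / min dl ep) * √(D / min dl ep)) * (C * l * dl * Q ^ 3 * min ep D *
          (C * (1 + 2 * l / lQ) / (Q * (D * √(max dl D))))) := by ring
      _ = (D / min dl ep) * (C * l * dl * Q ^ 3 * min ep D *
          (C * (1 + 2 * l / lQ) / (Q * (D * √(max dl D))))) := by rw [e1]
      _ = C ^ 2 * (l * Q ^ 2 * (1 + 2 * l / lQ)) *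
          ((dl * min ep D) / (min dl ep * √(max dl D))) := by
          field_simp
  rw [hmul]
  have h6 : (dl * min ep D) / (min dl ep * √(max dl D)) ≤ C ^ 2 * √D := by
    rw [div_le_iff₀ (by positivity)]
    exact key
  calc C ^ 2 * (l * Q ^ 2 * (1 + 2 * l / lQ)) * ((dl * min ep D) / (min dl ep * √(max dl D)))
      ≤ C ^ 2 * (l * Q ^ 2 * (1 + 2 * l / lQ)) * (C ^ 2 * √D) := by
        apply mul_le_mul_of_nonneg_left h6
        positivity
    _ = C ^ 4 * (l * Q ^ 2 * (1 + 2 * l / lQ)) * √D := by ring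

/-- the amplitude after the sum over `R` -/
noncomputable def amp (c0 P l Q : ℝ) : ℝ := Q * √l + 2 * (l / √c0) * (P + Real.log P * Q)

lemma amp_nonneg {c0 P l Q : ℝ} (hc : 0 < c0) (hP : 1 < P) (hl : 0 ≤ l) (hQ : 0 ≤ Q) :
    0 ≤ amp c0 P l Q := by
  have hL : 0 < Real.log P := Real.log_pos hP
  unfold amp
  positivity

lemma sqrt_le_amp {c0 P l Q : ℝ} (hc : 0 < c0) (hP : 1 < P) (hl : 0 ≤ l) (hQ : 0 < Q) :
    √(l * Q ^ 2 * (1 + 2 * l / win c0 P Q)) ≤ amp c0 P l Q := by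
  have hL : 0 < Real.log P := Real.log_pos hP
  have hP0 : 0 < P := by linarith
  have hlQ := win_pos hc hP hQ
  rw [Real.sqrt_le_left (amp_nonneg hc hP hl hQ.le)]
  have h1 := sq_div_win hc hP hQ
  have h2 : l * Q ^ 2 * (1 + 2 * l / win c0 P Q) = l * Q ^ 2 +
      2 * l ^ 2 * (Q ^ 2 / win c0 P Q) := by
    field_simp
  have h3 : (l / √c0) ^ 2 = l ^ 2 / c0 := by
    rw [div_pow, Real.sq_sqrt hc.le]
  have h4 : (√l) ^ 2 = l := Real.sq_sqrt hl
  have h5 : 0 ≤ (Q * √l) * (2 * (l / √c0) * (P + Real.log P * Q)) := by positivity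
  have h6 : 2 * l ^ 2 * (Q ^ 2 / win c0 P Q) ≤ 2 * l ^ 2 * ((P + Real.log P * Q) ^ 2 / c0) :=
    mul_le_mul_of_nonneg_left h1 (by positivity)
  have h7 : (2 * (l / √c0) * (P + Real.log P * Q)) ^ 2 =
      4 * (l ^ 2 * ((P + Real.log P * Q) ^ 2 / c0)) := by
    rw [mul_pow, mul_pow, h3]
    ring
  have h8 : 0 ≤ l ^ 2 * ((P + Real.log P * Q) ^ 2 / c0) := by positivity
  have h9 : (Q * √l) ^ 2 = l * Q ^ 2 := by
    rw [mul_pow, h4]; ring
  unfold amp
  rw [h2, add_sq, h7, h9]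
  linarith

/-- the sum over `Q` -/
lemma sum_amp {c0 P Qt : ℝ} (hc : 0 < c0) (hP : 1 < P) (hL1 : 1 ≤ Real.log P) (hQt : 0 < Qt)
    (Ns : Finset ℤ) (hN : ∀ n ∈ Ns, 0 ≤ n ∧ (2 : ℝ) ^ n ≤ P) :
    ∑ n ∈ Ns, amp c0 P (win c0 P Qt) ((2 : ℝ) ^ n) ≤ 12 * √c0 * Qt := by
  have hP0 : 0 < P := by linarith
  have hL0 : 0 < Real.log P := by linarith
  set l := win c0 P Qt with hl
  have hl0 : 0 < l := win_pos hc hP hQt
  obtain ⟨N, hN1, hN2⟩ := exists_mem_Ico_zpow (y := (2:ℝ)) hP0 (by norm_num)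
  have hle : ∀ n ∈ Ns, n ≤ N := by
    intro n hn
    have h1 := (hN n hn).2
    have h2 : (2 : ℝ) ^ n < 2 ^ (N + 1) := lt_of_le_of_lt h1 hN2
    have h3 := (zpow_lt_zpow_iff_right₀ (by norm_num : (1 : ℝ) < 2)).1 h2
    omega
  have hsumQ : ∑ n ∈ Ns, (2 : ℝ) ^ n ≤ 2 * P := by
    have h1 := Crit465.sum_two_zpow_le Ns N hle
    linarith
  have hN0 : 0 ≤ N := by
    by_contra hc'
    push Not at hc'
    have h1 : (2 : ℝ) ^ (N + 1) ≤ 2 ^ (0 : ℤ) := zpow_le_zpow_right₀ (by norm_num) (by omega)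
    rw [zpow_zero] at h1
    linarith
  have hcard : (Ns.card : ℝ) ≤ 3 * Real.log P := by
    have h1 := Crit465.card_le Ns (a := 0) (b := N) (fun k hk => ⟨(hN k hk).1, hle k hk⟩) hN0
    have h2 : (N : ℝ) * Real.log 2 ≤ Real.log P := by
      rw [← Real.log_zpow]
      exact Real.log_le_log (by positivity) hN1
    have h3 : (0.69 : ℝ) ≤ Real.log 2 := by
      have := Real.log_two_gt_d9
      linarith
    have h4 : (0 : ℝ) ≤ N := by exact_mod_cast hN0
    have h5 : (N : ℝ) * 0.69 ≤ Real.log P :=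
      (mul_le_mul_of_nonneg_left h3 h4).trans h2
    push_cast at h1
    linarith
  have hsc : 0 < √c0 := Real.sqrt_pos.2 hc
  have hexp : ∑ n ∈ Ns, amp c0 P l ((2 : ℝ) ^ n) = √l * ∑ n ∈ Ns, (2 : ℝ) ^ n +
      2 * (l / √c0) * ((Ns.card : ℝ) * P + Real.log P * ∑ n ∈ Ns, (2 : ℝ) ^ n) := by
    unfold amp
    rw [Finset.sum_add_distrib, ← Finset.sum_mul, ← Finset.mul_sum, Finset.sum_add_distrib,
      Finset.sum_const, nsmul_eq_mul, ← Finset.mul_sum]
    ring
  rw [hexp]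
  have h1 : √l * ∑ n ∈ Ns, (2 : ℝ) ^ n ≤ 2 * (√c0 * Qt) := by
    have h2 : √l ≤ √c0 * (Qt / P) := by
      calc √l ≤ √(c0 * (Qt / P) ^ 2) := Real.sqrt_le_sqrt (win_le_left hc.le)
        _ = √c0 * (Qt / P) := by
            rw [Real.sqrt_mul hc.le, Real.sqrt_sq (by positivity)]
    calc √l * ∑ n ∈ Ns, (2 : ℝ) ^ n ≤ (√c0 * (Qt / P)) * (2 * P) := by
          apply mul_le_mul h2 hsumQ _ (by positivity)
          exact Finset.sum_nonneg (fun n _ => by positivity)
      _ = 2 * (√c0 * Qt) := by field_simp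
  have h2 : 2 * (l / √c0) * ((Ns.card : ℝ) * P + Real.log P * ∑ n ∈ Ns, (2 : ℝ) ^ n) ≤
      10 * (√c0 * Qt) := by
    have h3 : l / √c0 ≤ √c0 * (Qt / (P * Real.log P)) := by
      rw [div_le_iff₀ hsc]
      calc l ≤ c0 * (Qt / (P * Real.log P)) := win_le_right hc.le
        _ = √c0 * (Qt / (P * Real.log P)) * √c0 := by
            have := Real.mul_self_sqrt hc.le
            calc c0 * (Qt / (P * Real.log P)) = (√c0 * √c0) * (Qt / (P * Real.log P)) := by
                  rw [this]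
              _ = _ := by ring
    have h4 : (Ns.card : ℝ) * P + Real.log P * ∑ n ∈ Ns, (2 : ℝ) ^ n ≤ 5 * (Real.log P * P) := by
      have h5 : (Ns.card : ℝ) * P ≤ 3 * Real.log P * P := mul_le_mul_of_nonneg_right hcard hP0.le
      have h6 : Real.log P * ∑ n ∈ Ns, (2 : ℝ) ^ n ≤ Real.log P * (2 * P) :=
        mul_le_mul_of_nonneg_left hsumQ hL0.le
      linarith
    have h7 : 0 ≤ (Ns.card : ℝ) * P + Real.log P * ∑ n ∈ Ns, (2 : ℝ) ^ n := by
      have : 0 ≤ ∑ n ∈ Ns, (2 : ℝ) ^ n := Finset.sum_nonneg (fun n _ => by positivity)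
      positivity
    calc 2 * (l / √c0) * ((Ns.card : ℝ) * P + Real.log P * ∑ n ∈ Ns, (2 : ℝ) ^ n)
        ≤ 2 * (√c0 * (Qt / (P * Real.log P))) * (5 * (Real.log P * P)) := by
          apply mul_le_mul _ h4 h7 (by positivity)
          linarith
      _ = 10 * (√c0 * Qt) := by field_simp; ring
  linarith

/-- `√√(2^m) = (2^(1/4))^m` -/
lemma sqrt_sqrt_zpow (m : ℤ) : √(√((2 : ℝ) ^ m)) = ((2 : ℝ) ^ (1 / 4 : ℝ)) ^ m := by
  rw [Real.sqrt_eq_rpow, Real.sqrt_eq_rpow, ← Real.rpow_mul (by positivity),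
    ← Real.rpow_intCast, ← Real.rpow_mul (by norm_num), ← Real.rpow_intCast,
    ← Real.rpow_mul (by norm_num)]
  congr 1
  ring

lemma exp_le {C : ℝ} {c : ℕ} (hc : C ≤ 2 ^ c) {x y : ℤ}
    (h : (2 : ℝ) ^ x ≤ C * (2 : ℝ) ^ y) : x ≤ c + y := by
  have h1 : (2 : ℝ) ^ x ≤ (2 : ℝ) ^ ((c : ℤ) + y) := by
    rw [zpow_add₀ (by norm_num), zpow_natCast]
    exact h.trans (mul_le_mul_of_nonneg_right hc (by positivity))
  exact (zpow_le_zpow_iff_right₀ (by norm_num : (1 : ℝ) < 2)).1 h1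

/-- the border condition in terms of exponents -/
lemma border_exp {C lam : ℝ} {c : ℕ} (hC : 0 ≤ C) (hc : C ≤ 2 ^ c) {lam0 : ℤ}
    (h1 : (2 : ℝ) ^ lam0 ≤ lam) (h2 : lam < (2 : ℝ) ^ (lam0 + 1)) {i j : ℤ}
    (hB1 : (2 : ℝ) ^ j ≤ C * (lam * ((2 : ℝ) ^ i) ^ 2))
    (hB2 : lam * ((2 : ℝ) ^ i) ^ 2 ≤ C * (2 : ℝ) ^ j) :
    -(c : ℤ) ≤ j - 2 * i - lam0 ∧ j - 2 * i - lam0 ≤ c + 1 := by
  have e : ((2 : ℝ) ^ i) ^ 2 = (2 : ℝ) ^ (2 * i) := by
    rw [← zpow_natCast, ← zpow_mul]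
    congr 1
    push_cast
    ring
  rw [e] at hB1 hB2
  constructor
  · have h3 : (2 : ℝ) ^ (lam0 + 2 * i) ≤ C * (2 : ℝ) ^ j := by
      rw [zpow_add₀ (by norm_num)]
      exact (mul_le_mul_of_nonneg_right h1 (by positivity)).trans hB2
    have := exp_le hc h3
    omega
  · have h3 : (2 : ℝ) ^ j ≤ C * (2 : ℝ) ^ (lam0 + 1 + 2 * i) := by
      rw [zpow_add₀ (by norm_num)]
      refine hB1.trans ?_
      apply mul_le_mul_of_nonneg_left _ hC
      exact mul_le_mul_of_nonneg_right h2.le (by positivity)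
    have := exp_le hc h3
    omega

end Crit

open Crit in
/-- **The critical sum.** -/
theorem critSum : CritSum := by
  classical
  intro C hC
  have hC0 : 0 < C := by linarith
  obtain ⟨c, hc⟩ : ∃ c : ℕ, C < 2 ^ c := pow_unbounded_of_one_lt C (by norm_num)
  have hc' : C ≤ 2 ^ c := hc.le
  set ρ : ℝ := (2 : ℝ) ^ (1 / 4 : ℝ) with hρdef
  have hρ : 1 < ρ := Real.one_lt_rpow (by norm_num) (by norm_num)
  have hρ0 : 0 < ρ := by linarith
  have hρ1 : 0 < ρ - 1 := by linarith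
  set S0 : ℝ := ρ / (ρ - 1) * ρ ^ (c : ℤ) with hS0
  have hS0' : 0 < S0 := by positivity
  set I1 : Finset ℤ := Finset.Icc (-(2 * (c : ℤ) + 1)) (2 * (c : ℤ) + 1) with hI1
  set I2 : Finset ℤ := Finset.Icc (-(c : ℤ)) ((c : ℤ) + 1) with hI2
  refine ⟨3 * ((I1.card : ℝ) * (I2.card : ℝ) * (S0 * (8 * C ^ 2 * 12))), by positivity, ?_⟩
  intro c0 P Qt hc0 hc01 hLarge hQt hQtP K mu mus hK
  have hP : 1 < P := hLarge.P1
  have hP0 : 0 < P := by linarith
  have hQt0 : 0 < Qt := lt_of_lt_of_le (Real.rpow_pos_of_pos hP0 _) hQt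
  set l := win c0 P Qt with hl
  have hl0 : 0 < l := win_pos hc0 hP hQt0
  have hlam : 0 < lamc P Qt := by
    unfold lamc
    positivity
  obtain ⟨lam0, hlam1, hlam2⟩ := exists_mem_Ico_zpow (y := (2 : ℝ)) hlam (by norm_num)
  -- the coefficients
  set a : ℤ × ℤ × ℤ × ℤ → ℝ := fun k =>
    al C l ((2 : ℝ) ^ k.1) ((2 : ℝ) ^ k.2.1) ((2 : ℝ) ^ k.2.2.1) ((2 : ℝ) ^ k.2.2.2) with ha
  set b : ℤ × ℤ × ℤ × ℤ → ℝ := fun k =>
    be C l (win c0 P ((2 : ℝ) ^ k.2.2.2)) ((2 : ℝ) ^ k.1) ((2 : ℝ) ^ k.2.1)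
      ((2 : ℝ) ^ k.2.2.1) ((2 : ℝ) ^ k.2.2.2) with hb
  have ha0 : ∀ k, 0 ≤ a k := by
    intro k
    rw [ha]
    unfold al
    have h1 : 0 < min ((2 : ℝ) ^ k.2.1) ((2 : ℝ) ^ k.2.2.1) := lt_min (by positivity) (by positivity)
    positivity
  have hb0 : ∀ k, 0 ≤ b k := by
    intro k
    rw [hb]
    unfold be
    have h1 : 0 < win c0 P ((2 : ℝ) ^ k.2.2.2) := win_pos hc0 hP (by positivity)
    positivity
  have hstep1 : ∑ k ∈ K, cCut (sR k) (sd k) (se k) (sD k) (mu k) ≤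
      ∑ k' ∈ K.image Prod.snd, 8 * √(a k' * b k') := by
    apply sum_fiber K _ a b ha0 hb0
    intro k hk
    obtain ⟨hg, hB, hR, hD⟩ := hK k hk
    exact le_min (cut_le_a hg.geo hg.occ)
      (cut_le_b hC0.le hc0 hP hg.geo hg.occ hB.1 hQt hD hR)
  refine hstep1.trans ?_
  set K' := K.image Prod.snd with hK'
  set A : ℤ → ℝ := fun n => 8 * C ^ 2 * amp c0 P l ((2 : ℝ) ^ n) with hA
  set w : ℤ → ℝ := fun m => ρ ^ m with hw
  have hw0 : ∀ m, 0 ≤ w m := fun m => by rw [hw]; positivity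
  have hA0 : ∀ n, 0 ≤ A n := by
    intro n
    rw [hA]
    have := amp_nonneg hc0 hP hl0.le (show (0 : ℝ) ≤ (2 : ℝ) ^ n by positivity)
    positivity
  -- facts on the elements of K'
  have hfacts : ∀ k' ∈ K', 8 * √(a k' * b k') ≤ w k'.2.2.1 * A k'.2.2.2 ∧
      (-(c : ℤ) ≤ k'.2.1 - 2 * k'.1 - lam0 ∧ k'.2.1 - 2 * k'.1 - lam0 ≤ c + 1) ∧
      k'.2.2.1 ≤ c ∧ (0 ≤ k'.2.2.2 ∧ (2 : ℝ) ^ k'.2.2.2 ≤ P) ∧
      ((k'.2.2.1 ≤ c + k'.1 ∧ k'.1 ≤ c + k'.2.2.1) ∨ (k'.2.2.1 ≤ c + k'.2.1 ∧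
        k'.2.1 ≤ c + k'.2.2.1) ∨ (k'.1 ≤ c + k'.2.1 ∧ k'.2.1 ≤ c + k'.1)) := by
    intro k' hk'
    obtain ⟨k, hk, rfl⟩ := Finset.mem_image.1 hk'
    obtain ⟨hg, hB, hR, hD⟩ := hK k hk
    have hG := hg.geo
    refine ⟨?_, border_exp hC0.le hc' hlam1 hlam2 hB.2.1 hB.2.2, ?_, ⟨?_, hG.Q_le⟩, ?_⟩
    · have h1 := al_mul_be hC hl0.le (win_pos hc0 hP hG.Q_pos) hG
      have h2 := sqrt_le_amp hc0 hP hl0.le hG.Q_pos
      have hX : 0 ≤ l * sQ k ^ 2 * (1 + 2 * l / win c0 P (sQ k)) := by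
        have := win_pos hc0 hP hG.Q_pos
        positivity
      have h3 : √(a k.2 * b k.2) ≤ C ^ 2 * amp c0 P l (sQ k) * √(√(sD k)) := by
        calc √(a k.2 * b k.2)
            ≤ √(C ^ 4 * (l * sQ k ^ 2 * (1 + 2 * l / win c0 P (sQ k))) * √(sD k)) :=
              Real.sqrt_le_sqrt h1
          _ = C ^ 2 * √(l * sQ k ^ 2 * (1 + 2 * l / win c0 P (sQ k))) * √(√(sD k)) := by
              rw [Real.sqrt_mul (by positivity), Real.sqrt_mul (by positivity)]
              congr 2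
              rw [show C ^ 4 = (C ^ 2) ^ 2 by ring, Real.sqrt_sq (by positivity)]
          _ ≤ C ^ 2 * amp c0 P l (sQ k) * √(√(sD k)) := by
              apply mul_le_mul_of_nonneg_right _ (by positivity)
              exact mul_le_mul_of_nonneg_left h2 (by positivity)
      have h4 : √(√(sD k)) = w k.2.2.2.1 := sqrt_sqrt_zpow _
      rw [h4] at h3
      calc 8 * √(a k.2 * b k.2) ≤ 8 * (C ^ 2 * amp c0 P l (sQ k) * w k.2.2.2.1) := by
            apply mul_le_mul_of_nonneg_left h3 (by norm_num)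
        _ = w k.2.2.2.1 * A k.2.2.2.2 := by
            rw [hA]
            unfold sQ
            ring
    · have h1 : (2 : ℝ) ^ k.2.2.2.1 ≤ C * (2 : ℝ) ^ (0 : ℤ) := by
        rw [zpow_zero, mul_one]
        exact hG.D_le
      have := exp_le hc' h1
      omega
    · by_contra hneg
      push Not at hneg
      have h1 : (2 : ℝ) ^ k.2.2.2.2 < 1 := zpow_lt_one_of_neg₀ (by norm_num) hneg
      have h2 : (1 : ℝ) ≤ P ^ (11 / 20 : ℝ) := Real.one_le_rpow hP.le (by norm_num)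
      have h3 : P ^ (11 / 20 : ℝ) ≤ (2 : ℝ) ^ k.2.2.2.2 := hB.1
      linarith
    · rcases hG.zone with h | h | h
      · exact Or.inl ⟨exp_le hc' h.1, exp_le hc' h.2.1⟩
      · exact Or.inr (Or.inl ⟨exp_le hc' h.1, exp_le hc' h.2.1⟩)
      · exact Or.inr (Or.inr ⟨exp_le hc' h.1, exp_le hc' h.2.1⟩)
  set Ms := K'.image (fun k => k.2.2.1) with hMs
  set Ns := K'.image (fun k => k.2.2.2) with hNs
  have hsumw : ∑ m ∈ Ms, w m ≤ S0 := by
    apply sum_zpow_le hρ
    intro m hm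
    obtain ⟨k', hk', rfl⟩ := Finset.mem_image.1 hm
    exact (hfacts k' hk').2.2.1
  have hsumA : ∑ n ∈ Ns, A n ≤ 8 * C ^ 2 * (12 * √c0 * Qt) := by
    rw [hA, ← Finset.mul_sum]
    apply mul_le_mul_of_nonneg_left _ (by positivity)
    apply sum_amp hc0 hP hLarge.L1 hQt0
    intro n hn
    obtain ⟨k', hk', rfl⟩ := Finset.mem_image.1 hn
    exact (hfacts k' hk').2.2.2.1
  set Z : ℝ := (I1.card : ℝ) * (I2.card : ℝ) * ((∑ m ∈ Ms, w m) * ∑ n ∈ Ns, A n) with hZ
  -- the three zones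
  have hz : ∀ (S : Finset (ℤ × ℤ × ℤ × ℤ)) (φ : ℤ × ℤ × ℤ × ℤ → ℤ × ℤ × ℤ × ℤ), S ⊆ K' →
      Set.InjOn φ S → (∀ k ∈ S, (φ k).1 ∈ I1 ∧ (φ k).2.1 ∈ I2) →
      (∀ k, (φ k).2.2 = k.2.2) → ∑ k' ∈ S, 8 * √(a k' * b k') ≤ Z := by
    intro S φ hS hinj hmap hφ
    apply sum_le_prod S φ hinj I1 I2 Ms Ns _ w A hw0 (fun n _ => hA0 n)
    · intro k hk
      have h1 := (hfacts k (hS hk)).1
      rw [hφ k]
      exact h1
    · intro k hk
      simp only [Finset.mem_product]
      refine ⟨(hmap k hk).1, (hmap k hk).2, ?_, ?_⟩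
      · rw [hφ k]
        exact Finset.mem_image_of_mem (fun k : ℤ × ℤ × ℤ × ℤ => k.2.2.1) (hS hk)
      · rw [hφ k]
        exact Finset.mem_image_of_mem (fun k : ℤ × ℤ × ℤ × ℤ => k.2.2.2) (hS hk)
  have hz1 : ∑ k' ∈ K'.filter (fun k => k.2.2.1 ≤ (c : ℤ) + k.1 ∧ k.1 ≤ (c : ℤ) + k.2.2.1),
      8 * √(a k' * b k') ≤ Z := by
    apply hz _ (fun k => (k.1 - k.2.2.1, k.2.1 - 2 * k.1 - lam0, k.2.2)) (Finset.filter_subset _ _)
    · rintro ⟨i, j, m, n⟩ _ ⟨i', j', m', n'⟩ _ h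
      simp only [Prod.mk.injEq] at h ⊢
      obtain ⟨h1, h2, h3, h4⟩ := h
      refine ⟨?_, ?_, h3, h4⟩ <;> omega
    · intro k hk
      rw [Finset.mem_filter] at hk
      have h1 := (hfacts k hk.1).2.1
      have h2 := hk.2
      rw [hI1, hI2, Finset.mem_Icc, Finset.mem_Icc]
      dsimp only
      refine ⟨⟨?_, ?_⟩, ?_, ?_⟩ <;> omega
    · intro k
      rfl
  have hz2 : ∑ k' ∈ K'.filter (fun k => k.2.2.1 ≤ (c : ℤ) + k.2.1 ∧ k.2.1 ≤ (c : ℤ) + k.2.2.1),
      8 * √(a k' * b k') ≤ Z := by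
    apply hz _ (fun k => (k.2.1 - k.2.2.1, k.2.1 - 2 * k.1 - lam0, k.2.2))
      (Finset.filter_subset _ _)
    · rintro ⟨i, j, m, n⟩ _ ⟨i', j', m', n'⟩ _ h
      simp only [Prod.mk.injEq] at h ⊢
      obtain ⟨h1, h2, h3, h4⟩ := h
      refine ⟨?_, ?_, h3, h4⟩ <;> omega
    · intro k hk
      rw [Finset.mem_filter] at hk
      have h1 := (hfacts k hk.1).2.1
      have h2 := hk.2
      rw [hI1, hI2, Finset.mem_Icc, Finset.mem_Icc]
      dsimp only
      refine ⟨⟨?_, ?_⟩, ?_, ?_⟩ <;> omega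
    · intro k
      rfl
  have hz3 : ∑ k' ∈ K'.filter (fun k => k.1 ≤ (c : ℤ) + k.2.1 ∧ k.2.1 ≤ (c : ℤ) + k.1),
      8 * √(a k' * b k') ≤ Z := by
    apply hz _ (fun k => (k.1 + lam0, k.2.1 - 2 * k.1 - lam0, k.2.2)) (Finset.filter_subset _ _)
    · rintro ⟨i, j, m, n⟩ _ ⟨i', j', m', n'⟩ _ h
      simp only [Prod.mk.injEq] at h ⊢
      obtain ⟨h1, h2, h3, h4⟩ := h
      refine ⟨?_, ?_, h3, h4⟩ <;> omega
    · intro k hk
      rw [Finset.mem_filter] at hk
      have h1 := (hfacts k hk.1).2.1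
      have h2 := hk.2
      rw [hI1, hI2, Finset.mem_Icc, Finset.mem_Icc]
      dsimp only
      refine ⟨⟨?_, ?_⟩, ?_, ?_⟩ <;> omega
    · intro k
      rfl
  have hcover : ∑ k' ∈ K', 8 * √(a k' * b k') ≤ Z + (Z + Z) := by
    set G : ℤ × ℤ × ℤ × ℤ → ℝ := fun k' => 8 * √(a k' * b k') with hG
    have hG0 : ∀ k, 0 ≤ G k := fun k => by rw [hG]; positivity
    calc ∑ k' ∈ K', G k'
        ≤ ∑ k' ∈ K', ((if (k'.2.2.1 ≤ c + k'.1 ∧ k'.1 ≤ c + k'.2.2.1) then G k' else 0) +
            ((if (k'.2.2.1 ≤ c + k'.2.1 ∧ k'.2.1 ≤ c + k'.2.2.1) then G k' else 0) +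
            (if (k'.1 ≤ c + k'.2.1 ∧ k'.2.1 ≤ c + k'.1) then G k' else 0))) := by
          apply Finset.sum_le_sum
          intro k' hk'
          have h0 := hG0 k'
          rcases (hfacts k' hk').2.2.2.2 with h | h | h
          · rw [if_pos h]
            have : 0 ≤ (if (k'.2.2.1 ≤ c + k'.2.1 ∧ k'.2.1 ≤ c + k'.2.2.1) then G k' else 0) := by
              split_ifs <;> linarith
            have : 0 ≤ (if (k'.1 ≤ c + k'.2.1 ∧ k'.2.1 ≤ c + k'.1) then G k' else 0) := by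
              split_ifs <;> linarith
            linarith
          · rw [if_pos h]
            have : 0 ≤ (if (k'.2.2.1 ≤ c + k'.1 ∧ k'.1 ≤ c + k'.2.2.1) then G k' else 0) := by
              split_ifs <;> linarith
            have : 0 ≤ (if (k'.1 ≤ c + k'.2.1 ∧ k'.2.1 ≤ c + k'.1) then G k' else 0) := by
              split_ifs <;> linarith
            linarith
          · rw [if_pos h]
            have : 0 ≤ (if (k'.2.2.1 ≤ c + k'.1 ∧ k'.1 ≤ c + k'.2.2.1) then G k' else 0) := by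
              split_ifs <;> linarith
            have : 0 ≤ (if (k'.2.2.1 ≤ c + k'.2.1 ∧ k'.2.1 ≤ c + k'.2.2.1) then G k' else 0) := by
              split_ifs <;> linarith
            linarith
      _ = _ + (_ + _) := by
          rw [Finset.sum_add_distrib, Finset.sum_add_distrib, ← Finset.sum_filter,
            ← Finset.sum_filter, ← Finset.sum_filter]
      _ ≤ Z + (Z + Z) := add_le_add hz1 (add_le_add hz2 hz3)
  refine hcover.trans ?_
  have hZle : Z ≤ (I1.card : ℝ) * (I2.card : ℝ) * (S0 * (8 * C ^ 2 * (12 * √c0 * Qt))) := by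
    rw [hZ]
    apply mul_le_mul_of_nonneg_left _ (by positivity)
    apply mul_le_mul hsumw hsumA _ hS0'.le
    exact Finset.sum_nonneg (fun n _ => hA0 n)
  calc Z + (Z + Z) = 3 * Z := by ring
    _ ≤ 3 * ((I1.card : ℝ) * (I2.card : ℝ) * (S0 * (8 * C ^ 2 * (12 * √c0 * Qt)))) := by
        linarith
    _ = 3 * ((I1.card : ℝ) * (I2.card : ℝ) * (S0 * (8 * C ^ 2 * 12))) * √c0 * Qt := by ring

end Crest.Agent.R106.Num
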