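import Crest.Agent.R106.PairKin
import Crest.Agent.R106.GSRDefs
import Crest.Agent.R106.MomDefs

/-!
# Row 106: bridge between the velocity form (`PairAlg`, any inner product space) and the momentum
form (`GSRDefs`, `MomDefs`) of the kernels (helper898)
-/

set_option autoImplicit false

open MeasureTheory Set Filter Topology
open Crest.AnalysisR.VecCalc3 Crest.AnalysisR.PDE.RVM
open scoped RealInnerProductSpace

noncomputable section

namespace Crest.Agent.R106.Pair

open Crest.Agent.R106.GSR (gam)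

/-! ### the map `p ↦ relVel p` -/

theorem gam_pos (p : R3) : 0 < gam p := Real.sqrt_pos.mpr (by positivity)

theorem gam_sq (p : R3) : gam p ^ 2 = 1 + ‖p‖ ^ 2 := Real.sq_sqrt (by positivity)

theorem one_le_gam (p : R3) : 1 ≤ gam p := by
  apply Real.le_sqrt_of_sq_le; nlinarith [sq_nonneg ‖p‖]



theorem relVel_eq (p : R3) : relVel p = (gam p)⁻¹ • p := rfl


/-- `1 - |v|² = γ⁻²`. -/
theorem one_sub_normSq_relVel (p : R3) : 1 - ‖relVel p‖ ^ 2 = ((gam p) ^ 2)⁻¹ := by
  have h := gam_sq p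
  have h0 := gam_pos p
  rw [relVel_eq, norm_smul, norm_inv, Real.norm_eq_abs, abs_of_pos h0, mul_pow]
  field_simp
  linarith

theorem norm_relVel_lt_one (p : R3) : ‖relVel p‖ < 1 := by
  have h := one_sub_normSq_relVel p
  have h0 : 0 < ((gam p) ^ 2)⁻¹ := inv_pos.mpr (pow_pos (gam_pos p) 2)
  nlinarith [norm_nonneg (relVel p)]

theorem sqrt_one_sub_normSq_relVel (p : R3) : Real.sqrt (1 - ‖relVel p‖ ^ 2) = (gam p)⁻¹ := by
  rw [one_sub_normSq_relVel, Real.sqrt_inv, Real.sqrt_sq (gam_pos p).le]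

/-! ### translation of the definitions -/

theorem acc_eq (w F : R3) : GSR.acc w F = acc (relVel w) F := by
  unfold GSR.acc acc
  rw [sqrt_one_sub_normSq_relVel]

theorem eT_eq (n w : R3) (R : ℝ) : GSR.eT n w R = eT n (relVel w) R := by
  unfold GSR.eT eT om
  rw [one_sub_normSq_relVel]
  congr 1
  rw [div_eq_mul_inv, ← mul_inv]
  congr 1
  ring

theorem eS_eq (n w a : R3) (R : ℝ) : GSR.eS n w a R = eS n (relVel w) a R := by
  unfold GSR.eS eS om
  rw [one_div]

/-- `V × (n × e) = n (V·e) - e (V·n)`, hence `E + V × B = lor` for `B = n × E`. -/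
theorem lor_eq (n V e : R3) : e + cross3 V (cross3 n e) = lor n V e := by
  unfold lor om
  ext i
  fin_cases i <;>
  · simp [cross3, PiLp.inner_apply, Fin.sum_univ_three]
    ring

theorem cross3_add (a b c : R3) : cross3 a (b + c) = cross3 a b + cross3 a c := by
  ext i
  fin_cases i <;>
  · simp [cross3]
    ring

theorem cross3_smul (a b : R3) (r : ℝ) : cross3 a (r • b) = r • cross3 a b := by
  ext i
  fin_cases i <;>
  · simp [cross3]
    ring

/-! ### derivatives along a characteristic -/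

/-- `d/dt relVel(P) = acc(P, F)` if `P' = F`. -/
theorem hasDerivAt_relVel {P : ℝ → R3} {F : R3} {t : ℝ} (hP : HasDerivAt P F t) :
    HasDerivAt (fun s => relVel (P s)) (GSR.acc (P t) F) t := by
  have h0 := gam_pos (P t)
  have h1 : HasDerivAt (fun s => 1 + ‖P s‖ ^ 2) (2 * ⟪P t, F⟫) t := hP.norm_sq.const_add 1
  have h2 : HasDerivAt (fun s => gam (P s)) (2 * ⟪P t, F⟫ / (2 * gam (P t))) t :=
    h1.sqrt (by positivity)
  have h3 := (h2.inv h0.ne').smul hP
  refine HasDerivAt.congr_deriv (f := fun s => relVel (P s)) h3 ?_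
  simp only [Pi.inv_apply]
  unfold GSR.acc
  rw [relVel_eq, inner_smul_left]
  simp only [conj_trivial]
  match_scalars <;> field_simp


/-! ### kernel bounds in momentum form -/

section bounds
variable {n w p : R3} {R : ℝ}

theorem norm_KT_mom (hn : ‖n‖ = 1) (hR : 0 < R) :
    ‖lor n (relVel p) (GSR.eT n w R)‖ ≤
      4 * Mom.kT (1 - ⟪n, relVel p⟫) (1 - ⟪n, relVel w⟫) (gam w) R := by
  rw [eT_eq]
  refine (norm_KT_le hn (norm_relVel_lt_one w) (norm_relVel_lt_one p).le hR).trans (le_of_eq ?_)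
  rw [one_sub_normSq_relVel]
  unfold Mom.kT om
  have h0 := gam_pos w
  congr 1
  rw [inv_mul_eq_div, div_div]
  congr 1
  ring

theorem norm_KS_mom (hn : ‖n‖ = 1) (hR : 0 < R) (F : R3) :
    ‖lor n (relVel p) (GSR.eS n w (GSR.acc w F) R)‖ ≤
      9 * (Mom.kS (1 - ⟪n, relVel p⟫) (1 - ⟪n, relVel w⟫) (gam w) R * ‖F‖) := by
  rw [eS_eq, acc_eq]
  refine (norm_KS_le hn (norm_relVel_lt_one w) (norm_relVel_lt_one p).le hR F).trans
    (le_of_eq ?_)
  rw [sqrt_one_sub_normSq_relVel]
  unfold Mom.kS om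
  have h0 := gam_pos w
  field_simp




end bounds

end Crest.Agent.R106.Pair
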