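import Crest.Agent.R106.NumCost
import Crest.Agent.R106.NumCrit_Mg
import Crest.Agent.R106.AbsLine
import Crest.Agent.R106.MomIface
import Crest.Agent.R106.AbsDefs
import Crest.Agent.R106.PairDefs
import Crest.Agent.R106.GsrMom
import Crest.Agent.R106.PairAlg

-- ▼ part R106/NumSum
section

/-!
# Row 106, node NUM: sums over all dyadic shells
-/

set_option autoImplicit false

namespace Crest.Agent.R106.Num

open Real Finset

variable {C c0 P Qt : ℝ}

/-- geometric sum over a finite set of integers bounded above -/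
lemma geo_sum {b : ℝ} (hb : 1 < b) (S : Finset ℤ) (N : ℤ) (hN : ∀ k ∈ S, k ≤ N) :
    ∑ k ∈ S, b ^ k ≤ b ^ N * (b / (b - 1)) := by
  classical
  have hb0 : 0 < b := by linarith
  have h1 : ∑ k ∈ S, b ^ k = ∑ n ∈ S.image (fun k => (N - k).toNat), b ^ N * (b⁻¹) ^ n := by
    rw [Finset.sum_image]
    · apply Finset.sum_congr rfl
      intro k hk
      have h2 : ((N - k).toNat : ℤ) = N - k := Int.toNat_of_nonneg (by linarith [hN k hk])
      rw [← zpow_natCast (b⁻¹), h2, inv_zpow', ← zpow_add₀ hb0.ne']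
      congr 1; ring
    · intro k hk l hl h
      have h2 : ((N - k).toNat : ℤ) = N - k := Int.toNat_of_nonneg (by linarith [hN k hk])
      have h3 : ((N - l).toNat : ℤ) = N - l := Int.toNat_of_nonneg (by linarith [hN l hl])
      simp only at h
      rw [h, h3] at h2
      linarith
  have hbi : b⁻¹ < 1 := inv_lt_one_of_one_lt₀ hb
  have hs : Summable (fun n : ℕ => b ^ N * (b⁻¹) ^ n) :=
    (summable_geometric_of_lt_one (by positivity) hbi).mul_left _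
  rw [h1]
  calc ∑ n ∈ S.image (fun k => (N - k).toNat), b ^ N * (b⁻¹) ^ n
      ≤ ∑' n : ℕ, b ^ N * (b⁻¹) ^ n := hs.sum_le_tsum _ (fun n _ => by positivity)
    _ = b ^ N * (1 - b⁻¹)⁻¹ := by
        rw [tsum_mul_left, tsum_geometric_of_lt_one (by positivity) hbi]
    _ = b ^ N * (b / (b - 1)) := by
        congr 1
        have : b - 1 ≠ 0 := by linarith
        field_simp

lemma two_zpow_rpow (k : ℤ) (θ : ℝ) : ((2 : ℝ) ^ k) ^ θ = ((2 : ℝ) ^ θ) ^ k := by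
  rw [← Real.rpow_intCast, ← Real.rpow_mul (by norm_num), mul_comm, Real.rpow_mul (by norm_num),
    Real.rpow_intCast]

/-- sum over `R` of `R^θ`. -/
lemma sum_rpow {θ : ℝ} (hθ : 0 < θ) (S : Finset ℤ) {A : ℝ} (hA : 0 ≤ A)
    (hS : ∀ k ∈ S, (2 : ℝ) ^ k ≤ A) :
    ∑ k ∈ S, ((2 : ℝ) ^ k) ^ θ ≤ A ^ θ * ((2 : ℝ) ^ θ / ((2 : ℝ) ^ θ - 1)) := by
  classical
  have hb : 1 < (2 : ℝ) ^ θ := Real.one_lt_rpow (by norm_num) hθ
  rcases S.eq_empty_or_nonempty with rfl | hne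
  · simp only [Finset.sum_empty]
    have : 0 < (2 : ℝ) ^ θ - 1 := by linarith
    positivity
  have h1 := geo_sum hb S (S.max' hne) (fun k hk => S.le_max' k hk)
  have h2 : ((2 : ℝ) ^ θ) ^ (S.max' hne) ≤ A ^ θ := by
    rw [← two_zpow_rpow]
    exact Real.rpow_le_rpow (by positivity) (hS _ (S.max'_mem hne)) hθ.le
  calc ∑ k ∈ S, ((2 : ℝ) ^ k) ^ θ = ∑ k ∈ S, ((2 : ℝ) ^ θ) ^ k := by
        simp_rw [two_zpow_rpow]
    _ ≤ _ := h1
    _ ≤ _ := by
        have : 0 < (2 : ℝ) ^ θ - 1 := by linarith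
        gcongr

lemma const_1000 : (2 : ℝ) ^ (1/1000 : ℝ) / ((2 : ℝ) ^ (1/1000 : ℝ) - 1) ≤ 8 ^ 4 := by
  have h1 : (1:ℝ) + Real.log 2 / 1000 ≤ (2 : ℝ) ^ (1/1000 : ℝ) := by
    rw [Real.rpow_def_of_pos (by norm_num)]
    have := Real.add_one_le_exp (Real.log 2 * (1/1000))
    linarith
  have h2 := Real.log_two_gt_d9
  have h3 : (0:ℝ) < (2 : ℝ) ^ (1/1000 : ℝ) - 1 := by linarith
  rw [div_le_iff₀ h3]
  have h4 : (6:ℝ) / 10000 ≤ (2 : ℝ) ^ (1/1000 : ℝ) - 1 := by linarith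
  nlinarith

/-- the exponents of admissible shells lie in a finite box -/
lemma mem_box (hL : Large C c0 P) (hC : 1 ≤ C) (hQt1 : Qt ≤ P) (hQt0 : 0 < Qt) {k : Sh}
    (hg : Geo C P Qt (sR k) (sd k) (se k) (sD k) (sQ k)) :
    k.2 ∈ (Finset.Icc (-⌈3 * logb 2 P⌉) ⌈3 * logb 2 P⌉) ×ˢ
      ((Finset.Icc (-⌈3 * logb 2 P⌉) ⌈3 * logb 2 P⌉) ×ˢ
      ((Finset.Icc (-⌈3 * logb 2 P⌉) ⌈3 * logb 2 P⌉) ×ˢ
      (Finset.Icc (-⌈3 * logb 2 P⌉) ⌈3 * logb 2 P⌉))) := by
  have hP := hL.P1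
  have hP0 : 0 < P := by linarith
  have hCP : C ≤ P := hL.hC.trans (by
    calc P ^ (1 / 10000000 : ℝ) ≤ P ^ (1 : ℝ) :=
          Real.rpow_le_rpow_of_exponent_le hP.le (by norm_num)
      _ = P := Real.rpow_one P)
  set N : ℤ := ⌈3 * logb 2 P⌉ with hN
  have hNP : P ^ 3 ≤ (2 : ℝ) ^ N := by
    have h1 : (P : ℝ) ^ 3 = (2 : ℝ) ^ (3 * logb 2 P) := by
      rw [mul_comm, Real.rpow_mul (by norm_num), Real.rpow_logb (by norm_num) (by norm_num) hP0]
      norm_cast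
    rw [h1, ← Real.rpow_intCast]
    exact Real.rpow_le_rpow_of_exponent_le (by norm_num) (Int.le_ceil _)
  have key : ∀ i : ℤ, (2 : ℝ) ^ i ≤ P ^ 3 → 1 ≤ P ^ 3 * (2 : ℝ) ^ i → i ∈ Finset.Icc (-N) N := by
    intro i h1 h2
    rw [Finset.mem_Icc]
    constructor
    · have h3 : (1 : ℝ) ≤ (2 : ℝ) ^ (N + i) := by
        rw [zpow_add₀ (by norm_num)]
        have : (0:ℝ) < 2 ^ i := by positivity
        nlinarith
      by_contra h4
      push Not at h4
      have h5 : (2 : ℝ) ^ (N + i) < 1 := zpow_lt_one_of_neg₀ (by norm_num) (by linarith)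
      linarith
    · have h3 : (2 : ℝ) ^ i ≤ (2 : ℝ) ^ N := h1.trans hNP
      exact (zpow_le_zpow_iff_right₀ (by norm_num)).1 h3
  obtain ⟨hR, hdl, hep, hD, hQ, g1, g2, g3, g4, g5, g6, g7, g8, g9, g10, g11⟩ := hg
  have hC0 : 0 < C := by linarith
  have hP3 : P ≤ P ^ 3 := by nlinarith [mul_pos hP0 hP0]
  have hCQ : C * Qt ^ 2 ≤ P ^ 3 := by
    calc C * Qt ^ 2 ≤ P * P ^ 2 := by gcongr
      _ = P ^ 3 := by ring
  have hCQ' : C * (sQ k) ^ 2 ≤ P ^ 3 := by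
    calc C * (sQ k) ^ 2 ≤ P * P ^ 2 := by gcongr
      _ = P ^ 3 := by ring
  rw [Finset.mem_product, Finset.mem_product, Finset.mem_product]
  refine ⟨key _ (g2.trans (hCP.trans hP3)) ?_, key _ (g3.trans (hCP.trans hP3)) ?_,
    key _ (g4.trans (hCP.trans hP3)) ?_, key _ (g10.trans hP3) ?_⟩
  · calc (1:ℝ) ≤ C * (Qt ^ 2 * sd k) := g5
      _ = (C * Qt ^ 2) * sd k := by ring
      _ ≤ P ^ 3 * sd k := by gcongr
  · calc (1:ℝ) ≤ C * ((sQ k) ^ 2 * se k) := g6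
      _ = (C * (sQ k) ^ 2) * se k := by ring
      _ ≤ P ^ 3 * se k := by gcongr
  · calc (1:ℝ) ≤ C * (Qt ^ 2 * sD k) := g7
      _ = (C * Qt ^ 2) * sD k := by ring
      _ ≤ P ^ 3 * sD k := by gcongr
  · calc (1:ℝ) ≤ C * (sQ k) := g9
      _ ≤ P ^ 3 * sQ k := by gcongr; linarith

lemma card_box (hL : Large C c0 P) :
    ((Finset.Icc (-⌈3 * logb 2 P⌉) ⌈3 * logb 2 P⌉).card : ℝ) ≤ 12 * Real.log P := by
  have hP := hL.P1
  have hL1 := hL.L1
  rw [Int.card_Icc]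
  have h2 : 0 < logb 2 P := Real.logb_pos (by norm_num) hP
  have h0 : (0 : ℤ) ≤ ⌈3 * logb 2 P⌉ := Int.ceil_nonneg (by linarith)
  have h1 : ((⌈3 * logb 2 P⌉ + 1 - -⌈3 * logb 2 P⌉).toNat : ℤ) =
      ⌈3 * logb 2 P⌉ + 1 - -⌈3 * logb 2 P⌉ := Int.toNat_of_nonneg (by linarith)
  have h3 : ((⌈3 * logb 2 P⌉ + 1 - -⌈3 * logb 2 P⌉).toNat : ℝ) =
      (⌈3 * logb 2 P⌉ : ℝ) + 1 + (⌈3 * logb 2 P⌉ : ℝ) := by
    have := congrArg (fun z : ℤ => (z : ℝ)) h1
    push_cast at this ⊢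
    linarith
  rw [h3]
  have h4 := (Int.ceil_lt_add_one (3 * logb 2 P)).le
  have h5 : logb 2 P ≤ 1.45 * Real.log P := by
    unfold Real.logb
    rw [div_le_iff₀ (Real.log_pos (by norm_num))]
    have := Real.log_two_gt_d9
    nlinarith
  linarith

/-- The general summation lemma: costs with a gain `R^(1/1000)`. -/
theorem sum_shells (hL : Large C c0 P) (hC : 1 ≤ C) (hQt1 : Qt ≤ P) (hQt0 : 0 < Qt)
    (K : Finset Sh) (hK : ∀ k ∈ K, Geo C P Qt (sR k) (sd k) (se k) (sD k) (sQ k))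
    (f : Sh → ℝ) {X : ℝ} (hX : 0 ≤ X) (hf : ∀ k ∈ K, f k ≤ X * (sR k) ^ (1/1000 : ℝ)) :
    ∑ k ∈ K, f k ≤ X * P ^ (1/100000 : ℝ) := by
  classical
  have hP := hL.P1
  have hP0 : 0 < P := by linarith
  have hC0 : 0 < C := by linarith
  set I : Finset ℤ := Finset.Icc (-⌈3 * logb 2 P⌉) ⌈3 * logb 2 P⌉ with hI
  set S : Finset ℤ := K.image Prod.fst with hS
  have hsub : K ⊆ S ×ˢ (I ×ˢ (I ×ˢ (I ×ˢ I))) := by
    intro k hk
    rw [Finset.mem_product]
    exact ⟨Finset.mem_image_of_mem _ hk, mem_box hL hC hQt1 hQt0 (hK k hk)⟩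
  have hSC : ∀ r ∈ S, (2 : ℝ) ^ r ≤ C := by
    intro r hr
    rw [hS, Finset.mem_image] at hr
    obtain ⟨k, hk, rfl⟩ := hr
    exact (hK k hk).R_le
  have hcard := card_box hL
  rw [← hI] at hcard
  calc ∑ k ∈ K, f k ≤ ∑ k ∈ K, X * (sR k) ^ (1/1000 : ℝ) := Finset.sum_le_sum hf
    _ ≤ ∑ k ∈ S ×ˢ (I ×ˢ (I ×ˢ (I ×ˢ I))), X * (sR k) ^ (1/1000 : ℝ) := by
        apply Finset.sum_le_sum_of_subset_of_nonneg hsub
        intro k _ _
        unfold sR
        positivity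
    _ = ((I ×ˢ (I ×ˢ (I ×ˢ I))).card : ℝ) * ∑ r ∈ S, X * ((2 : ℝ) ^ r) ^ (1/1000 : ℝ) := by
        rw [Finset.sum_product]
        simp only [sR, Finset.sum_const, nsmul_eq_mul, Finset.mul_sum]
    _ = X * ((I.card : ℝ) ^ 4 * ∑ r ∈ S, ((2 : ℝ) ^ r) ^ (1/1000 : ℝ)) := by
        rw [← Finset.mul_sum]
        simp only [Finset.card_product]
        push_cast
        ring
    _ ≤ X * ((12 * Real.log P) ^ 4 * (C * 8 ^ 4)) := by
        have h1 : ∑ r ∈ S, ((2 : ℝ) ^ r) ^ (1/1000 : ℝ) ≤ C * 8 ^ 4 := by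
          refine (sum_rpow (by norm_num) S hC0.le hSC).trans ?_
          have h2 : C ^ (1/1000 : ℝ) ≤ C := by
            calc C ^ (1/1000 : ℝ) ≤ C ^ (1 : ℝ) :=
                  Real.rpow_le_rpow_of_exponent_le hC (by norm_num)
              _ = C := Real.rpow_one C
          have h3 := const_1000
          have h4 : (0:ℝ) < (2 : ℝ) ^ (1/1000 : ℝ) - 1 := by
            have : 1 < (2 : ℝ) ^ (1/1000 : ℝ) := Real.one_lt_rpow (by norm_num) (by norm_num)
            linarith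
          gcongr
        gcongr
    _ ≤ X * P ^ (1/100000 : ℝ) := by
        have hLog : 0 ≤ Real.log P := by linarith [hL.L1]
        have e1 : (12 * Real.log P) ^ 4 * (C * 8 ^ 4) ≤ 8 ^ 9 * (Real.log P) ^ 4 * C := by
          have : (0:ℝ) ≤ (Real.log P) ^ 4 * C := by positivity
          nlinarith
        have e2 : (8:ℝ) ^ 9 * (Real.log P) ^ 4 * C ≤
            (P ^ (1 / 10000000 : ℝ)) ^ 9 * (P ^ (1 / 10000000 : ℝ)) ^ 4 *
              (P ^ (1 / 10000000 : ℝ)) := by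
          have a1 := hL.h8
          have a2 := hL.hL
          have a3 := hL.hC
          gcongr
        have e3 : (P ^ (1 / 10000000 : ℝ)) ^ 9 * (P ^ (1 / 10000000 : ℝ)) ^ 4 *
              (P ^ (1 / 10000000 : ℝ)) ≤ P ^ (1/100000 : ℝ) := by
          rw [← Real.rpow_natCast, ← Real.rpow_natCast, ← Real.rpow_mul hP0.le,
            ← Real.rpow_mul hP0.le, ← Real.rpow_add hP0, ← Real.rpow_add hP0]
          apply Real.rpow_le_rpow_of_exponent_le hP.le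
          push_cast
          norm_num
        exact mul_le_mul_of_nonneg_left (e1.trans (e2.trans e3)) hX

/-- hypotheses on a finite family of shells -/
structure Fam (C c0 P Qt : ℝ) (K : Finset Sh) (mu mus : Sh → ℝ) : Prop where
  L : Large C c0 P
  C1 : 1 ≤ C
  c0p : 0 < c0
  c01 : c0 ≤ 1
  Qt1 : P ^ (11 / 20 : ℝ) ≤ Qt
  Qt2 : Qt ≤ P
  good : ∀ k ∈ K, Good C c0 P Qt k (mu k) (mus k)

variable {K : Finset Sh} {mu mus : Sh → ℝ}

lemma Fam.hyp (h : Fam C c0 P Qt K mu mus) {k : Sh} (hk : k ∈ K) :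
    Hyp C c0 P Qt (sR k) (sd k) (se k) (sD k) (sQ k) (mu k) (mus k) :=
  ⟨h.L, h.C1, h.c0p, h.c01, h.Qt1, h.Qt2, (h.good k hk).geo, (h.good k hk).occ⟩

lemma Fam.Qt0 (h : Fam C c0 P Qt K mu mus) : 0 < Qt :=
  lt_of_lt_of_le (Real.rpow_pos_of_pos (by linarith [h.L.P1]) _) h.Qt1

lemma Fam.P0 (h : Fam C c0 P Qt K mu mus) : 0 < P := by linarith [h.L.P1]

lemma Fam.subset (h : Fam C c0 P Qt K mu mus) {K' : Finset Sh} (hs : K' ⊆ K) :
    Fam C c0 P Qt K' mu mus :=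
  ⟨h.L, h.C1, h.c0p, h.c01, h.Qt1, h.Qt2, fun k hk => h.good k (hs hk)⟩

/-- general form: one-shell bound `≤ 2 P^e R^(1/1000)` gives sum `≤ P^(e + 1/50000)`. -/
theorem Fam.sum_le (h : Fam C c0 P Qt K mu mus) (f : Sh → ℝ) {e : ℝ}
    (hf : ∀ k ∈ K, f k ≤ 2 * (P ^ e * (sR k) ^ (1/1000 : ℝ))) :
    ∑ k ∈ K, f k ≤ P ^ (e + 1/50000) := by
  have hP := h.L.P1
  have hP0 := h.P0
  have h1 := sum_shells h.L h.C1 h.Qt2 h.Qt0 K (fun k hk => (h.good k hk).geo) f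
    (X := 2 * P ^ e) (by positivity) (fun k hk => by
      have := hf k hk
      linarith)
  refine h1.trans ?_
  have h2 : (2:ℝ) ≤ P ^ (1 / 100000 : ℝ) := by
    have a1 := h.L.h8
    have a2 : P ^ (1 / 10000000 : ℝ) ≤ P ^ (1 / 100000 : ℝ) :=
      Real.rpow_le_rpow_of_exponent_le hP.le (by norm_num)
    linarith
  calc 2 * P ^ e * P ^ (1/100000 : ℝ) ≤ P ^ (1 / 100000 : ℝ) * P ^ e * P ^ (1/100000 : ℝ) := by
        gcongr
    _ = P ^ (e + 1/50000) := by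
        rw [← Real.rpow_add hP0, ← Real.rpow_add hP0]
        congr 1; ring

lemma Fam.pow_Qt (h : Fam C c0 P Qt K mu mus) (a : ℝ) :
    P ^ (logb P Qt + a) = P ^ a * Qt := by
  rw [Real.rpow_add h.P0, Real.rpow_logb h.P0 h.L.P1.ne' h.Qt0]
  ring

lemma Fam.le_Qt (h : Fam C c0 P Qt K mu mus) {a b : ℝ} (hab : a ≤ b) :
    P ^ (logb P Qt + a) ≤ P ^ b * Qt := by
  rw [h.pow_Qt]
  have := h.Qt0
  have := h.L.P1
  gcongr
  linarith

theorem Fam.sum_T_E (h : Fam C c0 P Qt K mu mus) (hE : ∀ k ∈ K, InE C P Qt (sd k) (se k) (sQ k)) :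
    ∑ k ∈ K, cT (sR k) (sd k) (se k) (sQ k) (mu k) ≤ P ^ (-(1/400) : ℝ) * Qt := by
  refine (h.sum_le (fun k => cT (sR k) (sd k) (se k) (sQ k) (mu k)) (e := logb P Qt - 1/200)
    (fun k hk => T_E_cost (h.hyp hk) (hE k hk))).trans ?_
  rw [show logb P Qt - 1/200 + 1/50000 = logb P Qt + (-1/200 + 1/50000) by ring]
  exact h.le_Qt (by norm_num)

theorem Fam.sum_A_E (h : Fam C c0 P Qt K mu mus) (hE : ∀ k ∈ K, InE C P Qt (sd k) (se k) (sQ k)) :
    ∑ k ∈ K, cA (win c0 P Qt) (sR k) (sd k) (se k) (sD k) (sQ k) (mu k) ≤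
      P ^ (-(1/400) : ℝ) * Qt := by
  refine (h.sum_le (fun k => cA (win c0 P Qt) (sR k) (sd k) (se k) (sD k) (sQ k) (mu k))
    (e := logb P Qt - 1/200) (fun k hk => (A_E_cost (h.hyp hk) (hE k hk)).trans ?_)).trans ?_
  · have := h.P0
    have : 0 < sR k := (h.good k hk).geo.R_pos
    have : 0 < P ^ (logb P Qt - 1/200) * (sR k) ^ (1/1000 : ℝ) := by positivity
    linarith
  rw [show logb P Qt - 1/200 + 1/50000 = logb P Qt + (-1/200 + 1/50000) by ring]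
  exact h.le_Qt (by norm_num)

theorem Fam.sum_B_E (h : Fam C c0 P Qt K mu mus) (hE : ∀ k ∈ K, InE C P Qt (sd k) (se k) (sQ k)) :
    ∑ k ∈ K, cB (win c0 P Qt) (sR k) (sd k) (se k) (sD k) (sQ k) (mu k) ≤
      P ^ (-(1/400) : ℝ) * Qt := by
  refine (h.sum_le (fun k => cB (win c0 P Qt) (sR k) (sd k) (se k) (sD k) (sQ k) (mu k))
    (e := logb P Qt - 1/250) (fun k hk => (B_E_cost (h.hyp hk) (hE k hk)).trans ?_)).trans ?_
  · have := h.P0
    have : 0 < sR k := (h.good k hk).geo.R_pos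
    have : 0 < P ^ (logb P Qt - 1/250) * (sR k) ^ (1/1000 : ℝ) := by positivity
    linarith
  rw [show logb P Qt - 1/250 + 1/50000 = logb P Qt + (-1/250 + 1/50000) by ring]
  exact h.le_Qt (by norm_num)

theorem Fam.sum_T (h : Fam C c0 P Qt K mu mus) :
    ∑ k ∈ K, cT (sR k) (sd k) (se k) (sQ k) (mu k) ≤ P ^ (1/40 : ℝ) * Qt := by
  refine (h.sum_le (fun k => cT (sR k) (sd k) (se k) (sQ k) (mu k)) (e := logb P Qt + 1/500)
    (fun k hk => T_all_cost (h.hyp hk))).trans ?_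
  rw [show logb P Qt + 1/500 + 1/50000 = logb P Qt + (1/500 + 1/50000) by ring]
  exact h.le_Qt (by norm_num)

theorem Fam.sum_B (h : Fam C c0 P Qt K mu mus) :
    ∑ k ∈ K, cB (win c0 P Qt) (sR k) (sd k) (se k) (sD k) (sQ k) (mu k) ≤
      P ^ (1/40 : ℝ) * Qt := by
  refine (h.sum_le (fun k => cB (win c0 P Qt) (sR k) (sd k) (se k) (sD k) (sQ k) (mu k))
    (e := logb P Qt + 1/50) (fun k hk => (B_all_cost (h.hyp hk)).trans ?_)).trans ?_
  · have := h.P0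
    have : 0 < sR k := (h.good k hk).geo.R_pos
    have : 0 < P ^ (logb P Qt + 1/50) * (sR k) ^ (1/1000 : ℝ) := by positivity
    linarith
  rw [show logb P Qt + 1/50 + 1/50000 = logb P Qt + (1/50 + 1/50000) by ring]
  exact h.le_Qt (by norm_num)

theorem Fam.sum_G_C (h : Fam C c0 P Qt K mu mus) (hE : ∀ k ∈ K, InC C P Qt (sd k) (se k) (sQ k)) :
    ∑ k ∈ K, cG Qt (sR k) (sd k) (se k) (mu k) ≤ P ^ (-(1/400) : ℝ) * Qt := by
  refine (h.sum_le (fun k => cG Qt (sR k) (sd k) (se k) (mu k)) (e := logb P Qt - 1/200)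
    (fun k hk => G_C_cost (h.hyp hk) (hE k hk))).trans ?_
  rw [show logb P Qt - 1/200 + 1/50000 = logb P Qt + (-1/200 + 1/50000) by ring]
  exact h.le_Qt (by norm_num)

theorem Fam.sum_M_C (h : Fam C c0 P Qt K mu mus) (hE : ∀ k ∈ K, InC C P Qt (sd k) (se k) (sQ k)) :
    ∑ k ∈ K, cM (sR k) (sd k) (se k) (mus k) ≤ P ^ (-(1/20) : ℝ) * Qt := by
  refine (h.sum_le (fun k => cM (sR k) (sd k) (se k) (mus k))
    (e := logb P Qt - 1/10) (fun k hk => (M_C_cost (h.hyp hk) (hE k hk)).trans ?_)).trans ?_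
  · have := h.P0
    have : 0 < sR k := (h.good k hk).geo.R_pos
    have : 0 < P ^ (logb P Qt - 1/10) * (sR k) ^ (1/1000 : ℝ) := by positivity
    linarith
  rw [show logb P Qt - 1/10 + 1/50000 = logb P Qt + (-1/10 + 1/50000) by ring]
  exact h.le_Qt (by norm_num)

theorem Fam.sum_b_C (h : Fam C c0 P Qt K mu mus) (hE : ∀ k ∈ K, InC C P Qt (sd k) (se k) (sQ k)) :
    ∑ k ∈ K, cb (sR k) (sd k) (se k) (mus k) ≤ P ^ (0.372 : ℝ) := by
  refine (h.sum_le (fun k => cb (sR k) (sd k) (se k) (mus k))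
    (e := 0.371) (fun k hk => (b_C_cost (h.hyp hk) (hE k hk)).trans ?_)).trans ?_
  · have := h.P0
    have : 0 < sR k := (h.good k hk).geo.R_pos
    have : 0 < P ^ (0.371 : ℝ) * (sR k) ^ (1/1000 : ℝ) := by positivity
    linarith
  exact Real.rpow_le_rpow_of_exponent_le h.L.P1.le (by norm_num)

/-- `(sum of ‖h2‖) * (sum of ‖Φ‖)` -/
theorem Fam.sum_HP_C (h : Fam C c0 P Qt K mu mus)
    (hE : ∀ k ∈ K, InC C P Qt (sd k) (se k) (sQ k)) :
    (∑ k ∈ K, cH (sR k) (sd k) (se k) (sD k) (sQ k) (mu k)) *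
      (∑ k ∈ K, √(cM (sR k) (sd k) (se k) (mus k) * cP (sR k) (sd k) (se k) (mu k))) ≤
      P ^ (-(1/400) : ℝ) * Qt ^ 2 := by
  have hP := h.L.P1
  have hP0 := h.P0
  have hQt := h.Qt0
  have h1 := h.sum_le (fun k => cH (sR k) (sd k) (se k) (sD k) (sQ k) (mu k))
    (e := 1 + logb P Qt / 2 + 1/500) (fun k hk => (H_C_cost (h.hyp hk) (hE k hk)).trans (by
      have : 0 < sR k := (h.good k hk).geo.R_pos
      have : 0 < P ^ (1 + logb P Qt / 2 + 1/500) * (sR k) ^ (1/1000 : ℝ) := by positivity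
      linarith))
  have h2 := h.sum_le
    (fun k => √(cM (sR k) (sd k) (se k) (mus k) * cP (sR k) (sd k) (se k) (mu k)))
    (e := 2 * logb P Qt - 1/200 - (1 + logb P Qt / 2 + 1/500))
    (fun k hk => (P_C_cost (h.hyp hk) (hE k hk)).trans (by
      have : 0 < sR k := (h.good k hk).geo.R_pos
      have : 0 < P ^ (2 * logb P Qt - 1/200 - (1 + logb P Qt / 2 + 1/500)) *
        (sR k) ^ (1/1000 : ℝ) := by positivity
      linarith))
  have h0 : 0 ≤ ∑ k ∈ K,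
      √(cM (sR k) (sd k) (se k) (mus k) * cP (sR k) (sd k) (se k) (mu k)) :=
    Finset.sum_nonneg (fun _ _ => Real.sqrt_nonneg _)
  calc _ ≤ P ^ (1 + logb P Qt / 2 + 1/500 + 1/50000) *
        P ^ (2 * logb P Qt - 1/200 - (1 + logb P Qt / 2 + 1/500) + 1/50000) := by
        gcongr
    _ = P ^ (logb P Qt + (logb P Qt + (-1/200 + 1/25000))) := by
        rw [← Real.rpow_add hP0]
        congr 1; ring
    _ ≤ P ^ (-(1/400) : ℝ) * Qt ^ 2 := by
        rw [Real.rpow_add hP0, h.pow_Qt, Real.rpow_logb hP0 hP.ne' hQt]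
        have : P ^ (-1/200 + 1/25000 : ℝ) ≤ P ^ (-(1/400) : ℝ) :=
          Real.rpow_le_rpow_of_exponent_le hP.le (by norm_num)
        calc Qt * (P ^ (-1/200 + 1/25000 : ℝ) * Qt) = P ^ (-1/200 + 1/25000 : ℝ) * Qt ^ 2 := by
              ring
          _ ≤ _ := by gcongr

/-- all cut-off costs, modulo the critical sum -/
theorem sum_Cut_B (hcrit : CritSum) (C : ℝ) (hC : 1 ≤ C) : ∃ C2 : ℝ, 0 ≤ C2 ∧
    ∀ (c0 P Qt : ℝ) (K : Finset Sh) (mu mus : Sh → ℝ), Fam C c0 P Qt K mu mus →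
    (∀ k ∈ K, InB C P Qt (sd k) (se k) (sQ k)) →
    ∑ k ∈ K, cCut (sR k) (sd k) (se k) (sD k) (mu k) ≤ (C2 * √c0 + P ^ (-(1/400) : ℝ)) * Qt := by
  classical
  obtain ⟨C2, hC2, hc⟩ := hcrit C hC
  refine ⟨C2, hC2, fun c0 P Qt K mu mus h hB => ?_⟩
  have hP := h.L.P1
  have hP0 := h.P0
  have hQt := h.Qt0
  set p : Sh → Prop := fun k => P ^ (-(1 / 10) : ℝ) ≤ sD k ∧
    logb P (sR k) ≤ -(2 * (1 - logb P Qt) + 0.02) with hp
  rw [← Finset.sum_filter_add_sum_filter_not K p]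
  have h1 := hc c0 P Qt h.c0p h.c01 h.L h.Qt1 h.Qt2 (K.filter p) mu mus (by
    intro k hk
    rw [Finset.mem_filter] at hk
    obtain ⟨hk1, hk2, hk3⟩ := hk
    refine ⟨h.good k hk1, hB k hk1, ?_, hk2⟩
    have hR := (h.good k hk1).geo.R_pos
    have h2 := win_ge h.L h.c0p hQt h.Qt2
    refine le_trans ?_ h2
    have hLP : 0 < Real.log P := by linarith [h.L.L1]
    have h3 : logb P (sR k) ≤ logb P (c0 * ((Qt / P) ^ 2 / Real.log P)) := by
      rw [lg_mul h.c0p (by positivity), lg_div (by positivity) hLP, lg_pow, lg_div hQt hP0,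
        Real.logb_self_eq_one hP]
      have a1 := lg_c0 h.L h.c0p
      have a2 := lg_L h.L
      push_cast
      linarith
    have := (Real.logb_le_logb hP hR (mul_pos h.c0p (by positivity))).1 h3
    exact this)
  have h2 : ∑ k ∈ K with ¬ p k, cCut (sR k) (sd k) (se k) (sD k) (mu k) ≤
      P ^ (-(1/400) : ℝ) * Qt := by
    have h' := h.subset (Finset.filter_subset (fun k => ¬ p k) K)
    refine (h'.sum_le (fun k => cCut (sR k) (sd k) (se k) (sD k) (mu k))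
      (e := logb P Qt - 1/100) (fun k hk => ?_)).trans ?_
    · rw [Finset.mem_filter] at hk
      have h3 := Cut_cost (h.hyp hk.1) (hB k hk.1) hk.2
      have : 0 < sR k := (h.good k hk.1).geo.R_pos
      have : 0 < P ^ (logb P Qt - 1/100) * (sR k) ^ (1/1000 : ℝ) := by positivity
      linarith
    rw [show logb P Qt - 1/100 + 1/50000 = logb P Qt + (-1/100 + 1/50000) by ring]
    exact h.le_Qt (by norm_num)
  linarith

end Crest.Agent.R106.Num
end

-- ▼ part R106/AbsFin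
section

/-!
# Row 106, node ABS (helper72): from NUM to the structure `Nine`, and the final choice of constants.
-/

set_option autoImplicit false

open MeasureTheory Set
open scoped ENNReal

namespace Crest.Agent.R106.Abs

open Crest.Agent.R106.Num (cT cA cB cG cCut cb cM cP cH sq2 Good InE InC InB Large Fam win)

variable {Z : Type} [MeasurableSpace Z]

/-- translation of the measure-level data to the numbers level (proved in `AbsGood`). -/
structure Tr (T : TD Z) (C C' c0 P Qt : ℝ) : Prop where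
  good : ∀ k, T.Act (fun _ _ => True) k → Good C' c0 P Qt k (T.mu k) (TD.mus C k)
  hE : ∀ k, T.Act (T.inE P Qt) k → InE C' P Qt (kd k) (ke k) (kQ k)
  hC : ∀ k, T.Act (T.inC P Qt) k → InC C' P Qt (kd k) (ke k) (kQ k)
  hB : ∀ k, T.Act (T.inB P Qt) k → InB C' P Qt (kd k) (ke k) (kQ k)

theorem act_true {T : TD Z} {reg : ℝ → Z → Prop} {k : KI} (h : T.Act reg k) :
    T.Act (fun _ _ => True) k := by
  obtain ⟨s, hs, z, hz, hw, -⟩ := h
  exact ⟨s, hs, z, hz, hw, trivial⟩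

theorem nine_of {T : TD Z} {C C' c0 P Qt C2 : ℝ} (hC : 0 ≤ C) (hL : Large C' c0 P)
    (hC1 : 1 ≤ C') (hc0 : 0 < c0) (hc1 : c0 ≤ 1) (hQ1 : P ^ (11 / 20 : ℝ) ≤ Qt) (hQ2 : Qt ≤ P)
    (htr : Tr T C C' c0 P Qt)
    (hcut : ∀ (K : Finset KI), Fam C' c0 P Qt K T.mu (TD.mus C) →
      (∀ k ∈ K, InB C' P Qt (kd k) (ke k) (kQ k)) →
      ∑ k ∈ K, cCut (kR k) (kd k) (ke k) (kD k) (T.mu k) ≤
        (C2 * √c0 + P ^ (-(1/400) : ℝ)) * Qt) :
    Nine T C (win c0 P Qt) P Qt (P ^ (-(1/400) : ℝ) * Qt)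
      ((C2 * √c0 + P ^ (-(1/400) : ℝ)) * Qt) (P ^ (1/40 : ℝ) * Qt) (P ^ (-(1/20) : ℝ) * Qt)
      (P ^ (-(1/400) : ℝ) * Qt ^ 2) := by
  have fam : ∀ (reg : ℝ → Z → Prop) (K : Finset KI), (∀ k ∈ K, T.Act reg k) →
      Fam C' c0 P Qt K T.mu (TD.mus C) := fun reg K hK =>
    ⟨hL, hC1, hc0, hc1, hQ1, hQ2, fun k hk => htr.good k (act_true (hK k hk))⟩
  constructor
  · intro K hK
    exact (fam _ K hK).sum_T_E fun k hk => htr.hE k (hK k hk)
  · intro K hK
    exact (fam _ K hK).sum_A_E fun k hk => htr.hE k (hK k hk)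
  · intro K hK
    exact (fam _ K hK).sum_B_E fun k hk => htr.hE k (hK k hk)
  · intro K hK
    exact (fam _ K hK).sum_G_C fun k hk => htr.hC k (hK k hk)
  · intro K hK
    exact hcut K (fam _ K hK) fun k hk => htr.hB k (hK k hk)
  · intro K hK
    exact (fam _ K hK).sum_T
  · intro K hK
    exact (fam _ K hK).sum_B
  · intro K hK
    exact (fam _ K hK).sum_M_C fun k hk => htr.hC k (hK k hk)
  · intro K hK
    have h := (fam _ K hK).sum_HP_C fun k hk => htr.hC k (hK k hk)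
    refine le_trans ?_ h
    refine mul_le_mul_of_nonneg_left ?_ (Finset.sum_nonneg fun k _ => by unfold cH; positivity)
    refine Finset.sum_le_sum fun k _ => Real.sqrt_le_sqrt ?_
    refine mul_le_mul_of_nonneg_left (min_le_left _ _) ?_
    have hR := kR_pos k; have hd := kd_pos k; have he := ke_pos k
    have := TD.mus_nonneg hC k
    unfold cM
    positivity


/-- the numerical end of the proof. -/
theorem num_end {Ch C C2 c0 c1 P Qt l : ℝ} (hCh : 0 ≤ Ch) (hC : 0 ≤ C) (hP : 1 ≤ P)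
    (hQt : 0 < Qt) (hl : l ≤ P ^ (-(1/400) : ℝ) * Qt)
    (h1 : Ch * (2 * (C2 * √c0)) ≤ c1 / 2)
    (h2 : Ch * ((7 + 6 * √C + C * (6 + 24 * √C)) * P ^ (-(1/400) : ℝ)) ≤ c1 / 2) :
    Ch * (l + 2 * (P ^ (-(1/400) : ℝ) * Qt) + 2 * √C * (P ^ (-(1/400) : ℝ) * Qt) +
      4 * √C * (P ^ (-(1/400) : ℝ) * Qt) + 2 * (P ^ (-(1/400) : ℝ) * Qt) +
      2 * ((C2 * √c0 + P ^ (-(1/400) : ℝ)) * Qt) +
      C * (2 / Qt * (P ^ (-(1/20) : ℝ) * Qt) * (l + (2 * (P ^ (1/40 : ℝ) * Qt) +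
        2 * √C * (P ^ (-(1/400) : ℝ) * Qt) +
        4 * √C * (P ^ (-(1/400) : ℝ) * Qt + P ^ (1/40 : ℝ) * Qt))) +
        2 * √C * (2 / Qt) * (P ^ (-(1/400) : ℝ) * Qt ^ 2))) ≤ c1 * Qt := by
  have hP0 : 0 < P := by linarith
  set η : ℝ := P ^ (-(1/400) : ℝ) with hη
  set θ : ℝ := P ^ (1/40 : ℝ) with hθ
  set ζ : ℝ := P ^ (-(1/20) : ℝ) with hζ
  have hη0 : 0 < η := Real.rpow_pos_of_pos hP0 _
  have hθ0 : 0 < θ := Real.rpow_pos_of_pos hP0 _
  have hζ0 : 0 < ζ := Real.rpow_pos_of_pos hP0 _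
  have hη1 : η ≤ 1 := by
    rw [hη]; exact Real.rpow_le_one_of_one_le_of_nonpos hP (by norm_num)
  have hθ1 : 1 ≤ θ := by rw [hθ]; exact Real.one_le_rpow hP (by norm_num)
  have hζθ : ζ * θ ≤ η := by
    rw [hζ, hθ, hη, ← Real.rpow_add hP0]
    exact Real.rpow_le_rpow_of_exponent_le hP (by norm_num)
  have hs : 0 ≤ √C := Real.sqrt_nonneg _
  have e1 : 2 / Qt * (ζ * Qt) = 2 * ζ := by field_simp
  have e2 : 2 * √C * (2 / Qt) * (η * Qt ^ 2) = 4 * √C * η * Qt := by field_simp; ring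
  rw [e1, e2]
  have i1 : l + (2 * (θ * Qt) + 2 * √C * (η * Qt) + 4 * √C * (η * Qt + θ * Qt)) ≤
      (3 + 10 * √C) * θ * Qt := by
    have a1 : η * Qt ≤ θ * Qt := mul_le_mul_of_nonneg_right (hη1.trans hθ1) hQt.le
    have a2 : √C * (η * Qt) ≤ √C * (θ * Qt) := mul_le_mul_of_nonneg_left a1 hs
    nlinarith
  have i2 : 2 * ζ * (l + (2 * (θ * Qt) + 2 * √C * (η * Qt) + 4 * √C * (η * Qt + θ * Qt))) ≤
      (6 + 20 * √C) * η * Qt := by
    calc 2 * ζ * (l + (2 * (θ * Qt) + 2 * √C * (η * Qt) + 4 * √C * (η * Qt + θ * Qt)))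
        ≤ 2 * ζ * ((3 + 10 * √C) * θ * Qt) := mul_le_mul_of_nonneg_left i1 (by positivity)
      _ = (6 + 20 * √C) * (ζ * θ) * Qt := by ring
      _ ≤ (6 + 20 * √C) * η * Qt := by gcongr
  calc Ch * (l + 2 * (η * Qt) + 2 * √C * (η * Qt) + 4 * √C * (η * Qt) + 2 * (η * Qt) +
      2 * ((C2 * √c0 + η) * Qt) +
      C * (2 * ζ * (l + (2 * (θ * Qt) + 2 * √C * (η * Qt) + 4 * √C * (η * Qt + θ * Qt))) +
        4 * √C * η * Qt))
      ≤ Ch * (η * Qt + 2 * (η * Qt) + 2 * √C * (η * Qt) + 4 * √C * (η * Qt) + 2 * (η * Qt) +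
      2 * ((C2 * √c0 + η) * Qt) + C * ((6 + 20 * √C) * η * Qt + 4 * √C * η * Qt)) := by
        gcongr
    _ = (Ch * (2 * (C2 * √c0)) + Ch * ((7 + 6 * √C + C * (6 + 24 * √C)) * η)) * Qt := by ring
    _ ≤ (c1 / 2 + c1 / 2) * Qt := by gcongr
    _ = c1 * Qt := by ring

theorem fin_h_of (C Ch Tm c1 : ℝ) (hC : 0 ≤ C) (hCh : 0 ≤ Ch) (hc1 : 0 < c1)
    (C' : ℝ) (hC1 : 1 ≤ C')
    (htr : ∀ (c0 P Qt : ℝ) (Z : Type) [MeasurableSpace Z] (T : TD Z), 0 < c0 → c0 ≤ 1 →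
      Large C' c0 P → P ^ (11 / 20 : ℝ) ≤ Qt → Qt ≤ P → T.a ≤ T.b → T.b - T.a ≤ lw c0 P Qt →
      T.Core C Tm P Qt → T.CoreD C P c0 Qt → Tr T C C' c0 P Qt) :
    ∃ c0 : ℝ, 0 < c0 ∧ c0 ≤ 1 ∧ ∃ P0 : ℝ, ∀ P, P0 ≤ P → ∀ Qt, P ^ (11 / 20 : ℝ) ≤ Qt → Qt ≤ P →
      ∀ {Z : Type} [MeasurableSpace Z] (T : TD Z), T.a ≤ T.b → T.b - T.a ≤ lw c0 P Qt →
        T.Core C Tm P Qt → T.CoreD C P c0 Qt →
        ∫⁻ s in Icc T.a T.b, T.h Ch P Qt s ≤ ENNReal.ofReal (c1 * Qt) := by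
  obtain ⟨C2, hC2, hcut⟩ := Num.sum_Cut_B Num.critSum C' hC1
  set x : ℝ := c1 / (4 * (Ch * C2 + 1)) with hx
  have hd : 0 < 4 * (Ch * C2 + 1) := by positivity
  have hx0 : 0 < x := div_pos hc1 hd
  refine ⟨min 1 (x ^ 2), lt_min one_pos (by positivity), min_le_left _ _, ?_⟩
  set c0 : ℝ := min 1 (x ^ 2) with hc0
  have hc00 : 0 < c0 := lt_min one_pos (by positivity)
  have hc01 : c0 ≤ 1 := min_le_left _ _
  have hsq : √c0 ≤ x := by
    rw [show x = √(x ^ 2) from (Real.sqrt_sq hx0.le).symm]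
    exact Real.sqrt_le_sqrt (min_le_right _ _)
  have h1 : Ch * (2 * (C2 * √c0)) ≤ c1 / 2 := by
    calc Ch * (2 * (C2 * √c0)) ≤ Ch * (2 * (C2 * x)) := by gcongr
      _ = 2 * (Ch * C2) * x := by ring
      _ ≤ 2 * (Ch * C2 + 1) * x := by gcongr; linarith
      _ = c1 / 2 := by rw [hx]; field_simp; norm_num
  obtain ⟨P1, hP1⟩ := Num.eventually_large C' c0
  have ht : Filter.Tendsto (fun P : ℝ => P ^ (-(1/400) : ℝ)) Filter.atTop (nhds 0) :=
    tendsto_rpow_neg_atTop (by norm_num)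
  set Kc : ℝ := 7 + 6 * √C + C * (6 + 24 * √C) with hK
  have hK0 : 0 < Kc := by positivity
  have hev : ∀ᶠ P : ℝ in Filter.atTop, P ^ (-(1/400) : ℝ) < c1 / (2 * (Ch * Kc + 1)) :=
    ht.eventually_lt_const (by positivity)
  obtain ⟨P2, hP2⟩ := Filter.eventually_atTop.1 hev
  refine ⟨max P1 (max P2 1), fun P hP Qt hQ1 hQ2 Z _ T hab hl hcore hcoreD => ?_⟩
  have hPP1 : P1 ≤ P := (le_max_left _ _).trans hP
  have hPP2 : P2 ≤ P := ((le_max_left _ _).trans (le_max_right _ _)).trans hP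
  have hPP3 : 1 ≤ P := ((le_max_right _ _).trans (le_max_right _ _)).trans hP
  have hP0 : 0 < P := by linarith
  have hL := hP1 P hPP1
  have hQt : 0 < Qt := lt_of_lt_of_le (Real.rpow_pos_of_pos hP0 _) hQ1
  have hT := htr c0 P Qt Z T hc00 hc01 hL hQ1 hQ2 hab hl hcore hcoreD
  have hN := nine_of hC hL hC1 hc00 hc01 hQ1 hQ2 hT
    (fun K hK hB => hcut c0 P Qt K T.mu (TD.mus C) hK hB)
  have hmain := TD.int_h (l := win c0 P Qt) hC hCh hcore hP0 hQt hab hl hN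
  refine hmain.trans (ENNReal.ofReal_le_ofReal ?_)
  refine num_end hCh hC hPP3 hQt ?_ h1 ?_
  · -- the window is short
    have hlw : win c0 P Qt ≤ 1 := by
      unfold win
      have h3 : min ((Qt / P) ^ 2) (Qt / (P * Real.log P)) ≤ 1 := by
        refine (min_le_left _ _).trans ?_
        have h4 : Qt / P ≤ 1 := (div_le_one hP0).2 hQ2
        have h5 : 0 ≤ Qt / P := by positivity
        exact pow_le_one₀ h5 h4
      have h6 : 0 ≤ min ((Qt / P) ^ 2) (Qt / (P * Real.log P)) := by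
        have := hL.L1
        refine le_min (by positivity) (by positivity)
      calc c0 * min ((Qt / P) ^ 2) (Qt / (P * Real.log P)) ≤ 1 * 1 :=
            mul_le_mul hc01 h3 h6 (by norm_num)
        _ = 1 := by norm_num
    have h7 : 1 ≤ P ^ (-(1/400) : ℝ) * Qt := by
      calc (1 : ℝ) ≤ P ^ (-(1/400) + 11/20 : ℝ) := Real.one_le_rpow hPP3 (by norm_num)
        _ = P ^ (-(1/400) : ℝ) * P ^ (11/20 : ℝ) := Real.rpow_add hP0 _ _
        _ ≤ P ^ (-(1/400) : ℝ) * Qt := by gcongr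
    exact hlw.trans h7
  · have h8 := (hP2 P hPP2).le
    calc Ch * ((7 + 6 * √C + C * (6 + 24 * √C)) * P ^ (-(1/400) : ℝ))
        = (Ch * Kc) * P ^ (-(1/400) : ℝ) := by rw [hK]; ring
      _ ≤ (Ch * Kc + 1) * (c1 / (2 * (Ch * Kc + 1))) := by
          gcongr
          linarith
      _ = c1 / 2 := by field_simp

end Crest.Agent.R106.Abs
end

-- ▼ part R106/AbsGood
section

/-!
# Row 106, node ABS/NUM: the active shells are admissible (`Num.Good`), and the bound of `bd`.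
-/

set_option autoImplicit false

open MeasureTheory Set
open scoped ENNReal

namespace Crest.Agent.R106.Abs

variable {Z : Type} [MeasurableSpace Z]

theorem lw_eq (c0 P Q : ℝ) : lw c0 P Q = Num.win c0 P Q := rfl
theorem lamc_eq (P Qt : ℝ) : lamc P Qt = Num.lamc P Qt := rfl

/-- the constant of the numbers level -/
noncomputable def cG' (C Tm : ℝ) : ℝ := 64 + C + Tm

/-- auxiliary -/
theorem sqrt_zone {d e : ℝ} (hd0 : 0 < d) (he0 : 0 < e) (h1 : 4 * e ≤ d) :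
    2 * √(d * e) ≤ 3 / 4 * d + e ∧ √(d * e) ≤ d / 2 := by
  have hu2 : √e ^ 2 = e := Real.sq_sqrt he0.le
  have hv2 : √d ^ 2 = d := Real.sq_sqrt hd0.le
  have hu0 : 0 ≤ √e := Real.sqrt_nonneg _
  have hv0 : 0 ≤ √d := Real.sqrt_nonneg _
  have huv : √(d * e) = √d * √e := Real.sqrt_mul hd0.le _
  have h2 : 2 * √e ≤ √d := by
    have h3 : √(2 ^ 2 * e) ≤ √d := Real.sqrt_le_sqrt (by linarith)
    rwa [Real.sqrt_mul (by norm_num), Real.sqrt_sq (by norm_num)] at h3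
  rw [huv]
  constructor
  · have h4 := mul_nonneg (sub_nonneg.2 h2) (show 0 ≤ 3 * √d - 2 * √e by linarith)
    have h5 : (√d - 2 * √e) * (3 * √d - 2 * √e) = 3 * √d ^ 2 - 8 * (√d * √e) + 4 * √e ^ 2 := by
      ring
    rw [h5, hu2, hv2] at h4
    linarith
  · have h4 := mul_le_mul_of_nonneg_left h2 hv0
    have h5 : √d * (2 * √e) = 2 * (√d * √e) := by ring
    have h6 : √d * √d = d := Real.mul_self_sqrt hd0.le
    rw [h5, h6] at h4
    linarith

/-- zones, from the true values -/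
theorem zone_of_tri {d e D kd ke kD C' : ℝ} (hkd : 0 < kd) (hke : 0 < ke) (hkD : 0 < kD)
    (hC' : 64 ≤ C') (hd : kd ≤ d ∧ d < 2 * kd) (he : ke ≤ e ∧ e < 2 * ke)
    (hD : kD ≤ D ∧ D < 2 * kD) (htri : |D - d - e| ≤ 2 * √(d * e)) :
    (kD ≤ C' * kd ∧ kd ≤ C' * kD ∧ ke ≤ C' * kd) ∨
    (kD ≤ C' * ke ∧ ke ≤ C' * kD ∧ kd ≤ C' * ke) ∨
    (kd ≤ C' * ke ∧ ke ≤ C' * kd ∧ kD ≤ C' * kd) := by
  have hd0 : 0 < d := lt_of_lt_of_le hkd hd.1
  have he0 : 0 < e := lt_of_lt_of_le hke he.1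
  have hD0 : 0 < D := lt_of_lt_of_le hkD hD.1
  obtain ⟨t1, t2⟩ := abs_le.1 htri
  have h64d : 64 * kd ≤ C' * kd := by gcongr
  have h64e : 64 * ke ≤ C' * ke := by gcongr
  have h64D : 64 * kD ≤ C' * kD := by gcongr
  rcases le_or_gt (4 * e) d with h1 | h1
  · left
    obtain ⟨q1, q2⟩ := sqrt_zone hd0 he0 h1
    refine ⟨by linarith, by linarith, by linarith⟩
  · rcases le_or_gt (4 * d) e with h2 | h2
    · right; left
      obtain ⟨q1, q2⟩ := sqrt_zone he0 hd0 h2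
      rw [mul_comm e d] at q1 q2
      refine ⟨by linarith, by linarith, by linarith⟩
    · right; right
      have hs : √(d * e) ≤ 2 * d := by
        apply Real.sqrt_le_iff.2
        refine ⟨by linarith, ?_⟩
        have := mul_le_mul_of_nonneg_left h1.le hd0.le
        calc d * e ≤ d * (4 * d) := by gcongr
          _ = (2 * d) ^ 2 := by ring
      refine ⟨by linarith, by linarith, by linarith⟩

namespace TD

variable {T : TD Z} {C Tm P Qt c0 : ℝ}

theorem num_geo (hC : 0 ≤ C) (hTm : 0 ≤ Tm) (hT : T.Geo Tm P Qt) (hQt : 0 < Qt)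
    {reg : ℝ → Z → Prop} {k : KI} (hk : T.Act reg k) :
    Num.Geo (cG' C Tm) P Qt (kR k) (kd k) (ke k) (kD k) (kQ k) := by
  obtain ⟨s, hs, z, hz, hw, -⟩ := hk
  obtain ⟨h1, h2, h3, h4, h5⟩ := mem_shk hz
  have hR := kR_pos k; have hd := kd_pos k; have he := ke_pos k; have hD := kD_pos k
  have hQ := kQ_pos k
  have hC' : 64 ≤ cG' C Tm := by unfold cG'; linarith
  have hC'T : Tm ≤ cG' C Tm := by unfold cG'; linarith
  have g1 := hT.R1 s hs z hw
  have g2 := hT.dl0 s hs z hw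
  have g3 := hT.dl1 s hs z hw
  have g4 := hT.ep0 s hs z hw
  have g5 := hT.ep1 s hs z hw
  have g6 := hT.D0 s hs z hw
  have g7 := hT.D0' s hs z hw
  have g8 := hT.D1 s hs z hw
  have g9 := hT.ga0 s hs z hw
  have g10 := hT.ga1 s hs z hw
  have g11 := hT.tri s hs z hw
  have hga0 : 0 < T.ga s z := by linarith
  rw [div_le_iff₀ (by positivity)] at g2 g4 g6 g7
  have hga2 : T.ga s z ^ 2 ≤ 4 * kQ k ^ 2 := by nlinarith
  have e1 : 1 ≤ 64 * (Qt ^ 2 * kd k) := by nlinarith [sq_nonneg Qt, mul_pos hQt hQt]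
  have e2 : 1 ≤ 64 * (kQ k ^ 2 * ke k) := by
    have : T.ep s z * (2 * T.ga s z ^ 2) ≤ (2 * ke k) * (2 * (4 * kQ k ^ 2)) := by
      have : 0 ≤ T.ep s z := by linarith
      gcongr
      exact h3.2.le
    nlinarith
  have e3 : 1 ≤ 64 * (Qt ^ 2 * kD k) := by nlinarith [sq_nonneg Qt, mul_pos hQt hQt]
  have e4 : 1 ≤ 64 * (kQ k ^ 2 * kD k) := by
    have : T.D s z * (2 * T.ga s z ^ 2) ≤ (2 * kD k) * (2 * (4 * kQ k ^ 2)) := by
      have : 0 ≤ T.D s z := by linarith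
      gcongr
      exact h4.2.le
    nlinarith
  refine ⟨hR, hd, he, hD, hQ, by linarith, by linarith, by linarith, by linarith, ?_, ?_, ?_, ?_,
    ?_, by linarith, zone_of_tri hd he hD hC' h2 h3 h4 g11⟩
  · exact e1.trans (by gcongr)
  · exact e2.trans (by gcongr)
  · exact e3.trans (by gcongr)
  · exact e4.trans (by gcongr)
  · nlinarith

theorem num_inE (hC : 0 ≤ C) (hTm : 0 ≤ Tm) {k : KI} (hP : 0 < P) (hQt : 0 < Qt)
    (hk : T.Act (T.inE P Qt) k) :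
    Num.InE (cG' C Tm) P Qt (kd k) (ke k) (kQ k) := by
  obtain ⟨s, hs, z, hz, hw, hr⟩ := hk
  obtain ⟨h1, h2, h3, h4, h5⟩ := mem_shk hz
  have hd := kd_pos k; have he := ke_pos k
  have hC' : 64 ≤ cG' C Tm := by unfold cG'; linarith
  have hl : 0 < lamc P Qt := by unfold lamc; positivity
  rcases hr with hr | hr
  · left
    have : 16 * P ^ (11 / 20 : ℝ) ≤ cG' C Tm * P ^ (11 / 20 : ℝ) := by gcongr; linarith
    linarith
  · right
    rw [← lamc_eq]
    have e1 : lamc P Qt * kd k ^ 2 ≤ lamc P Qt * T.dl s z ^ 2 := by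
      have := h2.1
      gcongr
    have e2 : 64 * ke k ≤ cG' C Tm * ke k := by gcongr
    linarith

theorem num_inC (hC : 0 ≤ C) (hTm : 0 ≤ Tm) {k : KI} (hP : 0 < P) (hQt : 0 < Qt)
    (hk : T.Act (T.inC P Qt) k) :
    Num.InC (cG' C Tm) P Qt (kd k) (ke k) (kQ k) := by
  obtain ⟨s, hs, z, hz, hw, hr⟩ := hk
  obtain ⟨h1, h2, h3, h4, h5⟩ := mem_shk hz
  have hd := kd_pos k; have he := ke_pos k
  have hC' : 64 ≤ cG' C Tm := by unfold cG'; linarith
  have hl : 0 < lamc P Qt := by unfold lamc; positivity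
  obtain ⟨r1, r2⟩ := hr
  have hp : 0 < P ^ (11 / 20 : ℝ) := by positivity
  refine ⟨by linarith, ?_⟩
  rw [← lamc_eq]
  have hdl : T.dl s z ^ 2 ≤ (2 * kd k) ^ 2 := by
    have : 0 ≤ T.dl s z := hd.le.trans h2.1
    have := h2.2.le
    gcongr
  have e1 : lamc P Qt * T.dl s z ^ 2 ≤ lamc P Qt * (2 * kd k) ^ 2 := by gcongr
  have e2 : 64 * (lamc P Qt * kd k ^ 2) ≤ cG' C Tm * (lamc P Qt * kd k ^ 2) := by gcongr
  have e3 : 0 ≤ lamc P Qt * kd k ^ 2 := by positivity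
  nlinarith [h3.1]

theorem num_inB (hC : 0 ≤ C) (hTm : 0 ≤ Tm) {k : KI} (hP : 0 < P) (hQt : 0 < Qt)
    (hk : T.Act (T.inB P Qt) k) :
    Num.InB (cG' C Tm) P Qt (kd k) (ke k) (kQ k) := by
  obtain ⟨s, hs, z, hz, hw, hr⟩ := hk
  obtain ⟨r1, r2, r3⟩ := hr
  have hc := num_inC (T := T) hC hTm hP hQt ⟨s, hs, z, hz, hw, r1, r2⟩
  refine ⟨hc.1, hc.2, ?_⟩
  obtain ⟨h1, h2, h3, h4, h5⟩ := mem_shk hz
  have hd := kd_pos k; have he := ke_pos k
  have hC' : 64 ≤ cG' C Tm := by unfold cG'; linarith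
  have hl : 0 < lamc P Qt := by unfold lamc; positivity
  rw [← lamc_eq]
  have e1 : lamc P Qt * kd k ^ 2 ≤ lamc P Qt * T.dl s z ^ 2 := by
    have := h2.1
    gcongr
  have e2 : 64 * ke k ≤ cG' C Tm * ke k := by gcongr
  linarith

/-- (a), (b) only: `Good` with `mu = 0`. -/
theorem num_good0 (hL : Num.Large (cG' C Tm) c0 P) (hc0 : 0 < c0) (hC : 0 ≤ C) (hTm : 0 ≤ Tm)
    (hT : T.Geo Tm P Qt) (hQt : 0 < Qt) {reg : ℝ → Z → Prop} {k : KI} (hk : T.Act reg k) :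
    Num.Good (cG' C Tm) c0 P Qt k 0 (mus C k) := by
  have hg := num_geo hC hTm hT hQt hk
  have hR := kR_pos k; have hd := kd_pos k; have he := ke_pos k; have hD := kD_pos k
  have hQ := kQ_pos k
  have hCC : C ≤ cG' C Tm := by unfold cG'; linarith
  have hC0 : 0 < cG' C Tm := by unfold cG'; linarith
  have hw := Num.win_pos hL hc0 hQt
  have hwQ := Num.win_pos hL hc0 hQ
  have hm : 0 < min (ke k) (kD k) := lt_min he hD
  have hmx : 0 < max (kd k) (kD k) := lt_max_of_lt_left hd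
  refine ⟨hg, le_rfl, mus_nonneg hC k, ?_, ?_, ?_, ?_, ?_, ?_⟩
  · show (0:ℝ) ≤ cG' C Tm * (Num.win c0 P Qt * (kR k ^ 3 * kd k * kQ k ^ 3 * min (ke k) (kD k)))
    positivity
  · show mus C k ≤ cG' C Tm * (kR k ^ 3 * kd k * kQ k ^ 3 * min (ke k) (kD k))
    unfold mus
    gcongr
    exact min_le_left _ _
  · show (0:ℝ) ≤ cG' C Tm * (Num.win c0 P Qt * (1 / (kQ k * ke k)))
    positivity
  · show mus C k ≤ cG' C Tm * (1 / (kQ k * ke k))
    unfold mus
    gcongr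
    exact min_le_right _ _
  · show (0:ℝ) ≤ cG' C Tm * ((Num.win c0 P Qt + kR k) / (kQ k * kd k))
    positivity
  · intro _ _ _
    show (0:ℝ) ≤ cG' C Tm * (kR k / (kQ k * √(kD k * max (kd k) (kD k))) *
      (1 + (Num.win c0 P Qt + kR k) / Num.win c0 P (kQ k)) / √(kD k))
    positivity

/-- an active shell is admissible -/
theorem num_good (hL : Num.Large (cG' C Tm) c0 P) (hc0 : 0 < c0) (hC : 0 ≤ C) (hTm : 0 ≤ Tm)
    (hab : T.a ≤ T.b) (hl : T.b - T.a ≤ lw c0 P Qt)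
    (hT : T.Core C Tm P Qt) (hTD : T.CoreD C P c0 Qt) (hQt : 0 < Qt)
    {reg : ℝ → Z → Prop} {k : KI} (hk : T.Act reg k) :
    Num.Good (cG' C Tm) c0 P Qt k (T.mu k) (mus C k) := by
  have hg := num_geo hC hTm hT.toGeo hQt hk
  have h0 := num_good0 hL hc0 hC hTm hT.toGeo hQt hk
  have hR := kR_pos k; have hd := kd_pos k; have he := ke_pos k; have hD := kD_pos k
  have hQ := kQ_pos k
  have hCC : C ≤ cG' C Tm := by unfold cG'; linarith
  have hC0 : 0 < cG' C Tm := by unfold cG'; linarith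
  have hw := Num.win_pos hL hc0 hQt
  have hwQ := Num.win_pos hL hc0 hQ
  have hm : 0 < min (ke k) (kD k) := lt_min he hD
  have hmx : 0 < max (kd k) (kD k) := lt_max_of_lt_left hd
  rw [lw_eq] at hl
  have hba : 0 ≤ T.b - T.a := by linarith
  have hms := mus_nonneg hC k
  have hmul : T.mu k ≤ (T.b - T.a) * mus C k :=
    mu_le_mul hT hab k hms (fun s hs => kap_le hC hT.toCoreAB k hs)
  have hmul2 : T.mu k ≤ Num.win c0 P Qt * mus C k := hmul.trans (by gcongr)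
  refine ⟨hg, T.mu_nonneg k, h0.occ.mus0, ?_, h0.occ.a', ?_, h0.occ.b', ?_, ?_⟩
  · calc T.mu k ≤ Num.win c0 P Qt * mus C k := hmul2
      _ ≤ Num.win c0 P Qt * (cG' C Tm *
          (kR k ^ 3 * kd k * kQ k ^ 3 * min (ke k) (kD k))) := by
          have := h0.occ.a'
          gcongr
          exact this
      _ = _ := by simp only [kR, kd, ke, kD, kQ, Num.sR, Num.sd, Num.se, Num.sD, Num.sQ]; ring
  · calc T.mu k ≤ Num.win c0 P Qt * mus C k := hmul2
      _ ≤ Num.win c0 P Qt * (cG' C Tm * (1 / (kQ k * ke k))) := by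
          have := h0.occ.b'
          gcongr
          exact this
      _ = _ := by simp only [kR, kd, ke, kD, kQ, Num.sR, Num.sd, Num.se, Num.sD, Num.sQ]; ring
  · have h := hT.cc _ _ _ _ _ hR hd he hD hQ
    have hn : T.nu (T.sh (kR k) (kd k) (ke k) (kD k) (kQ k)) = ENNReal.ofReal (T.mu k) :=
      nu_eq hT k
    rw [hn] at h
    have h1 : T.mu k ≤ C * ((T.b - T.a + kR k) / (kQ k * kd k)) :=
      (ENNReal.ofReal_le_ofReal_iff (by positivity)).1 h
    calc T.mu k ≤ C * ((T.b - T.a + kR k) / (kQ k * kd k)) := h1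
      _ ≤ cG' C Tm * ((Num.win c0 P Qt + kR k) / (kQ k * kd k)) := by gcongr
  · intro q1 q2 q3
    have hQP : kQ k ≤ P := hg.Q_le
    have q4 : P ^ (2 / 5 : ℝ) ≤ √(kD k) * min (kQ k) Qt := by
      rcases min_choice (kQ k) Qt with h | h <;> rw [h]
      · exact q2
      · exact q3
    have h := hTD _ _ _ _ _ hR hd he hD hQ q1 hQP q4
    have hn : T.nu (T.sh (kR k) (kd k) (ke k) (kD k) (kQ k)) = ENNReal.ofReal (T.mu k) :=
      nu_eq hT k
    rw [hn, lw_eq] at h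
    have h1 : T.mu k ≤ C * (kR k / (kQ k * √(kD k * max (kd k) (kD k))) *
        (1 + (T.b - T.a + kR k) / Num.win c0 P (kQ k)) / √(kD k)) :=
      (ENNReal.ofReal_le_ofReal_iff (by positivity)).1 h
    calc T.mu k ≤ _ := h1
      _ ≤ cG' C Tm * (kR k / (kQ k * √(kD k * max (kd k) (kD k))) *
        (1 + (Num.win c0 P Qt + kR k) / Num.win c0 P (kQ k)) / √(kD k)) := by gcongr


theorem num_fam0 (hL : Num.Large (cG' C Tm) c0 P) (hc0 : 0 < c0) (hc1 : c0 ≤ 1) (hC : 0 ≤ C)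
    (hTm : 0 ≤ Tm) (hT : T.Geo Tm P Qt)
    (hQt1 : P ^ (11 / 20 : ℝ) ≤ Qt) (hQt2 : Qt ≤ P)
    {reg : ℝ → Z → Prop} {K : Finset KI} (hk : ∀ k ∈ K, T.Act reg k) :
    Num.Fam (cG' C Tm) c0 P Qt K (fun _ => 0) (mus C) := by
  have hP : 0 < P := by linarith [hL.P1]
  have hQt : 0 < Qt := lt_of_lt_of_le (Real.rpow_pos_of_pos hP _) hQt1
  exact ⟨hL, by unfold cG'; linarith, hc0, hc1, hQt1, hQt2,
    fun k hk' => num_good0 hL hc0 hC hTm hT hQt (hk k hk')⟩

end TD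

/-- (F2) the boundary term is small. -/
theorem fin_b (C Cb Tm : ℝ) (hC : 0 ≤ C) (hCb : 0 ≤ Cb) (hTm : 0 ≤ Tm) : ∃ P0 : ℝ, ∀ P ≥ P0,
    ∀ Qt : ℝ, P ^ (11 / 20 : ℝ) ≤ Qt → Qt ≤ P → ∀ {Z : Type} [MeasurableSpace Z] (T : TD Z),
    T.CoreAB C Tm P Qt → ∀ s ∈ Icc T.a T.b, T.bd Cb P Qt s ≤ ENNReal.ofReal (P ^ (3 / 8 : ℝ)) := by
  obtain ⟨P1, hP1⟩ := Num.eventually_large (cG' C Tm) 1
  have ht : Filter.Tendsto (fun P : ℝ => P ^ (3 / 8 - 0.372 : ℝ)) Filter.atTop Filter.atTop :=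
    tendsto_rpow_atTop (by norm_num)
  obtain ⟨P2, hP2⟩ := Filter.eventually_atTop.1 (ht.eventually_ge_atTop (Cb * 2))
  refine ⟨max P1 P2, fun P hP Qt hQt1 hQt2 Z _ T hT s hs => ?_⟩
  have hL := hP1 P ((le_max_left _ _).trans hP)
  have hP0 : 0 < P := by linarith [hL.P1]
  have hQt : 0 < Qt := lt_of_lt_of_le (Real.rpow_pos_of_pos hP0 _) hQt1
  have h1 : ∫⁻ z, T.w s z * TD.ind (T.inC P Qt) T.fb s z ∂T.m ≤
      ENNReal.ofReal (2 * P ^ (0.372 : ℝ)) := by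
    refine TD.line_s hT.toGeo hQt (TD.ms_inC hT.toGeo) (TD.m_fb hT.toGeo) hs
      (x := fun k => 2 * Num.cb (kR k) (kd k) (ke k) (TD.mus C k)) (fun k => ?_)
      (fun k => TD.Is_fb hC hT k hs) (fun K hK => ?_)
    · have := kR_pos k; have := kd_pos k; have := ke_pos k
      have := TD.mus_nonneg hC k
      unfold Num.cb
      positivity
    · have hF := TD.num_fam0 hL one_pos le_rfl hC hTm hT.toGeo hQt1 hQt2 hK
      have := hF.sum_b_C (fun k hk => TD.num_inC hC hTm hP0 hQt (hK k hk))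
      rw [← Finset.mul_sum]
      exact mul_le_mul_of_nonneg_left this (by norm_num)
  have h2 : T.bd Cb P Qt s = ENNReal.ofReal Cb *
      ∫⁻ z, T.w s z * TD.ind (T.inC P Qt) T.fb s z ∂T.m := by
    unfold TD.bd TD.ind TD.fb
    rfl
  rw [h2]
  calc ENNReal.ofReal Cb * ∫⁻ z, T.w s z * TD.ind (T.inC P Qt) T.fb s z ∂T.m
      ≤ ENNReal.ofReal Cb * ENNReal.ofReal (2 * P ^ (0.372 : ℝ)) := by gcongr
    _ = ENNReal.ofReal (Cb * (2 * P ^ (0.372 : ℝ))) := (ENNReal.ofReal_mul hCb).symm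
    _ ≤ ENNReal.ofReal (P ^ (3 / 8 : ℝ)) := by
        apply ENNReal.ofReal_le_ofReal
        have h3 := hP2 P ((le_max_right _ _).trans hP)
        calc Cb * (2 * P ^ (0.372 : ℝ)) = (Cb * 2) * P ^ (0.372 : ℝ) := by ring
          _ ≤ P ^ (3 / 8 - 0.372 : ℝ) * P ^ (0.372 : ℝ) := by gcongr
          _ = P ^ (3 / 8 : ℝ) := by
              rw [← Real.rpow_add hP0]
              congr 1; norm_num

end Crest.Agent.R106.Abs
end

-- ▼ part R106/LinkA
section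

set_option autoImplicit false

open MeasureTheory Set Filter Topology
open Crest.AnalysisR.VecCalc3 Crest.AnalysisR.PDE.RVM
open scoped InnerProductSpace ENNReal ContDiff

noncomputable section

namespace Crest.Agent.R106.Link

open Crest.Agent.R106.GSR (gam acc lor)
open Crest.Agent.R106.Mom
open Crest.Agent.R106.Abs (TD)

abbrev Z : Type := R3 × R3

/-! ### clamping -/

/-- clamp to `[a,b]` -/
def cl (a b t : ℝ) : ℝ := max a (min t b)

lemma cl_eq {a b t : ℝ} (h : t ∈ Icc a b) : cl a b t = t := by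
  unfold cl
  rw [min_eq_left h.2, max_eq_right h.1]

lemma cl_mem {a b : ℝ} (hab : a ≤ b) (t : ℝ) : cl a b t ∈ Icc a b := by
  unfold cl
  exact ⟨le_max_left _ _, max_le hab (min_le_right _ _)⟩

lemma continuous_cl (a b : ℝ) : Continuous (cl a b) := by
  unfold cl
  fun_prop

/-! ### the datum -/

/-- the part of the cone that is seen -/
def seen (X : ℝ → R3) (s : ℝ) : Set Z := {q | 0 < ‖X s - q.1‖ ∧ ‖X s - q.1‖ < s}

open Classical in
/-- concrete test datum -/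
def td (f : ℝ → R3 → R3 → ℝ) (E B : ℝ → R3 → R3) (X p : ℝ → R3) (a b : ℝ) : TD Z where
  m := volume
  a := a
  b := b
  w := fun s q => if q ∈ seen X s then ENNReal.ofReal (f (ret X s q.1) q.1 q.2) else 0
  R := fun s q => Rr X s q.1
  dl := fun s q => Mom.dl X p s q.1
  ep := fun s q => Mom.ep X s q.1 q.2
  D := fun s q => Dd p s q.2
  ga := fun _ q => gam q.2
  Kg := fun s q => Kg E B X s q.1
  Bs := fun s q => ‖B (ret X s q.1) q.1‖
  Ft := fun s => if s ≤ 0 then 0 else ENNReal.ofReal (Ftest E B X p s)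

/-! ### continuity and measurability -/

lemma continuous_cross3 : Continuous (fun ab : R3 × R3 => cross3 ab.1 ab.2) := by
  unfold cross3
  refine (PiLp.continuous_toLp 2 _).comp (continuous_pi fun i => ?_)
  fin_cases i <;> simp <;> fun_prop

lemma measurable_cross3 {α : Type*} [MeasurableSpace α] {u v : α → R3} (hu : Measurable u)
    (hv : Measurable v) : Measurable (fun x => cross3 (u x) (v x)) :=
  continuous_cross3.measurable.comp (hu.prodMk hv)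

lemma continuous_relVel : Continuous relVel := by
  unfold relVel
  have h : ∀ v : R3, Real.sqrt (1 + ‖v‖ ^ 2) ≠ 0 := fun v => by positivity
  exact (Continuous.inv₀ (by fun_prop) h).smul continuous_id

lemma continuous_gam : Continuous gam := by
  unfold gam
  fun_prop

section meas

variable {f : ℝ → R3 → R3 → ℝ} {E B : ℝ → R3 → R3} {X p : ℝ → R3}

lemma meas_R (hX : Continuous X) : Measurable (fun x : ℝ × Z => Rr X x.1 x.2.1) := by
  unfold Rr
  fun_prop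

lemma meas_nn (hX : Continuous X) : Measurable (fun x : ℝ × Z => nn X x.1 x.2.1) := by
  unfold nn
  have h1 : Measurable (fun x : ℝ × Z => X x.1 - x.2.1) := by fun_prop
  exact (h1.norm.inv).smul h1

lemma cont_ret (hX : Continuous X) : Continuous (fun x : ℝ × Z => ret X x.1 x.2.1) := by
  unfold ret
  fun_prop

lemma meas_dl (hX : Continuous X) (hp : Continuous p) :
    Measurable (fun x : ℝ × Z => Mom.dl X p x.1 x.2.1) := by
  unfold Mom.dl
  have h2 : Measurable (fun x : ℝ × Z => relVel (p x.1)) :=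
    (continuous_relVel.comp (hp.comp continuous_fst)).measurable
  exact measurable_const.sub ((meas_nn hX).inner h2)

lemma meas_ep (hX : Continuous X) :
    Measurable (fun x : ℝ × Z => Mom.ep X x.1 x.2.1 x.2.2) := by
  unfold Mom.ep
  have h2 : Measurable (fun x : ℝ × Z => relVel x.2.2) :=
    (continuous_relVel.comp (continuous_snd.comp continuous_snd)).measurable
  exact measurable_const.sub ((meas_nn hX).inner h2)

lemma meas_D (hp : Continuous p) : Measurable (fun x : ℝ × Z => Dd p x.1 x.2.2) := by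
  unfold Dd
  have h1 : Measurable (fun x : ℝ × Z => relVel x.2.2) :=
    (continuous_relVel.comp (continuous_snd.comp continuous_snd)).measurable
  have h2 : Measurable (fun x : ℝ × Z => relVel (p x.1)) :=
    (continuous_relVel.comp (hp.comp continuous_fst)).measurable
  exact measurable_const.sub (h2.inner h1)

lemma cont_field (hX : Continuous X) (hE : Continuous (fun q : ℝ × R3 => E q.1 q.2)) :
    Continuous (fun x : ℝ × Z => E (ret X x.1 x.2.1) x.2.1) :=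
  hE.comp ((cont_ret hX).prodMk (continuous_fst.comp continuous_snd))

lemma meas_Kg (hX : Continuous X) (hE : Continuous (fun q : ℝ × R3 => E q.1 q.2))
    (hB : Continuous (fun q : ℝ × R3 => B q.1 q.2)) :
    Measurable (fun x : ℝ × Z => Kg E B X x.1 x.2.1) := by
  have hn := meas_nn hX
  have hE' := (cont_field hX hE).measurable
  have hB' := (cont_field hX hB).measurable
  have h1 : Measurable (fun x : ℝ × Z =>
      ⟪nn X x.1 x.2.1, E (ret X x.1 x.2.1) x.2.1⟫_ℝ) := hn.inner hE'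
  have h2 : Measurable (fun x : ℝ × Z =>
      ⟪nn X x.1 x.2.1, B (ret X x.1 x.2.1) x.2.1⟫_ℝ) := hn.inner hB'
  have h3 : Measurable (fun x : ℝ × Z => cross3 (nn X x.1 x.2.1) (E (ret X x.1 x.2.1) x.2.1)) :=
    measurable_cross3 hn hE'
  have h4 : Measurable (fun x : ℝ × Z =>
      ⟪nn X x.1 x.2.1, B (ret X x.1 x.2.1) x.2.1⟫_ℝ • nn X x.1 x.2.1) := h2.smul hn
  have h5 : Measurable (fun x : ℝ × Z => ‖B (ret X x.1 x.2.1) x.2.1
      - ⟪nn X x.1 x.2.1, B (ret X x.1 x.2.1) x.2.1⟫_ℝ • nn X x.1 x.2.1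
      - cross3 (nn X x.1 x.2.1) (E (ret X x.1 x.2.1) x.2.1)‖) := ((hB'.sub h4).sub h3).norm
  exact (((h1.pow_const 2).add (h2.pow_const 2)).add (h5.pow_const 2)).sqrt

lemma measSet_seen (hX : Continuous X) : MeasurableSet {x : ℝ × Z | x.2 ∈ seen X x.1} := by
  have h1 : Measurable (fun x : ℝ × Z => ‖X x.1 - x.2.1‖) := by fun_prop
  exact (measurableSet_lt measurable_const h1).inter (measurableSet_lt h1 measurable_fst)

lemma meas_w (hf : Continuous (fun q : ℝ × R3 × R3 => f q.1 q.2.1 q.2.2)) (hX : Continuous X)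
    (a b : ℝ) : Measurable (Function.uncurry (td f E B X p a b).w) := by
  classical
  have h1 : Measurable (fun x : ℝ × Z => ENNReal.ofReal (f (ret X x.1 x.2.1) x.2.1 x.2.2)) := by
    have : Continuous (fun x : ℝ × Z => f (ret X x.1 x.2.1) x.2.1 x.2.2) :=
      hf.comp ((cont_ret hX).prodMk continuous_snd)
    exact this.measurable.ennreal_ofReal
  exact Measurable.ite (measSet_seen hX) h1 measurable_const

end meas

end Crest.Agent.R106.Link
end
end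

-- ▼ part R106/LinkB
section

set_option autoImplicit false

open MeasureTheory Set Filter Topology
open Crest.AnalysisR.VecCalc3 Crest.AnalysisR.PDE.RVM
open scoped InnerProductSpace ENNReal ContDiff

noncomputable section

namespace Crest.Agent.R106.Link

open Crest.Agent.R106.GSR (gam acc lor)
open Crest.Agent.R106.Mom
open Crest.Agent.R106.Abs (TD)

/-- clamped test datum (window `[a,b]`) -/
def tdc (f : ℝ → R3 → R3 → ℝ) (E B : ℝ → R3 → R3) (X p : ℝ → R3) (a b : ℝ) : TD Z :=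
  td (fun t => f (cl 0 b t)) (fun t => E (cl 0 b t)) (fun t => B (cl 0 b t))
    (fun s => X (cl a b s)) (fun s => p (cl a b s)) a b

variable {f : ℝ → R3 → R3 → ℝ} {E B : ℝ → R3 → R3} {X p : ℝ → R3} {a b s : ℝ}

@[simp] lemma tdc_a : (tdc f E B X p a b).a = a := rfl
@[simp] lemma tdc_b : (tdc f E B X p a b).b = b := rfl
@[simp] lemma tdc_m : (tdc f E B X p a b).m = volume := rfl

/-! ### values on the window -/

lemma tdc_R (hs : s ∈ Icc a b) (q : Z) : (tdc f E B X p a b).R s q = Rr X s q.1 := by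
  simp only [tdc, td, Rr, cl_eq hs]

lemma tdc_dl (hs : s ∈ Icc a b) (q : Z) :
    (tdc f E B X p a b).dl s q = Mom.dl X p s q.1 := by
  simp only [tdc, td, Mom.dl, nn, cl_eq hs]

lemma tdc_ep (hs : s ∈ Icc a b) (q : Z) :
    (tdc f E B X p a b).ep s q = Mom.ep X s q.1 q.2 := by
  simp only [tdc, td, Mom.ep, nn, cl_eq hs]

lemma tdc_D (hs : s ∈ Icc a b) (q : Z) : (tdc f E B X p a b).D s q = Dd p s q.2 := by
  simp only [tdc, td, Dd, cl_eq hs]

lemma tdc_ga (q : Z) : (tdc f E B X p a b).ga s q = gam q.2 := rfl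

lemma tdc_sh (hs : s ∈ Icc a b) (R1 d1 e1 D1 Q1 : ℝ) :
    (tdc f E B X p a b).sh R1 d1 e1 D1 Q1 s = shell X p R1 d1 e1 D1 Q1 s := by
  ext q
  simp only [TD.sh, shell, mem_ofPred_eq, tdc_R hs, tdc_dl hs, tdc_ep hs, tdc_D hs, tdc_ga]

lemma seen_cl (hs : s ∈ Icc a b) : seen (fun r => X (cl a b r)) s = seen X s := by
  ext q
  simp only [seen, mem_ofPred_eq, cl_eq hs]

lemma ret_mem (hs : s ∈ Icc a b) {q : Z} (hq : q ∈ seen X s) : ret X s q.1 ∈ Icc 0 b := by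
  have h1 : 0 < ‖X s - q.1‖ := hq.1
  have h2 : ‖X s - q.1‖ < s := hq.2
  have h3 := hs.2
  unfold ret
  constructor <;> linarith

open Classical in
lemma tdc_w (hs : s ∈ Icc a b) (q : Z) : (tdc f E B X p a b).w s q =
    if q ∈ seen X s then ENNReal.ofReal (f (ret X s q.1) q.1 q.2) else 0 := by
  have h : (tdc f E B X p a b).w s q =
      if q ∈ seen (fun r => X (cl a b r)) s then
        ENNReal.ofReal (f (cl 0 b (ret (fun r => X (cl a b r)) s q.1)) q.1 q.2) else 0 := rfl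
  rw [h, seen_cl hs]
  by_cases hq : q ∈ seen X s
  · rw [if_pos hq, if_pos hq]
    have e : ret (fun r => X (cl a b r)) s q.1 = ret X s q.1 := by
      simp only [ret, cl_eq hs]
    rw [e, cl_eq (ret_mem hs hq)]
  · rw [if_neg hq, if_neg hq]

lemma seen_of_w (hs : s ∈ Icc a b) {q : Z} (hw : (tdc f E B X p a b).w s q ≠ 0) :
    q ∈ seen X s := by
  by_contra h
  exact hw (by rw [tdc_w hs, if_neg h])

lemma f_ne_of_w (hs : s ∈ Icc a b) {q : Z} (hw : (tdc f E B X p a b).w s q ≠ 0) :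
    0 < f (ret X s q.1) q.1 q.2 := by
  have h1 := seen_of_w hs hw
  rw [tdc_w hs, if_pos h1] at hw
  by_contra h
  exact hw (ENNReal.ofReal_of_nonpos (not_lt.mp h))

lemma Kg_congr {E' B' : ℝ → R3 → R3} {X' : ℝ → R3} {y : R3} (h1 : nn X' s y = nn X s y)
    (h2 : E' (ret X' s y) y = E (ret X s y) y) (h3 : B' (ret X' s y) y = B (ret X s y) y) :
    Kg E' B' X' s y = Kg E B X s y := by
  simp only [Kg, h1, h2, h3]

lemma tdc_Kg_def' (q : Z) : (tdc f E B X p a b).Kg s q =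
    Kg (fun t => E (cl 0 b t)) (fun t => B (cl 0 b t)) (fun s => X (cl a b s)) s q.1 := rfl

lemma tdc_Kg (hs : s ∈ Icc a b) {q : Z} (hq : q ∈ seen X s) :
    (tdc f E B X p a b).Kg s q = Kg E B X s q.1 := by
  have e : ret (fun r => X (cl a b r)) s q.1 = ret X s q.1 := by
    simp only [ret, cl_eq hs]
  have e2 : nn (fun r => X (cl a b r)) s q.1 = nn X s q.1 := by
    simp only [nn, cl_eq hs]
  have e3 : cl 0 b (ret X s q.1) = ret X s q.1 := cl_eq (ret_mem hs hq)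
  rw [tdc_Kg_def']
  refine Kg_congr e2 ?_ ?_
  · show E (cl 0 b _) _ = _
    rw [e, e3]
  · show B (cl 0 b _) _ = _
    rw [e, e3]

lemma tdc_Bs (hs : s ∈ Icc a b) {q : Z} (hq : q ∈ seen X s) :
    (tdc f E B X p a b).Bs s q = ‖B (ret X s q.1) q.1‖ := by
  have e : ret (fun r => X (cl a b r)) s q.1 = ret X s q.1 := by
    simp only [ret, cl_eq hs]
  have h : (tdc f E B X p a b).Bs s q =
    ‖B (cl 0 b (ret (fun r => X (cl a b r)) s q.1)) q.1‖ := rfl
  rw [h, e, cl_eq (ret_mem hs hq)]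

lemma tdc_Ft (ha : 0 ≤ a) (hs : s ∈ Icc a b) :
    (tdc f E B X p a b).Ft s = if s ≤ 0 then 0 else ENNReal.ofReal (Ftest E B X p s) := by
  have h : (tdc f E B X p a b).Ft s = if s ≤ 0 then 0 else ENNReal.ofReal
    (Ftest (fun t => E (cl 0 b t)) (fun t => B (cl 0 b t)) (fun s => X (cl a b s))
      (fun s => p (cl a b s)) s) := rfl
  rw [h]
  simp only [Ftest, GSR.lor, cl_eq hs, cl_eq (show s ∈ Icc 0 b from ⟨ha.trans hs.1, hs.2⟩)]

/-! ### continuity of the clamped functions -/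

variable {T : ℝ}

lemma cont_f (hf : ContinuousOn (fun q : ℝ × R3 × R3 => f q.1 q.2.1 q.2.2) (Ico 0 T ×ˢ univ))
    (hb0 : 0 ≤ b) (hb : b < T) :
    Continuous (fun q : ℝ × R3 × R3 => f (cl 0 b q.1) q.2.1 q.2.2) := by
  have h : Continuous (fun q : ℝ × R3 × R3 => ((cl 0 b q.1, q.2) : ℝ × R3 × R3)) :=
    ((continuous_cl 0 b).comp continuous_fst).prodMk continuous_snd
  exact hf.comp_continuous h (fun q => ⟨⟨(cl_mem hb0 q.1).1, lt_of_le_of_lt (cl_mem hb0 q.1).2 hb⟩,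
    mem_univ _⟩)

lemma cont_E (hE : ContinuousOn (fun q : ℝ × R3 => E q.1 q.2) (Ico 0 T ×ˢ univ))
    (hb0 : 0 ≤ b) (hb : b < T) :
    Continuous (fun q : ℝ × R3 => E (cl 0 b q.1) q.2) := by
  have h : Continuous (fun q : ℝ × R3 => ((cl 0 b q.1, q.2) : ℝ × R3)) :=
    ((continuous_cl 0 b).comp continuous_fst).prodMk continuous_snd
  exact hE.comp_continuous h (fun q => ⟨⟨(cl_mem hb0 q.1).1, lt_of_le_of_lt (cl_mem hb0 q.1).2 hb⟩,
    mem_univ _⟩)

lemma cont_X (hX : ContinuousOn X (Ico 0 T)) (ha : 0 ≤ a) (hab : a ≤ b) (hb : b < T) :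
    Continuous (fun s => X (cl a b s)) :=
  hX.comp_continuous (continuous_cl a b) (fun s => ⟨ha.trans (cl_mem hab s).1,
    lt_of_le_of_lt (cl_mem hab s).2 hb⟩)

/-- the continuity hypotheses of a classical solution -/
structure Reg (T : ℝ) (f : ℝ → R3 → R3 → ℝ) (E B : ℝ → R3 → R3) : Prop where
  cf : ContinuousOn (fun q : ℝ × R3 × R3 => f q.1 q.2.1 q.2.2) (Ico 0 T ×ˢ univ)
  cE : ContinuousOn (fun q : ℝ × R3 => E q.1 q.2) (Ico 0 T ×ˢ univ)
  cB : ContinuousOn (fun q : ℝ × R3 => B q.1 q.2) (Ico 0 T ×ˢ univ)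

lemma reg_of_sol {f₀ : R3 → R3 → ℝ} {E₀ B₀ : R3 → R3}
    (h : IsClassicalSolutionOn T f₀ E₀ B₀ f E B) : Reg T f E B :=
  ⟨h.1.continuousOn, h.2.1.continuousOn, h.2.2.1.continuousOn⟩

/-! ### measurability of the clamped datum -/

lemma tdc_w_def : Function.uncurry (tdc f E B X p a b).w =
    Function.uncurry (td (fun t => f (cl 0 b t)) E B (fun s => X (cl a b s)) p a b).w := rfl

lemma tdc_R_def : Function.uncurry (tdc f E B X p a b).R =
    fun x : ℝ × Z => Rr (fun s => X (cl a b s)) x.1 x.2.1 := rfl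

lemma tdc_dl_def : Function.uncurry (tdc f E B X p a b).dl =
    fun x : ℝ × Z => Mom.dl (fun s => X (cl a b s)) (fun s => p (cl a b s)) x.1 x.2.1 := rfl

lemma tdc_ep_def : Function.uncurry (tdc f E B X p a b).ep =
    fun x : ℝ × Z => Mom.ep (fun s => X (cl a b s)) x.1 x.2.1 x.2.2 := rfl

lemma tdc_D_def : Function.uncurry (tdc f E B X p a b).D =
    fun x : ℝ × Z => Dd (fun s => p (cl a b s)) x.1 x.2.2 := rfl

lemma tdc_ga_def : Function.uncurry (tdc f E B X p a b).ga =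
    fun x : ℝ × Z => gam x.2.2 := rfl

lemma tdc_Kg_def : Function.uncurry (tdc f E B X p a b).Kg =
    fun x : ℝ × Z => Kg (fun t => E (cl 0 b t)) (fun t => B (cl 0 b t)) (fun s => X (cl a b s))
      x.1 x.2.1 := rfl

lemma tdc_Bs_def : Function.uncurry (tdc f E B X p a b).Bs =
    fun x : ℝ × Z => ‖B (cl 0 b (ret (fun s => X (cl a b s)) x.1 x.2.1)) x.2.1‖ := rfl

lemma tdc_mw (hr : Reg T f E B) (hc : IsChar T f E B X p) (ha : 0 ≤ a) (hab : a ≤ b)
    (hb : b < T) : Measurable (Function.uncurry (tdc f E B X p a b).w) := by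
  rw [tdc_w_def]
  exact meas_w (cont_f hr.cf (ha.trans hab) hb) (cont_X hc.cX ha hab hb) a b

lemma tdc_mR (hc : IsChar T f E B X p) (ha : 0 ≤ a) (hab : a ≤ b)
    (hb : b < T) : Measurable (Function.uncurry (tdc f E B X p a b).R) := by
  rw [tdc_R_def]
  exact meas_R (cont_X hc.cX ha hab hb)

lemma tdc_mdl (hc : IsChar T f E B X p) (ha : 0 ≤ a) (hab : a ≤ b)
    (hb : b < T) : Measurable (Function.uncurry (tdc f E B X p a b).dl) := by
  rw [tdc_dl_def]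
  exact meas_dl (cont_X hc.cX ha hab hb) (cont_X hc.cp ha hab hb)

lemma tdc_mep (hc : IsChar T f E B X p) (ha : 0 ≤ a) (hab : a ≤ b)
    (hb : b < T) : Measurable (Function.uncurry (tdc f E B X p a b).ep) := by
  rw [tdc_ep_def]
  exact meas_ep (cont_X hc.cX ha hab hb)

lemma tdc_mD (hc : IsChar T f E B X p) (ha : 0 ≤ a) (hab : a ≤ b)
    (hb : b < T) : Measurable (Function.uncurry (tdc f E B X p a b).D) := by
  rw [tdc_D_def]
  exact meas_D (cont_X hc.cp ha hab hb)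

lemma tdc_mga : Measurable (Function.uncurry (tdc f E B X p a b).ga) := by
  rw [tdc_ga_def]
  exact (continuous_gam.comp (continuous_snd.comp continuous_snd)).measurable

lemma tdc_mKg (hr : Reg T f E B) (hc : IsChar T f E B X p) (ha : 0 ≤ a) (hab : a ≤ b)
    (hb : b < T) : Measurable (Function.uncurry (tdc f E B X p a b).Kg) := by
  rw [tdc_Kg_def]
  exact meas_Kg (cont_X hc.cX ha hab hb) (cont_E hr.cE (ha.trans hab) hb)
    (cont_E hr.cB (ha.trans hab) hb)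

lemma tdc_mBs (hr : Reg T f E B) (hc : IsChar T f E B X p) (ha : 0 ≤ a) (hab : a ≤ b)
    (hb : b < T) : Measurable (Function.uncurry (tdc f E B X p a b).Bs) := by
  rw [tdc_Bs_def]
  have h := cont_E hr.cB (ha.trans hab) hb
  have h2 : Continuous (fun x : ℝ × Z => ret (fun s => X (cl a b s)) x.1 x.2.1) :=
    cont_ret (cont_X hc.cX ha hab hb)
  have h3 : Continuous (fun x : ℝ × Z =>
      B (cl 0 b (ret (fun s => X (cl a b s)) x.1 x.2.1)) x.2.1) :=
    h.comp (h2.prodMk (continuous_fst.comp continuous_snd))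
  exact h3.norm.measurable

/-! ### `kap` = `withDensity` -/

lemma volume_vertex (x : R3) : volume {q : Z | q.1 = x} = 0 := by
  have h : {q : Z | q.1 = x} = {x} ×ˢ (univ : Set R3) := by
    ext q; simp
  rw [h, Measure.volume_eq_prod, Measure.prod_prod]
  simp

theorem kap_eq (hs : s ∈ Icc a b) :
    kap f X s = volume.withDensity ((tdc f E B X p a b).w s) := by
  classical
  have hms : MeasurableSet (Metric.ball (X s) s ×ˢ (univ : Set R3)) :=
    Metric.isOpen_ball.measurableSet.prod MeasurableSet.univ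
  unfold kap
  rw [← withDensity_indicator hms]
  refine withDensity_congr_ae ?_
  have h0 : ∀ᵐ q : Z ∂volume, q.1 ≠ X s := by
    rw [ae_iff]
    simpa using volume_vertex (X s)
  filter_upwards [h0] with q hq
  rw [tdc_w hs]
  have h1 : 0 < ‖X s - q.1‖ := norm_pos_iff.mpr (sub_ne_zero.mpr (Ne.symm hq))
  by_cases h2 : ‖X s - q.1‖ < s
  · have h3 : q ∈ Metric.ball (X s) s ×ˢ (univ : Set R3) :=
      ⟨by rw [Metric.mem_ball, dist_comm, dist_eq_norm]; exact h2, mem_univ _⟩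
    rw [indicator_of_mem h3, if_pos ⟨h1, h2⟩]
  · have h3 : q ∉ Metric.ball (X s) s ×ˢ (univ : Set R3) := by
      rintro ⟨h4, -⟩
      rw [Metric.mem_ball, dist_comm, dist_eq_norm] at h4
      exact h2 h4
    rw [indicator_of_notMem h3, if_neg (fun h => h2 h.2)]

lemma measurable_of_uncurry {α β γ : Type*} [MeasurableSpace α] [MeasurableSpace β]
    [MeasurableSpace γ] {g : α → β → γ} (h : Measurable (Function.uncurry g)) (x : α) :
    Measurable (g x) :=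
  h.comp measurable_prodMk_left

lemma meas_ws (hr : Reg T f E B) (hc : IsChar T f E B X p) (ha : 0 ≤ a) (hab : a ≤ b)
    (hb : b < T) (s : ℝ) : Measurable ((tdc f E B X p a b).w s) :=
  measurable_of_uncurry (tdc_mw hr hc ha hab hb) s

/-- comparison of integrals, upper bound: no measurability of the integrands is needed -/
theorem lint_le (hr : Reg T f E B) (hc : IsChar T f E B X p) (ha : 0 ≤ a) (hab : a ≤ b)
    (hb : b < T) (hs : s ∈ Icc a b) {g g' : Z → ℝ≥0∞}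
    (h : ∀ q, (tdc f E B X p a b).w s q ≠ 0 → g q ≤ g' q) {A : Set Z} (hA : MeasurableSet A) :
    ∫⁻ q in A, g q ∂(kap f X s) ≤ ∫⁻ q in A, (tdc f E B X p a b).w s q * g' q := by
  rw [kap_eq (E := E) (B := B) (p := p) hs, restrict_withDensity hA]
  refine (lintegral_withDensity_le_lintegral_mul _ (meas_ws hr hc ha hab hb s) g).trans ?_
  refine lintegral_mono fun q => ?_
  by_cases hw : (tdc f E B X p a b).w s q = 0
  · simp [hw]
  · exact mul_le_mul_right (h q hw) _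

/-- comparison of integrals, lower bound -/
theorem lint_ge (hr : Reg T f E B) (hc : IsChar T f E B X p) (ha : 0 ≤ a) (hab : a ≤ b)
    (hb : b < T) (hs : s ∈ Icc a b) {g g' : Z → ℝ≥0∞} (hg' : Measurable g')
    (h : ∀ q, (tdc f E B X p a b).w s q ≠ 0 → g' q ≤ g q) {A : Set Z} (hA : MeasurableSet A) :
    ∫⁻ q in A, (tdc f E B X p a b).w s q * g' q ≤ ∫⁻ q in A, g q ∂(kap f X s) := by
  have hw := meas_ws hr hc ha hab hb s
  rw [kap_eq (E := E) (B := B) (p := p) hs, restrict_withDensity hA]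
  have e : ∫⁻ q in A, (tdc f E B X p a b).w s q * g' q =
      ∫⁻ q, g' q ∂((volume.restrict A).withDensity ((tdc f E B X p a b).w s)) := by
    rw [lintegral_withDensity_eq_lintegral_mul _ hw hg']
    rfl
  rw [e]
  refine lintegral_mono_ae ?_
  rw [ae_withDensity_iff hw]
  exact ae_of_all _ h

theorem lint_le' (hr : Reg T f E B) (hc : IsChar T f E B X p) (ha : 0 ≤ a) (hab : a ≤ b)
    (hb : b < T) (hs : s ∈ Icc a b) {g g' : Z → ℝ≥0∞}
    (h : ∀ q, (tdc f E B X p a b).w s q ≠ 0 → g q ≤ g' q) :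
    ∫⁻ q, g q ∂(kap f X s) ≤ ∫⁻ q, (tdc f E B X p a b).w s q * g' q := by
  have := lint_le hr hc ha hab hb hs h MeasurableSet.univ
  simpa using this


lemma measSet_sh (hc : IsChar T f E B X p) (ha : 0 ≤ a) (hab : a ≤ b)
    (hb : b < T) (R1 d1 e1 D1 Q1 s : ℝ) :
    MeasurableSet ((tdc f E B X p a b).sh R1 d1 e1 D1 Q1 s) := by
  have h1 := measurable_of_uncurry (tdc_mR (f := f) (E := E) (B := B) hc ha hab hb) s
  have h2 := measurable_of_uncurry (tdc_mdl (f := f) (E := E) (B := B) hc ha hab hb) s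
  have h3 := measurable_of_uncurry (tdc_mep (f := f) (E := E) (B := B) hc ha hab hb) s
  have h4 := measurable_of_uncurry (tdc_mD (f := f) (E := E) (B := B) hc ha hab hb) s
  have h5 := measurable_of_uncurry
    (tdc_mga (f := f) (E := E) (B := B) (X := X) (p := p) (a := a) (b := b)) s
  exact ((measurableSet_le measurable_const h1).inter (measurableSet_lt h1 measurable_const)).inter
    (((measurableSet_le measurable_const h2).inter (measurableSet_lt h2 measurable_const)).inter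
    (((measurableSet_le measurable_const h3).inter (measurableSet_lt h3 measurable_const)).inter
    (((measurableSet_le measurable_const h4).inter (measurableSet_lt h4 measurable_const)).inter
    ((measurableSet_le measurable_const h5).inter (measurableSet_lt h5 measurable_const)))))

/-- `kappa_s(shell)` in the two vocabularies -/
theorem kap_shell (hc : IsChar T f E B X p) (ha : 0 ≤ a) (hab : a ≤ b)
    (hb : b < T) (hs : s ∈ Icc a b) (R1 d1 e1 D1 Q1 : ℝ) :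
    (tdc f E B X p a b).kap s ((tdc f E B X p a b).sh R1 d1 e1 D1 Q1 s) =
      kap f X s (shell X p R1 d1 e1 D1 Q1 s) := by
  have hm := measSet_sh (f := f) (E := E) (B := B) hc ha hab hb R1 d1 e1 D1 Q1 s
  rw [kap_eq (E := E) (B := B) (p := p) hs, ← tdc_sh (f := f) (E := E) (B := B) hs,
    withDensity_apply _ hm]
  rfl

theorem nu_shell (hc : IsChar T f E B X p) (ha : 0 ≤ a) (hab : a ≤ b)
    (hb : b < T) (R1 d1 e1 D1 Q1 : ℝ) :
    (tdc f E B X p a b).nu ((tdc f E B X p a b).sh R1 d1 e1 D1 Q1) =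
      ∫⁻ s in Icc a b, kap f X s (shell X p R1 d1 e1 D1 Q1 s) := by
  unfold TD.nu
  exact setLIntegral_congr_fun measurableSet_Icc fun s hs =>
    kap_shell hc ha hab hb hs R1 d1 e1 D1 Q1

end Crest.Agent.R106.Link
end
end

-- ▼ part R106/KerFsrc
section

/-!
# Row 106 (S0140): `|E + v × B| ≤ K_g + √(2ε) |B|`, `K_g²/2 = e - n·(E × B)` (helper868)
-/

set_option autoImplicit false

open MeasureTheory Set Filter Topology
open Crest.AnalysisR.VecCalc3 Crest.AnalysisR.PDE.RVM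
open scoped InnerProductSpace ENNReal ContDiff

namespace Crest.Agent.R106.Mom

open Crest.Agent.R106.GSR (gam acc lor)

theorem cr0 (a b : R3) : cross3 a b 0 = a 1 * b 2 - a 2 * b 1 := rfl
theorem cr1 (a b : R3) : cross3 a b 1 = a 2 * b 0 - a 0 * b 2 := rfl
theorem cr2 (a b : R3) : cross3 a b 2 = a 0 * b 1 - a 1 * b 0 := rfl

theorem nsq (a : R3) : ‖a‖ ^ 2 = a 0 ^ 2 + a 1 ^ 2 + a 2 ^ 2 := by
  rw [EuclideanSpace.norm_sq_eq, Fin.sum_univ_three]
  simp only [Real.norm_eq_abs, sq_abs]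

theorem inr (a b : R3) : ⟪a, b⟫_ℝ = a 0 * b 0 + a 1 * b 1 + a 2 * b 2 := by
  rw [PiLp.inner_apply, Fin.sum_univ_three]
  simp only [RCLike.inner_apply, conj_trivial]
  ring

/-- Lagrange identity -/
theorem norm_cross3_sq (a b : R3) : ‖cross3 a b‖ ^ 2 = ‖a‖ ^ 2 * ‖b‖ ^ 2 - ⟪a, b⟫_ℝ ^ 2 := by
  rw [nsq, nsq, nsq, inr, cr0, cr1, cr2]
  ring

theorem norm_cross3_le (a b : R3) : ‖cross3 a b‖ ≤ ‖a‖ * ‖b‖ := by
  apply le_of_sq_le_sq _ (by positivity)
  rw [norm_cross3_sq, mul_pow]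
  nlinarith [sq_nonneg ⟪a, b⟫_ℝ]

/-- the square of the good part of the field (direction `n`) -/
noncomputable def kg2 (n E B : R3) : ℝ :=
  ⟪n, E⟫_ℝ ^ 2 + ⟪n, B⟫_ℝ ^ 2 + ‖B - ⟪n, B⟫_ℝ • n - cross3 n E‖ ^ 2


/-- `K_g² = |E|² + |B|² - 2 n·(E × B)`. -/
theorem kg2_eq {n : R3} (hn : ‖n‖ = 1) (E B : R3) :
    kg2 n E B = ‖E‖ ^ 2 + ‖B‖ ^ 2 - 2 * ⟪n, cross3 E B⟫_ℝ := by
  have h : n 0 ^ 2 + n 1 ^ 2 + n 2 ^ 2 = 1 := by rw [← nsq, hn]; norm_num
  unfold kg2
  rw [nsq, nsq, nsq, inr, inr, inr]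
  simp only [PiLp.sub_apply, PiLp.smul_apply, smul_eq_mul, cr0, cr1, cr2]
  have h0 : n 0 ^ 2 = 1 - n 1 ^ 2 - n 2 ^ 2 := by linarith
  have e0 : (n 0 * E 0 + n 1 * E 1 + n 2 * E 2) ^ 2 + (n 0 * B 0 + n 1 * B 1 + n 2 * B 2) ^ 2 +
      ((B 0 - (n 0 * B 0 + n 1 * B 1 + n 2 * B 2) * n 0 - (n 1 * E 2 - n 2 * E 1)) ^ 2 +
          (B 1 - (n 0 * B 0 + n 1 * B 1 + n 2 * B 2) * n 1 - (n 2 * E 0 - n 0 * E 2)) ^ 2 +
        (B 2 - (n 0 * B 0 + n 1 * B 1 + n 2 * B 2) * n 2 - (n 0 * E 1 - n 1 * E 0)) ^ 2) -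
      (E 0 ^ 2 + E 1 ^ 2 + E 2 ^ 2 + (B 0 ^ 2 + B 1 ^ 2 + B 2 ^ 2) -
        2 * (n 0 * (E 1 * B 2 - E 2 * B 1) + n 1 * (E 2 * B 0 - E 0 * B 2) +
          n 2 * (E 0 * B 1 - E 1 * B 0))) =
      (n 0 ^ 2 + n 1 ^ 2 + n 2 ^ 2 - 1) * ((E 0 ^ 2 + E 1 ^ 2 + E 2 ^ 2) +
        (n 0 * B 0 + n 1 * B 1 + n 2 * B 2) ^ 2) := by ring
  have e1 := e0
  rw [h, sub_self, zero_mul] at e1
  linarith


/-- `|E + n × B|² = K_g² - (n·B)²`. -/
theorem norm_add_cross_sq {n : R3} (hn : ‖n‖ = 1) (E B : R3) :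
    ‖E + cross3 n B‖ ^ 2 = kg2 n E B - ⟪n, B⟫_ℝ ^ 2 := by
  rw [kg2_eq hn, norm_add_sq_real, norm_cross3_sq, hn]
  have : ⟪E, cross3 n B⟫_ℝ = - ⟪n, cross3 E B⟫_ℝ := by
    rw [inr, inr, cr0, cr1, cr2, cr0, cr1, cr2]; ring
  rw [this]; ring

theorem norm_add_cross_le {n : R3} (hn : ‖n‖ = 1) (E B : R3) :
    ‖E + cross3 n B‖ ≤ √(kg2 n E B) := by
  apply Real.le_sqrt_of_sq_le
  rw [norm_add_cross_sq hn]
  nlinarith [sq_nonneg ⟪n, B⟫_ℝ]

theorem cross3_sub_left (a b c : R3) : cross3 (a - b) c = cross3 a c - cross3 b c := by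
  ext i; fin_cases i <;> simp [cross3] <;> ring

/-- `|E + v × B| ≤ K_g + √(2ε) |B|` -/
theorem norm_lor_le {n v : R3} (hn : ‖n‖ = 1) (hv : ‖v‖ ≤ 1) (E B : R3) :
    ‖E + cross3 v B‖ ≤ √(kg2 n E B) + √(2 * (1 - ⟪n, v⟫_ℝ)) * ‖B‖ := by
  have e : E + cross3 v B = (E + cross3 n B) - cross3 (n - v) B := by
    rw [cross3_sub_left]; abel
  rw [e]
  refine (norm_sub_le _ _).trans (add_le_add (norm_add_cross_le hn E B) ?_)
  refine (norm_cross3_le _ _).trans (mul_le_mul_of_nonneg_right ?_ (norm_nonneg _))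
  exact Pair.norm_sub_le_sqrt hn hv

/-- (F) of the interface, with constant `1`. -/
theorem fsrc_le (E B : ℝ → R3 → R3) (X : ℝ → R3) (s : ℝ) (q : R3 × R3) (h : X s ≠ q.1) :
    Fsrc E B X s q ≤ Kg E B X s q.1 + √(2 * ep X s q.1 q.2) * ‖B (ret X s q.1) q.1‖ := by
  have hne : ‖X s - q.1‖ ≠ 0 := norm_ne_zero_iff.mpr (sub_ne_zero.mpr h)
  have hn : ‖nn X s q.1‖ = 1 := by
    unfold nn
    rw [norm_smul, norm_inv, norm_norm, inv_mul_cancel₀ hne]
  exact norm_lor_le hn (GSR.norm_relVel_lt q.2).le _ _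

/-- **(F) of the interface.** -/
theorem fsrcP (E B : ℝ → R3 → R3) : FsrcP E B := by
  intro X s q h
  refine (fsrc_le E B X s q h).trans ?_
  have : 0 ≤ Kg E B X s q.1 := Real.sqrt_nonneg _
  linarith

end Crest.Agent.R106.Mom
end

-- ▼ part R106/LinkC0
section

set_option autoImplicit false

open MeasureTheory Set Filter Topology
open Crest.AnalysisR.VecCalc3 Crest.AnalysisR.PDE.RVM
open scoped InnerProductSpace ENNReal ContDiff

noncomputable section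

namespace Crest.Agent.R106.Link

open Crest.Agent.R106.GSR (gam acc lor)
open Crest.Agent.R106.Mom

/-! ### numbers -/

section num

variable {P Q d e g G R : ℝ}

lemma regE_iff : regE (lamQ P Q) (QsP P) d e g ↔
    (g ≤ 16 * P ^ (11 / 20 : ℝ) ∨ Abs.lamc P Q * d ^ 2 ≤ 2 * e) := by
  unfold regE lamQ QsP Abs.lamc
  constructor
  · rintro (h | h)
    · left; linarith
    · right; linarith
  · rintro (h | h)
    · left; linarith
    · right; linarith

lemma regC_iff : regC (lamQ P Q) (QsP P) d e g ↔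
    (8 * P ^ (11 / 20 : ℝ) ≤ g ∧ e ≤ 2 * (Abs.lamc P Q * d ^ 2)) := by
  unfold regC lamQ QsP Abs.lamc
  simp only [mul_assoc]

lemma regB_iff : regB (lamQ P Q) (QsP P) d e g ↔
    (8 * P ^ (11 / 20 : ℝ) ≤ g ∧ e ≤ 2 * (Abs.lamc P Q * d ^ 2) ∧ Abs.lamc P Q * d ^ 2 ≤ 2 * e) := by
  unfold regB lamQ QsP Abs.lamc
  constructor
  · rintro ⟨h1, h2, h3⟩
    exact ⟨h1, by linarith, by linarith⟩
  · rintro ⟨h1, h2, h3⟩
    exact ⟨h1, by linarith, by linarith⟩

lemma kGam_le (hQ : 0 < Q) (hG : Q / 4 ≤ G) (hd : 0 < d) (hR : 0 < R) :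
    Mom.kGam d e G R ≤ 16 * Abs.kGam Q d e R := by
  unfold Mom.kGam Abs.kGam
  have hG0 : 0 < G := by linarith
  have h1 : Q ^ 2 ≤ 16 * G ^ 2 := by nlinarith
  have h2 : 0 ≤ d + √(d * e) := by positivity
  rw [← mul_div_assoc, div_le_div_iff₀ (by positivity) (by positivity)]
  have h3 : 0 ≤ (d + √(d * e)) * (d ^ 2 * R ^ 2) := by positivity
  nlinarith [mul_le_mul_of_nonneg_left h1 h3]

lemma kC_le (hQ : 0 < Q) (hG : Q / 4 ≤ G) (hd : 0 < d) (hR : 0 < R) :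
    Mom.kC d e G R ≤ 16 * Abs.kC Q d e R := by
  unfold Mom.kC Abs.kC
  have hG0 : 0 < G := by linarith
  have h2 : 0 ≤ √e := by positivity
  rw [← mul_div_assoc, div_le_div_iff₀ (by positivity) (by positivity)]
  have h3 : 0 ≤ √e * (d * R) := by positivity
  nlinarith [mul_le_mul_of_nonneg_left hG h3]

lemma gRnum_le {F K Bs : ℝ} (hd : 0 < d) (he : 0 < e) (hg : 0 < g) (hR : 0 < R)
    (hK : 0 ≤ K) (hB : 0 ≤ Bs) (hF : F ≤ 2 * K + √(2 * e) * Bs) :
    Mom.kT d e g R + Mom.kS d e g R * F ≤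
      16 * (Abs.kT d e g R + Abs.kS d e g R * (K + √e * Bs)) := by
  have hT : Mom.kT d e g R = Abs.kT d e g R := rfl
  have hS : Mom.kS d e g R = Abs.kS d e g R := rfl
  rw [hT, hS]
  have h1 : 0 ≤ Abs.kT d e g R := by unfold Abs.kT; positivity
  have h2 : 0 ≤ Abs.kS d e g R := by unfold Abs.kS; positivity
  have h3 : √(2 * e) ≤ 2 * √e := by
    rw [Real.sqrt_mul (by norm_num)]
    apply mul_le_mul_of_nonneg_right _ (Real.sqrt_nonneg _)
    rw [Real.sqrt_le_left (by norm_num)]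
    norm_num
  have h4 : F ≤ 2 * (K + √e * Bs) := by nlinarith [mul_le_mul_of_nonneg_right h3 hB]
  have h5 : 0 ≤ K + √e * Bs := by positivity
  nlinarith [mul_le_mul_of_nonneg_left h4 h2, mul_nonneg h2 h5]

end num

open Classical in
/-- pointwise comparison of `hden` with the integrand of `Abs.TD.h`. -/
lemma ofReal_hden_le {E B : ℝ → R3 → R3} {X p : ℝ → R3} {s : ℝ} {q : R3 × R3} {P Q : ℝ}
    (hQ : 0 < Q) (hG : Q / 4 ≤ gam (p s)) (hne : X s ≠ q.1)
    (hd : 0 < Mom.dl X p s q.1) (he : 0 < Mom.ep X s q.1 q.2) (hg : 0 < gam q.2) :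
    ENNReal.ofReal (hden E B (lamQ P Q) (QsP P) X p s q) ≤ ENNReal.ofReal 16 *
      ((if (gam q.2 ≤ 16 * P ^ (11 / 20 : ℝ) ∨
            Abs.lamc P Q * Mom.dl X p s q.1 ^ 2 ≤ 2 * Mom.ep X s q.1 q.2) then
          ENNReal.ofReal (Abs.kT (Mom.dl X p s q.1) (Mom.ep X s q.1 q.2) (gam q.2) (Rr X s q.1)
            + Abs.kS (Mom.dl X p s q.1) (Mom.ep X s q.1 q.2) (gam q.2) (Rr X s q.1) *
              (Kg E B X s q.1 + √(Mom.ep X s q.1 q.2) * ‖B (ret X s q.1) q.1‖)) else 0) +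
       (if (8 * P ^ (11 / 20 : ℝ) ≤ gam q.2 ∧
            Mom.ep X s q.1 q.2 ≤ 2 * (Abs.lamc P Q * Mom.dl X p s q.1 ^ 2)) then
          ENNReal.ofReal (Abs.kGam Q (Mom.dl X p s q.1) (Mom.ep X s q.1 q.2) (Rr X s q.1)) +
          ENNReal.ofReal (Abs.kC Q (Mom.dl X p s q.1) (Mom.ep X s q.1 q.2) (Rr X s q.1)) *
            ENNReal.ofReal (Ftest E B X p s) else 0) +
       (if (8 * P ^ (11 / 20 : ℝ) ≤ gam q.2 ∧
            Mom.ep X s q.1 q.2 ≤ 2 * (Abs.lamc P Q * Mom.dl X p s q.1 ^ 2) ∧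
            Abs.lamc P Q * Mom.dl X p s q.1 ^ 2 ≤ 2 * Mom.ep X s q.1 q.2) then
          ENNReal.ofReal (Abs.kcut (Mom.dl X p s q.1) (Mom.ep X s q.1 q.2) (Dd p s q.2)
            (Rr X s q.1)) else 0)) := by
  have hR : 0 < Rr X s q.1 := by
    unfold Rr
    exact norm_pos_iff.mpr (sub_ne_zero.mpr hne)
  unfold hden
  simp only [regE_iff, regC_iff, regB_iff]
  refine (ENNReal.ofReal_add_le.trans (add_le_add ENNReal.ofReal_add_le le_rfl)).trans ?_
  rw [mul_add, mul_add]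
  refine add_le_add (add_le_add ?_ ?_) ?_
  · split_ifs
    · rw [← ENNReal.ofReal_mul (by norm_num)]
      apply ENNReal.ofReal_le_ofReal
      apply gRnum_le hd he hg hR (Real.sqrt_nonneg _) (norm_nonneg _)
      exact fsrcP E B X s q hne
    · simp
  · split_ifs
    · have h0 : 0 ≤ Ftest E B X p s := norm_nonneg _
      refine ENNReal.ofReal_add_le.trans ?_
      rw [mul_add, ← ENNReal.ofReal_mul (by norm_num)]
      refine add_le_add (ENNReal.ofReal_le_ofReal (kGam_le hQ hG hd hR)) ?_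
      rw [← mul_assoc, ← ENNReal.ofReal_mul (by norm_num), ← ENNReal.ofReal_mul' h0]
      exact ENNReal.ofReal_le_ofReal (mul_le_mul_of_nonneg_right (kC_le hQ hG hd hR) h0)
    · simp
  · split_ifs
    · rw [← ENNReal.ofReal_mul (by norm_num)]
      apply ENNReal.ofReal_le_ofReal
      have h1 : Mom.kcut (Mom.dl X p s q.1) (Mom.ep X s q.1 q.2) (Dd p s q.2) (Rr X s q.1) =
        Abs.kcut (Mom.dl X p s q.1) (Mom.ep X s q.1 q.2) (Dd p s q.2) (Rr X s q.1) := rfl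
      rw [h1]
      have h2 : 0 ≤ Abs.kcut (Mom.dl X p s q.1) (Mom.ep X s q.1 q.2) (Dd p s q.2) (Rr X s q.1) := by
        unfold Abs.kcut
        positivity
      linarith
    · simp

open Classical in
lemma ofReal_bden_eq {X p : ℝ → R3} {s : ℝ} {q : R3 × R3} {P Q : ℝ} :
    ENNReal.ofReal (bden (lamQ P Q) (QsP P) X p s q) =
      (if (8 * P ^ (11 / 20 : ℝ) ≤ gam q.2 ∧
            Mom.ep X s q.1 q.2 ≤ 2 * (Abs.lamc P Q * Mom.dl X p s q.1 ^ 2)) then
        ENNReal.ofReal (Abs.kG (Mom.dl X p s q.1) (Mom.ep X s q.1 q.2) (Rr X s q.1)) else 0) := by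
  unfold bden
  simp only [regC_iff]
  split_ifs
  · rfl
  · simp

end Crest.Agent.R106.Link
end
end

-- ▼ part R106/LinkC
section

set_option autoImplicit false

open MeasureTheory Set Filter Topology
open Crest.AnalysisR.VecCalc3 Crest.AnalysisR.PDE.RVM
open scoped InnerProductSpace ENNReal ContDiff

noncomputable section

namespace Crest.Agent.R106.Link

open Crest.Agent.R106.GSR (gam acc lor)
open Crest.Agent.R106.Mom
open Crest.Agent.R106.Abs (TD)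

variable {T : ℝ} {f : ℝ → R3 → R3 → ℝ} {E B : ℝ → R3 → R3} {X p : ℝ → R3} {a b s : ℝ}

lemma kap_zero' (f : ℝ → R3 → R3 → ℝ) (X : ℝ → R3) {s : ℝ} (hs : s ≤ 0) : kap f X s = 0 := by
  unfold kap
  rw [Metric.ball_eq_empty.mpr hs, empty_prod, Measure.restrict_empty, withDensity_zero_left]

lemma norm_nn_seen {q : Z} (hq : q ∈ seen X s) : ‖nn X s q.1‖ = 1 := by
  unfold nn
  rw [norm_smul, norm_inv, norm_norm]
  exact inv_mul_cancel₀ hq.1.ne'

lemma dl_pos {q : Z} (hq : q ∈ seen X s) : 0 < Mom.dl X p s q.1 := by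
  unfold Mom.dl
  have h1 := real_inner_le_norm (nn X s q.1) (relVel (p s))
  have h2 := GSR.norm_relVel_lt (p s)
  rw [norm_nn_seen hq, one_mul] at h1
  linarith

lemma ep_pos {q : Z} (hq : q ∈ seen X s) : 0 < Mom.ep X s q.1 q.2 := by
  unfold Mom.ep
  have h1 := real_inner_le_norm (nn X s q.1) (relVel q.2)
  have h2 := GSR.norm_relVel_lt q.2
  rw [norm_nn_seen hq, one_mul] at h1
  linarith

lemma gam_pos' (w : R3) : 0 < gam w := by
  unfold gam
  positivity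

/-- (iv), `h`. -/
theorem hh_le (hr : Reg T f E B) (hc : IsChar T f E B X p) (ha : 0 ≤ a) (hab : a ≤ b)
    (hb : b < T) (hs : s ∈ Icc a b) {P Q : ℝ} (hQ : 0 < Q) (hG : Q / 4 ≤ gam (p s)) :
    hh f E B (lamQ P Q) (QsP P) X p s ≤ (tdc f E B X p a b).h 16 P Q s := by
  classical
  unfold hh TD.h
  have h16 : (1 : ℝ≥0∞) ≤ ENNReal.ofReal 16 := by
    rw [ENNReal.one_le_ofReal]; norm_num
  rcases le_or_gt s 0 with h0 | h0
  · rw [kap_zero' f X h0, lintegral_zero_measure, add_zero]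
    calc (1 : ℝ≥0∞) ≤ ENNReal.ofReal 16 * 1 := by rw [mul_one]; exact h16
      _ ≤ _ := mul_le_mul_right le_self_add _
  · have key := lint_le' hr hc ha hab hb hs
      (g := fun q => ENNReal.ofReal (hden E B (lamQ P Q) (QsP P) X p s q))
      (g' := fun z => ENNReal.ofReal 16 *
        ((if (tdc f E B X p a b).inE P Q s z then ENNReal.ofReal ((tdc f E B X p a b).gR s z) else 0) +
     (if (tdc f E B X p a b).inC P Q s z then
        ENNReal.ofReal (Abs.kGam Q ((tdc f E B X p a b).dl s z) ((tdc f E B X p a b).ep s z)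
          ((tdc f E B X p a b).R s z)) +
        ENNReal.ofReal (Abs.kC Q ((tdc f E B X p a b).dl s z) ((tdc f E B X p a b).ep s z)
          ((tdc f E B X p a b).R s z)) * (tdc f E B X p a b).Ft s else 0) +
     (if (tdc f E B X p a b).inB P Q s z then
        ENNReal.ofReal (Abs.kcut ((tdc f E B X p a b).dl s z) ((tdc f E B X p a b).ep s z)
          ((tdc f E B X p a b).D s z) ((tdc f E B X p a b).R s z)) else 0)))
      (fun q hw => by
        have hq := seen_of_w hs hw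
        have hne : X s ≠ q.1 := by
          intro h
          have := hq.1
          rw [h, sub_self, norm_zero] at this
          exact lt_irrefl _ this
        have h1 := ofReal_hden_le (E := E) (B := B) (X := X) (p := p) (s := s) (q := q) (P := P)
          hQ hG hne (dl_pos hq) (ep_pos hq) (gam_pos' q.2)
        simp only [TD.inE, TD.inC, TD.inB, TD.gR, tdc_R hs, tdc_dl hs, tdc_ep hs, tdc_D hs, tdc_ga,
          tdc_Kg hs hq, tdc_Bs hs hq, tdc_Ft ha hs, if_neg (not_le.mpr h0)]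
        exact h1)
    have e : ∀ z : Z, (tdc f E B X p a b).w s z * (ENNReal.ofReal 16 *
        ((if (tdc f E B X p a b).inE P Q s z then ENNReal.ofReal ((tdc f E B X p a b).gR s z) else 0) +
     (if (tdc f E B X p a b).inC P Q s z then
        ENNReal.ofReal (Abs.kGam Q ((tdc f E B X p a b).dl s z) ((tdc f E B X p a b).ep s z)
          ((tdc f E B X p a b).R s z)) +
        ENNReal.ofReal (Abs.kC Q ((tdc f E B X p a b).dl s z) ((tdc f E B X p a b).ep s z)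
          ((tdc f E B X p a b).R s z)) * (tdc f E B X p a b).Ft s else 0) +
     (if (tdc f E B X p a b).inB P Q s z then
        ENNReal.ofReal (Abs.kcut ((tdc f E B X p a b).dl s z) ((tdc f E B X p a b).ep s z)
          ((tdc f E B X p a b).D s z) ((tdc f E B X p a b).R s z)) else 0))) =
        ENNReal.ofReal 16 * ((tdc f E B X p a b).w s z *
        ((if (tdc f E B X p a b).inE P Q s z then ENNReal.ofReal ((tdc f E B X p a b).gR s z) else 0) +
     (if (tdc f E B X p a b).inC P Q s z then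
        ENNReal.ofReal (Abs.kGam Q ((tdc f E B X p a b).dl s z) ((tdc f E B X p a b).ep s z)
          ((tdc f E B X p a b).R s z)) +
        ENNReal.ofReal (Abs.kC Q ((tdc f E B X p a b).dl s z) ((tdc f E B X p a b).ep s z)
          ((tdc f E B X p a b).R s z)) * (tdc f E B X p a b).Ft s else 0) +
     (if (tdc f E B X p a b).inB P Q s z then
        ENNReal.ofReal (Abs.kcut ((tdc f E B X p a b).dl s z) ((tdc f E B X p a b).ep s z)
          ((tdc f E B X p a b).D s z) ((tdc f E B X p a b).R s z)) else 0))) := fun z => by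
      rw [mul_left_comm]
    simp only [e] at key
    rw [lintegral_const_mul' _ _ ENNReal.ofReal_ne_top] at key
    rw [mul_add, mul_one]
    exact add_le_add h16 key

/-- (iv), `b`. -/
theorem bb_le (hr : Reg T f E B) (hc : IsChar T f E B X p) (ha : 0 ≤ a) (hab : a ≤ b)
    (hb : b < T) (hs : s ∈ Icc a b) {P Q : ℝ} :
    bb f (lamQ P Q) (QsP P) X p s ≤ (tdc f E B X p a b).bd 1 P Q s := by
  classical
  unfold bb TD.bd
  rw [ENNReal.ofReal_one, one_mul]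
  refine lint_le' hr hc ha hab hb hs (fun q hw => ?_)
  have hq := seen_of_w hs hw
  simp only [TD.inC, tdc_R hs, tdc_dl hs, tdc_ep hs, tdc_ga]
  exact ofReal_bden_eq.le

end Crest.Agent.R106.Link
end
end

-- ▼ part R106/LinkD
section

set_option autoImplicit false

open MeasureTheory Set Filter Topology
open Crest.AnalysisR.VecCalc3 Crest.AnalysisR.PDE.RVM
open scoped InnerProductSpace ENNReal ContDiff

noncomputable section

namespace Crest.Agent.R106.Link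

open Crest.Agent.R106.GSR (gam acc lor)
open Crest.Agent.R106.Mom
open Crest.Agent.R106.Abs (TD lw)
open Crest.Agent.R106.Boot (en win Below Hyp)

variable {f : ℝ → R3 → R3 → ℝ} {E B : ℝ → R3 → R3} {X p : ℝ → R3} {a b s T : ℝ}

/-! ### monotonicity in the constant -/

section mono
variable {Z : Type} [MeasurableSpace Z] {S : TD Z} {C C' Tm P Qt : ℝ}

lemma ofReal_mono_const {x : ℝ} (hx : 0 ≤ x) (h : C ≤ C') :
    ENNReal.ofReal (C * x) ≤ ENNReal.ofReal (C' * x) :=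
  ENNReal.ofReal_le_ofReal (mul_le_mul_of_nonneg_right h hx)

lemma coreAB_mono (h : S.CoreAB C Tm P Qt) (hC : C ≤ C') : S.CoreAB C' Tm P Qt := by
  refine { h with ca := ?_, cb := ?_ }
  · intro R1 d1 e1 D1 Q1 h1 h2 h3 h4 h5 s hs
    have h6 : 0 ≤ min e1 D1 := le_min h3.le h4.le
    exact (h.ca R1 d1 e1 D1 Q1 h1 h2 h3 h4 h5 s hs).trans
      (ofReal_mono_const (by positivity) hC)
  · intro R1 d1 e1 D1 Q1 h1 h2 h3 h4 h5 s hs
    exact (h.cb R1 d1 e1 D1 Q1 h1 h2 h3 h4 h5 s hs).trans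
      (ofReal_mono_const (by positivity) hC)

lemma lw_nonneg {c0 Q : ℝ} (hc0 : 0 ≤ c0) (hP : 1 ≤ P) (hQ : 0 ≤ Q) : 0 ≤ lw c0 P Q := by
  have h1 : 0 ≤ Real.log P := Real.log_nonneg hP
  have h2 : 0 ≤ P := by linarith
  unfold lw
  refine mul_nonneg hc0 (le_min (by positivity) (by positivity))

lemma coreD_mono {c0 : ℝ} (hc0 : 0 ≤ c0) (hP : 1 ≤ P) (hab : S.a ≤ S.b)
    (h : S.CoreD C P c0 Qt) (hC : C ≤ C') : S.CoreD C' P c0 Qt := by
  intro R1 d1 e1 D1 Q1 h1 h2 h3 h4 h5 h6 h7 h8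
  have h9 := lw_nonneg hc0 hP h5.le
  have h10 : 0 ≤ S.b - S.a := by linarith
  exact (h R1 d1 e1 D1 Q1 h1 h2 h3 h4 h5 h6 h7 h8).trans
    (ofReal_mono_const (by positivity) hC)

end mono

/-! ### geometry -/

lemma norm_nn_of_seen {q : Z} (hq : q ∈ seen X s) : ‖nn X s q.1‖ = 1 := by
  have h1 : ‖X s - q.1‖ ≠ 0 := hq.1.ne'
  unfold nn
  rw [norm_smul, norm_inv, norm_norm, inv_mul_cancel₀ h1]

lemma inv_gam_sq_le {w : R3} {Qt : ℝ} (h : gam w ≤ 4 * Qt) :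
    1 / (32 * Qt ^ 2) ≤ ((gam w ^ 2)⁻¹) / 2 := by
  have h0 := Pair.gam_pos w
  have hQ : 0 < Qt := by linarith
  have h1 : gam w ^ 2 ≤ 16 * Qt ^ 2 := by nlinarith
  rw [div_le_iff₀ (by positivity), inv_eq_one_div, div_div, div_mul_eq_mul_div, one_mul,
    le_div_iff₀ (by positivity)]
  linarith

/-- sources seen on the cone have energy `≤ P` -/
lemma src_le {P t1 : ℝ} (hch : CharP T f E B) (ht1 : t1 ∈ Ico 0 T)
    (hbel : Below (mom (T := T) (f := f) (E := E) (B := B)) P t1) (hb : b ≤ t1) :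
    ∀ t ∈ Icc 0 b, ∀ y w : R3, f t y w ≠ 0 → gam w ≤ P := by
  intro t ht y w hne
  obtain ⟨ξ, -, h2⟩ := hch t ⟨ht.1, lt_of_le_of_lt (ht.2.trans hb) ht1.2⟩ y w hne
  have h3 := hbel ξ t ⟨ht.1, ht.2.trans hb⟩
  unfold mom at h3
  rw [h2] at h3
  exact h3

theorem geo_of (hr : Reg T f E B) (hc : IsChar T f E B X p) (ha : 0 ≤ a) (hab : a ≤ b)
    (hb : b < T) {P Qt : ℝ} (hen : ∀ s ∈ Icc a b, gam (p s) ≤ 4 * Qt)
    (hP : ∀ t ∈ Icc 0 b, ∀ y w : R3, f t y w ≠ 0 → gam w ≤ P) :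
    (tdc f E B X p a b).Geo T P Qt where
  sf := by
    rw [tdc_m]
    infer_instance
  mw := tdc_mw hr hc ha hab hb
  mR := tdc_mR hc ha hab hb
  mdl := tdc_mdl hc ha hab hb
  mep := tdc_mep hc ha hab hb
  mD := tdc_mD hc ha hab hb
  mga := tdc_mga
  mKg := tdc_mKg hr hc ha hab hb
  mBs := tdc_mBs hr hc ha hab hb
  R0 := by
    intro s (hs : s ∈ Icc a b) z hw
    rw [tdc_R hs]
    exact (seen_of_w hs hw).1
  R1 := by
    intro s (hs : s ∈ Icc a b) z hw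
    rw [tdc_R hs]
    have h1 : ‖X s - z.1‖ < s := (seen_of_w hs hw).2
    have h2 : s ≤ b := hs.2
    unfold Rr
    linarith
  dl0 := by
    intro s (hs : s ∈ Icc a b) z hw
    rw [tdc_dl hs]
    have hn := norm_nn_of_seen (seen_of_w hs hw)
    have h1 := Pair.gam_le_ep (v := relVel (p s)) hn
    rw [Pair.one_sub_normSq_relVel] at h1
    have h2 := inv_gam_sq_le (hen s hs)
    have h3 : Mom.dl X p s z.1 = Pair.om (nn X s z.1) (relVel (p s)) := rfl
    rw [h3]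
    linarith
  dl1 := by
    intro s (hs : s ∈ Icc a b) z hw
    rw [tdc_dl hs]
    have hn := norm_nn_of_seen (seen_of_w hs hw)
    exact Pair.om_le_two hn.le (Pair.norm_relVel_lt_one (p s)).le
  ep0 := by
    intro s (hs : s ∈ Icc a b) z hw
    rw [tdc_ep hs, tdc_ga]
    have hn := norm_nn_of_seen (seen_of_w hs hw)
    have h1 := Pair.gam_le_ep (v := relVel z.2) hn
    rw [Pair.one_sub_normSq_relVel] at h1
    have h3 : Mom.ep X s z.1 z.2 = Pair.om (nn X s z.1) (relVel z.2) := rfl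
    rw [h3]
    have h4 : 1 / (2 * gam z.2 ^ 2) = (gam z.2 ^ 2)⁻¹ / 2 := by
      rw [one_div, mul_inv]
      ring
    rw [h4]
    linarith
  ep1 := by
    intro s (hs : s ∈ Icc a b) z hw
    rw [tdc_ep hs]
    have hn := norm_nn_of_seen (seen_of_w hs hw)
    exact Pair.om_le_two hn.le (Pair.norm_relVel_lt_one z.2).le
  D0 := by
    intro s (hs : s ∈ Icc a b) z hw
    rw [tdc_D hs]
    have h1 := Pair.gam_add_le_D (v := relVel z.2) (V := relVel (p s))
    rw [Pair.one_sub_normSq_relVel, Pair.one_sub_normSq_relVel] at h1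
    have h2 := inv_gam_sq_le (hen s hs)
    have h3 : Dd p s z.2 = Pair.om (relVel (p s)) (relVel z.2) := rfl
    rw [h3]
    have h5 : 0 ≤ (gam z.2 ^ 2)⁻¹ := by positivity
    linarith
  D0' := by
    intro s (hs : s ∈ Icc a b) z hw
    rw [tdc_D hs, tdc_ga]
    have h1 := Pair.gam_add_le_D (v := relVel z.2) (V := relVel (p s))
    rw [Pair.one_sub_normSq_relVel, Pair.one_sub_normSq_relVel] at h1
    have h3 : Dd p s z.2 = Pair.om (relVel (p s)) (relVel z.2) := rfl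
    rw [h3]
    have h4 : 1 / (2 * gam z.2 ^ 2) = (gam z.2 ^ 2)⁻¹ / 2 := by
      rw [one_div, mul_inv]
      ring
    rw [h4]
    have h5 : 0 ≤ (gam (p s) ^ 2)⁻¹ := by positivity
    linarith
  D1 := by
    intro s (hs : s ∈ Icc a b) z hw
    rw [tdc_D hs]
    exact Pair.om_le_two (Pair.norm_relVel_lt_one (p s)).le (Pair.norm_relVel_lt_one z.2).le
  tri := by
    intro s (hs : s ∈ Icc a b) z hw
    rw [tdc_D hs, tdc_dl hs, tdc_ep hs]
    have hn := norm_nn_of_seen (seen_of_w hs hw)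
    exact Pair.abs_D_sub_le hn (Pair.norm_relVel_lt_one z.2).le
      (Pair.norm_relVel_lt_one (p s)).le
  ga0 := by
    intro s (hs : s ∈ Icc a b) z hw
    rw [tdc_ga]
    exact Pair.one_le_gam z.2
  ga1 := by
    intro s (hs : s ∈ Icc a b) z hw
    rw [tdc_ga]
    exact hP _ (ret_mem hs (seen_of_w hs hw)) _ _ (f_ne_of_w hs hw).ne'
  Kg0 := by
    intro s (hs : s ∈ Icc a b) z hw
    rw [tdc_Kg hs (seen_of_w hs hw)]
    exact Real.sqrt_nonneg _
  Bs0 := by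
    intro s (hs : s ∈ Icc a b) z hw
    rw [tdc_Bs hs (seen_of_w hs hw)]
    exact norm_nonneg _

/-! ### `CoreAB` -/

/-- at time `0` the cone is empty -/
lemma kap_zero (X : ℝ → R3) {s : ℝ} (hs : s ≤ 0) (A : Set Z) : kap f X s A = 0 := by
  unfold kap
  rw [Metric.ball_eq_empty.mpr hs, empty_prod, Measure.restrict_empty]
  simp

theorem coreAB_of (hr : Reg T f E B) (hA : OccA T f E B) (hB : OccB T f E B) :
    ∃ C : ℝ, 0 ≤ C ∧ ∀ X p : ℝ → R3, IsChar T f E B X p → ∀ a b : ℝ, 0 ≤ a → a ≤ b → b < T →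
      ∀ P Qt : ℝ, (∀ s ∈ Icc a b, gam (p s) ≤ 4 * Qt) →
      (∀ t ∈ Icc 0 b, ∀ y w : R3, f t y w ≠ 0 → gam w ≤ P) →
      (tdc f E B X p a b).CoreAB C T P Qt := by
  obtain ⟨C1, hC1, h1⟩ := hA
  obtain ⟨C2, hC2, h2⟩ := hB
  refine ⟨max C1 C2, le_max_of_le_left hC1, fun X p hc a b ha hab hb P Qt hen hP => ?_⟩
  refine { geo_of hr hc ha hab hb hen hP with ca := ?_, cb := ?_ }
  · intro R1 d1 e1 D1 Q1 g1 g2 g3 g4 g5 s (hs : s ∈ Icc a b)
    rw [kap_shell hc ha hab hb hs]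
    have h6 : 0 ≤ min e1 D1 := le_min g3.le g4.le
    rcases le_or_gt s 0 with h0 | h0
    · rw [kap_zero X h0]
      exact zero_le
    · exact (h1 X p hc R1 d1 e1 D1 Q1 g1 g2 g3 g4 g5 s ⟨h0, lt_of_le_of_lt hs.2 hb⟩).trans
        (ofReal_mono_const (by positivity) (le_max_left _ _))
  · intro R1 d1 e1 D1 Q1 g1 g2 g3 g4 g5 s (hs : s ∈ Icc a b)
    rw [kap_shell hc ha hab hb hs]
    rcases le_or_gt s 0 with h0 | h0
    · rw [kap_zero X h0]
      exact zero_le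
    · exact (h2 X p hc R1 d1 e1 D1 Q1 g1 g2 g3 g4 g5 s ⟨h0, lt_of_le_of_lt hs.2 hb⟩).trans
        (ofReal_mono_const (by positivity) (le_max_right _ _))

/-! ### the pointwise comparison of the retarded integrands -/

lemma kT_nonneg {d e g R : ℝ} (he : 0 ≤ e) : 0 ≤ Mom.kT d e g R := by
  unfold Mom.kT
  positivity

lemma kS_nonneg {d e g R : ℝ} (he : 0 ≤ e) (hg : 0 ≤ g) (hR : 0 ≤ R) : 0 ≤ Mom.kS d e g R := by
  unfold Mom.kS
  positivity

/-- on the seen part: retarded integrand `≤ 2 gR` -/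
lemma gR_le (hF : FsrcP E B) (hs : s ∈ Icc a b) {q : Z}
    (hw : (tdc f E B X p a b).w s q ≠ 0) :
    Mom.kT (Mom.dl X p s q.1) (Mom.ep X s q.1 q.2) (gam q.2) (Rr X s q.1)
      + Mom.kS (Mom.dl X p s q.1) (Mom.ep X s q.1 q.2) (gam q.2) (Rr X s q.1) * Fsrc E B X s q
      ≤ 2 * (tdc f E B X p a b).gR s q := by
  have hq := seen_of_w hs hw
  have hn := norm_nn_of_seen hq
  have he : 0 ≤ Mom.ep X s q.1 q.2 := (Pair.om_pos hn (Pair.norm_relVel_lt_one q.2)).le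
  have hg : 0 ≤ gam q.2 := (Pair.gam_pos q.2).le
  have hR : 0 ≤ Rr X s q.1 := norm_nonneg _
  have hkT := kT_nonneg (d := Mom.dl X p s q.1) (g := gam q.2) (R := Rr X s q.1) he
  have hkS := kS_nonneg (d := Mom.dl X p s q.1) (g := gam q.2) (R := Rr X s q.1) he hg hR
  have hne : X s ≠ q.1 := by
    intro h
    have : 0 < ‖X s - q.1‖ := hq.1
    rw [h, sub_self, norm_zero] at this
    exact lt_irrefl _ this
  have hFs := hF X s q hne
  have hKg : 0 ≤ Kg E B X s q.1 := Real.sqrt_nonneg _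
  have h2 : √(2 * Mom.ep X s q.1 q.2) ≤ 2 * √(Mom.ep X s q.1 q.2) := by
    rw [Real.sqrt_mul (by norm_num)]
    have : √2 ≤ 2 := by
      rw [Real.sqrt_le_left (by norm_num)]
      norm_num
    exact mul_le_mul_of_nonneg_right this (Real.sqrt_nonneg _)
  have h3 : √(2 * Mom.ep X s q.1 q.2) * ‖B (ret X s q.1) q.1‖ ≤
      2 * √(Mom.ep X s q.1 q.2) * ‖B (ret X s q.1) q.1‖ :=
    mul_le_mul_of_nonneg_right h2 (norm_nonneg _)
  have h4 : Fsrc E B X s q ≤
      2 * (Kg E B X s q.1 + √(Mom.ep X s q.1 q.2) * ‖B (ret X s q.1) q.1‖) := by linarith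
  have e1 : (tdc f E B X p a b).gR s q =
      Mom.kT (Mom.dl X p s q.1) (Mom.ep X s q.1 q.2) (gam q.2) (Rr X s q.1)
      + Mom.kS (Mom.dl X p s q.1) (Mom.ep X s q.1 q.2) (gam q.2) (Rr X s q.1) *
        (Kg E B X s q.1 + √(Mom.ep X s q.1 q.2) * ‖B (ret X s q.1) q.1‖) := by
    unfold TD.gR
    rw [tdc_dl hs, tdc_ep hs, tdc_R hs, tdc_Kg hs hq, tdc_Bs hs hq, tdc_ga]
    rfl
  rw [e1]
  have h5 := mul_le_mul_of_nonneg_left h4 hkS
  nlinarith [h5, hkT]

/-! ### `Core` -/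

theorem core_of (hr : Reg T f E B) (hOA : OccA T f E B) (hOB : OccB T f E B)
    (hOC : OccC T f E B) (hA : Mom.CoreA T f E B) (hB : Mom.CoreB T f E B) (hF : FsrcP E B)
    (hft : FtP T f E B) :
    ∃ C : ℝ, 0 ≤ C ∧ ∀ X p : ℝ → R3, IsChar T f E B X p → ∀ a b : ℝ, 0 ≤ a → a ≤ b → b < T →
      ∀ P Qt : ℝ, (∀ s ∈ Icc a b, gam (p s) ≤ 4 * Qt) →
      (∀ t ∈ Icc 0 b, ∀ y w : R3, f t y w ≠ 0 → gam w ≤ P) →
      (tdc f E B X p a b).Core C T P Qt := by
  obtain ⟨C0, hC0, h0⟩ := coreAB_of hr hOA hOB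
  obtain ⟨C1, hC1, h1⟩ := hOC
  obtain ⟨C2, hC2, h2⟩ := hA
  obtain ⟨C3, hC3, h3⟩ := hB
  obtain ⟨C4, hC4, h4⟩ := hft
  set C : ℝ := C0 + C1 + C2 + C3 + 2 * C4 with hC
  refine ⟨C, by positivity, fun X p hc a b ha hab hb P Qt hen hP => ?_⟩
  have hAB := coreAB_mono (C' := C) (h0 X p hc a b ha hab hb P Qt hen hP) (by rw [hC]; linarith)
  refine { hAB with cc := ?_, cA := ?_, cB := ?_, cR := ?_ }
  · intro R1 d1 e1 D1 Q1 g1 g2 g3 g4 g5
    rw [nu_shell hc ha hab hb]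
    have h6 : 0 ≤ b - a := by linarith
    exact (h1 X p hc R1 d1 e1 D1 Q1 g1 g2 g3 g4 g5 a b ha hab hb).trans
      (ofReal_mono_const (by positivity) (by rw [hC]; linarith))
  · intro R1 d1 e1 D1 Q1 g1 g2 g3 g4 g5 s (hs : s ∈ Icc a b)
    have hs' : s ∈ Icc a b := hs
    rw [kap_shell hc ha hab hb hs']
    have h6 : 0 ≤ min e1 D1 := le_min g3.le g4.le
    have hm := measSet_sh (f := f) (E := E) (B := B) hc ha hab hb R1 d1 e1 D1 Q1 s
    have hKm : Measurable (fun q => ENNReal.ofReal ((tdc f E B X p a b).Kg s q)) :=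
      (measurable_of_uncurry (tdc_mKg hr hc ha hab hb) s).ennreal_ofReal
    have hle : ∫⁻ z in (tdc f E B X p a b).sh R1 d1 e1 D1 Q1 s, (tdc f E B X p a b).w s z *
          ENNReal.ofReal ((tdc f E B X p a b).Kg s z) ∂(tdc f E B X p a b).m ≤
        ∫⁻ q in shell X p R1 d1 e1 D1 Q1 s, ENNReal.ofReal (Kg E B X s q.1) ∂(kap f X s) := by
      rw [← tdc_sh (f := f) (E := E) (B := B) hs']
      refine lint_ge hr hc ha hab hb hs' hKm (fun q hq => ?_) hm
      rw [tdc_Kg hs' (seen_of_w hs' hq)]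
    rcases le_or_gt s 0 with h0' | h0'
    · have hz : ∫⁻ q in shell X p R1 d1 e1 D1 Q1 s, ENNReal.ofReal (Kg E B X s q.1) ∂(kap f X s)
          = 0 := by
        have : kap f X s = 0 := by
          ext A hA
          simpa using kap_zero (f := f) X h0' A
        rw [this]
        simp
      rw [hz] at hle
      have h7 := nonpos_iff_eq_zero.mp hle
      rw [h7]
      simp
    · refine (pow_le_pow_left' hle 2).trans ?_
      refine (h2 X p hc R1 d1 e1 D1 Q1 g1 g2 g3 g4 g5 s ⟨h0', lt_of_le_of_lt hs'.2 hb⟩).trans ?_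
      gcongr
      rw [hC]
      linarith
  · intro R1 d1 e1 D1 Q1 g1 g2 g3 g4 g5
    rw [nu_shell hc ha hab hb]
    have h6 : 0 ≤ min e1 D1 := le_min g3.le g4.le
    have h7 : 0 ≤ b - a := by linarith
    have hle : ∫⁻ s in Icc a b, ∫⁻ z in (tdc f E B X p a b).sh R1 d1 e1 D1 Q1 s,
          (tdc f E B X p a b).w s z *
          ENNReal.ofReal ((tdc f E B X p a b).Bs s z) ∂(tdc f E B X p a b).m ≤
        ∫⁻ s in Icc a b, ∫⁻ q in shell X p R1 d1 e1 D1 Q1 s,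
          ENNReal.ofReal ‖B (ret X s q.1) q.1‖ ∂(kap f X s) := by
      refine setLIntegral_mono' measurableSet_Icc fun s hs => ?_
      have hm := measSet_sh (f := f) (E := E) (B := B) hc ha hab hb R1 d1 e1 D1 Q1 s
      have hKm : Measurable (fun q => ENNReal.ofReal ((tdc f E B X p a b).Bs s q)) :=
        (measurable_of_uncurry (tdc_mBs hr hc ha hab hb) s).ennreal_ofReal
      rw [← tdc_sh (f := f) (E := E) (B := B) hs]
      refine lint_ge hr hc ha hab hb hs hKm (fun q hq => ?_) hm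
      rw [tdc_Bs hs (seen_of_w hs hq)]
    refine (pow_le_pow_left' hle 2).trans ?_
    refine (h3 X p hc R1 d1 e1 D1 Q1 g1 g2 g3 g4 g5 a b ha hab hb).trans ?_
    simp only [tdc_a, tdc_b]
    gcongr
    rw [hC]
    linarith
  · intro s hs
    have hs' : s ∈ Icc a b := hs
    rw [tdc_Ft ha hs']
    rcases le_or_gt s 0 with h0' | h0'
    · rw [if_pos h0']
      exact zero_le
    · rw [if_neg (not_le.mpr h0')]
      have hle := lint_le' hr hc ha hab hb hs'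
        (g := fun q => ENNReal.ofReal (Mom.kT (Mom.dl X p s q.1) (Mom.ep X s q.1 q.2) (gam q.2)
          (Rr X s q.1) + Mom.kS (Mom.dl X p s q.1) (Mom.ep X s q.1 q.2) (gam q.2) (Rr X s q.1) *
          Fsrc E B X s q))
        (g' := fun q => 2 * ENNReal.ofReal ((tdc f E B X p a b).gR s q)) (fun q hq => by
          have := gR_le hF hs' hq
          refine (ENNReal.ofReal_le_ofReal this).trans ?_
          rw [ENNReal.ofReal_mul (by norm_num)]
          simp)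
      have h5 := h4 X p hc s ⟨h0', lt_of_le_of_lt hs'.2 hb⟩
      refine h5.trans ?_
      have e2 : ∫⁻ q, (tdc f E B X p a b).w s q * (2 * ENNReal.ofReal ((tdc f E B X p a b).gR s q))
          = 2 * ∫⁻ q, (tdc f E B X p a b).w s q * ENNReal.ofReal ((tdc f E B X p a b).gR s q) := by
        rw [← lintegral_const_mul' _ _ (by norm_num)]
        refine lintegral_congr fun q => ?_
        ring
      rw [e2] at hle
      have h6 : (1 : ℝ≥0∞) + ∫⁻ q, ENNReal.ofReal (Mom.kT (Mom.dl X p s q.1)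
          (Mom.ep X s q.1 q.2) (gam q.2) (Rr X s q.1) + Mom.kS (Mom.dl X p s q.1)
          (Mom.ep X s q.1 q.2) (gam q.2) (Rr X s q.1) * Fsrc E B X s q) ∂(kap f X s) ≤
          2 * (1 + ∫⁻ q, (tdc f E B X p a b).w s q *
            ENNReal.ofReal ((tdc f E B X p a b).gR s q)) := by
        rw [mul_add, mul_one]
        exact add_le_add (by norm_num) hle
      calc ENNReal.ofReal C4 * (1 + _)
          ≤ ENNReal.ofReal C4 * (2 * (1 + ∫⁻ q, (tdc f E B X p a b).w s q *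
            ENNReal.ofReal ((tdc f E B X p a b).gR s q))) := by gcongr
        _ = ENNReal.ofReal (2 * C4) * (1 + ∫⁻ q, (tdc f E B X p a b).w s q *
            ENNReal.ofReal ((tdc f E B X p a b).gR s q)) := by
          rw [ENNReal.ofReal_mul (by norm_num), ENNReal.ofReal_ofNat]
          ring
        _ ≤ ENNReal.ofReal C * (1 + ∫⁻ q, (tdc f E B X p a b).w s q *
            ENNReal.ofReal ((tdc f E B X p a b).gR s q)) := by
          gcongr
          rw [hC]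
          linarith

/-! ### `CoreD` and the final form -/

theorem coreD_of (hD : OccD T f E B) {Ch : ℝ} (hCh : 0 ≤ Ch) (hinc : IncP T f E B Ch) :
    ∃ C : ℝ, 0 ≤ C ∧ ∀ c0 : ℝ, 0 < c0 → c0 ≤ 1 → ∃ P1 : ℝ, ∀ P : ℝ, P1 ≤ P → ∀ t1 ∈ Ico 0 T,
    Below (mom (T := T) (f := f) (E := E) (B := B)) P t1 →
    Hyp (mom (T := T) (f := f) (E := E) (B := B)) (hB Ch) c0 (1 / 16) P t1 →
    ∀ j : ℕ, P ^ (0.55 : ℝ) ≤ 2 ^ j → (2 : ℝ) ^ j ≤ P → ∀ ξ : Chr T f E B, ∀ a b : ℝ,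
      0 ≤ a → a ≤ b → b ≤ t1 → b - a ≤ win c0 P (2 ^ j) →
      (∀ s ∈ Icc a b, (2 : ℝ) ^ j / 4 ≤ en (mom ξ s) ∧ en (mom ξ s) ≤ 4 * 2 ^ j) →
      (tdc f E B ξ.1.1 ξ.1.2 a b).CoreD C P c0 (2 ^ j) := by
  obtain ⟨C, hC, h⟩ := hD Ch hCh hinc
  refine ⟨C, hC, fun c0 hc0 hc01 => ?_⟩
  obtain ⟨P1, hP1⟩ := h c0 hc0 hc01
  refine ⟨P1, fun P hP t1 ht1 hbel hhyp j hj1 hj2 ξ a b ha hab hbt hwin hen => ?_⟩
  intro R1 d1 e1 D1 Q1 g1 g2 g3 g4 g5 g6 g7 g8
  rw [nu_shell ξ.2 ha hab (lt_of_le_of_lt hbt ht1.2)]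
  exact hP1 P hP t1 ht1 hbel hhyp j hj1 hj2 ξ a b ha hab hbt hwin hen R1 d1 e1 D1 Q1 g1 g2 g3 g4
    g6 g7 g8

/-- FINAL: all the hypotheses of the abstract cost theorem -/
theorem core_and_coreD (hr : Reg T f E B) (hch : CharP T f E B) (hOA : OccA T f E B)
    (hOB : OccB T f E B) (hOC : OccC T f E B) (hA : Mom.CoreA T f E B) (hB' : Mom.CoreB T f E B)
    (hF : FsrcP E B) (hft : FtP T f E B) (hD : OccD T f E B) {Ch : ℝ} (hCh : 0 ≤ Ch)
    (hinc : IncP T f E B Ch) :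
    ∃ C : ℝ, 0 ≤ C ∧ ∀ c0 : ℝ, 0 < c0 → c0 ≤ 1 → ∃ P1 : ℝ, ∀ P : ℝ, P1 ≤ P → ∀ t1 ∈ Ico 0 T,
    Below (mom (T := T) (f := f) (E := E) (B := B)) P t1 →
    Hyp (mom (T := T) (f := f) (E := E) (B := B)) (hB Ch) c0 (1 / 16) P t1 →
    ∀ j : ℕ, P ^ (0.55 : ℝ) ≤ 2 ^ j → (2 : ℝ) ^ j ≤ P → ∀ ξ : Chr T f E B, ∀ a b : ℝ,
      0 ≤ a → a ≤ b → b ≤ t1 → b - a ≤ win c0 P (2 ^ j) →
      (∀ s ∈ Icc a b, (2 : ℝ) ^ j / 4 ≤ en (mom ξ s) ∧ en (mom ξ s) ≤ 4 * 2 ^ j) →
      (tdc f E B ξ.1.1 ξ.1.2 a b).Core C T P (2 ^ j) ∧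
      (tdc f E B ξ.1.1 ξ.1.2 a b).CoreD C P c0 (2 ^ j) := by
  obtain ⟨C1, hC1, h1⟩ := core_of hr hOA hOB hOC hA hB' hF hft
  obtain ⟨C2, hC2, h2⟩ := coreD_of hD hCh hinc
  refine ⟨C1 + C2, by positivity, fun c0 hc0 hc01 => ?_⟩
  obtain ⟨P1, hP1⟩ := h2 c0 hc0 hc01
  refine ⟨max P1 1, fun P hP t1 ht1 hbel hhyp j hj1 hj2 ξ a b ha hab hbt hwin hen => ⟨?_, ?_⟩⟩
  · have h3 := h1 ξ.1.1 ξ.1.2 ξ.2 a b ha hab (lt_of_le_of_lt hbt ht1.2) P (2 ^ j)
      (fun s hs => (hen s hs).2) (src_le hch ht1 hbel hbt)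
    exact { coreAB_mono h3.toCoreAB (by linarith) with
      cc := fun R1 d1 e1 D1 Q1 g1 g2 g3 g4 g5 => (h3.cc R1 d1 e1 D1 Q1 g1 g2 g3 g4 g5).trans
        (ofReal_mono_const (by
          have : 0 ≤ b - a := by linarith
          simp only [tdc_a, tdc_b]
          positivity) (by linarith))
      cA := fun R1 d1 e1 D1 Q1 g1 g2 g3 g4 g5 s hs =>
        (h3.cA R1 d1 e1 D1 Q1 g1 g2 g3 g4 g5 s hs).trans (by
          have h6 : 0 ≤ min e1 D1 := le_min g3.le g4.le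
          gcongr
          linarith)
      cB := fun R1 d1 e1 D1 Q1 g1 g2 g3 g4 g5 =>
        (h3.cB R1 d1 e1 D1 Q1 g1 g2 g3 g4 g5).trans (by
          have h6 : 0 ≤ min e1 D1 := le_min g3.le g4.le
          have : 0 ≤ b - a := by linarith
          simp only [tdc_a, tdc_b]
          gcongr
          linarith)
      cR := fun s hs => (h3.cR s hs).trans (by
          gcongr
          linarith) }
  · exact coreD_mono hc0.le ((le_max_right _ _).trans hP) hab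
      (hP1 P ((le_max_left _ _).trans hP) t1 ht1 hbel hhyp j hj1 hj2 ξ a b ha hab hbt hwin hen)
      (by linarith)

end Crest.Agent.R106.Link
end
end

-- ▼ part R106/LinkE
section

set_option autoImplicit false

open MeasureTheory Set Filter Topology
open Crest.AnalysisR.VecCalc3 Crest.AnalysisR.PDE.RVM
open scoped InnerProductSpace ENNReal ContDiff

noncomputable section

namespace Crest.Agent.R106.Link

open Crest.Agent.R106.GSR (gam acc lor)
open Crest.Agent.R106.Mom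
open Crest.Agent.R106.Abs (TD lw)
open Crest.Agent.R106.Boot (en win Below Hyp)

/-! ### the two abstract theorems (72/676) as hypotheses -/

/-- abstract improvement step -/
def FinH : Prop := ∀ C Ch Tm c1 : ℝ, 0 ≤ C → 0 ≤ Ch → 0 < Tm → 0 < c1 →
  ∃ c0 : ℝ, 0 < c0 ∧ c0 ≤ 1 ∧ ∃ P0 : ℝ, ∀ P : ℝ, P0 ≤ P → ∀ Q : ℝ, P ^ (11 / 20 : ℝ) ≤ Q → Q ≤ P →
    ∀ S : TD (R3 × R3), S.a ≤ S.b → S.b - S.a ≤ lw c0 P Q → S.Core C Tm P Q → S.CoreD C P c0 Q →
      ∫⁻ s in Icc S.a S.b, S.h Ch P Q s ≤ ENNReal.ofReal (c1 * Q)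

/-- abstract bound for the boundary terms -/
def FinB : Prop := ∀ C Cb Tm : ℝ, 0 ≤ C → 0 ≤ Cb → 0 < Tm →
  ∃ P0 : ℝ, ∀ P : ℝ, P0 ≤ P → ∀ Q : ℝ, P ^ (11 / 20 : ℝ) ≤ Q → Q ≤ P →
    ∀ S : TD (R3 × R3), S.CoreAB C Tm P Q → ∀ s ∈ Icc S.a S.b,
      S.bd Cb P Q s ≤ ENNReal.ofReal (P ^ (3 / 8 : ℝ))

variable {T : ℝ} {f : ℝ → R3 → R3 → ℝ} {E B : ℝ → R3 → R3}

lemma pow_eq55 (P : ℝ) : P ^ (0.55 : ℝ) = P ^ (11 / 20 : ℝ) := by norm_num

/-- ABS -/
theorem absP_of (hr : Reg T f E B) (hfin : FinH) : AbsP T f E B := by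
  intro hT hch ha hb hc hA hB' hF hft hd Ch hCh hinc
  obtain ⟨C, hC, hcore⟩ := core_and_coreD hr hch ha hb hc hA hB' hF hft hd hCh hinc
  obtain ⟨c0, hc0, hc01, P0, hfin⟩ := hfin C (16 * Ch) T (1 / 32) hC (by positivity) hT
    (by norm_num)
  obtain ⟨P1, hcore⟩ := hcore c0 hc0 hc01
  refine ⟨c0, hc0, hc01, max P0 P1,
    fun P hP t1 ht1 hbel hhyp j hj1 hj2 ξ a b ha0 hab hbt hwin hen => ?_⟩
  have hP0 : P0 ≤ P := (le_max_left _ _).trans hP
  have hP1 : P1 ≤ P := (le_max_right _ _).trans hP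
  have hbT : b < T := lt_of_le_of_lt hbt ht1.2
  have hQ : (0 : ℝ) < 2 ^ j := by positivity
  obtain ⟨hco, hcd⟩ := hcore P hP1 t1 ht1 hbel hhyp j hj1 hj2 ξ a b ha0 hab hbt hwin hen
  have hmain := hfin P hP0 (2 ^ j) (by rw [← pow_eq55]; exact hj1) hj2
    (tdc f E B ξ.1.1 ξ.1.2 a b) hab hwin hco hcd
  have hle : ∀ s ∈ Icc a b, hB Ch P (2 ^ j) ξ s ≤
      (tdc f E B ξ.1.1 ξ.1.2 a b).h (16 * Ch) P (2 ^ j) s := by
    intro s hs
    have h1 := hh_le hr ξ.2 ha0 hab hbT hs (P := P) hQ (hen s hs).1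
    unfold hB
    refine (mul_le_mul_right h1 _).trans ?_
    unfold TD.h
    rw [← mul_assoc, ← ENNReal.ofReal_mul hCh, mul_comm Ch 16]
  calc ∫⁻ s in Icc a b, hB Ch P (2 ^ j) ξ s
      ≤ ∫⁻ s in Icc a b, (tdc f E B ξ.1.1 ξ.1.2 a b).h (16 * Ch) P (2 ^ j) s :=
        setLIntegral_mono' measurableSet_Icc hle
    _ ≤ ENNReal.ofReal (1 / 32 * 2 ^ j) := hmain
    _ = ENNReal.ofReal ((1 / 16) * 2 ^ j / 2) := by congr 1; ring

/-- smallness of the boundary terms -/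
theorem bsmallP_of (hr : Reg T f E B) (hfin : FinB) (hT : 0 < T) (hch : CharP T f E B)
    (hA : OccA T f E B) (hB' : OccB T f E B) : BsmallP T f E B := by
  obtain ⟨C, hC, hcor⟩ := coreAB_of hr hA hB'
  obtain ⟨P0, hfin⟩ := hfin C 1 T hC zero_le_one hT
  refine ⟨P0, fun P hP t1 ht1 hbel j hj1 hj2 ξ s hs he1 he2 => ?_⟩
  have hsT : s < T := lt_of_le_of_lt hs.2 ht1.2
  have hss : s ∈ Icc s s := ⟨le_rfl, le_rfl⟩
  have hco := hcor ξ.1.1 ξ.1.2 ξ.2 s s hs.1 le_rfl hsT P (2 ^ j) (fun r hr => by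
    have : r = s := le_antisymm hr.2 hr.1
    rw [this]
    exact he2) (src_le hch ht1 hbel hs.2)
  refine (bb_le hr ξ.2 hs.1 le_rfl hsT hss).trans ?_
  exact hfin P hP (2 ^ j) (by rw [← pow_eq55]; exact hj1) hj2 _ hco s hss

end Crest.Agent.R106.Link
end
end

-- ▼ part R106/AbsTop

/-!
# Row 106, node ABS: final theorems `fin_h` (helper72 + 676 + 413 + 180), `finH`, `finB`, and
`absP`, `bsmallP` for the concrete solution.
-/

set_option autoImplicit false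

open MeasureTheory Set
open scoped ENNReal
open Crest.AnalysisR.VecCalc3 Crest.AnalysisR.PDE.RVM

namespace Crest.Agent.R106.Abs

/-- (F1): the integral of the majorant over a window. -/
theorem fin_h (C Ch Tm c1 : ℝ) (hC : 0 ≤ C) (hCh : 0 ≤ Ch) (hTm : 0 ≤ Tm) (hc1 : 0 < c1) :
    ∃ c0 : ℝ, 0 < c0 ∧ c0 ≤ 1 ∧ ∃ P0 : ℝ, ∀ P, P0 ≤ P → ∀ Qt, P ^ (11 / 20 : ℝ) ≤ Qt → Qt ≤ P →
      ∀ {Z : Type} [MeasurableSpace Z] (T : TD Z), T.a ≤ T.b → T.b - T.a ≤ lw c0 P Qt →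
        T.Core C Tm P Qt → T.CoreD C P c0 Qt →
        ∫⁻ s in Icc T.a T.b, T.h Ch P Qt s ≤ ENNReal.ofReal (c1 * Qt) := by
  refine fin_h_of C Ch Tm c1 hC hCh hc1 (cG' C Tm) (by unfold cG'; linarith) ?_
  intro c0 P Qt Z _ T hc0 hc01 hL hQ1 hQ2 hab hl hcore hcoreD
  have hP : 0 < P := by linarith [hL.P1]
  have hQt : 0 < Qt := lt_of_lt_of_le (Real.rpow_pos_of_pos hP _) hQ1
  exact
    { good := fun k hk => TD.num_good hL hc0 hC hTm hab hl hcore hcoreD hQt hk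
      hE := fun k hk => TD.num_inE hC hTm hP hQt hk
      hC := fun k hk => TD.num_inC hC hTm hP hQt hk
      hB := fun k hk => TD.num_inB hC hTm hP hQt hk }

theorem finH : Link.FinH := by
  intro C Ch Tm c1 hC hCh hTm hc1
  obtain ⟨c0, h0, h1, P0, h⟩ := fin_h C Ch Tm c1 hC hCh hTm.le hc1
  exact ⟨c0, h0, h1, P0, fun P hP Q hQ1 hQ2 S => h P hP Q hQ1 hQ2 S⟩

theorem finB : Link.FinB := by
  intro C Cb Tm hC hCb hTm
  obtain ⟨P0, h⟩ := fin_b C Cb Tm hC hCb hTm.le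
  exact ⟨P0, fun P hP Q hQ1 hQ2 S => h P hP Q hQ1 hQ2 S⟩

variable {T : ℝ} {f : ℝ → R3 → R3 → ℝ} {E B : ℝ → R3 → R3}



end Crest.Agent.R106.Abs
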