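import Crest.Agent.R106.SolTo

/-!
# Row 106, clamp of the time variable (helper4).

For `(f,E,B)` in the class `SolTo T` (smooth on `(-∞,T)`, blow-up at `T` allowed) and `T' < T` there
are functions `f' E' B'`, `C^∞` on all of `ℝ × ..`, which agree with `f, E, B` at all times `t ≤ T'`;
they are a `SmoothSol T'`.
-/

set_option autoImplicit false
open MeasureTheory Set Filter
open scoped ContDiff Topology
open Crest.AnalysisR.VecCalc3 Crest.AnalysisR.PDE.RVM

namespace Crest.Agent.R106.Clamp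

/-- smooth clamp: `sig a b t = t` for `t ≤ a`, `sig a b t < b` for all `t` (`a < b`) -/
noncomputable def sig (a b t : ℝ) : ℝ :=
  t + Real.smoothTransition ((t - a) / ((b - a) / 2)) * (a - t)

theorem sig_contDiff (a b : ℝ) : ContDiff ℝ ∞ (sig a b) := by
  unfold sig
  have h1 : ContDiff ℝ ∞ (fun t : ℝ => Real.smoothTransition ((t - a) / ((b - a) / 2))) :=
    Real.smoothTransition.contDiff.comp (by fun_prop)
  fun_prop

theorem sig_eq {a b t : ℝ} (hab : a < b) (ht : t ≤ a) : sig a b t = t := by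
  unfold sig
  have h1 : (t - a) / ((b - a) / 2) ≤ 0 :=
    div_nonpos_of_nonpos_of_nonneg (by linarith) (by linarith)
  rw [Real.smoothTransition.zero_of_nonpos h1]
  ring

theorem sig_lt {a b : ℝ} (hab : a < b) (t : ℝ) : sig a b t < b := by
  rcases le_total t ((a + b) / 2) with ht | ht
  · unfold sig
    set c := Real.smoothTransition ((t - a) / ((b - a) / 2)) with hc
    have h0 : 0 ≤ c := Real.smoothTransition.nonneg _
    have h1 : c ≤ 1 := Real.smoothTransition.le_one _
    nlinarith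
  · unfold sig
    have h1 : 1 ≤ (t - a) / ((b - a) / 2) := by
      rw [le_div_iff₀ (by linarith)]
      linarith
    rw [Real.smoothTransition.one_of_one_le h1]
    linarith

/-- the clamp makes a function smooth on `(-∞,b)` smooth everywhere -/
theorem contDiff_clamp {X Y : Type*} [NormedAddCommGroup X] [NormedSpace ℝ X]
    [NormedAddCommGroup Y] [NormedSpace ℝ Y] {a b : ℝ} (hab : a < b) {F : ℝ × X → Y}
    (hF : ContDiffOn ℝ ∞ F (Iio b ×ˢ univ)) :
    ContDiff ℝ ∞ (fun p : ℝ × X => F (sig a b p.1, p.2)) := by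
  have h1 : ContDiff ℝ ∞ (fun p : ℝ × X => (sig a b p.1, p.2)) :=
    ((sig_contDiff a b).comp contDiff_fst).prodMk contDiff_snd
  exact hF.comp_contDiff h1 (fun p => ⟨sig_lt hab p.1, mem_univ _⟩)

/-- the five equations only see the functions near time `t` -/
theorem equations_congr {f f' : ℝ → R3 → R3 → ℝ} {E B E' B' : ℝ → R3 → R3} {t : ℝ} {x : R3}
    (hf : ∀ᶠ s in 𝓝 t, f' s = f s) (hE : ∀ᶠ s in 𝓝 t, E' s = E s) (hB : ∀ᶠ s in 𝓝 t, B' s = B s)
    (h : EquationsHoldAt f E B t x) : EquationsHoldAt f' E' B' t x := by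
  obtain ⟨h1, h2, h3, h4, h5⟩ := h
  have ef : f' t = f t := hf.self_of_nhds
  have eE : E' t = E t := hE.self_of_nhds
  have eB : B' t = B t := hB.self_of_nhds
  refine ⟨fun v => ?_, fun i => ?_, fun i => ?_, ?_, ?_⟩
  · have hd : deriv (fun s => f' s x v) t = deriv (fun s => f s x v) t := by
      apply Filter.EventuallyEq.deriv_eq
      filter_upwards [hf] with s hs
      rw [hs]
    rw [hd, ef, eE, eB]
    exact h1 v
  · have hd : deriv (fun s => E' s x i) t = deriv (fun s => E s x i) t := by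
      apply Filter.EventuallyEq.deriv_eq
      filter_upwards [hE] with s hs
      rw [hs]
    rw [hd, eB, h2 i]
    simp only [currentDensity, ef]
  · have hd : deriv (fun s => B' s x i) t = deriv (fun s => B s x i) t := by
      apply Filter.EventuallyEq.deriv_eq
      filter_upwards [hB] with s hs
      rw [hs]
    rw [hd, eE]
    exact h3 i
  · rw [eE, h4]
    simp only [chargeDensity, ef]
  · rw [eB, h5]

variable {f₀ : R3 → R3 → ℝ} {E₀ B₀ : R3 → R3}

/-- a classical solution on `[0,T)` restricts to `[0,T')`, and only the values on `[0,T')` count -/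
theorem classical_congr {T T' : ℝ} (hT0 : 0 < T') (hTT : T' ≤ T)
    {f f' : ℝ → R3 → R3 → ℝ} {E B E' B' : ℝ → R3 → R3}
    (h : IsClassicalSolutionOn T f₀ E₀ B₀ f E B)
    (hag : ∀ t ∈ Ico 0 T', f' t = f t ∧ E' t = E t ∧ B' t = B t) :
    IsClassicalSolutionOn T' f₀ E₀ B₀ f' E' B' := by
  obtain ⟨h1, h2, h3, h4, h5, h6, h7, h8, h9⟩ := h
  have hI : Ico (0 : ℝ) T' ⊆ Ico 0 T := Ico_subset_Ico_right hTT
  have z0 : (0 : ℝ) ∈ Ico 0 T' := ⟨le_rfl, hT0⟩
  refine ⟨?_, ?_, ?_, ?_, ?_, ?_, ?_, ?_, ?_⟩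
  · refine (h1.mono (prod_mono hI subset_rfl)).congr ?_
    rintro ⟨t, x, v⟩ ⟨ht, -⟩
    simp only [(hag t ht).1]
  · refine (h2.mono (prod_mono hI subset_rfl)).congr ?_
    rintro ⟨t, x⟩ ⟨ht, -⟩
    simp only [(hag t ht).2.1]
  · refine (h3.mono (prod_mono hI subset_rfl)).congr ?_
    rintro ⟨t, x⟩ ⟨ht, -⟩
    simp only [(hag t ht).2.2]
  · rw [(hag 0 z0).1, h4]
  · rw [(hag 0 z0).2.1, h5]
  · rw [(hag 0 z0).2.2, h6]
  · intro t ht ht' x
    have hmem : ∀ᶠ s in 𝓝 t, s ∈ Ico 0 T' := by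
      filter_upwards [Ioo_mem_nhds ht ht'] with s hs using ⟨hs.1.le, hs.2⟩
    refine equations_congr ?_ ?_ ?_ (h7 t ht (ht'.trans_le hTT) x)
    · filter_upwards [hmem] with s hs using (hag s hs).1
    · filter_upwards [hmem] with s hs using (hag s hs).2.1
    · filter_upwards [hmem] with s hs using (hag s hs).2.2
  · intro S hS hS'
    obtain ⟨R, hR⟩ := h8 S hS (hS'.trans_le hTT)
    refine ⟨R, fun t ht x v hxv => ?_⟩
    rw [(hag t ⟨ht.1, ht.2.trans_lt hS'⟩).1]
    exact hR t ht x v hxv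
  · intro t ht
    obtain ⟨a, b', c, d⟩ := h9 t (hI ht)
    refine ⟨by rw [(hag t ht).2.1]; exact a, by rw [(hag t ht).2.2]; exact b', ?_, ?_⟩
    · refine Tendsto.congr' ?_ (c.mono_left (nhdsWithin_mono t hI))
      filter_upwards [self_mem_nhdsWithin] with s hs
      rw [(hag t ht).2.1, (hag s hs).2.1]
    · refine Tendsto.congr' ?_ (d.mono_left (nhdsWithin_mono t hI))
      filter_upwards [self_mem_nhdsWithin] with s hs
      rw [(hag t ht).2.2, (hag s hs).2.2]


end Crest.Agent.R106.Clamp
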