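import Mathlib
import Crest.Prelude.Def_VlasovMaxwell

-- ▼ part R106/EnPar
section

/-!
Row 106, module EN (helper412), part 1: parametric integrals of functions of (t,z) that are C^1 on
[0,T) x Z with compact z-support, and vanishing of integrals of space derivatives.
-/

set_option autoImplicit false

open MeasureTheory Filter Set Topology

namespace Crest.Agent.R106.En

section par

variable {Z : Type*} [NormedAddCommGroup Z] [NormedSpace ℝ Z]

/-- C^1 on [0,T) x Z, with z-support bounded uniformly on compact subintervals of [0,T). -/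
def CS (T : ℝ) (G : ℝ → Z → ℝ) : Prop :=
  ContDiffOn ℝ 1 (fun p : ℝ × Z => G p.1 p.2) (Ico 0 T ×ˢ univ) ∧
  ∀ T' : ℝ, 0 ≤ T' → T' < T → ∃ R : ℝ, ∀ t ∈ Icc 0 T', ∀ z, R < ‖z‖ → G t z = 0

lemma nhds_prod_mem {T t : ℝ} (ht : t ∈ Ioo 0 T) (z : Z) :
    (Ico 0 T ×ˢ (univ : Set Z)) ∈ 𝓝 ((t, z) : ℝ × Z) := by
  rw [nhds_prod_eq]
  exact prod_mem_prod (mem_of_superset (Ioo_mem_nhds ht.1 ht.2) Ioo_subset_Ico_self) univ_mem

lemma contDiffAt_of {T : ℝ} {G : ℝ → Z → ℝ}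
    (h : ContDiffOn ℝ 1 (fun p : ℝ × Z => G p.1 p.2) (Ico 0 T ×ˢ univ)) {t : ℝ}
    (ht : t ∈ Ioo 0 T) (z : Z) : ContDiffAt ℝ 1 (fun p : ℝ × Z => G p.1 p.2) (t, z) :=
  h.contDiffAt (nhds_prod_mem ht z)

lemma hasFDerivAt_of {T : ℝ} {G : ℝ → Z → ℝ}
    (h : ContDiffOn ℝ 1 (fun p : ℝ × Z => G p.1 p.2) (Ico 0 T ×ˢ univ)) {t : ℝ}
    (ht : t ∈ Ioo 0 T) (z : Z) :
    HasFDerivAt (fun p : ℝ × Z => G p.1 p.2) (fderiv ℝ (fun p : ℝ × Z => G p.1 p.2) (t, z)) (t, z) :=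
  ((contDiffAt_of h ht z).differentiableAt one_ne_zero).hasFDerivAt

lemma hasDerivAt_of {T : ℝ} {G : ℝ → Z → ℝ}
    (h : ContDiffOn ℝ 1 (fun p : ℝ × Z => G p.1 p.2) (Ico 0 T ×ˢ univ)) {t : ℝ}
    (ht : t ∈ Ioo 0 T) (z : Z) :
    HasDerivAt (fun s => G s z) (fderiv ℝ (fun p : ℝ × Z => G p.1 p.2) (t, z) (1, 0)) t := by
  have h1 := hasFDerivAt_of h ht z
  have h2 : HasDerivAt (fun s : ℝ => (s, z)) ((1 : ℝ), (0 : Z)) t :=
    (hasDerivAt_id t).prodMk (hasDerivAt_const t z)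
  exact h1.comp_hasDerivAt t h2

lemma hasFDerivAt_space {T : ℝ} {G : ℝ → Z → ℝ}
    (h : ContDiffOn ℝ 1 (fun p : ℝ × Z => G p.1 p.2) (Ico 0 T ×ˢ univ)) {t : ℝ}
    (ht : t ∈ Ioo 0 T) (z : Z) :
    HasFDerivAt (G t)
      ((fderiv ℝ (fun p : ℝ × Z => G p.1 p.2) (t, z)).comp (ContinuousLinearMap.inr ℝ ℝ Z)) z := by
  have h1 := hasFDerivAt_of h ht z
  have h2 : HasFDerivAt (fun y : Z => (t, y)) (ContinuousLinearMap.inr ℝ ℝ Z) z :=
    hasFDerivAt_prodMk_right t z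
  exact h1.comp z h2

lemma continuousOn_fderiv_of {T : ℝ} {G : ℝ → Z → ℝ}
    (h : ContDiffOn ℝ 1 (fun p : ℝ × Z => G p.1 p.2) (Ico 0 T ×ˢ univ)) :
    ContinuousOn (fderiv ℝ (fun p : ℝ × Z => G p.1 p.2)) (Ioo 0 T ×ˢ univ) := by
  have h' : ContDiffOn ℝ 1 (fun p : ℝ × Z => G p.1 p.2) (Ioo 0 T ×ˢ univ) :=
    h.mono (prod_mono Ioo_subset_Ico_self subset_rfl)
  exact h'.continuousOn_fderiv_of_isOpen (isOpen_Ioo.prod isOpen_univ) le_rfl

lemma CS.support_bound {T : ℝ} {G : ℝ → Z → ℝ} (h : CS T G) {t : ℝ} (ht : t ∈ Ico 0 T) :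
    ∃ ε > 0, t + ε < T ∧ ∃ R : ℝ, ∀ s ∈ Icc 0 (t + ε), ∀ z, R < ‖z‖ → G s z = 0 := by
  have hε : 0 < (T - t) / 2 := by linarith [ht.2]
  refine ⟨(T - t) / 2, hε, by linarith [ht.2], ?_⟩
  exact h.2 _ (by linarith [ht.1]) (by linarith [ht.2])

variable [FiniteDimensional ℝ Z] [MeasurableSpace Z] [BorelSpace Z] (μ : Measure Z)
  [μ.IsAddHaarMeasure]

lemma continuous_slice {T : ℝ} {G : ℝ → Z → ℝ}
    (h : ContDiffOn ℝ 1 (fun p : ℝ × Z => G p.1 p.2) (Ico 0 T ×ˢ univ)) {t : ℝ}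
    (ht : t ∈ Ico 0 T) : Continuous (G t) := by
  have h1 : ContinuousOn (fun p : ℝ × Z => G p.1 p.2) (Ico 0 T ×ˢ univ) := h.continuousOn
  have h2 : Continuous (fun z : Z => ((t, z) : ℝ × Z)) := by fun_prop
  exact h1.comp_continuous h2 (fun z => ⟨ht, mem_univ _⟩)

lemma CS.hasCompactSupport {T : ℝ} {G : ℝ → Z → ℝ} (h : CS T G) {t : ℝ} (ht : t ∈ Ico 0 T) :
    HasCompactSupport (G t) := by
  obtain ⟨ε, hε, _, R, hR⟩ := h.support_bound ht
  refine HasCompactSupport.intro (isCompact_closedBall (0 : Z) R) fun z hz => ?_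
  refine hR t ⟨ht.1, by linarith⟩ z ?_
  simpa [Metric.mem_closedBall, dist_zero_right] using hz

lemma CS.integrable {T : ℝ} {G : ℝ → Z → ℝ} (h : CS T G) {t : ℝ} (ht : t ∈ Ico 0 T) :
    Integrable (G t) μ :=
  (continuous_slice h.1 ht).integrable_of_hasCompactSupport (h.hasCompactSupport ht)

lemma CS.continuousOn_integral {T : ℝ} {G : ℝ → Z → ℝ} (h : CS T G) :
    ContinuousOn (fun t => ∫ z, G t z ∂μ) (Ico 0 T) := by
  intro t ht
  obtain ⟨ε, hε, hεT, R, hR⟩ := h.support_bound ht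
  have h1 : ContinuousOn (fun t => ∫ z, G t z ∂μ) (Icc 0 (t + ε)) := by
    refine continuousOn_integral_of_compact_support (isCompact_closedBall (0 : Z) R) ?_ ?_
    · refine ContinuousOn.mono (f := fun p : ℝ × Z => G p.1 p.2) h.1.continuousOn ?_
      refine prod_mono ?_ subset_rfl
      intro s hs
      exact ⟨hs.1, lt_of_le_of_lt hs.2 hεT⟩
    · intro s z hs hz
      refine hR s hs z ?_
      simpa [Metric.mem_closedBall, dist_zero_right] using hz
  have h2 := h1 t ⟨ht.1, by linarith⟩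
  refine h2.mono_of_mem_nhdsWithin ?_
  rw [mem_nhdsWithin]
  refine ⟨Iio (t + ε), isOpen_Iio, by simp [hε], ?_⟩
  rintro s ⟨hs1, hs2⟩
  exact ⟨hs2.1, le_of_lt hs1⟩

/-- the time derivative of a CS function vanishes outside the support radius. -/
lemma CS.fderiv_zero {T : ℝ} {G : ℝ → Z → ℝ} {t ε R : ℝ} (ht : t ∈ Ioo 0 T) (hε : 0 < ε)
    (hR : ∀ s ∈ Icc 0 (t + ε), ∀ z, R < ‖z‖ → G s z = 0) {s : ℝ} (hs : s ∈ Ioo 0 (t + ε)) {z : Z}
    (hz : R < ‖z‖) : fderiv ℝ (fun p : ℝ × Z => G p.1 p.2) (s, z) = 0 := by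
  have h1 : (fun p : ℝ × Z => G p.1 p.2) =ᶠ[𝓝 (s, z)] fun _ => 0 := by
    have hopen : IsOpen (Ioo 0 (t + ε) ×ˢ {y : Z | R < ‖y‖}) :=
      isOpen_Ioo.prod (isOpen_lt continuous_const continuous_norm)
    filter_upwards [hopen.mem_nhds ⟨hs, hz⟩] with p hp
    exact hR p.1 (Ioo_subset_Icc_self hp.1) p.2 hp.2
  rw [h1.fderiv_eq]
  simp

/-- Differentiation under the integral sign. -/
lemma CS.hasDerivAt_integral {T : ℝ} {G : ℝ → Z → ℝ} (h : CS T G) {t : ℝ} (ht : t ∈ Ioo 0 T) :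
    Integrable (fun z => fderiv ℝ (fun p : ℝ × Z => G p.1 p.2) (t, z) (1, 0)) μ ∧
    HasDerivAt (fun t => ∫ z, G t z ∂μ)
      (∫ z, fderiv ℝ (fun p : ℝ × Z => G p.1 p.2) (t, z) (1, 0) ∂μ) t := by
  obtain ⟨ε, hε, hεT, R, hR⟩ := h.support_bound (Ioo_subset_Ico_self ht)
  set δ : ℝ := min (t / 2) (ε / 2) with hδ
  have hδ0 : 0 < δ := lt_min (by linarith [ht.1]) (by linarith)
  have hδ1 : δ ≤ t / 2 := min_le_left _ _
  have hδ2 : δ ≤ ε / 2 := min_le_right _ _
  have hsub : Icc (t - δ) (t + δ) ⊆ Ioo 0 T := fun s hs =>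
    ⟨by linarith [hs.1, ht.1], by linarith [hs.2]⟩
  have hcont : ContinuousOn (fun p : ℝ × Z => fderiv ℝ (fun p : ℝ × Z => G p.1 p.2) p ((1 : ℝ), (0 : Z)))
      (Icc (t - δ) (t + δ) ×ˢ Metric.closedBall (0 : Z) (max R 0)) :=
    ((continuousOn_fderiv_of h.1).mono (prod_mono hsub (subset_univ _))).clm_apply
      continuousOn_const
  have hcomp : IsCompact (Icc (t - δ) (t + δ) ×ˢ Metric.closedBall (0 : Z) (max R 0)) :=
    isCompact_Icc.prod (isCompact_closedBall _ _)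
  obtain ⟨C, hC⟩ := hcomp.exists_bound_of_continuousOn hcont
  have hzero : ∀ s ∈ Ioo 0 (t + ε), ∀ z : Z, R < ‖z‖ →
      fderiv ℝ (fun p : ℝ × Z => G p.1 p.2) (s, z) ((1 : ℝ), (0 : Z)) = 0 := by
    intro s hs z hz
    rw [CS.fderiv_zero ht hε hR hs hz]
    simp
  have hslice : Continuous (fun z : Z => fderiv ℝ (fun p : ℝ × Z => G p.1 p.2) (t, z) ((1 : ℝ), (0 : Z))) := by
    have h1 : ContinuousOn (fun p : ℝ × Z => fderiv ℝ (fun p : ℝ × Z => G p.1 p.2) p ((1 : ℝ), (0 : Z)))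
      (Ioo 0 T ×ˢ univ) := (continuousOn_fderiv_of h.1).clm_apply continuousOn_const
    exact h1.comp_continuous (by fun_prop) (fun z => ⟨ht, mem_univ _⟩)
  refine hasDerivAt_integral_of_dominated_loc_of_deriv_le (μ := μ)
    (F := G) (F' := fun s z => fderiv ℝ (fun p : ℝ × Z => G p.1 p.2) (s, z) ((1 : ℝ), (0 : Z)))
    (s := Ioo (t - δ) (t + δ)) (bound := (Metric.closedBall (0 : Z) (max R 0)).indicator fun _ => C)
    (Ioo_mem_nhds (by linarith) (by linarith)) ?_ (h.integrable μ (Ioo_subset_Ico_self ht))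
    hslice.aestronglyMeasurable ?_ ?_ ?_
  · filter_upwards [Ioo_mem_nhds (show t - δ < t by linarith) (show t < t + δ by linarith)] with s hs
    have hs' := hsub (Ioo_subset_Icc_self hs)
    exact (continuous_slice h.1 (Ioo_subset_Ico_self hs')).aestronglyMeasurable
  · refine Eventually.of_forall fun z s hs => ?_
    by_cases hz : z ∈ Metric.closedBall (0 : Z) (max R 0)
    · rw [indicator_of_mem hz]
      exact hC (s, z) ⟨Ioo_subset_Icc_self hs, hz⟩
    · rw [indicator_of_notMem hz]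
      have hz' : R < ‖z‖ := by
        rw [Metric.mem_closedBall, dist_zero_right, not_le] at hz
        exact lt_of_le_of_lt (le_max_left _ _) hz
      have := hsub (Ioo_subset_Icc_self hs)
      rw [hzero s ⟨this.1, by linarith [hs.2]⟩ z hz']
      simp
  · refine (integrable_indicator_iff Metric.isClosed_closedBall.measurableSet).2 ?_
    exact integrableOn_const (isCompact_closedBall (0 : Z) (max R 0)).measure_ne_top
  · refine Eventually.of_forall fun z s hs => ?_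
    exact hasDerivAt_of h.1 (hsub (Ioo_subset_Icc_self hs)) z

/-- The integral of a space derivative vanishes. -/
lemma CS.integral_space_deriv {T : ℝ} {G : ℝ → Z → ℝ} (h : CS T G) {t : ℝ} (ht : t ∈ Ioo 0 T)
    (w : Z) :
    Integrable (fun z => fderiv ℝ (G t) z w) μ ∧ ∫ z, fderiv ℝ (G t) z w ∂μ = 0 := by
  have hdiff : ContDiff ℝ 1 (G t) := by
    rw [contDiff_iff_contDiffAt]
    intro z
    have h1 := contDiffAt_of h.1 ht z
    have h2 : ContDiffAt ℝ 1 (fun y : Z => ((t, y) : ℝ × Z)) z := by fun_prop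
    exact h1.comp z h2
  have hcs := h.hasCompactSupport (Ioo_subset_Ico_self ht)
  have hcont : Continuous (fun z => fderiv ℝ (G t) z w) :=
    (hdiff.continuous_fderiv one_ne_zero).clm_apply continuous_const
  have hcs' : HasCompactSupport (fun z => fderiv ℝ (G t) z w) := hcs.fderiv_apply ℝ w
  have hint : Integrable (fun z => fderiv ℝ (G t) z w) μ :=
    hcont.integrable_of_hasCompactSupport hcs'
  refine ⟨hint, ?_⟩
  have key := integral_mul_fderiv_eq_neg_fderiv_mul_of_integrable (μ := μ) (f := fun _ : Z => (1 : ℝ))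
    (g := G t) (v := w) (by simp) (by simpa using hint)
    (by simpa using h.integrable μ (Ioo_subset_Ico_self ht))
    (fun x _ => differentiableAt_const _) (fun x _ => (hdiff.differentiable one_ne_zero) x)
  simpa using key

end par

end Crest.Agent.R106.En
end

-- ▼ part R106/EnLaw
section

/-!
Row 106, module EN (helper412), part 2: the weighted energy identity.
-/

set_option autoImplicit false

open MeasureTheory Filter Set Topology
open Crest.AnalysisR.VecCalc3 Crest.AnalysisR.PDE.RVM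

namespace Crest.Agent.R106.En

/-- the particle energy (Lorentz factor) of a momentum. -/
noncomputable def gam (v : R3) : ℝ := Real.sqrt (1 + ‖v‖ ^ 2)

lemma gam_pos (v : R3) : 0 < gam v := Real.sqrt_pos.2 (by positivity)



lemma norm_le_gam (v : R3) : ‖v‖ ≤ gam v := by
  refine Real.le_sqrt_of_sq_le ?_
  linarith


lemma relVel_eq (v : R3) : relVel v = (gam v)⁻¹ • v := rfl

lemma relVel_apply (v : R3) (i : Fin 3) : relVel v i = (gam v)⁻¹ * v i := by
  rw [relVel_eq]; simp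


lemma gam_mul_relVel (v : R3) (i : Fin 3) : gam v * relVel v i = v i := by
  rw [relVel_apply, ← mul_assoc, mul_inv_cancel₀ (gam_pos v).ne', one_mul]



lemma norm_sq_coord (a : R3) : ‖a‖ ^ 2 = a 0 ^ 2 + a 1 ^ 2 + a 2 ^ 2 := by
  rw [EuclideanSpace.norm_sq_eq, Fin.sum_univ_three]
  simp

lemma inner_coord (a b : R3) : inner ℝ a b = a 0 * b 0 + a 1 * b 1 + a 2 * b 2 := by
  rw [PiLp.inner_apply, Fin.sum_univ_three]
  simp [mul_comm]

@[simp] lemma cross3_0 (a b : R3) : cross3 a b 0 = a 1 * b 2 - a 2 * b 1 := by simp [cross3]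
@[simp] lemma cross3_1 (a b : R3) : cross3 a b 1 = a 2 * b 0 - a 0 * b 2 := by simp [cross3]
@[simp] lemma cross3_2 (a b : R3) : cross3 a b 2 = a 0 * b 1 - a 1 * b 0 := by simp [cross3]
@[simp] lemma curl3_0 (F : R3 → R3) (x : R3) :
    curl3 F x 0 = pderiv (fun y => F y 2) 1 x - pderiv (fun y => F y 1) 2 x := by simp [curl3]
@[simp] lemma curl3_1 (F : R3 → R3) (x : R3) :
    curl3 F x 1 = pderiv (fun y => F y 0) 2 x - pderiv (fun y => F y 2) 0 x := by simp [curl3]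
@[simp] lemma curl3_2 (F : R3 → R3) (x : R3) :
    curl3 F x 2 = pderiv (fun y => F y 1) 0 x - pderiv (fun y => F y 0) 1 x := by simp [curl3]

lemma contDiff_gam {n : WithTop ℕ∞} : ContDiff ℝ n gam := by
  unfold gam
  refine ContDiff.sqrt (contDiff_const.add (contDiff_norm_sq ℝ)) fun x => ?_
  positivity

lemma continuous_gam : Continuous gam := (contDiff_gam (n := 1)).continuous

lemma hasFDerivAt_gam (v : R3) : HasFDerivAt gam (innerSL ℝ (relVel v)) v := by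
  have h1 : HasFDerivAt (fun v : R3 => 1 + ‖v‖ ^ 2) (2 • (innerSL ℝ v)) v :=
    (hasStrictFDerivAt_norm_sq v).hasFDerivAt.const_add 1
  have h2 := h1.sqrt (by positivity)
  refine h2.congr_fderiv ?_
  ext w
  have := gam_pos v
  simp only [smul_apply, innerSL_apply_apply, relVel_eq, inner_smul_left, gam]
  simp
  field_simp

lemma continuous_relVel : Continuous relVel := by
  have : relVel = fun v => (gam v)⁻¹ • v := rfl
  rw [this]
  exact (continuous_gam.inv₀ fun v => (gam_pos v).ne').smul continuous_id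

/-- the standard basis vector. -/
noncomputable abbrev ee (i : Fin 3) : R3 := EuclideanSpace.single i (1 : ℝ)


section weighted

variable {T : ℝ} {f : ℝ → R3 → R3 → ℝ} {E B : ℝ → R3 → R3} {φ : ℝ → R3 → ℝ}

/-- The regularity part of being a classical solution (no data). -/
structure Reg (T : ℝ) (f : ℝ → R3 → R3 → ℝ) (E B : ℝ → R3 → R3) : Prop where
  hf : ContDiffOn ℝ 1 (fun p : ℝ × R3 × R3 => f p.1 p.2.1 p.2.2) (Ico 0 T ×ˢ univ)
  hE : ContDiffOn ℝ 1 (fun p : ℝ × R3 => E p.1 p.2) (Ico 0 T ×ˢ univ)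
  hB : ContDiffOn ℝ 1 (fun p : ℝ × R3 => B p.1 p.2) (Ico 0 T ×ˢ univ)
  eq : ∀ t : ℝ, 0 < t → t < T → ∀ x : R3, EquationsHoldAt f E B t x
  supp : ∀ T' : ℝ, 0 ≤ T' → T' < T → ∃ R : ℝ, ∀ t ∈ Icc 0 T', ∀ x v : R3,
      (R < ‖x‖ ∨ R < ‖v‖) → f t x v = 0

lemma Reg.of_sol {f₀ : R3 → R3 → ℝ} {E₀ B₀ : R3 → R3}
    (h : IsClassicalSolutionOn T f₀ E₀ B₀ f E B) : Reg T f E B :=
  ⟨h.1, h.2.1, h.2.2.1, h.2.2.2.2.2.2.1, h.2.2.2.2.2.2.2.1⟩

/-- Test functions: C^1, with x-support bounded uniformly on compact time intervals. -/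
structure Test (φ : ℝ → R3 → ℝ) : Prop where
  smooth : ContDiff ℝ 1 (fun p : ℝ × R3 => φ p.1 p.2)
  supp : ∀ T' : ℝ, 0 ≤ T' → ∃ R : ℝ, ∀ t ∈ Icc 0 T', ∀ x, R < ‖x‖ → φ t x = 0

lemma contDiffOn_coord {F : ℝ → R3 → R3}
    (h : ContDiffOn ℝ 1 (fun p : ℝ × R3 => F p.1 p.2) (Ico 0 T ×ˢ univ)) (i : Fin 3) :
    ContDiffOn ℝ 1 (fun p : ℝ × R3 => F p.1 p.2 i) (Ico 0 T ×ˢ univ) :=
  (EuclideanSpace.proj (𝕜 := ℝ) i).contDiff.comp_contDiffOn h

/-- a CS function times a test function (space variable). -/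
lemma Test.cs (hφ : Test φ) {g : ℝ → R3 → ℝ}
    (hg : ContDiffOn ℝ 1 (fun p : ℝ × R3 => g p.1 p.2) (Ico 0 T ×ˢ univ)) :
    CS T (fun t x => φ t x * g t x) := by
  refine ⟨hφ.smooth.contDiffOn.mul hg, fun T' h0 _ => ?_⟩
  obtain ⟨R, hR⟩ := hφ.supp T' h0
  exact ⟨R, fun t ht z hz => by simp only [hR t ht z hz, zero_mul]⟩

/-- a CS function in phase space: anything C^1 times f. -/
lemma Reg.cs (h : Reg T f E B) {g : ℝ → R3 × R3 → ℝ}
    (hg : ContDiffOn ℝ 1 (fun p : ℝ × R3 × R3 => g p.1 p.2) (Ico 0 T ×ˢ univ)) :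
    CS T (fun t (z : R3 × R3) => g t z * f t z.1 z.2) := by
  refine ⟨hg.mul h.hf, fun T' h0 h1 => ?_⟩
  obtain ⟨R, hR⟩ := h.supp T' h0 h1
  refine ⟨R, fun t ht z hz => ?_⟩
  have : R < ‖z.1‖ ∨ R < ‖z.2‖ := by
    rw [Prod.norm_def] at hz
    exact lt_max_iff.1 hz
  simp only [hR t ht z.1 z.2 this, mul_zero]

/-- partial derivatives of test functions. -/
noncomputable def dt (φ : ℝ → R3 → ℝ) (t : ℝ) (x : R3) : ℝ :=
  fderiv ℝ (fun p : ℝ × R3 => φ p.1 p.2) (t, x) (1, 0)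

noncomputable def dx (φ : ℝ → R3 → ℝ) (i : Fin 3) (t : ℝ) (x : R3) : ℝ :=
  fderiv ℝ (fun p : ℝ × R3 => φ p.1 p.2) (t, x) (0, ee i)

/-- electromagnetic energy density. -/
noncomputable def emE (E B : ℝ → R3 → R3) (t : ℝ) (x : R3) : ℝ :=
  ((E t x 0 ^ 2 + E t x 1 ^ 2 + E t x 2 ^ 2) + (B t x 0 ^ 2 + B t x 1 ^ 2 + B t x 2 ^ 2)) * 2⁻¹

lemma emE_eq (E B : ℝ → R3 → R3) (t : ℝ) (x : R3) :
    emE E B t x = (‖E t x‖ ^ 2 + ‖B t x‖ ^ 2) / 2 := by
  rw [emE, norm_sq_coord, norm_sq_coord, div_eq_mul_inv]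

lemma contDiffOn_emE (h : Reg T f E B) :
    ContDiffOn ℝ 1 (fun p : ℝ × R3 => emE E B p.1 p.2) (Ico 0 T ×ˢ univ) := by
  have hE := fun i => contDiffOn_coord h.hE i
  have hB := fun i => contDiffOn_coord h.hB i
  unfold emE
  exact (((((hE 0).pow 2).add ((hE 1).pow 2)).add ((hE 2).pow 2)).add
    ((((hB 0).pow 2).add ((hB 1).pow 2)).add ((hB 2).pow 2))).mul contDiffOn_const

lemma contDiffOn_cross (h : Reg T f E B) (i : Fin 3) :
    ContDiffOn ℝ 1 (fun p : ℝ × R3 => cross3 (E p.1 p.2) (B p.1 p.2) i) (Ico 0 T ×ˢ univ) := by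
  have hE := fun i => contDiffOn_coord h.hE i
  have hB := fun i => contDiffOn_coord h.hB i
  fin_cases i
  · simpa using ((hE 1).mul (hB 2)).sub ((hE 2).mul (hB 1))
  · simpa using ((hE 2).mul (hB 0)).sub ((hE 0).mul (hB 2))
  · simpa using ((hE 0).mul (hB 1)).sub ((hE 1).mul (hB 0))

/-- The pointwise electromagnetic identity. -/
lemma em_pointwise (h : Reg T f E B) (hφ : Test φ) {t : ℝ} (ht : t ∈ Ioo 0 T) (x : R3) :
    fderiv ℝ (fun p : ℝ × R3 => φ p.1 p.2 * emE E B p.1 p.2) (t, x) (1, 0)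
      + ∑ i : Fin 3, fderiv ℝ (fun y : R3 => φ t y * cross3 (E t y) (B t y) i) x (ee i)
    = dt φ t x * emE E B t x + ∑ i : Fin 3, dx φ i t x * cross3 (E t x) (B t x) i
      - φ t x * ∑ i : Fin 3, E t x i * currentDensity f t x i := by
  have hEi := fun i => hasFDerivAt_of (G := fun t x => E t x i) (contDiffOn_coord h.hE i) ht x
  have hBi := fun i => hasFDerivAt_of (G := fun t x => B t x i) (contDiffOn_coord h.hB i) ht x
  have hφ' : HasFDerivAt (fun p : ℝ × R3 => φ p.1 p.2) (fderiv ℝ (fun p : ℝ × R3 => φ p.1 p.2) (t, x))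
    (t, x) := (hφ.smooth.differentiable one_ne_zero).differentiableAt.hasFDerivAt
  obtain ⟨-, hAmp, hFar, -, -⟩ := h.eq t ht.1 ht.2 x
  -- time derivatives of coordinates
  have hEt : ∀ i, deriv (fun s => E s x i) t
      = fderiv ℝ (fun p : ℝ × R3 => E p.1 p.2 i) (t, x) (1, 0) := fun i =>
    (hasDerivAt_of (G := fun t x => E t x i) (contDiffOn_coord h.hE i) ht x).deriv
  have hBt : ∀ i, deriv (fun s => B s x i) t
      = fderiv ℝ (fun p : ℝ × R3 => B p.1 p.2 i) (t, x) (1, 0) := fun i =>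
    (hasDerivAt_of (G := fun t x => B t x i) (contDiffOn_coord h.hB i) ht x).deriv
  have hEx : ∀ i k, pderiv (fun y => E t y i) k x
      = fderiv ℝ (fun p : ℝ × R3 => E p.1 p.2 i) (t, x) (0, ee k) := fun i k => by
    have := (hasFDerivAt_space (G := fun t x => E t x i) (contDiffOn_coord h.hE i) ht x).fderiv
    unfold pderiv
    rw [this]
    rfl
  have hBx : ∀ i k, pderiv (fun y => B t y i) k x
      = fderiv ℝ (fun p : ℝ × R3 => B p.1 p.2 i) (t, x) (0, ee k) := fun i k => by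
    have := (hasFDerivAt_space (G := fun t x => B t x i) (contDiffOn_coord h.hB i) ht x).fderiv
    unfold pderiv
    rw [this]
    rfl
  have hAmp0 := hAmp 0
  have hAmp1 := hAmp 1
  have hAmp2 := hAmp 2
  have hFar0 := hFar 0
  have hFar1 := hFar 1
  have hFar2 := hFar 2
  rw [curl3_0, hEt] at hAmp0
  rw [curl3_1, hEt] at hAmp1
  rw [curl3_2, hEt] at hAmp2
  rw [curl3_0, hBt] at hFar0
  rw [curl3_1, hBt] at hFar1
  rw [curl3_2, hBt] at hFar2
  simp only [hEx, hBx] at hAmp0 hAmp1 hAmp2 hFar0 hFar1 hFar2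
  -- total derivative of the energy
  have hem := ((((((hEi 0).pow 2).add ((hEi 1).pow 2)).add ((hEi 2).pow 2)).add
    ((((hBi 0).pow 2).add ((hBi 1).pow 2)).add ((hBi 2).pow 2))).mul_const (2 : ℝ)⁻¹)
  have h1 : fderiv ℝ (fun p : ℝ × R3 => φ p.1 p.2 * emE E B p.1 p.2) (t, x) = _ :=
    (hφ'.mul hem).fderiv
  have hc0 := ((hEi 1).mul (hBi 2)).sub ((hEi 2).mul (hBi 1))
  have hc1 := ((hEi 2).mul (hBi 0)).sub ((hEi 0).mul (hBi 2))
  have hc2 := ((hEi 0).mul (hBi 1)).sub ((hEi 1).mul (hBi 0))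
  have hk : ∀ (u : ℝ × R3 → ℝ) (u' : ℝ × R3 →L[ℝ] ℝ), HasFDerivAt u u' (t, x) →
      ∀ w, fderiv ℝ (fun y : R3 => u (t, y)) x w = u' (0, w) := by
    intro u u' hu w
    have := (hu.comp x (hasFDerivAt_prodMk_right t x)).fderiv
    have h2 : fderiv ℝ (fun y : R3 => u (t, y)) x = u'.comp (ContinuousLinearMap.inr ℝ ℝ R3) := this
    rw [h2]; rfl
  have e0 := hk _ _ (hφ'.mul hc0) (ee 0)
  have e1 := hk _ _ (hφ'.mul hc1) (ee 1)
  have e2 := hk _ _ (hφ'.mul hc2) (ee 2)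
  rw [Fin.sum_univ_three, Fin.sum_univ_three, Fin.sum_univ_three]
  simp only [Pi.mul_apply, Pi.sub_apply, Pi.add_apply] at e0 e1 e2 h1
  rw [h1]
  simp only [cross3_0, cross3_1, cross3_2, e0, e1, e2, dt, dx, emE, smul_eq_mul,
    _root_.add_apply, _root_.smul_apply, _root_.sub_apply, nsmul_eq_mul]
  norm_num
  linear_combination φ t x * (E t x 0 * hAmp0 + E t x 1 * hAmp1 + E t x 2 * hAmp2
    + B t x 0 * hFar0 + B t x 1 * hFar1 + B t x 2 * hFar2)

/-- The pointwise transport identity in phase space. -/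
lemma pt_pointwise (h : Reg T f E B) (hφ : Test φ) {t : ℝ} (ht : t ∈ Ioo 0 T) (x v : R3) :
    fderiv ℝ (fun p : ℝ × R3 × R3 => φ p.1 p.2.1 * gam p.2.2 * f p.1 p.2.1 p.2.2) (t, x, v) (1, 0)
      + ∑ i : Fin 3, fderiv ℝ (fun z : R3 × R3 => φ t z.1 * z.2 i * f t z.1 z.2) (x, v) (ee i, 0)
      + ∑ i : Fin 3, fderiv ℝ (fun z : R3 × R3 =>
          φ t z.1 * (gam z.2 * E t z.1 i + cross3 z.2 (B t z.1) i) * f t z.1 z.2) (x, v) (0, ee i)
    = (dt φ t x * gam v + ∑ i : Fin 3, dx φ i t x * v i) * f t x v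
      + φ t x * f t x v * ∑ i : Fin 3, relVel v i * E t x i := by
  set p0 : ℝ × R3 × R3 := (t, x, v) with hp0
  have hf := hasFDerivAt_of (G := fun t (z : R3 × R3) => f t z.1 z.2) h.hf ht (x, v)
  have hproj : HasFDerivAt (fun p : ℝ × R3 × R3 => (p.1, p.2.1))
      ((ContinuousLinearMap.fst ℝ ℝ (R3 × R3)).prod
        ((ContinuousLinearMap.fst ℝ R3 R3).comp (ContinuousLinearMap.snd ℝ ℝ (R3 × R3)))) p0 :=
    ((ContinuousLinearMap.fst ℝ ℝ (R3 × R3)).prod
        ((ContinuousLinearMap.fst ℝ R3 R3).comp (ContinuousLinearMap.snd ℝ ℝ (R3 × R3)))).hasFDerivAt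
  have hproj2 : HasFDerivAt (fun p : ℝ × R3 × R3 => p.2.2)
      ((ContinuousLinearMap.snd ℝ R3 R3).comp (ContinuousLinearMap.snd ℝ ℝ (R3 × R3))) p0 :=
    ((ContinuousLinearMap.snd ℝ R3 R3).comp (ContinuousLinearMap.snd ℝ ℝ (R3 × R3))).hasFDerivAt
  have hφ0 : HasFDerivAt (fun p : ℝ × R3 => φ p.1 p.2) (fderiv ℝ (fun p : ℝ × R3 => φ p.1 p.2) (t, x))
    (t, x) := (hφ.smooth.differentiable one_ne_zero).differentiableAt.hasFDerivAt
  have hφ' := HasFDerivAt.comp (g := fun p : ℝ × R3 => φ p.1 p.2) p0 hφ0 hproj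
  have hE := fun i => HasFDerivAt.comp (g := fun p : ℝ × R3 => E p.1 p.2 i) p0
    (hasFDerivAt_of (G := fun t x => E t x i) (contDiffOn_coord h.hE i) ht x) hproj
  have hB := fun i => HasFDerivAt.comp (g := fun p : ℝ × R3 => B p.1 p.2 i) p0
    (hasFDerivAt_of (G := fun t x => B t x i) (contDiffOn_coord h.hB i) ht x) hproj
  have hg := HasFDerivAt.comp (g := gam) p0 (hasFDerivAt_gam v) hproj2
  have hv := fun i : Fin 3 => HasFDerivAt.comp (g := fun w : R3 => w i) p0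
    ((EuclideanSpace.proj (𝕜 := ℝ) i : R3 →L[ℝ] ℝ).hasFDerivAt) hproj2
  obtain ⟨hV, -⟩ := h.eq t ht.1 ht.2 x
  have hV := hV v
  have hft : deriv (fun s => f s x v) t = fderiv ℝ (fun p : ℝ × R3 × R3 => f p.1 p.2.1 p.2.2) p0 (1, 0) :=
    (hasDerivAt_of (G := fun t (z : R3 × R3) => f t z.1 z.2) h.hf ht (x, v)).deriv
  have hfx : ∀ i, pderiv (fun y => f t y v) i x
      = fderiv ℝ (fun p : ℝ × R3 × R3 => f p.1 p.2.1 p.2.2) p0 (0, (ee i, 0)) := fun i => by
    have h1 : HasFDerivAt (fun y : R3 => ((t, y, v) : ℝ × R3 × R3))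
      ((ContinuousLinearMap.inr ℝ ℝ (R3 × R3)).comp (ContinuousLinearMap.inl ℝ R3 R3)) x :=
      (hasFDerivAt_prodMk_right t (x, v)).comp x (hasFDerivAt_prodMk_left x v)
    have h2 := (hf.comp x h1).fderiv
    unfold pderiv
    have h3 : fderiv ℝ (fun y => f t y v) x = _ := h2
    rw [h3]
    rfl
  have hfv : ∀ i, pderiv (fun w => f t x w) i v
      = fderiv ℝ (fun p : ℝ × R3 × R3 => f p.1 p.2.1 p.2.2) p0 (0, (0, ee i)) := fun i => by
    have h1 : HasFDerivAt (fun y : R3 => ((t, x, y) : ℝ × R3 × R3))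
      ((ContinuousLinearMap.inr ℝ ℝ (R3 × R3)).comp (ContinuousLinearMap.inr ℝ R3 R3)) v :=
      (hasFDerivAt_prodMk_right t (x, v)).comp v (hasFDerivAt_prodMk_right x v)
    have h2 := (hf.comp v h1).fderiv
    unfold pderiv
    have h3 : fderiv ℝ (fun w => f t x w) v = _ := h2
    rw [h3]
    rfl
  simp only [hft, hfx, hfv, Fin.sum_univ_three, cross3_0, cross3_1, cross3_2] at hV
  have h1 : fderiv ℝ (fun p : ℝ × R3 × R3 => φ p.1 p.2.1 * gam p.2.2 * f p.1 p.2.1 p.2.2) p0 = _ :=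
    ((hφ'.mul hg).mul hf).fderiv
  have hk : ∀ (u : ℝ × R3 × R3 → ℝ) (u' : ℝ × R3 × R3 →L[ℝ] ℝ), HasFDerivAt u u' p0 →
      ∀ w, fderiv ℝ (fun y : R3 × R3 => u (t, y)) (x, v) w = u' (0, w) := by
    intro u u' hu w
    have := (hu.comp (x, v) (hasFDerivAt_prodMk_right t (x, v))).fderiv
    have h2 : fderiv ℝ (fun y : R3 × R3 => u (t, y)) (x, v)
      = u'.comp (ContinuousLinearMap.inr ℝ ℝ (R3 × R3)) := this
    rw [h2]; rfl
  have a0 := hk _ _ ((hφ'.mul (hv 0)).mul hf) (ee 0, 0)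
  have a1 := hk _ _ ((hφ'.mul (hv 1)).mul hf) (ee 1, 0)
  have a2 := hk _ _ ((hφ'.mul (hv 2)).mul hf) (ee 2, 0)
  have b0 := hk _ _ ((hφ'.mul ((hg.mul (hE 0)).add (((hv 1).mul (hB 2)).sub ((hv 2).mul (hB 1))))).mul hf)
    (0, ee 0)
  have b1 := hk _ _ ((hφ'.mul ((hg.mul (hE 1)).add (((hv 2).mul (hB 0)).sub ((hv 0).mul (hB 2))))).mul hf)
    (0, ee 1)
  have b2 := hk _ _ ((hφ'.mul ((hg.mul (hE 2)).add (((hv 0).mul (hB 1)).sub ((hv 1).mul (hB 0))))).mul hf)
    (0, ee 2)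
  rw [h1]
  simp only [Pi.mul_apply, Pi.sub_apply, Pi.add_apply, Function.comp_apply] at a0 a1 a2 b0 b1 b2
  simp only [Fin.sum_univ_three, cross3_0, cross3_1, cross3_2, a0, a1, a2, b0, b1, b2]
  have hin : ∀ i, inner ℝ (relVel v) (ee i) = relVel v i := fun i => by
    rw [EuclideanSpace.inner_single_right]; simp
  have hpr : ∀ i j : Fin 3, (EuclideanSpace.proj (𝕜 := ℝ) i : R3 →L[ℝ] ℝ) (ee j)
      = if i = j then 1 else 0 := fun i j => by
    simp
  have hr0 := gam_mul_relVel v 0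
  have hr1 := gam_mul_relVel v 1
  have hr2 := gam_mul_relVel v 2
  simp only [dt, dx, smul_eq_mul, Pi.mul_apply, Function.comp_apply,
    _root_.add_apply, _root_.smul_apply, _root_.sub_apply,
    ContinuousLinearMap.comp_apply, ContinuousLinearMap.prod_apply, ContinuousLinearMap.coe_fst',
    ContinuousLinearMap.coe_snd', innerSL_apply_apply, hin, hp0, Prod.mk_zero_zero, map_zero, hpr]
  simp only [hp0] at hV
  simp only [Fin.reduceEq, if_false, reduceIte]
  simp only [← hr0, ← hr1, ← hr2]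
  linear_combination (φ t x * gam v) * hV

end weighted

end Crest.Agent.R106.En
end

-- ▼ part R106/EnInt
section

/-!
Row 106, module EN (helper412), part 3: the weighted energy identity, integrated.
-/

set_option autoImplicit false

open MeasureTheory Filter Set Topology
open Crest.AnalysisR.VecCalc3 Crest.AnalysisR.PDE.RVM

namespace Crest.Agent.R106.En

variable {T : ℝ} {f : ℝ → R3 → R3 → ℝ} {E B : ℝ → R3 → R3} {φ : ℝ → R3 → ℝ}

lemma Reg.continuous_f (h : Reg T f E B) {t : ℝ} (ht : t ∈ Ico 0 T) :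
    Continuous (fun z : R3 × R3 => f t z.1 z.2) :=
  continuous_slice (G := fun t (z : R3 × R3) => f t z.1 z.2) h.hf ht

lemma Reg.continuous_E (h : Reg T f E B) {t : ℝ} (ht : t ∈ Ico 0 T) : Continuous (E t) := by
  have h1 : ContinuousOn (fun p : ℝ × R3 => E p.1 p.2) (Ico 0 T ×ˢ univ) := h.hE.continuousOn
  have h2 : Continuous (fun z : R3 => ((t, z) : ℝ × R3)) := by fun_prop
  exact h1.comp_continuous h2 (fun z => ⟨ht, mem_univ _⟩)


lemma Reg.exists_R (h : Reg T f E B) {t : ℝ} (ht : t ∈ Ico 0 T) :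
    ∃ R : ℝ, ∀ x v : R3, (R < ‖x‖ ∨ R < ‖v‖) → f t x v = 0 := by
  obtain ⟨R, hR⟩ := h.supp t ht.1 ht.2
  exact ⟨R, fun x v hxv => hR t ⟨ht.1, le_rfl⟩ x v hxv⟩

lemma Reg.continuous_fv (h : Reg T f E B) {t : ℝ} (ht : t ∈ Ico 0 T) (x : R3) :
    Continuous (fun v => f t x v) :=
  (h.continuous_f ht).comp (by fun_prop : Continuous fun v : R3 => (x, v))

lemma Reg.hasCompactSupport_fv (h : Reg T f E B) {t : ℝ} (ht : t ∈ Ico 0 T) (x : R3) :
    HasCompactSupport (fun v => f t x v) := by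
  obtain ⟨R, hR⟩ := h.exists_R ht
  refine HasCompactSupport.intro (isCompact_closedBall (0 : R3) R) fun v hv => ?_
  refine hR x v (Or.inr ?_)
  simpa [Metric.mem_closedBall, dist_zero_right] using hv

lemma Reg.integrable_fv_mul (h : Reg T f E B) {t : ℝ} (ht : t ∈ Ico 0 T) (x : R3) {g : R3 → ℝ}
    (hg : Continuous g) : Integrable (fun v => f t x v * g v) :=
  ((h.continuous_fv ht x).mul hg).integrable_of_hasCompactSupport
    ((h.hasCompactSupport_fv ht x).mul_right)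

lemma Reg.integrable_fv_smul (h : Reg T f E B) {t : ℝ} (ht : t ∈ Ico 0 T) (x : R3) :
    Integrable (fun v => f t x v • relVel v) :=
  ((h.continuous_fv ht x).smul continuous_relVel).integrable_of_hasCompactSupport
    ((h.hasCompactSupport_fv ht x).smul_right)

lemma Reg.current_apply (h : Reg T f E B) {t : ℝ} (ht : t ∈ Ico 0 T) (x : R3) (i : Fin 3) :
    currentDensity f t x i = ∫ v, f t x v * relVel v i := by
  have := ContinuousLinearMap.integral_comp_comm (EuclideanSpace.proj (𝕜 := ℝ) i : R3 →L[ℝ] ℝ)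
    (h.integrable_fv_smul ht x)
  unfold currentDensity
  have h2 : (∫ v, f t x v • relVel v) i
    = (EuclideanSpace.proj (𝕜 := ℝ) i : R3 →L[ℝ] ℝ) (∫ v, f t x v • relVel v) := rfl
  rw [h2, ← this]
  simp

lemma Test.continuous_x (hφ : Test φ) (t : ℝ) : Continuous (φ t) :=
  hφ.smooth.continuous.comp (by fun_prop : Continuous fun x : R3 => (t, x))



/-- the weighted energy. -/
noncomputable def W (φ : ℝ → R3 → ℝ) (f : ℝ → R3 → R3 → ℝ) (E B : ℝ → R3 → R3) (t : ℝ) : ℝ :=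
  (∫ x, φ t x * emE E B t x) + ∫ z : R3 × R3, φ t z.1 * gam z.2 * f t z.1 z.2

/-- electromagnetic part of the derivative of the weighted energy (integrand). -/
noncomputable def dEM (φ : ℝ → R3 → ℝ) (E B : ℝ → R3 → R3) (t : ℝ) (x : R3) : ℝ :=
  dt φ t x * emE E B t x + ∑ i : Fin 3, dx φ i t x * cross3 (E t x) (B t x) i

/-- particle part of the derivative of the weighted energy (integrand). -/
noncomputable def dPT (φ : ℝ → R3 → ℝ) (f : ℝ → R3 → R3 → ℝ) (t : ℝ) (z : R3 × R3) : ℝ :=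
  (dt φ t z.1 * gam z.2 + ∑ i : Fin 3, dx φ i t z.1 * z.2 i) * f t z.1 z.2

lemma contDiffOn_phase {g : ℝ → R3 → ℝ}
    (hg : ContDiffOn ℝ 1 (fun p : ℝ × R3 => g p.1 p.2) (Ico 0 T ×ˢ univ)) :
    ContDiffOn ℝ 1 (fun p : ℝ × R3 × R3 => g p.1 p.2.1) (Ico 0 T ×ˢ univ) := by
  have h1 : ContDiffOn ℝ 1 (fun p : ℝ × R3 × R3 => (p.1, p.2.1)) (Ico 0 T ×ˢ univ) := by
    fun_prop
  exact hg.comp h1 (fun p hp => ⟨hp.1, mem_univ _⟩)

lemma contDiffOn_momentum {g : R3 → ℝ} (hg : ContDiff ℝ 1 g) {S : Set (ℝ × R3 × R3)} :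
    ContDiffOn ℝ 1 (fun p : ℝ × R3 × R3 => g p.2.2) S :=
  (hg.comp (by fun_prop : ContDiff ℝ 1 fun p : ℝ × R3 × R3 => p.2.2)).contDiffOn

lemma contDiff_coord (i : Fin 3) : ContDiff ℝ 1 (fun v : R3 => v i) :=
  (EuclideanSpace.proj (𝕜 := ℝ) i : R3 →L[ℝ] ℝ).contDiff

lemma contDiffOn_lorentz (h : Reg T f E B) (i : Fin 3) :
    ContDiffOn ℝ 1 (fun p : ℝ × R3 × R3 => gam p.2.2 * E p.1 p.2.1 i
      + cross3 p.2.2 (B p.1 p.2.1) i) (Ico 0 T ×ˢ univ) := by
  have hE := fun i => contDiffOn_phase (g := fun t x => E t x i) (contDiffOn_coord h.hE i)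
  have hB := fun i => contDiffOn_phase (g := fun t x => B t x i) (contDiffOn_coord h.hB i)
  have hv := fun i => contDiffOn_momentum (S := Ico 0 T ×ˢ univ) (contDiff_coord i)
  have hg := contDiffOn_momentum (S := Ico 0 T ×ˢ univ) (contDiff_gam (n := 1))
  refine (hg.mul (hE i)).add ?_
  fin_cases i
  · simpa using ((hv 1).mul (hB 2)).sub ((hv 2).mul (hB 1))
  · simpa using ((hv 2).mul (hB 0)).sub ((hv 0).mul (hB 2))
  · simpa using ((hv 0).mul (hB 1)).sub ((hv 1).mul (hB 0))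

/-- Weighted energy identity. -/
theorem W_deriv (h : Reg T f E B) (hφ : Test φ) {t : ℝ} (ht : t ∈ Ioo 0 T) :
    Integrable (dEM φ E B t) ∧ Integrable (dPT φ f t) ∧
    HasDerivAt (W φ f E B) ((∫ x, dEM φ E B t x) + ∫ z, dPT φ f t z) t := by
  have ht' := Ioo_subset_Ico_self ht
  have hφc : ContDiffOn ℝ 1 (fun p : ℝ × R3 => φ p.1 p.2) (Ico 0 T ×ˢ univ) := hφ.smooth.contDiffOn
  have hφp := contDiffOn_phase hφc
  have hv := fun i => contDiffOn_momentum (S := Ico 0 T ×ˢ univ) (contDiff_coord i)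
  have hg := contDiffOn_momentum (S := Ico 0 T ×ˢ univ) (contDiff_gam (n := 1))
  -- the CS functions
  have cG : CS T (fun t x => φ t x * emE E B t x) := hφ.cs (contDiffOn_emE h)
  have cH : ∀ i, CS T (fun t x => φ t x * cross3 (E t x) (B t x) i) := fun i =>
    hφ.cs (contDiffOn_cross h i)
  have cP : CS T (fun t (z : R3 × R3) => φ t z.1 * gam z.2 * f t z.1 z.2) :=
    h.cs (g := fun t z => φ t z.1 * gam z.2) (hφp.mul hg)
  have cK : ∀ i, CS T (fun t (z : R3 × R3) => φ t z.1 * z.2 i * f t z.1 z.2) := fun i =>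
    h.cs (g := fun t z => φ t z.1 * z.2 i) (hφp.mul (hv i))
  have cL : ∀ i, CS T (fun t (z : R3 × R3) =>
      φ t z.1 * (gam z.2 * E t z.1 i + cross3 z.2 (B t z.1) i) * f t z.1 z.2) := fun i =>
    h.cs (g := fun t z => φ t z.1 * (gam z.2 * E t z.1 i + cross3 z.2 (B t z.1) i))
      (hφp.mul (contDiffOn_lorentz h i))
  obtain ⟨iG, dG⟩ := cG.hasDerivAt_integral volume ht
  have : (volume : Measure (R3 × R3)).IsAddHaarMeasure := by
    rw [Measure.volume_eq_prod]; infer_instance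
  obtain ⟨iP, dP⟩ := cP.hasDerivAt_integral volume ht
  have hH := fun i => (cH i).integral_space_deriv volume ht (ee i)
  have hK := fun i => (cK i).integral_space_deriv volume ht (ee i, 0)
  have hL := fun i => (cL i).integral_space_deriv volume ht (0, ee i)
  -- the exchange term
  have hex : Integrable (fun z : R3 × R3 =>
      φ t z.1 * f t z.1 z.2 * ∑ i : Fin 3, relVel z.2 i * E t z.1 i) := by
    have hc : Continuous (fun z : R3 × R3 =>
        φ t z.1 * f t z.1 z.2 * ∑ i : Fin 3, relVel z.2 i * E t z.1 i) := by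
      have h1 : Continuous (fun z : R3 × R3 => φ t z.1) := (hφ.continuous_x t).comp continuous_fst
      have h2 := h.continuous_f ht'
      have h3 : ∀ i : Fin 3, Continuous (fun z : R3 × R3 => relVel z.2 i) := fun i =>
        (contDiff_coord i).continuous.comp (continuous_relVel.comp continuous_snd)
      have h4 : ∀ i : Fin 3, Continuous (fun z : R3 × R3 => E t z.1 i) := fun i =>
        (contDiff_coord i).continuous.comp ((h.continuous_E ht').comp continuous_fst)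
      exact (h1.mul h2).mul (continuous_finsetSum _ fun i _ => (h3 i).mul (h4 i))
    refine hc.integrable_of_hasCompactSupport ?_
    obtain ⟨R, hR⟩ := h.exists_R ht'
    refine HasCompactSupport.intro (isCompact_closedBall (0 : R3 × R3) R) fun z hz => ?_
    have hz' : R < ‖z‖ := by simpa [Metric.mem_closedBall, dist_zero_right] using hz
    rw [Prod.norm_def] at hz'
    rw [hR z.1 z.2 (lt_max_iff.1 hz')]
    simp
  have hexj : ∀ x, ∫ v, φ t x * f t x v * ∑ i : Fin 3, relVel v i * E t x i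
      = φ t x * ∑ i : Fin 3, E t x i * currentDensity f t x i := by
    intro x
    have h1 : (fun v => φ t x * f t x v * ∑ i : Fin 3, relVel v i * E t x i)
      = fun v => φ t x * ∑ i : Fin 3, E t x i * (f t x v * relVel v i) := by
      funext v
      simp only [Fin.sum_univ_three]
      ring
    rw [h1, integral_const_mul, integral_finsetSum]
    · simp only [integral_const_mul, h.current_apply ht' x]
    · intro i _
      exact (h.integrable_fv_mul ht' x ((contDiff_coord i).continuous.comp continuous_relVel)).const_mul _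
  have hexI : Integrable (fun x => φ t x * ∑ i : Fin 3, E t x i * currentDensity f t x i) := by
    have := hex.integral_prod_left
    simpa only [hexj] using this
  have hexE : ∫ z : R3 × R3, φ t z.1 * f t z.1 z.2 * ∑ i : Fin 3, relVel z.2 i * E t z.1 i
      = ∫ x, φ t x * ∑ i : Fin 3, E t x i * currentDensity f t x i := by
    rw [Measure.volume_eq_prod, integral_prod _ hex]
    simp only [hexj]
  -- electromagnetic part
  have e1 : ∀ x, dEM φ E B t x
      = (fderiv ℝ (fun p : ℝ × R3 => φ p.1 p.2 * emE E B p.1 p.2) (t, x) (1, 0)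
      + ∑ i : Fin 3, fderiv ℝ (fun y : R3 => φ t y * cross3 (E t y) (B t y) i) x (ee i))
      + φ t x * ∑ i : Fin 3, E t x i * currentDensity f t x i := by
    intro x
    rw [em_pointwise h hφ ht x]
    unfold dEM
    ring
  have iH : Integrable (fun x => ∑ i : Fin 3,
      fderiv ℝ (fun y : R3 => φ t y * cross3 (E t y) (B t y) i) x (ee i)) :=
    integrable_finsetSum _ fun i _ => (hH i).1
  have zH : ∫ x, ∑ i : Fin 3,
      fderiv ℝ (fun y : R3 => φ t y * cross3 (E t y) (B t y) i) x (ee i) = 0 := by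
    rw [integral_finsetSum _ fun i _ => (hH i).1]
    exact Finset.sum_eq_zero fun i _ => (hH i).2
  have iEM : Integrable (dEM φ E B t) := by
    have : dEM φ E B t = fun x => (fderiv ℝ (fun p : ℝ × R3 => φ p.1 p.2 * emE E B p.1 p.2) (t, x) (1, 0)
      + ∑ i : Fin 3, fderiv ℝ (fun y : R3 => φ t y * cross3 (E t y) (B t y) i) x (ee i))
      + φ t x * ∑ i : Fin 3, E t x i * currentDensity f t x i := funext e1
    rw [this]
    exact (iG.add iH).add hexI
  have sEM : ∫ x, dEM φ E B t x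
      = (∫ x, fderiv ℝ (fun p : ℝ × R3 => φ p.1 p.2 * emE E B p.1 p.2) (t, x) (1, 0))
        + ∫ x, φ t x * ∑ i : Fin 3, E t x i * currentDensity f t x i := by
    simp only [e1]
    have s1 := integral_add (iG.add iH) hexI
    have s2 := integral_add iG iH
    simp only [Pi.add_apply] at s1
    rw [s1, s2, zH, add_zero]
  -- particle part
  have e2 : ∀ z : R3 × R3, dPT φ f t z
      = (fderiv ℝ (fun p : ℝ × R3 × R3 => φ p.1 p.2.1 * gam p.2.2 * f p.1 p.2.1 p.2.2) (t, z) (1, 0)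
      + ∑ i : Fin 3, fderiv ℝ (fun z : R3 × R3 => φ t z.1 * z.2 i * f t z.1 z.2) z (ee i, 0)
      + ∑ i : Fin 3, fderiv ℝ (fun z : R3 × R3 =>
          φ t z.1 * (gam z.2 * E t z.1 i + cross3 z.2 (B t z.1) i) * f t z.1 z.2) z (0, ee i))
      - φ t z.1 * f t z.1 z.2 * ∑ i : Fin 3, relVel z.2 i * E t z.1 i := by
    rintro ⟨x, v⟩
    rw [pt_pointwise h hφ ht x v]
    unfold dPT
    ring
  have iK : Integrable (fun z => ∑ i : Fin 3,
      fderiv ℝ (fun z : R3 × R3 => φ t z.1 * z.2 i * f t z.1 z.2) z (ee i, 0)) :=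
    integrable_finsetSum _ fun i _ => (hK i).1
  have zK : ∫ z, ∑ i : Fin 3,
      fderiv ℝ (fun z : R3 × R3 => φ t z.1 * z.2 i * f t z.1 z.2) z (ee i, 0) = 0 := by
    rw [integral_finsetSum _ fun i _ => (hK i).1]
    exact Finset.sum_eq_zero fun i _ => (hK i).2
  have iL : Integrable (fun z => ∑ i : Fin 3,
      fderiv ℝ (fun z : R3 × R3 => φ t z.1 * (gam z.2 * E t z.1 i + cross3 z.2 (B t z.1) i)
        * f t z.1 z.2) z (0, ee i)) :=
    integrable_finsetSum _ fun i _ => (hL i).1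
  have zL : ∫ z, ∑ i : Fin 3,
      fderiv ℝ (fun z : R3 × R3 => φ t z.1 * (gam z.2 * E t z.1 i + cross3 z.2 (B t z.1) i)
        * f t z.1 z.2) z (0, ee i) = 0 := by
    rw [integral_finsetSum _ fun i _ => (hL i).1]
    exact Finset.sum_eq_zero fun i _ => (hL i).2
  have iPT : Integrable (dPT φ f t) := by
    have := funext e2
    rw [this]
    exact ((iP.add iK).add iL).sub hex
  have sPT : ∫ z, dPT φ f t z
      = (∫ z, fderiv ℝ (fun p : ℝ × R3 × R3 => φ p.1 p.2.1 * gam p.2.2 * f p.1 p.2.1 p.2.2) (t, z) (1, 0))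
        - ∫ x, φ t x * ∑ i : Fin 3, E t x i * currentDensity f t x i := by
    simp only [e2]
    have s1 := integral_sub ((iP.add iK).add iL) hex
    have s2 := integral_add (iP.add iK) iL
    have s3 := integral_add iP iK
    simp only [Pi.add_apply] at s1 s2
    rw [s1, s2, s3, zK, zL, hexE, add_zero, add_zero]
  refine ⟨iEM, iPT, ?_⟩
  have := dG.add dP
  rw [sEM, sPT]
  have hsum : ∀ a b c : ℝ, a + b + (c - b) = a + c := fun a b c => by ring
  rw [hsum]
  exact this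

end Crest.Agent.R106.En
end

-- ▼ part R106/EnCut
section

/-!
Row 106, module EN (helper412), part 4: cut-offs along cones, monotonicity of the weighted energy.
-/

set_option autoImplicit false

open MeasureTheory Filter Set Topology
open Crest.AnalysisR.VecCalc3 Crest.AnalysisR.PDE.RVM

namespace Crest.Agent.R106.En

/-! ### algebra -/

lemma norm_cross_sq (a b : R3) : ‖cross3 a b‖ ^ 2 = ‖a‖ ^ 2 * ‖b‖ ^ 2 - inner ℝ a b ^ 2 := by
  simp only [norm_sq_coord, inner_coord, cross3_0, cross3_1, cross3_2]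
  ring

lemma norm_cross_le (a b : R3) : ‖cross3 a b‖ ≤ ‖a‖ * ‖b‖ := by
  refine le_of_sq_le_sq ?_ (by positivity)
  rw [norm_cross_sq, mul_pow]
  nlinarith [sq_nonneg (inner ℝ a b)]

/-- electromagnetic flux density in direction `ω`. -/
noncomputable def qE (ω : R3) (E B : ℝ → R3 → R3) (t : ℝ) (x : R3) : ℝ :=
  emE E B t x + inner ℝ ω (cross3 (E t x) (B t x))

/-- particle flux density in direction `ω`. -/
noncomputable def qP (ω : R3) (f : ℝ → R3 → R3 → ℝ) (t : ℝ) (z : R3 × R3) : ℝ :=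
  (gam z.2 + inner ℝ ω z.2) * f t z.1 z.2

lemma qE_nonneg {ω : R3} (hω : ‖ω‖ ≤ 1) (E B : ℝ → R3 → R3) (t : ℝ) (x : R3) :
    0 ≤ qE ω E B t x := by
  unfold qE
  rw [emE_eq]
  have h1 := abs_real_inner_le_norm ω (cross3 (E t x) (B t x))
  have h2 := norm_cross_le (E t x) (B t x)
  have h3 : ‖ω‖ * ‖cross3 (E t x) (B t x)‖ ≤ 1 * (‖E t x‖ * ‖B t x‖) := by gcongr
  have h4 := (abs_le.1 h1).1
  nlinarith [sq_nonneg (‖E t x‖ - ‖B t x‖)]

lemma gam_inner_nonneg {ω : R3} (hω : ‖ω‖ ≤ 1) (v : R3) : 0 ≤ gam v + inner ℝ ω v := by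
  have h1 := abs_real_inner_le_norm ω v
  have h2 : ‖ω‖ * ‖v‖ ≤ 1 * gam v := by
    have := norm_le_gam v
    gcongr
  linarith [(abs_le.1 h1).1]

lemma qP_nonneg {ω : R3} (hω : ‖ω‖ ≤ 1) {f : ℝ → R3 → R3 → ℝ} {t : ℝ} {z : R3 × R3}
    (hf : 0 ≤ f t z.1 z.2) : 0 ≤ qP ω f t z :=
  mul_nonneg (gam_inner_nonneg hω z.2) hf

/-! ### regularised distance -/

noncomputable def rr (δ : ℝ) (x0 x : R3) : ℝ := Real.sqrt (δ ^ 2 + ‖x - x0‖ ^ 2)

noncomputable def om (δ : ℝ) (x0 x : R3) : R3 := (rr δ x0 x)⁻¹ • (x - x0)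

lemma rr_pos {δ : ℝ} (hδ : 0 < δ) (x0 x : R3) : 0 < rr δ x0 x := Real.sqrt_pos.2 (by positivity)

lemma norm_le_rr (δ : ℝ) (x0 x : R3) : ‖x - x0‖ ≤ rr δ x0 x :=
  Real.le_sqrt_of_sq_le (by nlinarith [sq_nonneg δ])


lemma norm_om_le {δ : ℝ} (hδ : 0 < δ) (x0 x : R3) : ‖om δ x0 x‖ ≤ 1 := by
  unfold om
  rw [norm_smul, norm_inv, Real.norm_of_nonneg (rr_pos hδ x0 x).le, inv_mul_le_one₀ (rr_pos hδ x0 x)]
  exact norm_le_rr δ x0 x

lemma contDiff_rr {δ : ℝ} (hδ : 0 < δ) (x0 : R3) : ContDiff ℝ 1 (rr δ x0) := by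
  unfold rr
  refine ContDiff.sqrt (contDiff_const.add ((contDiff_norm_sq ℝ).comp (by fun_prop))) fun x => ?_
  positivity

lemma hasFDerivAt_rr {δ : ℝ} (hδ : 0 < δ) (x0 x : R3) :
    HasFDerivAt (rr δ x0) (innerSL ℝ (om δ x0 x)) x := by
  have h0 : HasFDerivAt (fun y : R3 => y - x0) (ContinuousLinearMap.id ℝ R3) x :=
    (hasFDerivAt_id x).sub_const x0
  have h1 : HasFDerivAt (fun y : R3 => δ ^ 2 + ‖y - x0‖ ^ 2) (2 • (innerSL ℝ (x - x0))) x := by
    have := ((hasStrictFDerivAt_norm_sq (x - x0)).hasFDerivAt.comp x h0).const_add (δ ^ 2)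
    exact this
  have h2 := h1.sqrt (by positivity)
  refine h2.congr_fderiv ?_
  ext w
  have := rr_pos hδ x0 x
  unfold rr at this
  simp only [_root_.smul_apply, innerSL_apply_apply, om, inner_smul_left, rr]
  simp
  field_simp

/-! ### cut-off functions -/

/-- cut-off `st (m (a + b t - rr))`. -/
noncomputable def cut (a b m δ : ℝ) (x0 : R3) (t : ℝ) (x : R3) : ℝ :=
  Real.smoothTransition (m * (a + b * t - rr δ x0 x))

/-- the (nonnegative) density of the cut-off layer. -/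
noncomputable def lay (a b m δ : ℝ) (x0 : R3) (t : ℝ) (x : R3) : ℝ :=
  m * deriv Real.smoothTransition (m * (a + b * t - rr δ x0 x))

lemma cut_nonneg (a b m δ : ℝ) (x0 : R3) (t : ℝ) (x : R3) : 0 ≤ cut a b m δ x0 t x :=
  Real.smoothTransition.nonneg _

lemma cut_le_one (a b m δ : ℝ) (x0 : R3) (t : ℝ) (x : R3) : cut a b m δ x0 t x ≤ 1 :=
  Real.smoothTransition.le_one _

lemma lay_nonneg {a b m δ : ℝ} (hm : 0 ≤ m) (x0 : R3) (t : ℝ) (x : R3) : 0 ≤ lay a b m δ x0 t x :=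
  mul_nonneg hm (Real.smoothTransition.monotone.deriv_nonneg)

lemma cut_test {a b m δ : ℝ} (hm : 0 < m) (hδ : 0 < δ) (x0 : R3) : Test (cut a b m δ x0) := by
  refine ⟨?_, fun T' h0 => ⟨|a| + |b| * T' + ‖x0‖, fun t ht x hx => ?_⟩⟩
  · unfold cut
    refine (Real.smoothTransition.contDiff (n := 1)).comp ?_
    have h1 : ContDiff ℝ 1 (fun p : ℝ × R3 => rr δ x0 p.2) := (contDiff_rr hδ x0).comp contDiff_snd
    fun_prop
  · unfold cut
    refine Real.smoothTransition.zero_of_nonpos ?_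
    refine mul_nonpos_of_nonneg_of_nonpos hm.le ?_
    have h1 := norm_le_rr δ x0 x
    have h2 : ‖x‖ - ‖x0‖ ≤ ‖x - x0‖ := norm_sub_norm_le x x0
    have h3 : b * t ≤ |b| * T' := by
      calc b * t ≤ |b| * t := mul_le_mul_of_nonneg_right (le_abs_self b) ht.1
        _ ≤ |b| * T' := mul_le_mul_of_nonneg_left ht.2 (abs_nonneg b)
    linarith [le_abs_self a]

lemma hasFDerivAt_cut {a b m δ : ℝ} (hδ : 0 < δ) (x0 : R3) (t : ℝ) (x : R3) :
    HasFDerivAt (fun p : ℝ × R3 => cut a b m δ x0 p.1 p.2)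
      (lay a b m δ x0 t x • (b • ContinuousLinearMap.fst ℝ ℝ R3
        - (innerSL ℝ (om δ x0 x)).comp (ContinuousLinearMap.snd ℝ ℝ R3))) (t, x) := by
  have h1 : HasFDerivAt (fun p : ℝ × R3 => rr δ x0 p.2)
      ((innerSL ℝ (om δ x0 x)).comp (ContinuousLinearMap.snd ℝ ℝ R3)) (t, x) :=
    HasFDerivAt.comp (g := rr δ x0) (t, x) (hasFDerivAt_rr hδ x0 x)
      (ContinuousLinearMap.snd ℝ ℝ R3).hasFDerivAt
  have h2 : HasFDerivAt (fun p : ℝ × R3 => a + b * p.1) (b • ContinuousLinearMap.fst ℝ ℝ R3) (t, x) :=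
    ((ContinuousLinearMap.fst ℝ ℝ R3).hasFDerivAt.const_mul b).const_add a
  have h3 := (h2.sub h1).const_mul m
  have h4 : HasDerivAt Real.smoothTransition
      (deriv Real.smoothTransition (m * (a + b * t - rr δ x0 x))) (m * (a + b * t - rr δ x0 x)) :=
    (((Real.smoothTransition.contDiff (n := 1)).differentiable one_ne_zero) _).hasDerivAt
  have h5 := h4.comp_hasFDerivAt (t, x) h3
  refine h5.congr_fderiv ?_
  unfold lay
  rw [smul_smul, mul_comm (deriv _ _)]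

lemma dt_cut {a b m δ : ℝ} (hδ : 0 < δ) (x0 : R3) (t : ℝ) (x : R3) :
    dt (cut a b m δ x0) t x = b * lay a b m δ x0 t x := by
  unfold dt
  rw [(hasFDerivAt_cut hδ x0 t x).fderiv]
  simp [mul_comm]

lemma dx_cut {a b m δ : ℝ} (hδ : 0 < δ) (x0 : R3) (i : Fin 3) (t : ℝ) (x : R3) :
    dx (cut a b m δ x0) i t x = - (lay a b m δ x0 t x * om δ x0 x i) := by
  unfold dx
  rw [(hasFDerivAt_cut hδ x0 t x).fderiv]
  have hin : inner ℝ (om δ x0 x) (ee i) = om δ x0 x i := by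
    rw [EuclideanSpace.inner_single_right]; simp
  simp [hin]

lemma dEM_cut {a b m δ : ℝ} (hb : b ^ 2 = 1) (hδ : 0 < δ) (x0 : R3) (E B : ℝ → R3 → R3) (t : ℝ) (x : R3) :
    dEM (cut a b m δ x0) E B t x = b * (lay a b m δ x0 t x * qE (-b • om δ x0 x) E B t x) := by
  unfold dEM qE
  rw [dt_cut hδ, inner_smul_left, inner_coord, Fin.sum_univ_three]
  simp only [dx_cut hδ, conj_trivial]
  linear_combination (-(lay a b m δ x0 t x) * (om δ x0 x 0 * cross3 (E t x) (B t x) 0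
    + om δ x0 x 1 * cross3 (E t x) (B t x) 1 + om δ x0 x 2 * cross3 (E t x) (B t x) 2)) * (- hb)

lemma dPT_cut {a b m δ : ℝ} (hb : b ^ 2 = 1) (hδ : 0 < δ) (x0 : R3) (f : ℝ → R3 → R3 → ℝ) (t : ℝ)
    (z : R3 × R3) :
    dPT (cut a b m δ x0) f t z = b * (lay a b m δ x0 t z.1 * qP (-b • om δ x0 z.1) f t z) := by
  unfold dPT qP
  rw [dt_cut hδ, inner_smul_left, inner_coord, Fin.sum_univ_three]
  simp only [dx_cut hδ, conj_trivial]
  linear_combination (-(lay a b m δ x0 t z.1) * (om δ x0 z.1 0 * z.2 0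
    + om δ x0 z.1 1 * z.2 1 + om δ x0 z.1 2 * z.2 2) * f t z.1 z.2) * (- hb)

end Crest.Agent.R106.En
end

-- ▼ part R106/EnFlux

/-!
Row 106, module EN (helper412), part 5: conservation of energy and the cone flux inequality.
-/

set_option autoImplicit false

open MeasureTheory Filter Set Topology
open Crest.AnalysisR.VecCalc3 Crest.AnalysisR.PDE.RVM
open scoped ENNReal

namespace Crest.Agent.R106.En

variable {T : ℝ} {f : ℝ → R3 → R3 → ℝ} {E B : ℝ → R3 → R3} {φ : ℝ → R3 → ℝ}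

instance : (volume : Measure (R3 × R3)).IsAddHaarMeasure := by
  rw [Measure.volume_eq_prod]; infer_instance

/-- total energy, with values in [0,∞]. -/
noncomputable def en (f : ℝ → R3 → R3 → ℝ) (E B : ℝ → R3 → R3) (t : ℝ) : ℝ≥0∞ :=
  (∫⁻ x, ENNReal.ofReal (emE E B t x)) + ∫⁻ z : R3 × R3, ENNReal.ofReal (gam z.2 * f t z.1 z.2)

lemma emE_nonneg (E B : ℝ → R3 → R3) (t : ℝ) (x : R3) : 0 ≤ emE E B t x := by
  rw [emE_eq]; positivity

lemma cs_EM (h : Reg T f E B) (hφ : Test φ) : CS T (fun t x => φ t x * emE E B t x) :=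
  hφ.cs (contDiffOn_emE h)

lemma cs_PT (h : Reg T f E B) (hφ : Test φ) :
    CS T (fun t (z : R3 × R3) => φ t z.1 * gam z.2 * f t z.1 z.2) :=
  h.cs (g := fun t z => φ t z.1 * gam z.2) ((contDiffOn_phase hφ.smooth.contDiffOn).mul
    (contDiffOn_momentum (contDiff_gam (n := 1))))

lemma W_continuousOn (h : Reg T f E B) (hφ : Test φ) : ContinuousOn (W φ f E B) (Ico 0 T) :=
  ((cs_EM h hφ).continuousOn_integral volume).add ((cs_PT h hφ).continuousOn_integral volume)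

lemma ofReal_W (h : Reg T f E B) (hf : ∀ t ∈ Ico 0 T, ∀ x v, 0 ≤ f t x v) (hφ : Test φ)
    (hφ0 : ∀ t x, 0 ≤ φ t x) {t : ℝ} (ht : t ∈ Ico 0 T) :
    ENNReal.ofReal (W φ f E B t) = (∫⁻ x, ENNReal.ofReal (φ t x * emE E B t x))
      + ∫⁻ z : R3 × R3, ENNReal.ofReal (φ t z.1 * gam z.2 * f t z.1 z.2) := by
  have n1 : ∀ x, 0 ≤ φ t x * emE E B t x := fun x => mul_nonneg (hφ0 t x) (emE_nonneg E B t x)
  have n2 : ∀ z : R3 × R3, 0 ≤ φ t z.1 * gam z.2 * f t z.1 z.2 := fun z =>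
    mul_nonneg (mul_nonneg (hφ0 t z.1) (gam_pos z.2).le) (hf t ht z.1 z.2)
  unfold W
  rw [ENNReal.ofReal_add (integral_nonneg n1) (integral_nonneg n2),
    ofReal_integral_eq_lintegral_ofReal ((cs_EM h hφ).integrable volume ht) (Eventually.of_forall n1),
    ofReal_integral_eq_lintegral_ofReal ((cs_PT h hφ).integrable volume ht) (Eventually.of_forall n2)]

lemma ofReal_W_le (h : Reg T f E B) (hf : ∀ t ∈ Ico 0 T, ∀ x v, 0 ≤ f t x v) (hφ : Test φ)
    (hφ0 : ∀ t x, 0 ≤ φ t x) (hφ1 : ∀ t x, φ t x ≤ 1) {t : ℝ} (ht : t ∈ Ico 0 T) :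
    ENNReal.ofReal (W φ f E B t) ≤ en f E B t := by
  rw [ofReal_W h hf hφ hφ0 ht]
  unfold en
  gcongr with x z
  · exact mul_le_of_le_one_left (emE_nonneg E B t x) (hφ1 t x)
  · exact hf t ht z.1 z.2
  · exact mul_le_of_le_one_left (gam_pos z.2).le (hφ1 t z.1)

/-- sign of the derivative of the weighted energy for cone cut-offs. -/
lemma W_cut_deriv (h : Reg T f E B) {a b m δ : ℝ} (hb : b ^ 2 = 1) (hm : 0 < m) (hδ : 0 < δ)
    (x0 : R3) {t : ℝ} (ht : t ∈ Ioo 0 T) :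
    Integrable (fun x => lay a b m δ x0 t x * qE (-b • om δ x0 x) E B t x) ∧
    Integrable (fun z : R3 × R3 => lay a b m δ x0 t z.1 * qP (-b • om δ x0 z.1) f t z) ∧
    HasDerivAt (W (cut a b m δ x0) f E B)
      (b * ((∫ x, lay a b m δ x0 t x * qE (-b • om δ x0 x) E B t x)
        + ∫ z : R3 × R3, lay a b m δ x0 t z.1 * qP (-b • om δ x0 z.1) f t z)) t := by
  obtain ⟨i1, i2, h3⟩ := W_deriv h (cut_test (a := a) (b := b) hm hδ x0) ht
  have e1 : dEM (cut a b m δ x0) E B t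
      = fun x => b * (lay a b m δ x0 t x * qE (-b • om δ x0 x) E B t x) :=
    funext fun x => dEM_cut hb hδ x0 E B t x
  have e2 : dPT (cut a b m δ x0) f t
      = fun z => b * (lay a b m δ x0 t z.1 * qP (-b • om δ x0 z.1) f t z) :=
    funext fun z => dPT_cut hb hδ x0 f t z
  have hb0 : b ≠ 0 := by rintro rfl; norm_num at hb
  rw [e1] at i1 h3
  rw [e2] at i2 h3
  refine ⟨(integrable_const_mul_iff (isUnit_iff_ne_zero.2 hb0) _).1 i1,
    (integrable_const_mul_iff (isUnit_iff_ne_zero.2 hb0) _).1 i2, ?_⟩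
  rw [integral_const_mul, integral_const_mul] at h3
  rw [mul_add]
  exact h3

lemma lay_mul_qE_nonneg {a b m δ : ℝ} (hb : |b| ≤ 1) (hm : 0 < m) (hδ : 0 < δ) (x0 : R3)
    (t : ℝ) (x : R3) : 0 ≤ lay a b m δ x0 t x * qE (-b • om δ x0 x) E B t x := by
  refine mul_nonneg (lay_nonneg hm.le x0 t x) (qE_nonneg ?_ E B t x)
  rw [norm_smul, norm_neg]
  exact mul_le_one₀ hb (norm_nonneg _) (norm_om_le hδ x0 x)

lemma lay_mul_qP_nonneg {a b m δ : ℝ} (hb : |b| ≤ 1) (hm : 0 < m) (hδ : 0 < δ) (x0 : R3)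
    {t : ℝ} {z : R3 × R3} (hf : 0 ≤ f t z.1 z.2) :
    0 ≤ lay a b m δ x0 t z.1 * qP (-b • om δ x0 z.1) f t z := by
  refine mul_nonneg (lay_nonneg hm.le x0 t z.1) (qP_nonneg ?_ hf)
  rw [norm_smul, norm_neg]
  exact mul_le_one₀ hb (norm_nonneg _) (norm_om_le hδ x0 z.1)

lemma W_antitone (h : Reg T f E B) (hf : ∀ t ∈ Ico 0 T, ∀ x v, 0 ≤ f t x v) {a m δ : ℝ}
    (hm : 0 < m) (hδ : 0 < δ) (x0 : R3) : AntitoneOn (W (cut a (-1) m δ x0) f E B) (Ico 0 T) := by
  refine antitoneOn_of_deriv_nonpos (convex_Ico 0 T) (W_continuousOn h (cut_test hm hδ x0)) ?_ ?_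
  · rw [interior_Ico]
    intro t ht
    exact (W_cut_deriv h (by norm_num) hm hδ x0 ht).2.2.differentiableAt.differentiableWithinAt
  · rw [interior_Ico]
    intro t ht
    rw [(W_cut_deriv h (by norm_num) hm hδ x0 ht).2.2.deriv]
    have n1 : 0 ≤ ∫ x, lay a (-1) m δ x0 t x * qE (-(-1 : ℝ) • om δ x0 x) E B t x :=
      integral_nonneg fun x =>
      lay_mul_qE_nonneg (E := E) (B := B) (a := a) (b := -1) (by norm_num) hm hδ x0 t x
    have n2 : 0 ≤ ∫ z : R3 × R3, lay a (-1) m δ x0 t z.1 * qP (-(-1 : ℝ) • om δ x0 z.1) f t z :=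
      integral_nonneg fun z =>
      lay_mul_qP_nonneg (a := a) (b := -1) (by norm_num) hm hδ x0 (hf t (Ioo_subset_Ico_self ht) z.1 z.2)
    linarith

lemma W_monotone (h : Reg T f E B) (hf : ∀ t ∈ Ico 0 T, ∀ x v, 0 ≤ f t x v) {a m δ : ℝ}
    (hm : 0 < m) (hδ : 0 < δ) (x0 : R3) : MonotoneOn (W (cut a 1 m δ x0) f E B) (Ico 0 T) := by
  refine monotoneOn_of_deriv_nonneg (convex_Ico 0 T) (W_continuousOn h (cut_test hm hδ x0)) ?_ ?_
  · rw [interior_Ico]
    intro t ht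
    exact (W_cut_deriv h (by norm_num) hm hδ x0 ht).2.2.differentiableAt.differentiableWithinAt
  · rw [interior_Ico]
    intro t ht
    rw [(W_cut_deriv h (by norm_num) hm hδ x0 ht).2.2.deriv]
    have n1 : 0 ≤ ∫ x, lay a 1 m δ x0 t x * qE (-(1 : ℝ) • om δ x0 x) E B t x :=
      integral_nonneg fun x =>
      lay_mul_qE_nonneg (E := E) (B := B) (a := a) (b := 1) (by norm_num) hm hδ x0 t x
    have n2 : 0 ≤ ∫ z : R3 × R3, lay a 1 m δ x0 t z.1 * qP (-(1 : ℝ) • om δ x0 z.1) f t z :=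
      integral_nonneg fun z =>
      lay_mul_qP_nonneg (a := a) (b := 1) (by norm_num) hm hδ x0 (hf t (Ioo_subset_Ico_self ht) z.1 z.2)
    linarith

/-- the weighted energies with growing cut-offs converge to the energy. -/
lemma tendsto_W (h : Reg T f E B) (hf : ∀ t ∈ Ico 0 T, ∀ x v, 0 ≤ f t x v) (b : ℝ) {t : ℝ}
    (ht : t ∈ Ico 0 T) :
    Tendsto (fun n : ℕ => ENNReal.ofReal (W (cut n b 1 1 0) f E B t)) atTop (𝓝 (en f E B t)) := by
  have hmono : ∀ x, Monotone (fun n : ℕ => cut (n : ℝ) b 1 1 0 t x) := fun x n k hnk => by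
    refine Real.smoothTransition.monotone ?_
    have : (n : ℝ) ≤ k := by exact_mod_cast hnk
    linarith
  have htend : ∀ x, ∀ᶠ n : ℕ in atTop, cut (n : ℝ) b 1 1 0 t x = 1 := fun x => by
    obtain ⟨N, hN⟩ := exists_nat_ge (1 - b * t + rr 1 0 x)
    filter_upwards [eventually_ge_atTop N] with n hn
    refine Real.smoothTransition.one_of_one_le ?_
    have : (N : ℝ) ≤ n := by exact_mod_cast hn
    linarith
  have hcut : ∀ n : ℕ, Test (cut (n : ℝ) b 1 1 0) := fun n => cut_test one_pos one_pos 0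
  have e : ∀ n : ℕ, ENNReal.ofReal (W (cut n b 1 1 0) f E B t)
      = (∫⁻ x, ENNReal.ofReal (cut n b 1 1 0 t x * emE E B t x))
      + ∫⁻ z : R3 × R3, ENNReal.ofReal (cut n b 1 1 0 t z.1 * gam z.2 * f t z.1 z.2) := fun n =>
    ofReal_W h hf (hcut n) (cut_nonneg _ _ _ _ _) ht
  simp only [e]
  unfold en
  refine Tendsto.add ?_ ?_
  · refine lintegral_tendsto_of_tendsto_of_monotone (fun n => ?_) (Eventually.of_forall fun x n k hnk => ?_)
      (Eventually.of_forall fun x => ?_)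
    · exact (((cs_EM h (hcut n)).integrable volume ht).1.aemeasurable).ennreal_ofReal
    · exact ENNReal.ofReal_le_ofReal (mul_le_mul_of_nonneg_right (hmono x hnk) (emE_nonneg E B t x))
    · refine tendsto_const_nhds.congr' ?_
      filter_upwards [htend x] with n hn
      rw [hn, one_mul]
  · refine lintegral_tendsto_of_tendsto_of_monotone (fun n => ?_) (Eventually.of_forall fun z n k hnk => ?_)
      (Eventually.of_forall fun z => ?_)
    · exact (((cs_PT h (hcut n)).integrable volume ht).1.aemeasurable).ennreal_ofReal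
    · refine ENNReal.ofReal_le_ofReal ?_
      have := hmono z.1 hnk
      simp only at this
      have h1 := (gam_pos z.2).le
      have h2 := hf t ht z.1 z.2
      gcongr
    · refine tendsto_const_nhds.congr' ?_
      filter_upwards [htend z.1] with n hn
      rw [hn, one_mul]

/-- Conservation of energy. -/
theorem energy_eq (h : Reg T f E B) (hf : ∀ t ∈ Ico 0 T, ∀ x v, 0 ≤ f t x v) {s t : ℝ}
    (hs : s ∈ Ico 0 T) (ht : t ∈ Ico 0 T) : en f E B t = en f E B s := by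
  wlog hst : s ≤ t generalizing s t
  · exact (this ht hs (le_of_not_ge hst)).symm
  refine le_antisymm ?_ ?_
  · refine le_of_tendsto_of_tendsto' (tendsto_W h hf (-1) ht) (tendsto_W h hf (-1) hs) fun n => ?_
    exact ENNReal.ofReal_le_ofReal (W_antitone h hf one_pos one_pos 0 hs ht hst)
  · refine le_of_tendsto_of_tendsto' (tendsto_W h hf 1 hs) (tendsto_W h hf 1 ht) fun n => ?_
    exact ENNReal.ofReal_le_ofReal (W_monotone h hf one_pos one_pos 0 hs ht hst)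

end Crest.Agent.R106.En
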