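import Crest.Agent.R106.EnFlux
import Mathlib
import Crest.Prelude.Def_VecCalc3
import Crest.Prelude.Def_VlasovMaxwell
import Crest.Agent.R106.GSRDefs
import Crest.Agent.R106.CostCS
import Crest.Agent.R106.MomDefs
import Crest.Agent.R106.MomIface

-- ▼ part R106/EnConeA
section

/-!
Row 106, module EN (helper412), part 6: the cone flux inequality.
-/

set_option autoImplicit false

open MeasureTheory Filter Set Topology
open Crest.AnalysisR.VecCalc3 Crest.AnalysisR.PDE.RVM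
open scoped ENNReal

namespace Crest.Agent.R106.En

variable {T : ℝ} {f : ℝ → R3 → R3 → ℝ} {E B : ℝ → R3 → R3} {φ : ℝ → R3 → ℝ}

/-- mass one of the layer kernel in time. -/
lemma layer_mass {m s : ℝ} (hm : 0 < m) :
    ∫⁻ t in Ioo (s - m⁻¹) s, ENNReal.ofReal (m * deriv Real.smoothTransition (m * (s - t))) = 1 := by
  have hd : ∀ x, HasDerivAt Real.smoothTransition (deriv Real.smoothTransition x) x := fun x =>
    (((Real.smoothTransition.contDiff (n := 1)).differentiable one_ne_zero) x).hasDerivAt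
  have hc : Continuous (deriv Real.smoothTransition) :=
    (Real.smoothTransition.contDiff (n := 1)).continuous_deriv le_rfl
  have hd2 : ∀ t, HasDerivAt (fun t => - Real.smoothTransition (m * (s - t)))
      (m * deriv Real.smoothTransition (m * (s - t))) t := by
    intro t
    have h1 : HasDerivAt (fun t => m * (s - t)) (m * (0 - 1)) t :=
      ((hasDerivAt_const t s).sub (hasDerivAt_id t)).const_mul m
    have h2 := ((hd (m * (s - t))).comp t h1).neg
    refine h2.congr_deriv ?_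
    ring
  have hc2 : Continuous (fun t => m * deriv Real.smoothTransition (m * (s - t))) := by fun_prop
  have hle : s - m⁻¹ ≤ s := by
    have := inv_pos.2 hm
    linarith
  have hint := intervalIntegral.integral_eq_sub_of_hasDerivAt (a := s - m⁻¹) (b := s)
    (fun t _ => hd2 t) (hc2.intervalIntegrable _ _)
  have hnn : ∀ t, 0 ≤ m * deriv Real.smoothTransition (m * (s - t)) := fun t =>
    mul_nonneg hm.le Real.smoothTransition.monotone.deriv_nonneg
  rw [← ofReal_integral_eq_lintegral_ofReal, ← integral_Ioc_eq_integral_Ioo,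
    ← intervalIntegral.integral_of_le hle, hint]
  · have : m * (s - (s - m⁻¹)) = 1 := by
      field_simp
      ring
    rw [this]
    simp
  · exact (hc2.integrableOn_Icc (a := s - m⁻¹) (b := s)).mono_set Ioo_subset_Icc_self
  · exact Eventually.of_forall hnn

/-- Approximate identity in time. -/
lemma approx_id {t0 L : ℝ} {g : ℕ → ℝ → ℝ} {s m : ℕ → ℝ} (hm : ∀ n, 0 < m n)
    (hwin : ∀ᶠ n in atTop, 0 ≤ s n - (m n)⁻¹ ∧ s n ≤ t0)
    (hg : ∀ ε > 0, ∀ᶠ n in atTop, ∀ t ∈ Ioo (s n - (m n)⁻¹) (s n), L - ε ≤ g n t) :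
    ENNReal.ofReal L ≤ liminf (fun n => ∫⁻ t in Ioo 0 t0,
      ENNReal.ofReal (m n * deriv Real.smoothTransition (m n * (s n - t)) * g n t)) atTop := by
  have key : ∀ ε > 0, ENNReal.ofReal (L - ε) ≤ liminf (fun n => ∫⁻ t in Ioo 0 t0,
      ENNReal.ofReal (m n * deriv Real.smoothTransition (m n * (s n - t)) * g n t)) atTop := by
    intro ε hε
    refine le_liminf_of_le (by isBoundedDefault) ?_
    filter_upwards [hwin, hg ε hε] with n hn1 hn2
    have hsub : Ioo (s n - (m n)⁻¹) (s n) ⊆ Ioo 0 t0 := Ioo_subset_Ioo hn1.1 hn1.2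
    calc ENNReal.ofReal (L - ε)
        = ENNReal.ofReal (L - ε) * ∫⁻ t in Ioo (s n - (m n)⁻¹) (s n),
          ENNReal.ofReal (m n * deriv Real.smoothTransition (m n * (s n - t))) := by
          rw [layer_mass (hm n), mul_one]
      _ = ∫⁻ t in Ioo (s n - (m n)⁻¹) (s n), ENNReal.ofReal (L - ε) *
          ENNReal.ofReal (m n * deriv Real.smoothTransition (m n * (s n - t))) := by
          rw [lintegral_const_mul' _ _ ENNReal.ofReal_ne_top]
      _ ≤ ∫⁻ t in Ioo (s n - (m n)⁻¹) (s n),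
          ENNReal.ofReal (m n * deriv Real.smoothTransition (m n * (s n - t)) * g n t) := by
          refine setLIntegral_mono' measurableSet_Ioo fun t ht => ?_
          have hnn : 0 ≤ m n * deriv Real.smoothTransition (m n * (s n - t)) :=
            mul_nonneg (hm n).le Real.smoothTransition.monotone.deriv_nonneg
          rw [mul_comm, ← ENNReal.ofReal_mul hnn]
          exact ENNReal.ofReal_le_ofReal (mul_le_mul_of_nonneg_left (hn2 t ht) hnn)
      _ ≤ _ := lintegral_mono_set hsub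
  have hlim : Tendsto (fun k : ℕ => ENNReal.ofReal (L - 1 / ((k : ℝ) + 1))) atTop
      (𝓝 (ENNReal.ofReal L)) := by
    refine (ENNReal.continuous_ofReal.tendsto L).comp ?_
    have := (tendsto_one_div_add_atTop_nhds_zero_nat (𝕜 := ℝ)).const_sub L
    simpa using this
  exact le_of_tendsto' hlim fun k => key _ (by positivity)

/-- the unit vector `(x - x0)/|x - x0|` (0 at the vertex). -/
noncomputable def om0 (x0 x : R3) : R3 := ‖x - x0‖⁻¹ • (x - x0)


/-- The regularisation parameters. -/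
noncomputable def dn (n : ℕ) : ℝ := 1 / ((n : ℝ) + 1)
noncomputable def mn (n : ℕ) : ℝ := (n : ℝ) + 1

lemma dn_pos (n : ℕ) : 0 < dn n := by unfold dn; positivity
lemma mn_pos (n : ℕ) : 0 < mn n := by unfold mn; positivity
lemma mn_inv (n : ℕ) : (mn n)⁻¹ = dn n := by unfold mn dn; rw [one_div]
lemma tendsto_dn : Tendsto dn atTop (𝓝 0) := tendsto_one_div_add_atTop_nhds_zero_nat

lemma tendsto_rr (x0 x : R3) : Tendsto (fun n => rr (dn n) x0 x) atTop (𝓝 ‖x - x0‖) := by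
  have h1 : Tendsto (fun n => Real.sqrt (dn n ^ 2 + ‖x - x0‖ ^ 2)) atTop
      (𝓝 (Real.sqrt (0 ^ 2 + ‖x - x0‖ ^ 2))) :=
    (Real.continuous_sqrt.tendsto _).comp ((tendsto_dn.pow 2).add_const _)
  have h2 : Real.sqrt (0 ^ 2 + ‖x - x0‖ ^ 2) = ‖x - x0‖ := by
    rw [zero_pow two_ne_zero, zero_add, Real.sqrt_sq (norm_nonneg _)]
  rw [h2] at h1
  exact h1

lemma tendsto_om (x0 x : R3) : Tendsto (fun n => om (dn n) x0 x) atTop (𝓝 (om0 x0 x)) := by
  by_cases hx : x = x0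
  · subst hx
    simp [om, om0]
  · have h0 : ‖x - x0‖ ≠ 0 := norm_ne_zero_iff.2 (sub_ne_zero.2 hx)
    exact ((tendsto_rr x0 x).inv₀ h0).smul_const (x - x0)

/-- abstract limit: a continuous function of `(ω,t)` along the layers. -/
lemma limit_bound {t0 : ℝ} (ht0 : t0 < T) (x0 x : R3) (hx : ‖x - x0‖ < t0) (G : R3 → ℝ → ℝ)
    (hG : ContinuousOn (fun p : R3 × ℝ => G p.1 p.2) (univ ×ˢ Ico 0 T)) :
    ENNReal.ofReal (G (om0 x0 x) (t0 - ‖x - x0‖)) ≤ liminf (fun n => ∫⁻ t in Ioo 0 t0,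
      ENNReal.ofReal (lay t0 (-1) (mn n) (dn n) x0 t x * G (om (dn n) x0 x) t)) atTop := by
  have hlay : ∀ n t, lay t0 (-1) (mn n) (dn n) x0 t x
      = mn n * deriv Real.smoothTransition (mn n * ((t0 - rr (dn n) x0 x) - t)) := by
    intro n t
    unfold lay
    congr 3
    ring
  simp only [hlay]
  have hs : Tendsto (fun n => t0 - rr (dn n) x0 x) atTop (𝓝 (t0 - ‖x - x0‖)) :=
    (tendsto_rr x0 x).const_sub t0
  have hτ : 0 < t0 - ‖x - x0‖ := by linarith
  have hτT : t0 - ‖x - x0‖ < T := by linarith [norm_nonneg (x - x0)]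
  have hs' : Tendsto (fun n => t0 - rr (dn n) x0 x - dn n) atTop (𝓝 (t0 - ‖x - x0‖)) := by
    simpa using hs.sub tendsto_dn
  refine approx_id (m := mn) (s := fun n => t0 - rr (dn n) x0 x) (t0 := t0) mn_pos ?_ ?_
  · simp only [mn_inv]
    filter_upwards [hs'.eventually (lt_mem_nhds hτ)] with n hn
    exact ⟨hn.le, by linarith [rr_pos (dn_pos n) x0 x]⟩
  · intro ε hε
    simp only [mn_inv]
    have hcw := hG (om0 x0 x, t0 - ‖x - x0‖) ⟨mem_univ _, hτ.le, hτT⟩
    have hev : ∀ᶠ p in 𝓝[univ ×ˢ Ico 0 T] (om0 x0 x, t0 - ‖x - x0‖),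
        G (om0 x0 x) (t0 - ‖x - x0‖) - ε < G p.1 p.2 :=
      hcw.eventually (lt_mem_nhds (by linarith))
    rw [eventually_nhdsWithin_iff, Metric.eventually_nhds_iff] at hev
    obtain ⟨η, hη, hball⟩ := hev
    have h1 := (tendsto_om x0 x).eventually (Metric.ball_mem_nhds _ hη)
    have h2 := hs.eventually (Ioo_mem_nhds (show t0 - ‖x - x0‖ - η < t0 - ‖x - x0‖ by linarith)
      (show t0 - ‖x - x0‖ < t0 - ‖x - x0‖ + η by linarith))
    have h3 := hs'.eventually (Ioo_mem_nhds (show t0 - ‖x - x0‖ - η < t0 - ‖x - x0‖ by linarith)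
      (show t0 - ‖x - x0‖ < t0 - ‖x - x0‖ + η by linarith))
    have h4 := hs'.eventually (lt_mem_nhds hτ)
    filter_upwards [h1, h2, h3, h4] with n hn1 hn2 hn3 hn4 t ht
    refine (hball (y := (om (dn n) x0 x, t)) ?_ ⟨mem_univ _, ?_, ?_⟩).le
    · rw [Prod.dist_eq]
      refine max_lt hn1 ?_
      simp only
      rw [Real.dist_eq, abs_lt]
      constructor
      · linarith [ht.1, hn3.1]
      · linarith [ht.2, hn2.2]
    · exact (lt_trans hn4 ht.1).le
    · have := rr_pos (dn_pos n) x0 x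
      linarith [ht.2]

lemma continuousOn_lay {t0 m δ : ℝ} (hδ : 0 < δ) (x0 : R3) :
    Continuous (fun p : ℝ × R3 => lay t0 (-1) m δ x0 p.1 p.2) := by
  have hc : Continuous (deriv Real.smoothTransition) :=
    (Real.smoothTransition.contDiff (n := 1)).continuous_deriv le_rfl
  have h1 : Continuous (fun p : ℝ × R3 => rr δ x0 p.2) :=
    (contDiff_rr hδ x0).continuous.comp continuous_snd
  unfold lay
  fun_prop

lemma continuous_om {δ : ℝ} (hδ : 0 < δ) (x0 : R3) : Continuous (om δ x0) := by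
  unfold om
  exact ((contDiff_rr hδ x0).continuous.inv₀ fun x => (rr_pos hδ x0 x).ne').smul (by fun_prop)

lemma continuousOn_qE (h : Reg T f E B) {Y : Type*} [TopologicalSpace Y] {S : Set Y} {ω : Y → R3}
    {τ : Y → ℝ} {ξ : Y → R3} (hω : ContinuousOn ω S) (hτ : ContinuousOn τ S) (hξ : ContinuousOn ξ S)
    (hS : ∀ y ∈ S, τ y ∈ Ico 0 T) : ContinuousOn (fun y => qE (ω y) E B (τ y) (ξ y)) S := by
  have hp : ContinuousOn (fun y => ((τ y, ξ y) : ℝ × R3)) S := hτ.prodMk hξ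
  have hmaps : MapsTo (fun y => ((τ y, ξ y) : ℝ × R3)) S (Ico 0 T ×ˢ univ) :=
    fun y hy => ⟨hS y hy, mem_univ _⟩
  have hc := fun i => (contDiffOn_cross h i).continuousOn.comp hp hmaps
  have he := (contDiffOn_emE h).continuousOn.comp hp hmaps
  have hωi : ∀ i : Fin 3, ContinuousOn (fun y => ω y i) S := fun i =>
    (contDiff_coord i).continuous.comp_continuousOn hω
  unfold qE
  simp only [inner_coord]
  exact he.add ((((hωi 0).mul (hc 0)).add ((hωi 1).mul (hc 1))).add ((hωi 2).mul (hc 2)))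

lemma continuousOn_qP (h : Reg T f E B) {Y : Type*} [TopologicalSpace Y] {S : Set Y} {ω : Y → R3}
    {τ : Y → ℝ} {ξ : Y → R3 × R3} (hω : ContinuousOn ω S) (hτ : ContinuousOn τ S)
    (hξ : ContinuousOn ξ S) (hS : ∀ y ∈ S, τ y ∈ Ico 0 T) :
    ContinuousOn (fun y => qP (ω y) f (τ y) (ξ y)) S := by
  have hp : ContinuousOn (fun y => ((τ y, ξ y) : ℝ × R3 × R3)) S := hτ.prodMk hξ
  have hmaps : MapsTo (fun y => ((τ y, ξ y) : ℝ × R3 × R3)) S (Ico 0 T ×ˢ univ) :=
    fun y hy => ⟨hS y hy, mem_univ _⟩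
  have hf := h.hf.continuousOn.comp hp hmaps
  have h2 : ContinuousOn (fun y => (ξ y).2) S := continuous_snd.comp_continuousOn hξ
  unfold qP
  exact ((continuous_gam.comp_continuousOn h2).add (hω.inner h2)).mul hf

lemma aemeasurable_joint {Z : Type*} [TopologicalSpace Z] [SecondCountableTopology Z]
    [MeasurableSpace Z] [BorelSpace Z] (μ : Measure Z) [SFinite μ] {t0 : ℝ} (ht0 : t0 < T)
    {g : ℝ × Z → ℝ} (hg : ContinuousOn g (Ico 0 T ×ˢ univ)) :
    AEMeasurable (fun p => ENNReal.ofReal (g p))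
      (((volume : Measure ℝ).restrict (Ioo 0 t0)).prod μ) := by
  have h1 : ((volume : Measure ℝ).restrict (Ioo 0 t0)).prod μ
      = ((volume : Measure ℝ).prod μ).restrict (Ioo 0 t0 ×ˢ univ) := by
    rw [← Measure.prod_restrict, Measure.restrict_univ]
  rw [h1]
  have hsub : Ioo 0 t0 ×ˢ (univ : Set Z) ⊆ Ico 0 T ×ˢ univ :=
    prod_mono (fun t ht => ⟨ht.1.le, lt_trans ht.2 ht0⟩) subset_rfl
  exact ((hg.mono hsub).aemeasurable (measurableSet_Ioo.prod MeasurableSet.univ)).ennreal_ofReal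

lemma liminf_add_le_of_le {u v : ℕ → ℝ≥0∞} {C : ℝ≥0∞} (h : ∀ n, u n + v n ≤ C) :
    liminf u atTop + liminf v atTop ≤ C := by
  rw [liminf_eq_iSup_iInf_of_nat, liminf_eq_iSup_iInf_of_nat, ENNReal.iSup_add_iSup_of_monotone]
  · exact iSup_le fun n => (add_le_add (iInf₂_le n le_rfl) (iInf₂_le n le_rfl)).trans (h n)
  · intro n k hnk
    exact biInf_mono fun i hi => le_trans hnk hi
  · intro n k hnk
    exact biInf_mono fun i hi => le_trans hnk hi

/-- regularised cone flux. -/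
lemma flux_reg (h : Reg T f E B) (hf : ∀ t ∈ Ico 0 T, ∀ x v, 0 ≤ f t x v) {t0 : ℝ}
    (ht0 : t0 ∈ Ico 0 T) (x0 : R3) {m δ : ℝ} (hm : 0 < m) (hδ : 0 < δ) :
    (∫⁻ x, ∫⁻ t in Ioo 0 t0, ENNReal.ofReal (lay t0 (-1) m δ x0 t x * qE (om δ x0 x) E B t x))
      + (∫⁻ z : R3 × R3, ∫⁻ t in Ioo 0 t0,
          ENNReal.ofReal (lay t0 (-1) m δ x0 t z.1 * qP (om δ x0 z.1) f t z))
      ≤ en f E B 0 := by
  have hT : (0 : ℝ) < T := lt_of_le_of_lt ht0.1 ht0.2
  have hz : (0 : ℝ) ∈ Ico 0 T := ⟨le_rfl, hT⟩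
  have htest := cut_test (a := t0) (b := -1) hm hδ x0
  set D : ℝ → ℝ := fun t => (∫ x, lay t0 (-1) m δ x0 t x * qE (om δ x0 x) E B t x)
        + ∫ z : R3 × R3, lay t0 (-1) m δ x0 t z.1 * qP (om δ x0 z.1) f t z with hD
  have hsubT : ∀ t ∈ Ioo 0 t0, t ∈ Ioo 0 T := fun t ht => ⟨ht.1, lt_trans ht.2 ht0.2⟩
  have hder : ∀ t ∈ Ioo 0 t0,
      Integrable (fun x => lay t0 (-1) m δ x0 t x * qE (om δ x0 x) E B t x) ∧
      Integrable (fun z : R3 × R3 => lay t0 (-1) m δ x0 t z.1 * qP (om δ x0 z.1) f t z) ∧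
      HasDerivAt (fun t => - W (cut t0 (-1) m δ x0) f E B t) (D t) t := by
    intro t ht
    obtain ⟨i1, i2, h3⟩ := W_cut_deriv h (a := t0) (b := -1) (by norm_num) hm hδ x0 (hsubT t ht)
    simp only [neg_neg, one_smul] at i1 i2 h3
    refine ⟨i1, i2, ?_⟩
    have := h3.neg
    rw [neg_one_mul, neg_neg] at this
    exact this
  have n1 : ∀ t x, 0 ≤ lay t0 (-1) m δ x0 t x * qE (om δ x0 x) E B t x := fun t x =>
    mul_nonneg (lay_nonneg hm.le x0 t x) (qE_nonneg (norm_om_le hδ x0 x) E B t x)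
  have n2 : ∀ t ∈ Ioo 0 t0, ∀ z : R3 × R3,
      0 ≤ lay t0 (-1) m δ x0 t z.1 * qP (om δ x0 z.1) f t z := fun t ht z =>
    mul_nonneg (lay_nonneg hm.le x0 t z.1) (qP_nonneg (norm_om_le hδ x0 z.1)
      (hf t (Ioo_subset_Ico_self (hsubT t ht)) z.1 z.2))
  have hpos : ∀ t ∈ Ioo 0 t0, 0 ≤ D t := fun t ht =>
    add_nonneg (integral_nonneg (n1 t)) (integral_nonneg (n2 t ht))
  have hcont : ContinuousOn (fun t => - W (cut t0 (-1) m δ x0) f E B t) (Icc 0 t0) :=
    ((W_continuousOn h htest).mono fun t ht => ⟨ht.1, lt_of_le_of_lt ht.2 ht0.2⟩).neg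
  have hint : IntegrableOn D (Ioc 0 t0) :=
    intervalIntegral.integrableOn_deriv_of_nonneg hcont (fun t ht => (hder t ht).2.2) hpos
  have hftc := intervalIntegral.integral_eq_sub_of_hasDerivAt_of_le ht0.1 hcont
    (fun t ht => (hder t ht).2.2) ((intervalIntegrable_iff_integrableOn_Ioc_of_le ht0.1).2 hint)
  have hWt0 : 0 ≤ W (cut t0 (-1) m δ x0) f E B t0 := by
    unfold W
    refine add_nonneg (integral_nonneg fun x => mul_nonneg (cut_nonneg _ _ _ _ _ _ _)
      (emE_nonneg E B t0 x)) (integral_nonneg fun z => ?_)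
    exact mul_nonneg (mul_nonneg (cut_nonneg _ _ _ _ _ _ _) (gam_pos z.2).le) (hf t0 ht0 z.1 z.2)
  have hle : ∫ t in Ioo 0 t0, D t ≤ W (cut t0 (-1) m δ x0) f E B 0 := by
    rw [← integral_Ioc_eq_integral_Ioo, ← intervalIntegral.integral_of_le ht0.1, hftc]
    linarith
  have hintO : IntegrableOn D (Ioo 0 t0) := hint.mono_set Ioo_subset_Ioc_self
  have hlin : ∫⁻ t in Ioo 0 t0, ENNReal.ofReal (D t) ≤ en f E B 0 := by
    rw [← ofReal_integral_eq_lintegral_ofReal hintO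
      ((ae_restrict_iff' measurableSet_Ioo).2 (Eventually.of_forall hpos))]
    exact (ENNReal.ofReal_le_ofReal hle).trans
      (ofReal_W_le h hf htest (cut_nonneg _ _ _ _ _) (cut_le_one _ _ _ _ _) hz)
  have hsplit : ∫⁻ t in Ioo 0 t0, ENNReal.ofReal (D t)
      = ∫⁻ t in Ioo 0 t0, ((∫⁻ x, ENNReal.ofReal (lay t0 (-1) m δ x0 t x * qE (om δ x0 x) E B t x))
        + ∫⁻ z : R3 × R3, ENNReal.ofReal (lay t0 (-1) m δ x0 t z.1 * qP (om δ x0 z.1) f t z)) := by
    refine setLIntegral_congr_fun measurableSet_Ioo fun t ht => ?_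
    obtain ⟨i1, i2, -⟩ := hder t ht
    simp only [hD]
    rw [ENNReal.ofReal_add (integral_nonneg (n1 t)) (integral_nonneg (n2 t ht)),
      ofReal_integral_eq_lintegral_ofReal i1 (Eventually.of_forall (n1 t)),
      ofReal_integral_eq_lintegral_ofReal i2 (Eventually.of_forall (n2 t ht))]
  have hj1 : ContinuousOn (fun p : ℝ × R3 => lay t0 (-1) m δ x0 p.1 p.2
      * qE (om δ x0 p.2) E B p.1 p.2) (Ico 0 T ×ˢ univ) :=
    (continuousOn_lay hδ x0).continuousOn.mul (continuousOn_qE h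
      ((continuous_om hδ x0).comp continuous_snd).continuousOn continuous_fst.continuousOn
      continuous_snd.continuousOn fun y hy => hy.1)
  have hj2 : ContinuousOn (fun p : ℝ × R3 × R3 => lay t0 (-1) m δ x0 p.1 p.2.1
      * qP (om δ x0 p.2.1) f p.1 p.2) (Ico 0 T ×ˢ univ) := by
    refine ContinuousOn.mul ?_ (continuousOn_qP h
      (((continuous_om hδ x0).comp continuous_fst).comp continuous_snd).continuousOn
      continuous_fst.continuousOn continuous_snd.continuousOn fun y hy => hy.1)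
    exact ((continuousOn_lay hδ x0).comp
      (by fun_prop : Continuous fun p : ℝ × R3 × R3 => (p.1, p.2.1))).continuousOn
  have s1 := lintegral_lintegral_swap (μ := (volume : Measure ℝ).restrict (Ioo 0 t0))
    (ν := (volume : Measure R3))
    (f := fun t x => ENNReal.ofReal (lay t0 (-1) m δ x0 t x * qE (om δ x0 x) E B t x))
    (aemeasurable_joint volume ht0.2 hj1)
  have s2 := lintegral_lintegral_swap (μ := (volume : Measure ℝ).restrict (Ioo 0 t0))
    (ν := (volume : Measure (R3 × R3)))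
    (f := fun t z => ENNReal.ofReal (lay t0 (-1) m δ x0 t z.1 * qP (om δ x0 z.1) f t z))
    (aemeasurable_joint volume ht0.2 hj2)
  rw [← s1, ← s2]
  refine (le_lintegral_add _ _).trans ?_
  rw [← hsplit]
  exact hlin

/-- **Cone flux inequality.** For every backward light cone with vertex `(t0, x0)`, `0 ≤ t0 < T`,
the flux of energy through the cone is bounded by the initial energy:
`qE (om0 x0 x)` at the cone point is `(|E|²+|B|²)/2 + ω·(E×B)` and `qP (om0 x0 x)` is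
`(γ + ω·v) f`, with `ω = (x-x0)/|x-x0| = -n`. -/
theorem sol_cone_flux (h : Reg T f E B) (hf : ∀ t ∈ Ico 0 T, ∀ x v, 0 ≤ f t x v) {t0 : ℝ}
    (ht0 : t0 ∈ Ico 0 T) (x0 : R3) :
    (∫⁻ x in Metric.ball x0 t0, ENNReal.ofReal (qE (om0 x0 x) E B (t0 - ‖x - x0‖) x))
      + (∫⁻ z in Metric.ball x0 t0 ×ˢ (univ : Set R3),
          ENNReal.ofReal (qP (om0 x0 z.1) f (t0 - ‖z.1 - x0‖) z))
      ≤ en f E B 0 := by
  -- measurability of the inner integrals
  have hm1 : ∀ n, AEMeasurable (fun x => ∫⁻ t in Ioo 0 t0,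
      ENNReal.ofReal (lay t0 (-1) (mn n) (dn n) x0 t x * qE (om (dn n) x0 x) E B t x))
      (volume : Measure R3) := by
    intro n
    have hj1 : ContinuousOn (fun p : ℝ × R3 => lay t0 (-1) (mn n) (dn n) x0 p.1 p.2
      * qE (om (dn n) x0 p.2) E B p.1 p.2) (Ico 0 T ×ˢ univ) :=
      (continuousOn_lay (dn_pos n) x0).continuousOn.mul (continuousOn_qE h
      ((continuous_om (dn_pos n) x0).comp continuous_snd).continuousOn continuous_fst.continuousOn
      continuous_snd.continuousOn fun y hy => hy.1)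
    exact (aemeasurable_joint volume ht0.2 hj1).lintegral_prod_left'
  have hm2 : ∀ n, AEMeasurable (fun z : R3 × R3 => ∫⁻ t in Ioo 0 t0,
      ENNReal.ofReal (lay t0 (-1) (mn n) (dn n) x0 t z.1 * qP (om (dn n) x0 z.1) f t z))
      (volume : Measure (R3 × R3)) := by
    intro n
    have hj2 : ContinuousOn (fun p : ℝ × R3 × R3 => lay t0 (-1) (mn n) (dn n) x0 p.1 p.2.1
      * qP (om (dn n) x0 p.2.1) f p.1 p.2) (Ico 0 T ×ˢ univ) := by
      refine ContinuousOn.mul ?_ (continuousOn_qP h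
        (((continuous_om (dn_pos n) x0).comp continuous_fst).comp continuous_snd).continuousOn
        continuous_fst.continuousOn continuous_snd.continuousOn fun y hy => hy.1)
      exact ((continuousOn_lay (dn_pos n) x0).comp
        (by fun_prop : Continuous fun p : ℝ × R3 × R3 => (p.1, p.2.1))).continuousOn
    exact (aemeasurable_joint volume ht0.2 hj2).lintegral_prod_left'
  -- pointwise lower bounds
  have hp1 : ∀ x ∈ Metric.ball x0 t0, ENNReal.ofReal (qE (om0 x0 x) E B (t0 - ‖x - x0‖) x)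
      ≤ liminf (fun n => ∫⁻ t in Ioo 0 t0,
        ENNReal.ofReal (lay t0 (-1) (mn n) (dn n) x0 t x * qE (om (dn n) x0 x) E B t x)) atTop := by
    intro x hx
    rw [Metric.mem_ball, dist_eq_norm] at hx
    refine limit_bound ht0.2 x0 x hx (fun ω t => qE ω E B t x) ?_
    exact continuousOn_qE h continuous_fst.continuousOn continuous_snd.continuousOn
      continuousOn_const fun y hy => hy.2
  have hp2 : ∀ z ∈ Metric.ball x0 t0 ×ˢ (univ : Set R3),
      ENNReal.ofReal (qP (om0 x0 z.1) f (t0 - ‖z.1 - x0‖) z)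
      ≤ liminf (fun n => ∫⁻ t in Ioo 0 t0,
        ENNReal.ofReal (lay t0 (-1) (mn n) (dn n) x0 t z.1 * qP (om (dn n) x0 z.1) f t z)) atTop := by
    intro z hz
    have hx := hz.1
    rw [Metric.mem_ball, dist_eq_norm] at hx
    refine limit_bound ht0.2 x0 z.1 hx (fun ω t => qP ω f t z) ?_
    exact continuousOn_qP h continuous_fst.continuousOn continuous_snd.continuousOn
      continuousOn_const fun y hy => hy.2
  have hA : (∫⁻ x in Metric.ball x0 t0, ENNReal.ofReal (qE (om0 x0 x) E B (t0 - ‖x - x0‖) x))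
      ≤ liminf (fun n => ∫⁻ x, ∫⁻ t in Ioo 0 t0,
        ENNReal.ofReal (lay t0 (-1) (mn n) (dn n) x0 t x * qE (om (dn n) x0 x) E B t x)) atTop := by
    refine (setLIntegral_mono' Metric.isOpen_ball.measurableSet hp1).trans ?_
    refine (setLIntegral_le_lintegral _ _).trans ?_
    exact lintegral_liminf_le' hm1
  have hB : (∫⁻ z in Metric.ball x0 t0 ×ˢ (univ : Set R3),
          ENNReal.ofReal (qP (om0 x0 z.1) f (t0 - ‖z.1 - x0‖) z))
      ≤ liminf (fun n => ∫⁻ z : R3 × R3, ∫⁻ t in Ioo 0 t0,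
        ENNReal.ofReal (lay t0 (-1) (mn n) (dn n) x0 t z.1 * qP (om (dn n) x0 z.1) f t z)) atTop := by
    refine (setLIntegral_mono' (Metric.isOpen_ball.measurableSet.prod MeasurableSet.univ) hp2).trans ?_
    refine (setLIntegral_le_lintegral _ _).trans ?_
    exact lintegral_liminf_le' hm2
  refine (add_le_add hA hB).trans ?_
  exact liminf_add_le_of_le fun n => flux_reg h hf ht0 x0 (mn_pos n) (dn_pos n)

end Crest.Agent.R106.En
end

-- ▼ part R106/CostCore
section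

/-!
Row 106, module COST (analytic core), helper904.
-/

set_option autoImplicit false
open MeasureTheory Set
open scoped ENNReal
open Crest.AnalysisR.VecCalc3 Crest.AnalysisR.PDE.RVM

namespace Crest.Agent.R106.Cost

/-! ### volumes of cylinders and caps -/

/-- volume of a (solid) cylinder with unit axis `e`. -/
theorem vol_cyl (e : R3) (he : ‖e‖ = 1) (ρ r : ℝ) (hρ : 0 ≤ ρ) (hr : 0 ≤ r) :
    volume {x : R3 | |inner ℝ e x| ≤ ρ ∧ ‖x - (inner ℝ e x) • e‖ ≤ r} ≤
      ENNReal.ofReal (8 * ρ * r ^ 2) := by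
  classical
  obtain ⟨b, hb⟩ := Orthonormal.exists_orthonormalBasis_extension_of_card_eq (𝕜 := ℝ) (E := R3)
    (ι := Fin 3) (by simp) (v := fun _ => e) (s := {0}) (by
      constructor
      · intro i
        simpa using he
      · intro i j hij
        exact absurd (Subsingleton.elim i j) hij)
  have hb0 : b 0 = e := hb 0 (by simp)
  have hmp := b.measurePreserving_repr
  have hmp2 := EuclideanSpace.volume_preserving_symm_measurableEquiv_toLp (Fin 3)
  set w : Fin 3 → ℝ := ![ρ, r, r] with hw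
  have hsub : {x : R3 | |inner ℝ e x| ≤ ρ ∧ ‖x - (inner ℝ e x) • e‖ ≤ r} ⊆
      b.repr ⁻¹' ((MeasurableEquiv.toLp 2 (Fin 3 → ℝ)).symm ⁻¹'
        (Set.pi univ (fun i => Icc (-(w i)) (w i)))) := by
    intro x hx
    simp only [mem_ofPred_eq] at hx
    simp only [mem_preimage, Set.mem_pi, mem_univ, true_implies, mem_Icc]
    have hcoord : ∀ i, (MeasurableEquiv.toLp 2 (Fin 3 → ℝ)).symm (b.repr x) i = inner ℝ (b i) x := by
      intro i
      rw [← b.repr_apply_apply]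
      rfl
    have horth : ∀ i, i ≠ 0 → |inner ℝ (b i) x| ≤ r := by
      intro i hi
      have h1 : inner ℝ (b i) x = inner ℝ (b i) (x - (inner ℝ e x) • e) := by
        rw [inner_sub_right, inner_smul_right, ← hb0, b.orthonormal.2 hi]
        simp
      rw [h1]
      calc |inner ℝ (b i) (x - (inner ℝ e x) • e)| ≤ ‖b i‖ * ‖x - (inner ℝ e x) • e‖ :=
            abs_real_inner_le_norm _ _
        _ = ‖x - (inner ℝ e x) • e‖ := by rw [b.orthonormal.1 i, one_mul]
        _ ≤ r := hx.2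
    intro i
    rw [hcoord i]
    fin_cases i
    · simp only [hw, Fin.zero_eta, Matrix.cons_val_zero]
      rw [hb0]
      exact abs_le.1 hx.1
    · exact abs_le.1 (horth 1 (by decide))
    · exact abs_le.1 (horth 2 (by decide))
  have hmeas : MeasurableSet (Set.pi univ (fun i : Fin 3 => Icc (-(w i)) (w i))) :=
    MeasurableSet.univ_pi (fun i => measurableSet_Icc)
  calc volume {x : R3 | |inner ℝ e x| ≤ ρ ∧ ‖x - (inner ℝ e x) • e‖ ≤ r}
      ≤ volume (b.repr ⁻¹' ((MeasurableEquiv.toLp 2 (Fin 3 → ℝ)).symm ⁻¹'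
        (Set.pi univ (fun i => Icc (-(w i)) (w i))))) := measure_mono hsub
    _ = volume ((MeasurableEquiv.toLp 2 (Fin 3 → ℝ)).symm ⁻¹'
        (Set.pi univ (fun i => Icc (-(w i)) (w i)))) := by
        apply hmp.measure_preimage
        exact ((MeasurableEquiv.measurable _) hmeas).nullMeasurableSet
    _ = volume (Set.pi univ (fun i => Icc (-(w i)) (w i))) := by
        apply hmp2.measure_preimage
        exact hmeas.nullMeasurableSet
    _ = ∏ i, volume (Icc (-(w i)) (w i)) := volume_pi_pi _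
    _ = ENNReal.ofReal (8 * ρ * r ^ 2) := by
        simp only [Real.volume_Icc, Fin.prod_univ_three]
        simp only [hw, Matrix.cons_val_zero, Matrix.cons_val_one, Matrix.cons_val]
        rw [← ENNReal.ofReal_mul (by linarith), ← ENNReal.ofReal_mul (by nlinarith)]
        congr 1
        ring
    _ ≤ _ := le_rfl

/-- A set contained in `{‖x‖ ≤ ρ, |x_perp|² ≤ 2a|x|²}` (with respect to the axis `e`). -/
theorem vol_of_perp (e : R3) (he : ‖e‖ = 1) (ρ a : ℝ) (hρ : 0 ≤ ρ) (ha : 0 ≤ a) :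
    volume {x : R3 | ‖x‖ ≤ ρ ∧ ‖x‖ ^ 2 - (inner ℝ e x) ^ 2 ≤ 2 * a * ‖x‖ ^ 2} ≤
      ENNReal.ofReal (16 * a * ρ ^ 3) := by
  refine (measure_mono ?_).trans ((vol_cyl e he ρ (ρ * Real.sqrt (2 * a)) hρ
    (mul_nonneg hρ (Real.sqrt_nonneg _))).trans (le_of_eq ?_))
  · intro x hx
    simp only [mem_ofPred_eq] at hx ⊢
    obtain ⟨h1, h2⟩ := hx
    constructor
    · calc |inner ℝ e x| ≤ ‖e‖ * ‖x‖ := abs_real_inner_le_norm _ _
        _ ≤ ρ := by rw [he, one_mul]; exact h1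
    · have h3 : ‖x - (inner ℝ e x) • e‖ ^ 2 = ‖x‖ ^ 2 - (inner ℝ e x) ^ 2 := by
        rw [@norm_sub_sq_real, inner_smul_right, norm_smul, he, real_inner_comm e x,
          Real.norm_eq_abs, mul_one, sq_abs]
        ring
      have h4 : ‖x - (inner ℝ e x) • e‖ ^ 2 ≤ (ρ * Real.sqrt (2 * a)) ^ 2 := by
        rw [h3, mul_pow, Real.sq_sqrt (by linarith)]
        calc ‖x‖ ^ 2 - (inner ℝ e x) ^ 2 ≤ 2 * a * ‖x‖ ^ 2 := h2
          _ ≤ 2 * a * ρ ^ 2 := by
            apply mul_le_mul_of_nonneg_left _ (by linarith)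
            exact pow_le_pow_left₀ (norm_nonneg _) h1 2
          _ = ρ ^ 2 * (2 * a) := by ring
      exact le_of_sq_le_sq h4 (mul_nonneg hρ (Real.sqrt_nonneg _))
  · congr 1
    rw [mul_pow, Real.sq_sqrt (by linarith)]
    ring

/-- elementary: `|e| ≤ 1`, `w = c x`, `c|x| ≤ 1`, `1 - e·w ≤ a` forces `|x_perp|² ≤ 2a|x|²`
for the unit axis `e/|e|` (any unit axis if `e = 0`). -/
theorem perp_of_cap (e x : R3) (he : ‖e‖ ≤ 1) (he0 : e ≠ 0) (c a : ℝ) (hc : 0 ≤ c)
    (hcx : c * ‖x‖ ≤ 1) (ha : 1 - inner ℝ e (c • x) ≤ a) :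
    ‖x‖ ^ 2 - (inner ℝ (‖e‖⁻¹ • e) x) ^ 2 ≤ 2 * a * ‖x‖ ^ 2 := by
  have hen : 0 < ‖e‖ := norm_pos_iff.2 he0
  rw [inner_smul_left, inner_smul_right] at *
  simp only [conj_trivial] at *
  set t : ℝ := inner ℝ e x with ht
  have htx : |t| ≤ ‖e‖ * ‖x‖ := abs_real_inner_le_norm _ _
  have hx0 : 0 ≤ ‖x‖ := norm_nonneg _
  by_cases ha2 : 1 / 2 ≤ a
  · nlinarith [sq_nonneg (‖e‖⁻¹ * t), sq_nonneg ‖x‖]
  · push Not at ha2
    have h1 : 1 - a ≤ c * t := by linarith
    have h2 : 0 < c * t := by linarith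
    have ht0 : 0 < t := by
      by_contra hcon
      push Not at hcon
      have := mul_nonpos_of_nonneg_of_nonpos hc hcon
      linarith
    -- |x| (1-a) ≤ |x| c t ≤ t
    have h3 : ‖x‖ * (1 - a) ≤ t := by
      calc ‖x‖ * (1 - a) ≤ ‖x‖ * (c * t) := mul_le_mul_of_nonneg_left h1 hx0
        _ = (c * ‖x‖) * t := by ring
        _ ≤ 1 * t := mul_le_mul_of_nonneg_right hcx ht0.le
        _ = t := one_mul t
    have h4 : t ≤ ‖e‖⁻¹ * t := by
      have : 1 ≤ ‖e‖⁻¹ := (one_le_inv₀ hen).2 he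
      nlinarith
    have h5 : 0 ≤ ‖x‖ * (1 - a) := mul_nonneg hx0 (by linarith)
    have h6 : (‖x‖ * (1 - a)) ^ 2 ≤ (‖e‖⁻¹ * t) ^ 2 := pow_le_pow_left₀ h5 (h3.trans h4) 2
    nlinarith [sq_nonneg (a * ‖x‖), h6]

/-- cap volume in position space: `y` at distance `≤ ρ` from `X`, `1 - n·V ≤ a`,
`n = (X-y)/|X-y|`. -/
theorem vol_cone (X V : R3) (hV : ‖V‖ ≤ 1) (ρ a : ℝ) (hρ : 0 ≤ ρ) (ha : 0 ≤ a) :
    volume {y : R3 | ‖X - y‖ ≤ ρ ∧ 1 - inner ℝ (‖X - y‖⁻¹ • (X - y)) V ≤ a} ≤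
      ENNReal.ofReal (16 * a * ρ ^ 3) := by
  obtain ⟨e0, he0⟩ : ∃ e0 : R3, ‖e0‖ = 1 := ⟨EuclideanSpace.single 0 1, by simp⟩
  have key : ∃ e : R3, ‖e‖ = 1 ∧ ∀ x : R3, 1 - inner ℝ (‖x‖⁻¹ • x) V ≤ a →
      ‖x‖ ^ 2 - (inner ℝ e x) ^ 2 ≤ 2 * a * ‖x‖ ^ 2 := by
    by_cases hV0 : V = 0
    · refine ⟨e0, he0, fun x hx => ?_⟩
      rw [hV0, inner_zero_right, sub_zero] at hx
      nlinarith [sq_nonneg (inner ℝ e0 x), sq_nonneg ‖x‖]
    · refine ⟨‖V‖⁻¹ • V, ?_, fun x hx => ?_⟩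
      · rw [norm_smul, norm_inv, norm_norm, inv_mul_cancel₀ (norm_ne_zero_iff.2 hV0)]
      · apply perp_of_cap V x hV hV0 ‖x‖⁻¹ a (inv_nonneg.2 (norm_nonneg _))
        · by_cases hx0 : ‖x‖ = 0
          · simp [hx0]
          · rw [inv_mul_cancel₀ hx0]
        · rw [real_inner_comm]; exact hx
  obtain ⟨e, he, hkey⟩ := key
  have himg : {y : R3 | ‖X - y‖ ≤ ρ ∧ 1 - inner ℝ (‖X - y‖⁻¹ • (X - y)) V ≤ a} ⊆
      (fun y => X - y) ⁻¹' {x : R3 | ‖x‖ ≤ ρ ∧ ‖x‖ ^ 2 - (inner ℝ e x) ^ 2 ≤ 2 * a * ‖x‖ ^ 2} := by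
    intro y hy
    exact ⟨hy.1, hkey _ hy.2⟩
  refine (measure_mono himg).trans ?_
  have hmp : MeasurePreserving (fun y : R3 => X - y) volume volume :=
    Measure.measurePreserving_sub_left volume X
  have hms : MeasurableSet {x : R3 | ‖x‖ ≤ ρ ∧ ‖x‖ ^ 2 - (inner ℝ e x) ^ 2 ≤ 2 * a * ‖x‖ ^ 2} := by
    have h1 : MeasurableSet {x : R3 | ‖x‖ ≤ ρ} := measurableSet_le measurable_norm measurable_const
    have h2 : MeasurableSet {x : R3 | ‖x‖ ^ 2 - (inner ℝ e x) ^ 2 ≤ 2 * a * ‖x‖ ^ 2} := by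
      apply measurableSet_le
      · exact ((measurable_norm.pow_const 2).sub ((measurable_const.inner measurable_id).pow_const 2))
      · exact (measurable_norm.pow_const 2).const_mul _
    exact h1.inter h2
  rw [hmp.measure_preimage hms.nullMeasurableSet]
  exact vol_of_perp e he ρ a hρ ha

/-- cap volume in momentum space: `|p| ≤ ρ`, `1 - e·u(p) ≤ a` where `u(p) = p/√(1+|p|²)` and `|e| ≤ 1`
(`e` may be the unit vector `n` or the velocity `V` of the test). -/
theorem vol_momcap (e : R3) (he : ‖e‖ ≤ 1) (ρ a : ℝ) (hρ : 0 ≤ ρ) (ha : 0 ≤ a) :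
    volume {p : R3 | ‖p‖ ≤ ρ ∧ 1 - inner ℝ e (relVel p) ≤ a} ≤ ENNReal.ofReal (16 * a * ρ ^ 3) := by
  obtain ⟨e0, he0⟩ : ∃ e0 : R3, ‖e0‖ = 1 := ⟨EuclideanSpace.single 0 1, by simp⟩
  have key : ∃ e' : R3, ‖e'‖ = 1 ∧ ∀ x : R3, 1 - inner ℝ e (relVel x) ≤ a →
      ‖x‖ ^ 2 - (inner ℝ e' x) ^ 2 ≤ 2 * a * ‖x‖ ^ 2 := by
    by_cases hV0 : e = 0
    · refine ⟨e0, he0, fun x hx => ?_⟩
      rw [hV0, inner_zero_left, sub_zero] at hx
      nlinarith [sq_nonneg (inner ℝ e0 x), sq_nonneg ‖x‖]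
    · refine ⟨‖e‖⁻¹ • e, ?_, fun x hx => ?_⟩
      · rw [norm_smul, norm_inv, norm_norm, inv_mul_cancel₀ (norm_ne_zero_iff.2 hV0)]
      · apply perp_of_cap e x he hV0 (Real.sqrt (1 + ‖x‖ ^ 2))⁻¹ a
          (inv_nonneg.2 (Real.sqrt_nonneg _))
        · rw [inv_mul_le_iff₀ (Real.sqrt_pos.2 (by positivity)), mul_one]
          exact Real.le_sqrt_of_sq_le (by linarith)
        · exact hx
  obtain ⟨e', he', hkey⟩ := key
  refine (measure_mono ?_).trans (vol_of_perp e' he' ρ a hρ ha)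
  intro p hp
  exact ⟨hp.1, hkey _ hp.2⟩

/-- fibre bound: `∫ f 1_Ω dp ≤ F₀ · 16 a ρ³`. -/
theorem fibre_bound (φ : R3 → ℝ≥0∞) (F₀ : ℝ≥0∞) (hφ : ∀ p, φ p ≤ F₀)
    (e : R3) (he : ‖e‖ ≤ 1) (ρ a : ℝ) (hρ : 0 ≤ ρ) (ha : 0 ≤ a) (S : Set R3)
    (hS : S ⊆ {p : R3 | ‖p‖ ≤ ρ ∧ 1 - inner ℝ e (relVel p) ≤ a}) :
    ∫⁻ p in S, φ p ≤ F₀ * ENNReal.ofReal (16 * a * ρ ^ 3) := by
  calc ∫⁻ p in S, φ p ≤ ∫⁻ p in S, F₀ := lintegral_mono hφ
    _ = F₀ * volume S := by rw [lintegral_const, Measure.restrict_apply_univ]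
    _ ≤ F₀ * ENNReal.ofReal (16 * a * ρ ^ 3) := by
      gcongr
      exact (measure_mono hS).trans (vol_momcap e he ρ a hρ ha)

end Crest.Agent.R106.Cost
end

-- ▼ part R106/CostCV
section

/-!
Row 106, module COST (change of variables `(s,y) ↦ (τ,y)`, `dτ = δ ds`), helper904.
-/

set_option autoImplicit false
open MeasureTheory Set
open scoped ENNReal
open Crest.AnalysisR.VecCalc3

namespace Crest.Agent.R106.Cost

variable {X V : ℝ → R3} {J : Set ℝ}

/-- derivative of the retarded time `θ(s) = s - |X(s) - y|` for fixed `y`. -/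
theorem hasDerivWithinAt_ret {s : ℝ} {y : R3} {S : Set ℝ}
    (hX : HasDerivWithinAt X (V s) S s) (hne : X s ≠ y) :
    HasDerivWithinAt (fun s => s - ‖X s - y‖)
      (1 - inner ℝ (‖X s - y‖⁻¹ • (X s - y)) (V s)) S s := by
  have h1 : HasDerivWithinAt (fun s => X s - y) (V s) S s := hX.sub_const y
  have h2 := h1.norm_sq
  have hpos : 0 < ‖X s - y‖ := norm_pos_iff.2 (sub_ne_zero.2 hne)
  have h3 := h2.sqrt (by positivity)
  have h4 : (fun s => Real.sqrt (‖X s - y‖ ^ 2)) = fun s => ‖X s - y‖ := by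
    funext s
    exact Real.sqrt_sq (norm_nonneg _)
  rw [h4] at h3
  have h5 := (hasDerivWithinAt_id s S).sub h3
  refine h5.congr_deriv ?_
  rw [Real.sqrt_sq (norm_nonneg _), real_inner_smul_left]
  field_simp

/-- `θ` is strictly increasing when `X` is strictly 1-Lipschitz on `J`. -/
theorem ret_strictMono {y : R3}
    (hlip : ∀ s ∈ J, ∀ t ∈ J, s < t → ‖X t - X s‖ < t - s) {s t : ℝ} (hs : s ∈ J) (ht : t ∈ J)
    (hst : s < t) : s - ‖X s - y‖ < t - ‖X t - y‖ := by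
  have h1 := hlip s hs t ht hst
  have h2 : ‖X t - y‖ ≤ ‖X t - X s‖ + ‖X s - y‖ := by
    calc ‖X t - y‖ = ‖(X t - X s) + (X s - y)‖ := by congr 1; abel
      _ ≤ _ := norm_add_le _ _
  linarith

/-- one-dimensional change of variables `s ↦ τ = s - |X(s)-y|` for fixed `y`: `ds ≤ dτ/d₁` where `δ ≥ d₁`. -/
theorem cv_one {y : R3}
    (hX : ∀ s ∈ J, HasDerivWithinAt X (V s) J s)
    (hlip : ∀ s ∈ J, ∀ t ∈ J, s < t → ‖X t - X s‖ < t - s)
    (S : Set ℝ) (hS : MeasurableSet S) (hSJ : S ⊆ J) (d₁ : ℝ) (hd₁ : 0 < d₁)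
    (hne : ∀ s ∈ S, X s ≠ y)
    (hd : ∀ s ∈ S, d₁ ≤ 1 - inner ℝ (‖X s - y‖⁻¹ • (X s - y)) (V s))
    (T : Set ℝ) (hT : ∀ s ∈ S, s - ‖X s - y‖ ∈ T) (g : ℝ → ℝ≥0∞) :
    ∫⁻ s in S, g (s - ‖X s - y‖) ≤ ENNReal.ofReal (1 / d₁) * ∫⁻ τ in T, g τ := by
  have hinj : InjOn (fun s => s - ‖X s - y‖) S := by
    intro a ha b hb hab
    simp only at hab
    rcases lt_trichotomy a b with h | h | h
    · exact absurd hab (ret_strictMono hlip (hSJ ha) (hSJ hb) h).ne
    · exact h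
    · exact absurd hab (ret_strictMono hlip (hSJ hb) (hSJ ha) h).ne'
  have hder : ∀ s ∈ S, HasDerivWithinAt (fun s => s - ‖X s - y‖)
      (1 - inner ℝ (‖X s - y‖⁻¹ • (X s - y)) (V s)) S s := fun s hs =>
    (hasDerivWithinAt_ret (hX s (hSJ hs)) (hne s hs)).mono hSJ
  have h1 := lintegral_image_eq_lintegral_abs_deriv_mul hS hder hinj g
  have h2 : ∫⁻ s in S, g (s - ‖X s - y‖) ≤ ENNReal.ofReal (1 / d₁) *
      ∫⁻ s in S, ENNReal.ofReal |1 - inner ℝ (‖X s - y‖⁻¹ • (X s - y)) (V s)| *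
        g (s - ‖X s - y‖) := by
    rw [← lintegral_const_mul' _ _ ENNReal.ofReal_ne_top]
    refine setLIntegral_mono' hS (fun s hs => ?_)
    rw [← mul_assoc, ← ENNReal.ofReal_mul (by positivity)]
    have h3 : 1 ≤ 1 / d₁ * |1 - inner ℝ (‖X s - y‖⁻¹ • (X s - y)) (V s)| := by
      have h4 := hd s hs
      rw [one_div, ← div_eq_inv_mul, le_div_iff₀ hd₁, one_mul]
      exact h4.trans (le_abs_self _)
    calc g (s - ‖X s - y‖) = 1 * g (s - ‖X s - y‖) := (one_mul _).symm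
      _ ≤ _ := by
        gcongr
        rw [← ENNReal.ofReal_one]
        exact ENNReal.ofReal_le_ofReal h3
  refine h2.trans ?_
  rw [← h1]
  gcongr
  rintro τ ⟨s, hs, rfl⟩
  exact hT s hs

/-- space-time change of variables `(s,y) ↦ (τ,y)`, integrated over `y`. -/
theorem cv_two
    (hXm : Measurable X)
    (hX : ∀ s ∈ J, HasDerivWithinAt X (V s) J s)
    (hlip : ∀ s ∈ J, ∀ t ∈ J, s < t → ‖X t - X s‖ < t - s)
    (S : Set (ℝ × R3)) (hS : MeasurableSet S) (hSJ : ∀ z ∈ S, z.1 ∈ J) (d₁ : ℝ) (hd₁ : 0 < d₁)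
    (hne : ∀ z ∈ S, X z.1 ≠ z.2)
    (hd : ∀ z ∈ S, d₁ ≤ 1 - inner ℝ (‖X z.1 - z.2‖⁻¹ • (X z.1 - z.2)) (V z.1))
    (T : Set ℝ) (hT : ∀ z ∈ S, z.1 - ‖X z.1 - z.2‖ ∈ T)
    (g : ℝ × R3 → ℝ≥0∞) (hg : Measurable g) :
    ∫⁻ z in S, g (z.1 - ‖X z.1 - z.2‖, z.2) ≤
      ENNReal.ofReal (1 / d₁) * ∫⁻ τ in T, ∫⁻ y, g (τ, y) := by
  have hmeas : Measurable (fun z : ℝ × R3 => g (z.1 - ‖X z.1 - z.2‖, z.2)) := by
    apply hg.comp
    apply Measurable.prodMk _ measurable_snd
    exact measurable_fst.sub (((hXm.comp measurable_fst).sub measurable_snd).norm)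
  rw [← lintegral_indicator hS]
  have h1 : ∫⁻ z : ℝ × R3, S.indicator (fun z => g (z.1 - ‖X z.1 - z.2‖, z.2)) z =
      ∫⁻ y : R3, ∫⁻ s : ℝ, S.indicator (fun z => g (z.1 - ‖X z.1 - z.2‖, z.2)) (s, y) := by
    rw [Measure.volume_eq_prod]
    exact lintegral_prod_symm _ (hmeas.indicator hS).aemeasurable
  rw [h1]
  have h2 : ∀ y : R3, ∫⁻ s : ℝ, S.indicator (fun z => g (z.1 - ‖X z.1 - z.2‖, z.2)) (s, y) ≤
      ENNReal.ofReal (1 / d₁) * ∫⁻ τ in T, g (τ, y) := by
    intro y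
    have hpm : Measurable (fun s : ℝ => (s, y)) := measurable_id.prodMk measurable_const
    have hSy : MeasurableSet {s : ℝ | (s, y) ∈ S} := hpm hS
    have h3 : (fun s : ℝ => S.indicator (fun z => g (z.1 - ‖X z.1 - z.2‖, z.2)) (s, y)) =
        {s : ℝ | (s, y) ∈ S}.indicator (fun s => g (s - ‖X s - y‖, y)) := by
      funext s
      by_cases hs : (s, y) ∈ S
      · rw [indicator_of_mem hs, indicator_of_mem (by exact hs)]
      · rw [indicator_of_notMem hs, indicator_of_notMem (by exact hs)]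
    rw [h3, lintegral_indicator hSy]
    have e1 : {s : ℝ | (s, y) ∈ S} ⊆ J := fun s hs => hSJ (s, y) hs
    have e2 : ∀ s ∈ {s : ℝ | (s, y) ∈ S}, X s ≠ y := fun s hs => hne (s, y) hs
    have e3 : ∀ s ∈ {s : ℝ | (s, y) ∈ S},
        d₁ ≤ 1 - inner ℝ (‖X s - y‖⁻¹ • (X s - y)) (V s) := fun s hs => hd (s, y) hs
    have e4 : ∀ s ∈ {s : ℝ | (s, y) ∈ S}, s - ‖X s - y‖ ∈ T := fun s hs => hT (s, y) hs
    exact cv_one hX hlip {s : ℝ | (s, y) ∈ S} hSy e1 d₁ hd₁ e2 e3 T e4 (fun τ => g (τ, y))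
  calc ∫⁻ y : R3, ∫⁻ s : ℝ, S.indicator (fun z => g (z.1 - ‖X z.1 - z.2‖, z.2)) (s, y)
      ≤ ∫⁻ y : R3, ENNReal.ofReal (1 / d₁) * ∫⁻ τ in T, g (τ, y) := lintegral_mono h2
    _ = ENNReal.ofReal (1 / d₁) * ∫⁻ y : R3, ∫⁻ τ in T, g (τ, y) :=
        lintegral_const_mul' _ _ ENNReal.ofReal_ne_top
    _ = ENNReal.ofReal (1 / d₁) * ∫⁻ τ in T, ∫⁻ y, g (τ, y) := by
        have hsw := lintegral_lintegral_swap (μ := (volume : Measure R3))
          (ν := (volume : Measure ℝ).restrict T) (f := fun (y : R3) (τ : ℝ) => g (τ, y))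
          (hg.comp (measurable_snd.prodMk measurable_fst)).aemeasurable
        rw [hsw]

end Crest.Agent.R106.Cost
end

-- ▼ part R106/CostShell
section

/-!
Row 106, module COST: the analytic core for one dyadic shell (phase-space form), helper904.

`g τ y p` is the density of the sources (`ENNReal.ofReal (f τ y p)` for `0 < τ`, and `0` for `τ ≤ 0`),
`X` the test curve with velocity `V`, the retarded time is `τ = s - |X(s) - y|`.
-/

set_option autoImplicit false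
open MeasureTheory Set
open scoped ENNReal
open Crest.AnalysisR.VecCalc3 Crest.AnalysisR.PDE.RVM
open Crest.Agent.R106.GSR (gam)

noncomputable section

namespace Crest.Agent.R106.Cost

/-- unit vector from the source point `y` to the test point `X(s)`. -/
def nn (X : ℝ → R3) (s : ℝ) (y : R3) : R3 := ‖X s - y‖⁻¹ • (X s - y)

/-- retarded time. -/
def ret (X : ℝ → R3) (s : ℝ) (y : R3) : ℝ := s - ‖X s - y‖

/-- `δ = 1 - n·V`. -/
def dlt (X V : ℝ → R3) (s : ℝ) (y : R3) : ℝ := 1 - inner ℝ (nn X s y) (V s)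

/-- `ε = 1 - n·v`. -/
def ept (X : ℝ → R3) (s : ℝ) (y p : R3) : ℝ := 1 - inner ℝ (nn X s y) (relVel p)

/-- `D = 1 - V·v`. -/
def Dt (V : ℝ → R3) (s : ℝ) (p : R3) : ℝ := 1 - inner ℝ (V s) (relVel p)

/-- the `(s,y)`-part of a shell. -/
def shellY (X V : ℝ → R3) (R1 d1 : ℝ) : Set (ℝ × R3) :=
  {z | (R1 ≤ ‖X z.1 - z.2‖ ∧ ‖X z.1 - z.2‖ < 2 * R1) ∧
    (d1 ≤ dlt X V z.1 z.2 ∧ dlt X V z.1 z.2 < 2 * d1)}

/-- a shell in `(s,y,p)`-space. -/
def shell (X V : ℝ → R3) (R1 d1 e1 D1 Q : ℝ) : Set (ℝ × R3 × R3) :=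
  {w | (w.1, w.2.1) ∈ shellY X V R1 d1 ∧
    (e1 ≤ ept X w.1 w.2.1 w.2.2 ∧ ept X w.1 w.2.1 w.2.2 < 2 * e1) ∧
    (D1 ≤ Dt V w.1 w.2.2 ∧ Dt V w.1 w.2.2 < 2 * D1) ∧
    (Q ≤ gam w.2.2 ∧ gam w.2.2 < 2 * Q)}

theorem norm_nn_le (X : ℝ → R3) (s : ℝ) (y : R3) : ‖nn X s y‖ ≤ 1 := by
  unfold nn
  rw [norm_smul, norm_inv, norm_norm]
  by_cases h : ‖X s - y‖ = 0
  · simp [h]
  · rw [inv_mul_cancel₀ h]

theorem relVel_measurable : Measurable relVel := by
  unfold relVel
  exact ((Real.continuous_sqrt.measurable.comp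
    (measurable_const.add (measurable_norm.pow_const 2))).inv).smul measurable_id

theorem gam_measurable : Measurable gam := by
  unfold gam
  exact Real.continuous_sqrt.measurable.comp (measurable_const.add (measurable_norm.pow_const 2))

section meas
variable {X V : ℝ → R3} (hX : Measurable X) (hV : Measurable V)
include hX

theorem nn_measurable : Measurable (fun z : ℝ × R3 => nn X z.1 z.2) := by
  unfold nn
  have h1 : Measurable (fun z : ℝ × R3 => X z.1 - z.2) :=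
    (hX.comp measurable_fst).sub measurable_snd
  exact (h1.norm.inv).smul h1

theorem ret_measurable : Measurable (fun z : ℝ × R3 => ret X z.1 z.2) := by
  unfold ret
  exact measurable_fst.sub (((hX.comp measurable_fst).sub measurable_snd).norm)

theorem rr_measurable : Measurable (fun z : ℝ × R3 => ‖X z.1 - z.2‖) :=
  ((hX.comp measurable_fst).sub measurable_snd).norm

theorem ept_measurable : Measurable (fun w : ℝ × R3 × R3 => ept X w.1 w.2.1 w.2.2) := by
  unfold ept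
  have hp : Measurable (fun w : ℝ × R3 × R3 => ((w.1, w.2.1) : ℝ × R3)) :=
    measurable_fst.prodMk (measurable_fst.comp measurable_snd)
  have h1 : Measurable (fun w : ℝ × R3 × R3 => nn X w.1 w.2.1) := by
    have h0 := (nn_measurable hX).comp hp
    exact h0
  have hq : Measurable (fun w : ℝ × R3 × R3 => w.2.2) := measurable_snd.comp measurable_snd
  have h2 : Measurable (fun w : ℝ × R3 × R3 => relVel w.2.2) := relVel_measurable.comp hq
  have h3 : Measurable (fun w : ℝ × R3 × R3 => inner ℝ (nn X w.1 w.2.1) (relVel w.2.2)) := by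
    exact Measurable.inner h1 h2
  exact Measurable.sub measurable_const h3

include hV

theorem dlt_measurable : Measurable (fun z : ℝ × R3 => dlt X V z.1 z.2) := by
  unfold dlt
  exact measurable_const.sub ((nn_measurable hX).inner (hV.comp measurable_fst))

omit hX in
theorem Dt_measurable : Measurable (fun w : ℝ × R3 × R3 => Dt V w.1 w.2.2) := by
  unfold Dt
  exact measurable_const.sub ((hV.comp measurable_fst).inner (relVel_measurable.comp
    (measurable_snd.comp measurable_snd)))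

theorem shellY_measurableSet (R1 d1 : ℝ) : MeasurableSet (shellY X V R1 d1) := by
  have h1 := rr_measurable hX
  have h2 := dlt_measurable hX hV
  have e : shellY X V R1 d1 = ({z : ℝ × R3 | R1 ≤ ‖X z.1 - z.2‖} ∩
      {z : ℝ × R3 | ‖X z.1 - z.2‖ < 2 * R1}) ∩ ({z : ℝ × R3 | d1 ≤ dlt X V z.1 z.2} ∩
      {z : ℝ × R3 | dlt X V z.1 z.2 < 2 * d1}) := rfl
  rw [e]
  exact ((measurableSet_le measurable_const h1).inter (measurableSet_lt h1 measurable_const)).inter
    ((measurableSet_le measurable_const h2).inter (measurableSet_lt h2 measurable_const))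

theorem shell_measurableSet (R1 d1 e1 D1 Q : ℝ) : MeasurableSet (shell X V R1 d1 e1 D1 Q) := by
  have h1 := shellY_measurableSet hX hV R1 d1
  have hp : Measurable (fun w : ℝ × R3 × R3 => (w.1, w.2.1)) :=
    measurable_fst.prodMk (measurable_fst.comp measurable_snd)
  have h2 := ept_measurable hX
  have h3 := Dt_measurable hV
  have h4 : Measurable (fun w : ℝ × R3 × R3 => gam w.2.2) :=
    gam_measurable.comp (measurable_snd.comp measurable_snd)
  have e : shell X V R1 d1 e1 D1 Q = ((fun w : ℝ × R3 × R3 => (w.1, w.2.1)) ⁻¹' shellY X V R1 d1) ∩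
      (({w : ℝ × R3 × R3 | e1 ≤ ept X w.1 w.2.1 w.2.2} ∩
        {w : ℝ × R3 × R3 | ept X w.1 w.2.1 w.2.2 < 2 * e1}) ∩
      (({w : ℝ × R3 × R3 | D1 ≤ Dt V w.1 w.2.2} ∩ {w : ℝ × R3 × R3 | Dt V w.1 w.2.2 < 2 * D1}) ∩
      ({w : ℝ × R3 × R3 | Q ≤ gam w.2.2} ∩ {w : ℝ × R3 × R3 | gam w.2.2 < 2 * Q}))) := rfl
  rw [e]
  exact (hp h1).inter (((measurableSet_le measurable_const h2).inter
    (measurableSet_lt h2 measurable_const)).inter
    (((measurableSet_le measurable_const h3).inter (measurableSet_lt h3 measurable_const)).inter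
    ((measurableSet_le measurable_const h4).inter (measurableSet_lt h4 measurable_const))))

end meas

/-- the density on the backward cones: `G(s,y,p) = g(s - |X(s)-y|, y, p)`. -/
def cden (X : ℝ → R3) (g : ℝ → R3 → R3 → ℝ≥0∞) (w : ℝ × R3 × R3) : ℝ≥0∞ :=
  g (ret X w.1 w.2.1) w.2.1 w.2.2

/-- density times indicator of a set of pairs. -/
def sden (X : ℝ → R3) (g : ℝ → R3 → R3 → ℝ≥0∞) (Om : Set (ℝ × R3 × R3)) (s : ℝ) (y p : R3) : ℝ≥0∞ :=
  Om.indicator (cden X g) (s, y, p)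

/-- `μ_s(Ω)`. -/
def mus (X : ℝ → R3) (g : ℝ → R3 → R3 → ℝ≥0∞) (Om : Set (ℝ × R3 × R3)) (s : ℝ) : ℝ≥0∞ :=
  ∫⁻ y, ∫⁻ p, sden X g Om s y p

/-- `μ(Ω) = ∫_J μ_s(Ω) ds`. -/
def mu (X : ℝ → R3) (g : ℝ → R3 → R3 → ℝ≥0∞) (J : Set ℝ) (Om : Set (ℝ × R3 × R3)) : ℝ≥0∞ :=
  ∫⁻ s in J, mus X g Om s

variable {X V : ℝ → R3} {g : ℝ → R3 → R3 → ℝ≥0∞}

theorem cden_measurable (hX : Measurable X)
    (hg : Measurable (fun w : ℝ × R3 × R3 => g w.1 w.2.1 w.2.2)) :
    Measurable (cden X g) := by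
  have h1 : Measurable (fun w : ℝ × R3 × R3 => ((ret X w.1 w.2.1, w.2.1, w.2.2) : ℝ × R3 × R3)) := by
    refine Measurable.prodMk ?_ ?_
    · exact (ret_measurable hX).comp (measurable_fst.prodMk (measurable_fst.comp measurable_snd))
    · exact (measurable_fst.comp measurable_snd).prodMk (measurable_snd.comp measurable_snd)
  exact hg.comp h1

theorem sden_measurable (hX : Measurable X)
    (hg : Measurable (fun w : ℝ × R3 × R3 => g w.1 w.2.1 w.2.2)) {Om : Set (ℝ × R3 × R3)}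
    (hOm : MeasurableSet Om) :
    Measurable (fun w : ℝ × R3 × R3 => sden X g Om w.1 w.2.1 w.2.2) :=
  (cden_measurable hX hg).indicator hOm

/-- fibre bound `∫ f 1_Ω dp ≤ 256 F₀ Q³ min(ε,D)`. -/
theorem fibre_shell (F₀ : ℝ≥0∞) (hg0 : ∀ τ y p, g τ y p ≤ F₀) (hV1 : ∀ s, ‖V s‖ ≤ 1)
    {R1 d1 e1 D1 Q : ℝ} (he1 : 0 ≤ e1) (hD1 : 0 ≤ D1) (hQ : 0 ≤ Q) (s : ℝ) (y : R3) :
    ∫⁻ p, sden X g (shell X V R1 d1 e1 D1 Q) s y p ≤
      F₀ * ENNReal.ofReal (256 * Q ^ 3 * min e1 D1) := by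
  -- each of the two caps
  have key : ∀ (e : R3) (a : ℝ), ‖e‖ ≤ 1 → 0 ≤ a →
      (∀ p, (s, y, p) ∈ shell X V R1 d1 e1 D1 Q → 1 - inner ℝ e (relVel p) ≤ 2 * a) →
      ∫⁻ p, sden X g (shell X V R1 d1 e1 D1 Q) s y p ≤
        F₀ * ENNReal.ofReal (256 * Q ^ 3 * a) := by
    intro e a he ha hsub
    have h1 : ∀ p, sden X g (shell X V R1 d1 e1 D1 Q) s y p ≤
        {p : R3 | ‖p‖ ≤ 2 * Q ∧ 1 - inner ℝ e (relVel p) ≤ 2 * a}.indicator (fun _ => F₀) p := by
      intro p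
      by_cases hp : (s, y, p) ∈ shell X V R1 d1 e1 D1 Q
      · have hp2 : p ∈ {p : R3 | ‖p‖ ≤ 2 * Q ∧ 1 - inner ℝ e (relVel p) ≤ 2 * a} := by
          refine ⟨?_, hsub p hp⟩
          have h3 : gam p < 2 * Q := hp.2.2.2.2
          have h4 : ‖p‖ ≤ gam p := by
            unfold gam
            exact Real.le_sqrt_of_sq_le (by linarith)
          linarith
        rw [indicator_of_mem hp2]
        unfold sden
        rw [indicator_of_mem hp]
        exact hg0 _ _ _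
      · unfold sden
        rw [indicator_of_notMem hp]
        exact zero_le
    have hms : MeasurableSet {p : R3 | ‖p‖ ≤ 2 * Q ∧ 1 - inner ℝ e (relVel p) ≤ 2 * a} := by
      have h5 : MeasurableSet {p : R3 | ‖p‖ ≤ 2 * Q} := measurableSet_le measurable_norm measurable_const
      have h6 : MeasurableSet {p : R3 | 1 - inner ℝ e (relVel p) ≤ 2 * a} :=
        measurableSet_le (measurable_const.sub (measurable_const.inner relVel_measurable))
          measurable_const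
      exact h5.inter h6
    calc ∫⁻ p, sden X g (shell X V R1 d1 e1 D1 Q) s y p
        ≤ ∫⁻ p, {p : R3 | ‖p‖ ≤ 2 * Q ∧ 1 - inner ℝ e (relVel p) ≤ 2 * a}.indicator
            (fun _ => F₀) p := lintegral_mono h1
      _ = ∫⁻ p in {p : R3 | ‖p‖ ≤ 2 * Q ∧ 1 - inner ℝ e (relVel p) ≤ 2 * a}, F₀ :=
          lintegral_indicator hms _
      _ ≤ F₀ * ENNReal.ofReal (16 * (2 * a) * (2 * Q) ^ 3) :=
          fibre_bound (fun _ => F₀) F₀ (fun _ => le_rfl) e he (2 * Q) (2 * a) (by linarith)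
            (by linarith) _ (fun p hp => hp)
      _ = F₀ * ENNReal.ofReal (256 * Q ^ 3 * a) := by congr 2; ring
  rcases le_total e1 D1 with h | h
  · rw [min_eq_left h]
    exact key (nn X s y) e1 (norm_nn_le X s y) he1 (fun p hp => hp.2.1.2.le)
  · rw [min_eq_right h]
    exact key (V s) D1 (hV1 s) hD1 (fun p hp => hp.2.2.1.2.le)

/-- (a) : `μ_s(Ω) ≤ 2¹⁶ F₀ R³ δ Q³ min(ε,D)`. -/
theorem mus_le_a (F₀ : ℝ≥0∞) (hg0 : ∀ τ y p, g τ y p ≤ F₀) (hV1 : ∀ s, ‖V s‖ ≤ 1)
    {R1 d1 e1 D1 Q : ℝ} (hR1 : 0 ≤ R1) (hd1 : 0 ≤ d1) (he1 : 0 ≤ e1) (hD1 : 0 ≤ D1) (hQ : 0 ≤ Q)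
    (s : ℝ) :
    mus X g (shell X V R1 d1 e1 D1 Q) s ≤
      F₀ * ENNReal.ofReal (2 ^ 16 * R1 ^ 3 * d1 * Q ^ 3 * min e1 D1) := by
  set A : Set R3 := {y : R3 | ‖X s - y‖ ≤ 2 * R1 ∧
    1 - inner ℝ (‖X s - y‖⁻¹ • (X s - y)) (V s) ≤ 2 * d1} with hA
  have hAm : MeasurableSet A := by
    have h5 : MeasurableSet {y : R3 | ‖X s - y‖ ≤ 2 * R1} :=
      measurableSet_le (measurable_const.sub measurable_id).norm measurable_const
    have h6 : MeasurableSet {y : R3 | 1 - inner ℝ (‖X s - y‖⁻¹ • (X s - y)) (V s) ≤ 2 * d1} := by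
      refine measurableSet_le (measurable_const.sub (Measurable.inner ?_ measurable_const))
        measurable_const
      exact ((measurable_const.sub measurable_id).norm.inv).smul (measurable_const.sub measurable_id)
    exact h5.inter h6
  have hvol := vol_cone (X s) (V s) (hV1 s) (2 * R1) (2 * d1) (by linarith) (by linarith)
  have h1 : ∀ y, ∫⁻ p, sden X g (shell X V R1 d1 e1 D1 Q) s y p ≤
      A.indicator (fun _ => F₀ * ENNReal.ofReal (256 * Q ^ 3 * min e1 D1)) y := by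
    intro y
    by_cases hy : (s, y) ∈ shellY X V R1 d1
    · have hyA : y ∈ A := ⟨hy.1.2.le, hy.2.2.le⟩
      rw [indicator_of_mem hyA]
      exact fibre_shell F₀ hg0 hV1 he1 hD1 hQ s y
    · have h2 : ∀ p, sden X g (shell X V R1 d1 e1 D1 Q) s y p = 0 := by
        intro p
        unfold sden
        rw [indicator_of_notMem]
        intro hp
        exact hy hp.1
      simp only [h2, lintegral_zero, zero_le]
  unfold mus
  calc ∫⁻ y, ∫⁻ p, sden X g (shell X V R1 d1 e1 D1 Q) s y p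
      ≤ ∫⁻ y, A.indicator (fun _ => F₀ * ENNReal.ofReal (256 * Q ^ 3 * min e1 D1)) y :=
        lintegral_mono h1
    _ = F₀ * ENNReal.ofReal (256 * Q ^ 3 * min e1 D1) * volume A := by
        rw [lintegral_indicator hAm, lintegral_const, Measure.restrict_apply_univ]
    _ ≤ F₀ * ENNReal.ofReal (256 * Q ^ 3 * min e1 D1) *
          ENNReal.ofReal (16 * (2 * d1) * (2 * R1) ^ 3) := by gcongr
    _ = F₀ * ENNReal.ofReal (2 ^ 16 * R1 ^ 3 * d1 * Q ^ 3 * min e1 D1) := by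
        rw [mul_assoc, ← ENNReal.ofReal_mul
          (mul_nonneg (mul_nonneg (by norm_num) (pow_nonneg hQ 3)) (le_min he1 hD1))]
        congr 2
        ring


end Crest.Agent.R106.Cost
end
end

-- ▼ part R106/CostShell2
section

/-!
Row 106, module COST, part 2: bound (c), the Cauchy–Schwarz costs (A) and (B) for one shell.
-/

set_option autoImplicit false
open MeasureTheory Set
open scoped ENNReal
open Crest.AnalysisR.VecCalc3 Crest.AnalysisR.PDE.RVM
open Crest.Agent.R106.GSR (gam)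

noncomputable section

namespace Crest.Agent.R106.Cost

variable {X V : ℝ → R3} {g : ℝ → R3 → R3 → ℝ≥0∞}

/-- strict Lipschitz bound from a uniform speed bound. -/
theorem strictLip_of_speed {a b : ℝ} {c : ℝ} (hc : c < 1)
    (hX : ∀ s ∈ Icc a b, HasDerivWithinAt X (V s) (Icc a b) s) (hV : ∀ s ∈ Icc a b, ‖V s‖ ≤ c) :
    ∀ s ∈ Icc a b, ∀ t ∈ Icc a b, s < t → ‖X t - X s‖ < t - s := by
  intro s hs t ht hst
  have h := (convex_Icc a b).norm_image_sub_le_of_norm_hasDerivWithin_le hX hV hs ht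
  have h2 : ‖t - s‖ = t - s := by rw [Real.norm_eq_abs, abs_of_pos (sub_pos.2 hst)]
  rw [h2] at h
  have h3 : 0 < t - s := sub_pos.2 hst
  nlinarith [norm_nonneg (X t - X s)]

/-- integral over the `(s,y)`-part of a shell of a function of `(τ,y)`. -/
theorem shellY_lintegral_le (hXm : Measurable X) (hVm : Measurable V) {a b : ℝ}
    {J : Set ℝ} (hJm : MeasurableSet J) (hJ : J ⊆ Icc a b)
    (hX : ∀ s ∈ J, HasDerivWithinAt X (V s) J s)
    (hlip : ∀ s ∈ J, ∀ t ∈ J, s < t → ‖X t - X s‖ < t - s)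
    {R1 d1 : ℝ} (hR1 : 0 < R1) (hd1 : 0 < d1)
    (h : ℝ × R3 → ℝ≥0∞) (hh : Measurable h) (E : ℝ≥0∞) (hE : ∀ τ, ∫⁻ y, h (τ, y) ≤ E) :
    ∫⁻ s in J, ∫⁻ y, (shellY X V R1 d1).indicator (fun z => h (ret X z.1 z.2, z.2)) (s, y) ≤
      ENNReal.ofReal ((b - a + 2 * R1) / d1) * E := by
  set S : Set (ℝ × R3) := shellY X V R1 d1 ∩ {z | z.1 ∈ J} with hS
  have hSm : MeasurableSet S :=
    (shellY_measurableSet hXm hVm R1 d1).inter (measurable_fst hJm)
  have hhm : Measurable (fun z : ℝ × R3 => h (ret X z.1 z.2, z.2)) :=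
    hh.comp ((ret_measurable hXm).prodMk measurable_snd)
  have e1 : ∫⁻ s in J, ∫⁻ y, (shellY X V R1 d1).indicator
      (fun z => h (ret X z.1 z.2, z.2)) (s, y) = ∫⁻ z in S, h (ret X z.1 z.2, z.2) := by
    rw [← lintegral_indicator hSm, ← lintegral_indicator hJm,
      Measure.volume_eq_prod, lintegral_prod _ (hhm.indicator hSm).aemeasurable]
    refine lintegral_congr (fun s => ?_)
    by_cases hs : s ∈ J
    · rw [indicator_of_mem hs]
      refine lintegral_congr (fun y => ?_)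
      by_cases hy : (s, y) ∈ shellY X V R1 d1
      · have hy2 : (s, y) ∈ S := ⟨hy, hs⟩
        rw [indicator_of_mem hy, indicator_of_mem hy2]
      · have hy2 : (s, y) ∉ S := fun hh => hy hh.1
        rw [indicator_of_notMem hy, indicator_of_notMem hy2]
    · rw [indicator_of_notMem hs]
      have h0 : ∀ y, S.indicator (fun z => h (ret X z.1 z.2, z.2)) (s, y) = 0 := by
        intro y
        have hy2 : (s, y) ∉ S := fun hh => hs hh.2
        exact indicator_of_notMem hy2 _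
      simp only [h0, lintegral_zero]
  rw [e1]
  have hcv := cv_two (X := X) (V := V) (J := J) hXm hX hlip S hSm (fun z hz => hz.2) d1 hd1
    (fun z hz => by
      intro hz0
      have h1 : R1 ≤ ‖X z.1 - z.2‖ := hz.1.1.1
      rw [hz0, sub_self, norm_zero] at h1
      linarith)
    (fun z hz => hz.1.2.1) (Icc (a - 2 * R1) b)
    (fun z hz => by
      have h1 : R1 ≤ ‖X z.1 - z.2‖ := hz.1.1.1
      have h2 : ‖X z.1 - z.2‖ < 2 * R1 := hz.1.1.2
      have h3 : z.1 ∈ Icc a b := hJ hz.2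
      exact ⟨by linarith [h3.1], by linarith [h3.2]⟩) h hh
  refine hcv.trans ?_
  calc ENNReal.ofReal (1 / d1) * ∫⁻ τ in Icc (a - 2 * R1) b, ∫⁻ y, h (τ, y)
      ≤ ENNReal.ofReal (1 / d1) * ∫⁻ τ in Icc (a - 2 * R1) b, E := by
        gcongr with τ
        exact hE τ
    _ = ENNReal.ofReal (1 / d1) * (E * ENNReal.ofReal (b - (a - 2 * R1))) := by
        rw [lintegral_const, Measure.restrict_apply_univ, Real.volume_Icc]
    _ = ENNReal.ofReal ((b - a + 2 * R1) / d1) * E := by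
        rw [mul_comm E, ← mul_assoc, ← ENNReal.ofReal_mul (by positivity)]
        congr 2
        ring

theorem sden_eq_zero {R1 d1 e1 D1 Q : ℝ} {s : ℝ} {y : R3} (hy : (s, y) ∉ shellY X V R1 d1) (p : R3) :
    sden X g (shell X V R1 d1 e1 D1 Q) s y p = 0 := by
  unfold sden
  rw [indicator_of_notMem]
  intro hp
  exact hy hp.1

/-- (c) : `μ(Ω) ≤ E (l + 2R)/(Q δ)`. -/
theorem mu_le_c (hXm : Measurable X) (hVm : Measurable V) {a b : ℝ}
    {J : Set ℝ} (hJm : MeasurableSet J) (hJ : J ⊆ Icc a b)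
    (hX : ∀ s ∈ J, HasDerivWithinAt X (V s) J s)
    (hlip : ∀ s ∈ J, ∀ t ∈ J, s < t → ‖X t - X s‖ < t - s)
    (hg : Measurable (fun w : ℝ × R3 × R3 => g w.1 w.2.1 w.2.2))
    {R1 d1 e1 D1 Q : ℝ} (hR1 : 0 < R1) (hd1 : 0 < d1) (hQ : 0 < Q)
    (E : ℝ≥0∞) (hE : ∀ τ, ∫⁻ y, ∫⁻ p, ENNReal.ofReal (gam p) * g τ y p ≤ E) :
    mu X g J (shell X V R1 d1 e1 D1 Q) ≤
      ENNReal.ofReal ((b - a + 2 * R1) / (Q * d1)) * E := by
  set h : ℝ × R3 → ℝ≥0∞ := fun z => ∫⁻ p, ENNReal.ofReal (gam p) * g z.1 z.2 p with hh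
  have hhm : Measurable h := by
    have h1 : Measurable (fun w : (ℝ × R3) × R3 => ENNReal.ofReal (gam w.2) * g w.1.1 w.1.2 w.2) := by
      refine Measurable.mul ?_ ?_
      · exact (gam_measurable.comp measurable_snd).ennreal_ofReal
      · have h2 : Measurable (fun w : (ℝ × R3) × R3 => ((w.1.1, w.1.2, w.2) : ℝ × R3 × R3)) :=
          (measurable_fst.comp measurable_fst).prodMk
            ((measurable_snd.comp measurable_fst).prodMk measurable_snd)
        exact hg.comp h2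
    exact h1.lintegral_prod_right'
  have h1 : ∀ s y, ∫⁻ p, sden X g (shell X V R1 d1 e1 D1 Q) s y p ≤
      ENNReal.ofReal (1 / Q) *
        (shellY X V R1 d1).indicator (fun z => h (ret X z.1 z.2, z.2)) (s, y) := by
    intro s y
    by_cases hy : (s, y) ∈ shellY X V R1 d1
    · rw [indicator_of_mem hy]
      simp only [hh]
      rw [← lintegral_const_mul' _ _ ENNReal.ofReal_ne_top]
      refine lintegral_mono (fun p => ?_)
      by_cases hp : (s, y, p) ∈ shell X V R1 d1 e1 D1 Q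
      · unfold sden
        rw [indicator_of_mem hp, ← mul_assoc, ← ENNReal.ofReal_mul (by positivity)]
        have h2 : 1 ≤ 1 / Q * gam p := by
          rw [one_div, ← div_eq_inv_mul, le_div_iff₀ hQ, one_mul]
          exact hp.2.2.2.1
        calc cden X g (s, y, p) = 1 * cden X g (s, y, p) := (one_mul _).symm
          _ ≤ _ := by
            gcongr
            · rw [← ENNReal.ofReal_one]
              exact ENNReal.ofReal_le_ofReal h2
            · exact le_rfl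
      · unfold sden
        rw [indicator_of_notMem hp]
        exact zero_le
    · simp only [sden_eq_zero hy, lintegral_zero, zero_le]
  have h2 := shellY_lintegral_le hXm hVm hJm hJ hX hlip hR1 hd1 h hhm E hE
  unfold mu mus
  calc ∫⁻ s in J, ∫⁻ y, ∫⁻ p, sden X g (shell X V R1 d1 e1 D1 Q) s y p
      ≤ ∫⁻ s in J, ∫⁻ y, ENNReal.ofReal (1 / Q) *
        (shellY X V R1 d1).indicator (fun z => h (ret X z.1 z.2, z.2)) (s, y) :=
        lintegral_mono (fun s => lintegral_mono (fun y => h1 s y))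
    _ = ENNReal.ofReal (1 / Q) * ∫⁻ s in J, ∫⁻ y,
        (shellY X V R1 d1).indicator (fun z => h (ret X z.1 z.2, z.2)) (s, y) := by
        simp_rw [lintegral_const_mul' _ _ ENNReal.ofReal_ne_top]
    _ ≤ ENNReal.ofReal (1 / Q) * (ENNReal.ofReal ((b - a + 2 * R1) / d1) * E) := by gcongr
    _ = ENNReal.ofReal ((b - a + 2 * R1) / (Q * d1)) * E := by
        rw [← mul_assoc, ← ENNReal.ofReal_mul (by positivity)]
        congr 2
        field_simp

/-- (A), pointwise in `s`: good part of the fields. `∫_{C(s)} K² ≤ E` -/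
theorem costA_pt (hXm : Measurable X) (hVm : Measurable V)
    (hg : Measurable (fun w : ℝ × R3 × R3 => g w.1 w.2.1 w.2.2))
    (F₀ : ℝ≥0∞) (hg0 : ∀ τ y p, g τ y p ≤ F₀) (hV1 : ∀ s, ‖V s‖ ≤ 1)
    {R1 d1 e1 D1 Q : ℝ} (he1 : 0 ≤ e1) (hD1 : 0 ≤ D1) (hQ : 0 ≤ Q) (s : ℝ)
    (K : R3 → ℝ≥0∞) (hK : Measurable K) (E : ℝ≥0∞) (hE : ∫⁻ y, K y ^ (2 : ℝ) ≤ E) :
    (∫⁻ y, K y * ∫⁻ p, sden X g (shell X V R1 d1 e1 D1 Q) s y p) ^ (2 : ℝ) ≤
      E * (F₀ * ENNReal.ofReal (256 * Q ^ 3 * min e1 D1) *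
        mus X g (shell X V R1 d1 e1 D1 Q) s) := by
  have hm := sden_measurable hXm hg (shell_measurableSet hXm hVm R1 d1 e1 D1 Q)
  have hm2 : Measurable (Function.uncurry (sden X g (shell X V R1 d1 e1 D1 Q) s)) := by
    have h1 : Measurable (fun z : R3 × R3 => ((s, z.1, z.2) : ℝ × R3 × R3)) :=
      measurable_const.prodMk (measurable_fst.prodMk measurable_snd)
    have h2 := hm.comp h1
    exact h2
  have h3 := cs1_pt (volume : Measure R3) (volume : Measure R3)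
    (g := sden X g (shell X V R1 d1 e1 D1 Q) s) (K := K) (E := E)
    (M := F₀ * ENNReal.ofReal (256 * Q ^ 3 * min e1 D1)) hm2 hK hE
    (fun y => fibre_shell F₀ hg0 hV1 he1 hD1 hQ s y)
  exact h3


/-- (B), integrated over `J ⊆ [a,b]`: the part `√ε |B|`. `∫ Bf(τ,·)² ≤ E` at each time. -/
theorem costB_int (hXm : Measurable X) (hVm : Measurable V) {a b : ℝ}
    {J : Set ℝ} (hJm : MeasurableSet J) (hJ : J ⊆ Icc a b)
    (hX : ∀ s ∈ J, HasDerivWithinAt X (V s) J s)
    (hlip : ∀ s ∈ J, ∀ t ∈ J, s < t → ‖X t - X s‖ < t - s)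
    (hg : Measurable (fun w : ℝ × R3 × R3 => g w.1 w.2.1 w.2.2))
    (F₀ : ℝ≥0∞) (hg0 : ∀ τ y p, g τ y p ≤ F₀) (hV1 : ∀ s, ‖V s‖ ≤ 1)
    {R1 d1 e1 D1 Q : ℝ} (hR1 : 0 < R1) (hd1 : 0 < d1) (he1 : 0 ≤ e1) (hD1 : 0 ≤ D1)
    (hQ : 0 ≤ Q)
    (Bf : ℝ × R3 → ℝ≥0∞) (hBm : Measurable Bf) (E : ℝ≥0∞)
    (hE : ∀ τ, ∫⁻ y, Bf (τ, y) ^ (2 : ℝ) ≤ E) :
    ∫⁻ s in J, ∫⁻ y, Bf (ret X s y, y) *
        ∫⁻ p, sden X g (shell X V R1 d1 e1 D1 Q) s y p ≤
      (ENNReal.ofReal ((b - a + 2 * R1) / d1) * E) ^ (1 / (2 : ℝ)) *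
        (F₀ * ENNReal.ofReal (256 * Q ^ 3 * min e1 D1) *
          mu X g J (shell X V R1 d1 e1 D1 Q)) ^ (1 / (2 : ℝ)) := by
  have hm := sden_measurable hXm hg (shell_measurableSet hXm hVm R1 d1 e1 D1 Q)
  set K : ℝ → R3 → ℝ≥0∞ := fun s y =>
    (shellY X V R1 d1).indicator (fun z => Bf (ret X z.1 z.2, z.2)) (s, y) with hKdef
  have hKm : Measurable (Function.uncurry K) := by
    have h1 : Measurable (fun z : ℝ × R3 => Bf (ret X z.1 z.2, z.2)) :=
      hBm.comp ((ret_measurable hXm).prodMk measurable_snd)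
    exact h1.indicator (shellY_measurableSet hXm hVm R1 d1)
  have hK2 : ∫⁻ s in J, ∫⁻ y, K s y ^ (2 : ℝ) ≤
      ENNReal.ofReal ((b - a + 2 * R1) / d1) * E := by
    have h2 := shellY_lintegral_le hXm hVm hJm hJ hX hlip hR1 hd1 (fun z => Bf z ^ (2 : ℝ))
      (hBm.pow_const _) E hE
    refine le_trans (le_of_eq ?_) h2
    refine lintegral_congr (fun s => lintegral_congr (fun y => ?_))
    simp only [hKdef]
    by_cases hy : (s, y) ∈ shellY X V R1 d1
    · rw [indicator_of_mem hy, indicator_of_mem hy]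
    · rw [indicator_of_notMem hy, indicator_of_notMem hy]
      exact ENNReal.zero_rpow_of_pos (by norm_num)
  have h := cs2 (volume.restrict J) (volume : Measure R3) (volume : Measure R3)
    (g := sden X g (shell X V R1 d1 e1 D1 Q)) (K := K)
    (E := ENNReal.ofReal ((b - a + 2 * R1) / d1) * E)
    (M := F₀ * ENNReal.ofReal (256 * Q ^ 3 * min e1 D1)) hm hKm hK2
    (fun s y => fibre_shell F₀ hg0 hV1 he1 hD1 hQ s y)
  refine le_trans (le_of_eq ?_) h
  refine lintegral_congr (fun s => lintegral_congr (fun y => ?_))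
  simp only [hKdef]
  by_cases hy : (s, y) ∈ shellY X V R1 d1
  · rw [indicator_of_mem hy]
  · simp only [sden_eq_zero hy, lintegral_zero, mul_zero]

end Crest.Agent.R106.Cost
end
end

-- ▼ part R106/CostMom
section

/-!
Row 106, module COST, part 3 (helper904): transfer of the shell bounds to the measure `kap` of
`MomDefs` (explicit constants).
-/

set_option autoImplicit false
open MeasureTheory Set
open scoped ENNReal InnerProductSpace
open Crest.AnalysisR.VecCalc3 Crest.AnalysisR.PDE.RVM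
open Crest.Agent.R106.GSR (gam lor)

noncomputable section

namespace Crest.Agent.R106.Cost

open Crest.Agent.R106.Mom (IsChar kap Kg dl ep Dd Rr)

/-- the density, cut off to `0 < τ < T`. -/
def gd (T : ℝ) (f : ℝ → R3 → R3 → ℝ) (τ : ℝ) (y w : R3) : ℝ≥0∞ :=
  (Ioo 0 T).indicator (fun τ => ENNReal.ofReal (f τ y w)) τ

/-- extension by zero of a curve outside `[0,T)`. -/
def ex (T : ℝ) (X : ℝ → R3) : ℝ → R3 := (Ico 0 T).indicator X

theorem ex_eq {T : ℝ} {X : ℝ → R3} {s : ℝ} (hs : s ∈ Ioo 0 T) : ex T X s = X s :=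
  indicator_of_mem (Ioo_subset_Ico_self hs) X

theorem ex_measurable {T : ℝ} {X : ℝ → R3} (hX : ContinuousOn X (Ico 0 T)) :
    Measurable (ex T X) := by
  classical
  have h := hX.measurable_piecewise (continuousOn_const (c := (0 : R3)) (s := (Ico 0 T)ᶜ))
    measurableSet_Ico
  have e : (Ico 0 T).piecewise X (fun _ => (0 : R3)) = ex T X := by
    funext s
    by_cases hs : s ∈ Ico 0 T
    · simp [ex, hs]
    · simp [ex, hs]
  rw [← e]
  exact h

theorem norm_relVel_lt (w : R3) : ‖relVel w‖ < 1 := by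
  unfold relVel
  rw [norm_smul, norm_inv, Real.norm_eq_abs, abs_of_nonneg (Real.sqrt_nonneg _),
    inv_mul_lt_iff₀ (Real.sqrt_pos.2 (by positivity)), mul_one]
  exact Real.lt_sqrt_of_sq_lt (by linarith)

/-- a function that is continuous on a measurable set is measurable after cutting off. -/
theorem measurable_indicator_of_continuousOn {α β : Type*} [TopologicalSpace α] [MeasurableSpace α]
    [OpensMeasurableSpace α] [TopologicalSpace β] [MeasurableSpace β] [BorelSpace β] [Zero β]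
    {F : α → β} {A : Set α} (hA : MeasurableSet A) (hF : ContinuousOn F A) :
    Measurable (A.indicator F) := by
  classical
  have h := hF.measurable_piecewise (continuousOn_const (c := (0 : β)) (s := Aᶜ)) hA
  have e : A.piecewise F (fun _ => (0 : β)) = A.indicator F := by
    funext s
    by_cases hs : s ∈ A
    · simp [hs]
    · simp [hs]
  rw [← e]
  exact h

theorem gd_measurable {T : ℝ} {f : ℝ → R3 → R3 → ℝ}
    (hf : ContinuousOn (fun q : ℝ × R3 × R3 => f q.1 q.2.1 q.2.2) (Iio T ×ˢ univ)) :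
    Measurable (fun w : ℝ × R3 × R3 => gd T f w.1 w.2.1 w.2.2) := by
  have e : (fun w : ℝ × R3 × R3 => gd T f w.1 w.2.1 w.2.2) = fun w =>
      ENNReal.ofReal ({w : ℝ × R3 × R3 | w.1 ∈ Ioo 0 T}.indicator
        (fun w => f w.1 w.2.1 w.2.2) w) := by
    funext w
    unfold gd
    by_cases hw : w.1 ∈ Ioo 0 T
    · rw [indicator_of_mem hw, indicator_of_mem (by exact hw)]
    · rw [indicator_of_notMem hw, indicator_of_notMem (by exact hw), ENNReal.ofReal_zero]
  rw [e]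
  have hA : MeasurableSet {w : ℝ × R3 × R3 | w.1 ∈ Ioo 0 T} := measurable_fst measurableSet_Ioo
  have hc : ContinuousOn (fun w : ℝ × R3 × R3 => f w.1 w.2.1 w.2.2)
      {w : ℝ × R3 × R3 | w.1 ∈ Ioo 0 T} := hf.mono (fun w hw => ⟨hw.2, mem_univ _⟩)
  exact (measurable_indicator_of_continuousOn hA hc).ennreal_ofReal

theorem gd_le {T : ℝ} {f : ℝ → R3 → R3 → ℝ} {F₀ : ℝ}
    (hF : ∀ τ ∈ Ioo 0 T, ∀ y w, f τ y w ≤ F₀) (τ : ℝ) (y w : R3) :
    gd T f τ y w ≤ ENNReal.ofReal F₀ := by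
  unfold gd
  by_cases hτ : τ ∈ Ioo 0 T
  · rw [indicator_of_mem hτ]
    exact ENNReal.ofReal_le_ofReal (hF τ hτ y w)
  · rw [indicator_of_notMem hτ]
    exact zero_le

/-- integrals with respect to `kap` in phase-space form. -/
theorem lintegral_kap {T : ℝ} {f : ℝ → R3 → R3 → ℝ}
    (hf : ContinuousOn (fun q : ℝ × R3 × R3 => f q.1 q.2.1 q.2.2) (Iio T ×ˢ univ)) (X : ℝ → R3) {s : ℝ}
    (hs : s ∈ Ioo 0 T) (A : Set (R3 × R3)) (hA : MeasurableSet A) (φ : R3 × R3 → ℝ≥0∞)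
    (hφ : Measurable φ) :
    ∫⁻ q in A, φ q ∂(kap f X s) =
      ∫⁻ y, ∫⁻ w, A.indicator (fun q => gd T f (s - ‖X s - q.1‖) q.1 q.2 * φ q) (y, w) := by
  set Bs : Set (R3 × R3) := Metric.ball (X s) s ×ˢ (univ : Set R3) with hBs
  have hBm : MeasurableSet Bs := Metric.isOpen_ball.measurableSet.prod MeasurableSet.univ
  have hmap : Measurable (fun q : R3 × R3 => ((s - ‖X s - q.1‖, q.1, q.2) : ℝ × R3 × R3)) := by
    refine Measurable.prodMk ?_ ?_
    · exact measurable_const.sub ((measurable_const.sub measurable_fst).norm)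
    · exact measurable_fst.prodMk measurable_snd
  have hh' : Measurable (fun q : R3 × R3 => gd T f (s - ‖X s - q.1‖) q.1 q.2) := by
    have h0 := (gd_measurable (T := T) hf).comp hmap
    exact h0
  have hae : (fun q : R3 × R3 => ENNReal.ofReal (f (Mom.ret X s q.1) q.1 q.2))
      =ᵐ[volume.restrict Bs] (fun q : R3 × R3 => gd T f (s - ‖X s - q.1‖) q.1 q.2) := by
    rw [Filter.EventuallyEq, ae_restrict_iff' hBm]
    refine Filter.Eventually.of_forall (fun q hq => ?_)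
    have h1 : ‖X s - q.1‖ < s := by
      have h2 : q.1 ∈ Metric.ball (X s) s := hq.1
      rw [Metric.mem_ball, dist_comm, dist_eq_norm] at h2
      exact h2
    have h3 : s - ‖X s - q.1‖ ∈ Ioo 0 T :=
      ⟨by linarith, by linarith [norm_nonneg (X s - q.1), hs.2]⟩
    unfold gd Mom.ret
    rw [indicator_of_mem h3]
  have hk : kap f X s = (volume.restrict Bs).withDensity
      (fun q : R3 × R3 => gd T f (s - ‖X s - q.1‖) q.1 q.2) := by
    unfold kap
    exact withDensity_congr_ae hae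
  rw [hk, setLIntegral_withDensity_eq_setLIntegral_mul _ hh' hφ hA, ← lintegral_indicator hA,
    ← lintegral_indicator hBm]
  have e : (fun a => Bs.indicator (fun a => A.indicator
      ((fun q : R3 × R3 => gd T f (s - ‖X s - q.1‖) q.1 q.2) * φ) a) a) =
      (fun q => A.indicator (fun q => gd T f (s - ‖X s - q.1‖) q.1 q.2 * φ q) q) := by
    funext q
    by_cases hq : q ∈ Bs
    · rw [indicator_of_mem hq]
      rfl
    · rw [indicator_of_notMem hq]
      have h1 : s ≤ ‖X s - q.1‖ := by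
        by_contra hcon
        push Not at hcon
        apply hq
        refine ⟨?_, mem_univ _⟩
        rw [Metric.mem_ball, dist_comm, dist_eq_norm]
        exact hcon
      have h2 : gd T f (s - ‖X s - q.1‖) q.1 q.2 = 0 := by
        unfold gd
        rw [indicator_of_notMem]
        intro h3
        have := h3.1
        linarith
      by_cases hqA : q ∈ A
      · rw [indicator_of_mem hqA, h2, zero_mul]
      · rw [indicator_of_notMem hqA]
  have e2 : ∫⁻ a, Bs.indicator (fun a => A.indicator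
      ((fun q : R3 × R3 => gd T f (s - ‖X s - q.1‖) q.1 q.2) * φ) a) a =
      ∫⁻ q : R3 × R3, A.indicator (fun q => gd T f (s - ‖X s - q.1‖) q.1 q.2 * φ q) q := by
    rw [e]
  refine e2.trans ?_
  rw [Measure.volume_eq_prod]
  exact lintegral_prod _ ((hh'.mul hφ).indicator hA).aemeasurable

section shells
variable {T : ℝ} {f : ℝ → R3 → R3 → ℝ} {X p : ℝ → R3}

/-- velocity of the extended curve. -/
def exV (T : ℝ) (p : ℝ → R3) : ℝ → R3 := fun s => relVel (ex T p s)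

theorem exV_measurable (hp : ContinuousOn p (Ico 0 T)) : Measurable (exV T p) :=
  relVel_measurable.comp (ex_measurable hp)

theorem exV_le (s : ℝ) : ‖exV T p s‖ ≤ 1 := (norm_relVel_lt _).le

/-- the section of my shell is the shell of `MomDefs`. -/
theorem shell_iff {s : ℝ} (hs : s ∈ Ioo 0 T) (R1 d1 e1 D1 Q1 : ℝ) (q : R3 × R3) :
    (s, q.1, q.2) ∈ shell (ex T X) (exV T p) R1 d1 e1 D1 Q1 ↔
      q ∈ Mom.shell X p R1 d1 e1 D1 Q1 s := by
  unfold shell shellY Mom.shell dlt ept Dt nn exV Mom.dl Mom.ep Mom.Dd Mom.Rr Mom.nn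
  simp only [mem_ofPred_eq, ex_eq hs]
  tauto

theorem momShell_measurableSet (hX : ContinuousOn X (Ico 0 T)) (hp : ContinuousOn p (Ico 0 T))
    {s : ℝ} (hs : s ∈ Ioo 0 T) (R1 d1 e1 D1 Q1 : ℝ) :
    MeasurableSet (Mom.shell X p R1 d1 e1 D1 Q1 s) := by
  have h := shell_measurableSet (ex_measurable hX) (exV_measurable hp) R1 d1 e1 D1 Q1
  have hm : Measurable (fun q : R3 × R3 => ((s, q.1, q.2) : ℝ × R3 × R3)) :=
    measurable_const.prodMk (measurable_fst.prodMk measurable_snd)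
  have e : Mom.shell X p R1 d1 e1 D1 Q1 s =
      (fun q : R3 × R3 => ((s, q.1, q.2) : ℝ × R3 × R3)) ⁻¹'
        shell (ex T X) (exV T p) R1 d1 e1 D1 Q1 := by
    ext q
    exact (shell_iff hs R1 d1 e1 D1 Q1 q).symm
  rw [e]
  exact hm h

/-- integral of a function of `y` over a shell. -/
theorem lintegral_shell (hf : ContinuousOn (fun q : ℝ × R3 × R3 => f q.1 q.2.1 q.2.2) (Iio T ×ˢ univ))
    (hX : ContinuousOn X (Ico 0 T)) (hp : ContinuousOn p (Ico 0 T))
    {s : ℝ} (hs : s ∈ Ioo 0 T) (R1 d1 e1 D1 Q1 : ℝ) (K : R3 → ℝ≥0∞) (hK : Measurable K) :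
    ∫⁻ q in Mom.shell X p R1 d1 e1 D1 Q1 s, K q.1 ∂(kap f X s) =
      ∫⁻ y, K y * ∫⁻ w, sden (ex T X) (gd T f) (shell (ex T X) (exV T p) R1 d1 e1 D1 Q1) s y w := by
  rw [lintegral_kap hf X hs _ (momShell_measurableSet hX hp hs R1 d1 e1 D1 Q1) (fun q => K q.1)
    (hK.comp measurable_fst)]
  have hden := sden_measurable (ex_measurable hX) (gd_measurable (T := T) hf)
    (shell_measurableSet (ex_measurable hX) (exV_measurable hp) R1 d1 e1 D1 Q1)
  refine lintegral_congr (fun y => ?_)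
  have hdy : Measurable (fun w => sden (ex T X) (gd T f)
      (shell (ex T X) (exV T p) R1 d1 e1 D1 Q1) s y w) := by
    have hm : Measurable (fun w : R3 => ((s, y, w) : ℝ × R3 × R3)) :=
      measurable_const.prodMk (measurable_const.prodMk measurable_id)
    have h0 := hden.comp hm
    exact h0
  rw [← lintegral_const_mul _ hdy]
  refine lintegral_congr (fun w => ?_)
  by_cases hq : (y, w) ∈ Mom.shell X p R1 d1 e1 D1 Q1 s
  · have hq2 := (shell_iff hs R1 d1 e1 D1 Q1 (y, w)).2 hq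
    rw [indicator_of_mem hq]
    unfold sden
    rw [indicator_of_mem (by exact hq2)]
    unfold cden ret
    simp only [ex_eq hs]
    rw [mul_comm]
  · have hq2 : (s, y, w) ∉ shell (ex T X) (exV T p) R1 d1 e1 D1 Q1 := fun hh =>
      hq ((shell_iff hs R1 d1 e1 D1 Q1 (y, w)).1 hh)
    rw [indicator_of_notMem hq]
    unfold sden
    rw [indicator_of_notMem hq2, mul_zero]

theorem kap_shell (hf : ContinuousOn (fun q : ℝ × R3 × R3 => f q.1 q.2.1 q.2.2) (Iio T ×ˢ univ))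
    (hX : ContinuousOn X (Ico 0 T)) (hp : ContinuousOn p (Ico 0 T))
    {s : ℝ} (hs : s ∈ Ioo 0 T) (R1 d1 e1 D1 Q1 : ℝ) :
    kap f X s (Mom.shell X p R1 d1 e1 D1 Q1 s) =
      mus (ex T X) (gd T f) (shell (ex T X) (exV T p) R1 d1 e1 D1 Q1) s := by
  have h := lintegral_shell hf hX hp hs R1 d1 e1 D1 Q1 (fun _ => 1) measurable_const
  simp only [one_mul, lintegral_const, Measure.restrict_apply_univ] at h
  exact h

end shells

end Crest.Agent.R106.Cost
end
end

-- ▼ part R106/CostFin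
section

/-!
Row 106, module COST, part 4 (helper904): `OccA, OccB, OccC, CoreA, CoreB` of `MomIface` with
explicit constants, from the energy identity and the cone flux (`EnHyp`).
-/

set_option autoImplicit false
open MeasureTheory Set
open scoped ENNReal InnerProductSpace
open Crest.AnalysisR.VecCalc3 Crest.AnalysisR.PDE.RVM
open Crest.Agent.R106.GSR (gam lor)

noncomputable section

namespace Crest.Agent.R106.Cost

open Crest.Agent.R106.Mom (IsChar kap Kg ep)

/-- what is needed from the energy identity, the cone flux and the sup bound of `f`. -/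
structure EnHyp (T : ℝ) (f : ℝ → R3 → R3 → ℝ) (E B : ℝ → R3 → R3) (F₀ C₀ : ℝ) : Prop where
  F0 : 0 ≤ F₀
  C0 : 0 ≤ C₀
  fle : ∀ τ ∈ Ioo 0 T, ∀ y w, f τ y w ≤ F₀
  en : ∀ τ ∈ Ioo 0 T, ∫⁻ y, ∫⁻ w, ENNReal.ofReal (gam w * f τ y w) ≤ ENNReal.ofReal C₀
  enB : ∀ τ ∈ Ioo 0 T, ∫⁻ y, ENNReal.ofReal (‖B τ y‖ ^ 2) ≤ ENNReal.ofReal C₀
  flux : ∀ X : ℝ → R3, ∀ s ∈ Ioo 0 T,
    (∫⁻ y in Metric.ball (X s) s, ENNReal.ofReal (Kg E B X s y ^ 2 / 2)) +
      (∫⁻ q, ENNReal.ofReal (ep X s q.1 q.2 * gam q.2) ∂(kap f X s)) ≤ ENNReal.ofReal C₀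

theorem gam_pos (w : R3) : 0 < gam w := by
  unfold gam
  exact Real.sqrt_pos.2 (by positivity)

section char
variable {T : ℝ} {f : ℝ → R3 → R3 → ℝ} {E B : ℝ → R3 → R3} {X p : ℝ → R3}

theorem exV_eq {s : ℝ} (hs : s ∈ Ioo 0 T) : exV T p s = relVel (p s) := by
  unfold exV
  rw [ex_eq hs]

theorem ex_hasDerivWithinAt (hc : IsChar T f E B X p) {J : Set ℝ} (hJ : J ⊆ Ioo 0 T) :
    ∀ s ∈ J, HasDerivWithinAt (ex T X) (exV T p s) J s := by
  intro s hs
  have h1 := hc.dX s (hJ hs)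
  rw [exV_eq (hJ hs)]
  have h2 : (ex T X) =ᶠ[nhds s] X := by
    filter_upwards [isOpen_Ioo.mem_nhds (hJ hs)] with t ht
    exact ex_eq ht
  exact (h1.congr_of_eventuallyEq h2).hasDerivWithinAt

theorem relVel_continuous : Continuous relVel := by
  unfold relVel
  have h1 : Continuous (fun v : R3 => Real.sqrt (1 + ‖v‖ ^ 2)) :=
    Real.continuous_sqrt.comp (continuous_const.add (continuous_norm.pow 2))
  exact (h1.inv₀ (fun v => (Real.sqrt_pos.2 (by positivity)).ne')).smul continuous_id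

theorem char_strictLip (hc : IsChar T f E B X p) {J : Set ℝ} (hJ : J ⊆ Ioo 0 T) :
    ∀ s ∈ J, ∀ t ∈ J, s < t → ‖ex T X t - ex T X s‖ < t - s := by
  intro s hs t ht hst
  rw [ex_eq (hJ hs), ex_eq (hJ ht)]
  have hsub : Icc s t ⊆ Ioo 0 T := fun r hr => ⟨(hJ hs).1.trans_le hr.1, hr.2.trans_lt (hJ ht).2⟩
  have hcont : ContinuousOn (fun r => ‖relVel (p r)‖) (Icc s t) :=
    (relVel_continuous.comp_continuousOn
      (hc.cp.mono (hsub.trans Ioo_subset_Ico_self))).norm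
  obtain ⟨r, hr, hmax⟩ := isCompact_Icc.exists_isMaxOn (nonempty_Icc.2 hst.le) hcont
  refine strictLip_of_speed (X := X) (V := fun r => relVel (p r)) (c := ‖relVel (p r)‖)
    (norm_relVel_lt _) (fun q hq => (hc.dX q (hsub hq)).hasDerivWithinAt)
    (fun q hq => hmax hq) s ⟨le_rfl, hst.le⟩ t ⟨hst.le, le_rfl⟩ hst

end char

section main
variable {T : ℝ} {f : ℝ → R3 → R3 → ℝ} {E B : ℝ → R3 → R3} {F₀ C₀ : ℝ}

/-- (a), explicit constant. -/
theorem occA' (hf : ContinuousOn (fun q : ℝ × R3 × R3 => f q.1 q.2.1 q.2.2) (Iio T ×ˢ univ))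
    (h : EnHyp T f E B F₀ C₀) {X p : ℝ → R3} (hc : IsChar T f E B X p)
    {R1 d1 e1 D1 Q1 : ℝ} (hR : 0 < R1) (hd : 0 < d1) (he : 0 < e1) (hD : 0 < D1) (hQ : 0 < Q1)
    {s : ℝ} (hs : s ∈ Ioo 0 T) :
    kap f X s (Mom.shell X p R1 d1 e1 D1 Q1 s) ≤
      ENNReal.ofReal ((2 ^ 16 * F₀) * (R1 ^ 3 * d1 * Q1 ^ 3 * min e1 D1)) := by
  rw [kap_shell hf hc.cX hc.cp hs]
  refine (mus_le_a (ENNReal.ofReal F₀) (gd_le h.fle) exV_le hR.le hd.le he.le hD.le hQ.le s).trans
    (le_of_eq ?_)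
  rw [← ENNReal.ofReal_mul h.F0]
  congr 1
  ring

/-- (b), explicit constant. -/
theorem occB' (h : EnHyp T f E B F₀ C₀) {X p : ℝ → R3} (hc : IsChar T f E B X p)
    {R1 d1 e1 D1 Q1 : ℝ} (he : 0 < e1) (hQ : 0 < Q1)
    {s : ℝ} (hs : s ∈ Ioo 0 T) :
    kap f X s (Mom.shell X p R1 d1 e1 D1 Q1 s) ≤ ENNReal.ofReal (C₀ * (1 / (Q1 * e1))) := by
  have hA := momShell_measurableSet hc.cX hc.cp hs R1 d1 e1 D1 Q1
  have h1 : kap f X s (Mom.shell X p R1 d1 e1 D1 Q1 s) =
      ∫⁻ q in Mom.shell X p R1 d1 e1 D1 Q1 s, 1 ∂(kap f X s) := by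
    rw [lintegral_const, Measure.restrict_apply_univ, one_mul]
  rw [h1]
  have h2 : ∫⁻ q in Mom.shell X p R1 d1 e1 D1 Q1 s, 1 ∂(kap f X s) ≤
      ∫⁻ q in Mom.shell X p R1 d1 e1 D1 Q1 s, ENNReal.ofReal (1 / (Q1 * e1)) *
        ENNReal.ofReal (ep X s q.1 q.2 * gam q.2) ∂(kap f X s) := by
    refine setLIntegral_mono' hA (fun q hq => ?_)
    rw [← ENNReal.ofReal_mul (by positivity), ← ENNReal.ofReal_one]
    refine ENNReal.ofReal_le_ofReal ?_
    rw [one_div, ← div_eq_inv_mul, le_div_iff₀ (by positivity), one_mul, mul_comm Q1 e1]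
    exact mul_le_mul hq.2.2.1.1 hq.2.2.2.2.1 hQ.le (he.le.trans hq.2.2.1.1)
  refine h2.trans ?_
  rw [lintegral_const_mul' _ _ ENNReal.ofReal_ne_top]
  calc ENNReal.ofReal (1 / (Q1 * e1)) * ∫⁻ q in Mom.shell X p R1 d1 e1 D1 Q1 s,
        ENNReal.ofReal (ep X s q.1 q.2 * gam q.2) ∂(kap f X s)
      ≤ ENNReal.ofReal (1 / (Q1 * e1)) *
        ∫⁻ q, ENNReal.ofReal (ep X s q.1 q.2 * gam q.2) ∂(kap f X s) := by
        gcongr
        exact Measure.restrict_le_self
    _ ≤ ENNReal.ofReal (1 / (Q1 * e1)) * ENNReal.ofReal C₀ := by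
        gcongr
        exact le_trans le_add_self (h.flux X s hs)
    _ = ENNReal.ofReal (C₀ * (1 / (Q1 * e1))) := by
        rw [← ENNReal.ofReal_mul (by positivity), mul_comm]

theorem setLIntegral_Icc_Ioo (a b : ℝ) (φ : ℝ → ℝ≥0∞) :
    ∫⁻ s in Icc a b, φ s = ∫⁻ s in Ioo a b, φ s :=
  setLIntegral_congr Ioo_ae_eq_Icc.symm

/-- (c), explicit constant. -/
theorem occC' (hf : ContinuousOn (fun q : ℝ × R3 × R3 => f q.1 q.2.1 q.2.2) (Iio T ×ˢ univ))
    (h : EnHyp T f E B F₀ C₀) {X p : ℝ → R3} (hc : IsChar T f E B X p)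
    {R1 d1 e1 D1 Q1 : ℝ} (hR : 0 < R1) (hd : 0 < d1) (hQ : 0 < Q1)
    {a b : ℝ} (ha : 0 ≤ a) (hab : a ≤ b) (hb : b < T) :
    ∫⁻ s in Icc a b, kap f X s (Mom.shell X p R1 d1 e1 D1 Q1 s) ≤
      ENNReal.ofReal ((2 * C₀) * ((b - a + R1) / (Q1 * d1))) := by
  have hJ : Ioo a b ⊆ Ioo 0 T := Ioo_subset_Ioo ha hb.le
  rw [setLIntegral_Icc_Ioo]
  have h1 : ∫⁻ s in Ioo a b, kap f X s (Mom.shell X p R1 d1 e1 D1 Q1 s) =
      mu (ex T X) (gd T f) (Ioo a b) (shell (ex T X) (exV T p) R1 d1 e1 D1 Q1) := by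
    unfold mu
    refine setLIntegral_congr_fun measurableSet_Ioo (fun s hs => ?_)
    exact kap_shell hf hc.cX hc.cp (hJ hs) R1 d1 e1 D1 Q1
  rw [h1]
  have hE : ∀ τ, ∫⁻ y, ∫⁻ w, ENNReal.ofReal (gam w) * gd T f τ y w ≤ ENNReal.ofReal C₀ := by
    intro τ
    by_cases hτ : τ ∈ Ioo 0 T
    · refine le_trans (le_of_eq ?_) (h.en τ hτ)
      refine lintegral_congr (fun y => lintegral_congr (fun w => ?_))
      unfold gd
      rw [indicator_of_mem hτ, ← ENNReal.ofReal_mul (gam_pos w).le]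
    · have h0 : ∀ y w, ENNReal.ofReal (gam w) * gd T f τ y w = 0 := by
        intro y w
        unfold gd
        rw [indicator_of_notMem hτ, mul_zero]
      simp only [h0, lintegral_zero, zero_le]
  refine (mu_le_c (ex_measurable hc.cX) (exV_measurable hc.cp) measurableSet_Ioo
    Ioo_subset_Icc_self (ex_hasDerivWithinAt hc hJ) (char_strictLip hc hJ) (gd_measurable hf)
    hR hd hQ (ENNReal.ofReal C₀) hE).trans ?_
  rw [← ENNReal.ofReal_mul (by
    have : 0 ≤ b - a := sub_nonneg.2 hab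
    positivity)]
  refine ENNReal.ofReal_le_ofReal ?_
  have h2 : 0 ≤ b - a := sub_nonneg.2 hab
  have h3 : (b - a + 2 * R1) / (Q1 * d1) ≤ 2 * ((b - a + R1) / (Q1 * d1)) := by
    rw [← mul_div_assoc]
    gcongr
    linarith
  nlinarith [h.C0]

/-- (A), explicit constant. -/
theorem coreA' (hf : ContinuousOn (fun q : ℝ × R3 × R3 => f q.1 q.2.1 q.2.2) (Iio T ×ˢ univ))
    (hE : ContinuousOn (fun q : ℝ × R3 => E q.1 q.2) (Iio T ×ˢ univ))
    (hB : ContinuousOn (fun q : ℝ × R3 => B q.1 q.2) (Iio T ×ˢ univ))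
    (h : EnHyp T f E B F₀ C₀) {X p : ℝ → R3} (hc : IsChar T f E B X p)
    {R1 d1 e1 D1 Q1 : ℝ} (he : 0 < e1) (hD : 0 < D1) (hQ : 0 < Q1)
    {s : ℝ} (hs : s ∈ Ioo 0 T) :
    (∫⁻ q in Mom.shell X p R1 d1 e1 D1 Q1 s, ENNReal.ofReal (Kg E B X s q.1) ∂(kap f X s)) ^ 2
      ≤ ENNReal.ofReal ((512 * F₀ * C₀) * (Q1 ^ 3 * min e1 D1)) *
        kap f X s (Mom.shell X p R1 d1 e1 D1 Q1 s) := by
  -- measurability of `Kg` in `y`
  have _hpt : Measurable (fun y : R3 => ((s - ‖X s - y‖, y) : ℝ × R3)) :=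
    (measurable_const.sub (measurable_const.sub measurable_id).norm).prodMk measurable_id
  have hptI : ∀ y : R3, ((s - ‖X s - y‖, y) : ℝ × R3) ∈ (Iio T ×ˢ univ : Set (ℝ × R3)) :=
    fun y => ⟨by
      have := norm_nonneg (X s - y)
      have := hs.2
      simp only [mem_Iio]
      linarith, mem_univ _⟩
  have hptc : Continuous (fun y : R3 => ((s - ‖X s - y‖, y) : ℝ × R3)) :=
    (continuous_const.sub (continuous_const.sub continuous_id).norm).prodMk continuous_id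
  have hEy : Measurable (fun y : R3 => E (s - ‖X s - y‖) y) := by
    have h0 : Continuous (fun y : R3 => E (s - ‖X s - y‖) y) :=
      hE.comp_continuous hptc hptI
    exact h0.measurable
  have hBy : Measurable (fun y : R3 => B (s - ‖X s - y‖) y) := by
    have h0 : Continuous (fun y : R3 => B (s - ‖X s - y‖) y) :=
      hB.comp_continuous hptc hptI
    exact h0.measurable
  have hny : Measurable (fun y : R3 => Mom.nn X s y) := by
    unfold Mom.nn
    exact ((measurable_const.sub measurable_id).norm.inv).smul (measurable_const.sub measurable_id)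
  have hcr : Measurable (fun y : R3 => cross3 (Mom.nn X s y) (E (s - ‖X s - y‖) y)) := by
    have hcc : Continuous (fun z : R3 × R3 => cross3 z.1 z.2) := by
      unfold cross3
      refine (PiLp.continuous_toLp 2 _).comp ?_
      refine continuous_pi (fun i => ?_)
      fin_cases i <;> simp <;> fun_prop
    have h0 := hcc.measurable.comp (hny.prodMk hEy)
    exact h0
  have hKm : Measurable (fun y : R3 => ENNReal.ofReal (Kg E B X s y)) := by
    have m1 : Measurable (fun y : R3 => ⟪Mom.nn X s y, E (s - ‖X s - y‖) y⟫_ℝ ^ 2) :=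
      (hny.inner hEy).pow_const 2
    have m0 : Measurable (fun y : R3 => ⟪Mom.nn X s y, B (s - ‖X s - y‖) y⟫_ℝ) := hny.inner hBy
    have m2 : Measurable (fun y : R3 => ⟪Mom.nn X s y, B (s - ‖X s - y‖) y⟫_ℝ ^ 2) :=
      m0.pow_const 2
    have m3 : Measurable (fun y : R3 => ⟪Mom.nn X s y, B (s - ‖X s - y‖) y⟫_ℝ • Mom.nn X s y) :=
      m0.smul hny
    have m4 : Measurable (fun y : R3 => B (s - ‖X s - y‖) y -
        ⟪Mom.nn X s y, B (s - ‖X s - y‖) y⟫_ℝ • Mom.nn X s y -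
          cross3 (Mom.nn X s y) (E (s - ‖X s - y‖) y)) := (hBy.sub m3).sub hcr
    have m5 : Measurable (fun y : R3 => ‖B (s - ‖X s - y‖) y -
        ⟪Mom.nn X s y, B (s - ‖X s - y‖) y⟫_ℝ • Mom.nn X s y -
          cross3 (Mom.nn X s y) (E (s - ‖X s - y‖) y)‖ ^ 2) := m4.norm.pow_const 2
    have m6 : Measurable (fun y : R3 => Kg E B X s y) :=
      Real.continuous_sqrt.measurable.comp ((m1.add m2).add m5)
    exact m6.ennreal_ofReal
  set K : R3 → ℝ≥0∞ := (Metric.ball (X s) s).indicator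
    (fun y => ENNReal.ofReal (Kg E B X s y)) with hKdef
  have hKm' : Measurable K := hKm.indicator Metric.isOpen_ball.measurableSet
  have hrw1 : ∫⁻ q in Mom.shell X p R1 d1 e1 D1 Q1 s, ENNReal.ofReal (Kg E B X s q.1) ∂(kap f X s) =
      ∫⁻ y, K y * ∫⁻ w, sden (ex T X) (gd T f)
        (shell (ex T X) (exV T p) R1 d1 e1 D1 Q1) s y w := by
    rw [lintegral_shell hf hc.cX hc.cp hs R1 d1 e1 D1 Q1
      (fun y => ENNReal.ofReal (Kg E B X s y)) hKm]
    refine lintegral_congr (fun y => ?_)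
    by_cases hy : y ∈ Metric.ball (X s) s
    · rw [hKdef, indicator_of_mem hy]
    · have h1 : s ≤ ‖X s - y‖ := by
        by_contra hcon
        push Not at hcon
        apply hy
        rw [Metric.mem_ball, dist_comm, dist_eq_norm]
        exact hcon
      have h0 : ∀ w, sden (ex T X) (gd T f) (shell (ex T X) (exV T p) R1 d1 e1 D1 Q1) s y w = 0 := by
        intro w
        unfold sden
        by_cases hw : (s, y, w) ∈ shell (ex T X) (exV T p) R1 d1 e1 D1 Q1
        · rw [indicator_of_mem hw]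
          unfold cden ret gd
          rw [indicator_of_notMem]
          intro h3
          have h4 := h3.1
          simp only [ex_eq hs] at h4
          linarith
        · rw [indicator_of_notMem hw]
      simp only [h0, lintegral_zero, mul_zero]
  have hK2 : ∫⁻ y, K y ^ (2 : ℝ) ≤ ENNReal.ofReal (2 * C₀) := by
    have e2 : ∫⁻ y, K y ^ (2 : ℝ) =
        2 * ∫⁻ y in Metric.ball (X s) s, ENNReal.ofReal (Kg E B X s y ^ 2 / 2) := by
      rw [← lintegral_indicator Metric.isOpen_ball.measurableSet,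
        ← lintegral_const_mul' _ _ (by norm_num)]
      refine lintegral_congr (fun y => ?_)
      by_cases hy : y ∈ Metric.ball (X s) s
      · rw [hKdef, indicator_of_mem hy, indicator_of_mem hy]
        have h5 : (0 : ℝ) ≤ Kg E B X s y := by
          unfold Kg
          exact Real.sqrt_nonneg _
        rw [ENNReal.rpow_two, ← ENNReal.ofReal_pow h5]
        rw [show (2 : ℝ≥0∞) = ENNReal.ofReal 2 by norm_num, ← ENNReal.ofReal_mul (by norm_num)]
        congr 1
        ring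
      · rw [hKdef, indicator_of_notMem hy, indicator_of_notMem hy, mul_zero]
        exact ENNReal.zero_rpow_of_pos (by norm_num)
    rw [e2, ENNReal.ofReal_mul (by norm_num), show ENNReal.ofReal 2 = 2 by norm_num]
    gcongr
    exact le_trans le_self_add (h.flux X s hs)
  have hA := costA_pt (X := ex T X) (V := exV T p) (ex_measurable hc.cX) (exV_measurable hc.cp)
    (gd_measurable (T := T) hf) (ENNReal.ofReal F₀) (gd_le h.fle) exV_le
    (R1 := R1) (d1 := d1) (e1 := e1) (D1 := D1) (Q := Q1) he.le hD.le hQ.le s K hKm'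
    (ENNReal.ofReal (2 * C₀)) hK2
  rw [hrw1, ← ENNReal.rpow_two, kap_shell hf hc.cX hc.cp hs]
  refine hA.trans (le_of_eq ?_)
  rw [← mul_assoc, ← ENNReal.ofReal_mul h.F0, ← ENNReal.ofReal_mul (by linarith [h.C0])]
  congr 2
  ring

/-- (B), explicit constant. -/
theorem coreB' (hf : ContinuousOn (fun q : ℝ × R3 × R3 => f q.1 q.2.1 q.2.2) (Iio T ×ˢ univ))
    (hB : ContinuousOn (fun q : ℝ × R3 => B q.1 q.2) (Iio T ×ˢ univ))
    (h : EnHyp T f E B F₀ C₀) {X p : ℝ → R3} (hc : IsChar T f E B X p)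
    {R1 d1 e1 D1 Q1 : ℝ} (hR : 0 < R1) (hd : 0 < d1) (he : 0 < e1) (hD : 0 < D1) (hQ : 0 < Q1)
    {a b : ℝ} (ha : 0 ≤ a) (hab : a ≤ b) (hb : b < T) :
    (∫⁻ s in Icc a b, ∫⁻ q in Mom.shell X p R1 d1 e1 D1 Q1 s,
        ENNReal.ofReal ‖B (Mom.ret X s q.1) q.1‖ ∂(kap f X s)) ^ 2
      ≤ ENNReal.ofReal ((512 * F₀ * C₀) * ((b - a + R1) / d1 * (Q1 ^ 3 * min e1 D1))) *
        ∫⁻ s in Icc a b, kap f X s (Mom.shell X p R1 d1 e1 D1 Q1 s) := by
  have hJ : Ioo a b ⊆ Ioo 0 T := Ioo_subset_Ioo ha hb.le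
  rw [setLIntegral_Icc_Ioo, setLIntegral_Icc_Ioo]
  have h1 : ∫⁻ s in Ioo a b, kap f X s (Mom.shell X p R1 d1 e1 D1 Q1 s) =
      mu (ex T X) (gd T f) (Ioo a b) (shell (ex T X) (exV T p) R1 d1 e1 D1 Q1) := by
    unfold mu
    refine setLIntegral_congr_fun measurableSet_Ioo (fun s hs => ?_)
    exact kap_shell hf hc.cX hc.cp (hJ hs) R1 d1 e1 D1 Q1
  set Bf : ℝ × R3 → ℝ≥0∞ := {z : ℝ × R3 | z.1 ∈ Ioo 0 T}.indicator
    (fun z => ENNReal.ofReal ‖B z.1 z.2‖) with hBf
  have hBfm : Measurable Bf := by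
    refine measurable_indicator_of_continuousOn (measurable_fst measurableSet_Ioo) ?_
    have h0 : ContinuousOn (fun z : ℝ × R3 => B z.1 z.2) {z : ℝ × R3 | z.1 ∈ Ioo 0 T} :=
      hB.mono (fun z hz => ⟨hz.2, mem_univ _⟩)
    exact ENNReal.continuous_ofReal.comp_continuousOn h0.norm
  have hrw1 : ∫⁻ s in Ioo a b, ∫⁻ q in Mom.shell X p R1 d1 e1 D1 Q1 s,
      ENNReal.ofReal ‖B (Mom.ret X s q.1) q.1‖ ∂(kap f X s) =
      ∫⁻ s in Ioo a b, ∫⁻ y, Bf (ret (ex T X) s y, y) * ∫⁻ w, sden (ex T X) (gd T f)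
        (shell (ex T X) (exV T p) R1 d1 e1 D1 Q1) s y w := by
    refine setLIntegral_congr_fun measurableSet_Ioo (fun s hs => ?_)
    have hs' := hJ hs
    have hptc : Continuous (fun y : R3 => ((s - ‖X s - y‖, y) : ℝ × R3)) :=
      (continuous_const.sub (continuous_const.sub continuous_id).norm).prodMk continuous_id
    have hptI : ∀ y : R3, ((s - ‖X s - y‖, y) : ℝ × R3) ∈ (Iio T ×ˢ univ : Set (ℝ × R3)) :=
      fun y => ⟨by
        have := norm_nonneg (X s - y)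
        have := hs'.2
        simp only [mem_Iio]
        linarith, mem_univ _⟩
    have hKm : Measurable (fun y : R3 => ENNReal.ofReal ‖B (Mom.ret X s y) y‖) := by
      have h0 : Continuous (fun y : R3 => B (s - ‖X s - y‖) y) :=
        hB.comp_continuous hptc hptI
      exact (ENNReal.continuous_ofReal.comp h0.norm).measurable
    have h2 := lintegral_shell hf hc.cX hc.cp hs' R1 d1 e1 D1 Q1
      (fun y => ENNReal.ofReal ‖B (Mom.ret X s y) y‖) hKm
    refine h2.trans ?_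
    refine lintegral_congr (fun y => ?_)
    by_cases hy : s - ‖X s - y‖ ∈ Ioo 0 T
    · have h3 : ((ret (ex T X) s y, y) : ℝ × R3) ∈ {z : ℝ × R3 | z.1 ∈ Ioo 0 T} := by
        unfold ret
        rw [ex_eq hs']
        exact hy
      rw [hBf, indicator_of_mem h3]
      unfold ret Mom.ret
      simp only [ex_eq hs']
    · have h0 : ∀ w, sden (ex T X) (gd T f) (shell (ex T X) (exV T p) R1 d1 e1 D1 Q1) s y w = 0 := by
        intro w
        unfold sden
        by_cases hw : (s, y, w) ∈ shell (ex T X) (exV T p) R1 d1 e1 D1 Q1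
        · rw [indicator_of_mem hw]
          unfold cden ret gd
          simp only [ex_eq hs']
          exact indicator_of_notMem hy _
        · rw [indicator_of_notMem hw]
      simp only [h0, lintegral_zero, mul_zero]
  have hE : ∀ τ, ∫⁻ y, Bf (τ, y) ^ (2 : ℝ) ≤ ENNReal.ofReal C₀ := by
    intro τ
    by_cases hτ : τ ∈ Ioo 0 T
    · refine le_trans (le_of_eq ?_) (h.enB τ hτ)
      refine lintegral_congr (fun y => ?_)
      have h3 : ((τ, y) : ℝ × R3) ∈ {z : ℝ × R3 | z.1 ∈ Ioo 0 T} := hτ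
      rw [hBf, indicator_of_mem h3, ENNReal.rpow_two, ← ENNReal.ofReal_pow (norm_nonneg _)]
    · have h0 : ∀ y, Bf (τ, y) ^ (2 : ℝ) = 0 := by
        intro y
        have h3 : ((τ, y) : ℝ × R3) ∉ {z : ℝ × R3 | z.1 ∈ Ioo 0 T} := hτ
        rw [hBf, indicator_of_notMem h3]
        exact ENNReal.zero_rpow_of_pos (by norm_num)
      simp only [h0, lintegral_zero, zero_le]
  have hmain := costB_int (X := ex T X) (V := exV T p) (ex_measurable hc.cX)
    (exV_measurable hc.cp) measurableSet_Ioo Ioo_subset_Icc_self (ex_hasDerivWithinAt hc hJ)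
    (char_strictLip hc hJ) (gd_measurable (T := T) hf) (ENNReal.ofReal F₀) (gd_le h.fle) exV_le
    (R1 := R1) (d1 := d1) (e1 := e1) (D1 := D1) (Q := Q1) hR hd he.le hD.le hQ.le Bf hBfm
    (ENNReal.ofReal C₀) hE
  rw [hrw1, h1]
  have hba : 0 ≤ b - a := sub_nonneg.2 hab
  have hmin : 0 < min e1 D1 := lt_min he hD
  calc (∫⁻ s in Ioo a b, ∫⁻ y, Bf (ret (ex T X) s y, y) * ∫⁻ w, sden (ex T X) (gd T f)
        (shell (ex T X) (exV T p) R1 d1 e1 D1 Q1) s y w) ^ 2
      ≤ ((ENNReal.ofReal ((b - a + 2 * R1) / d1) * ENNReal.ofReal C₀) ^ (1 / (2 : ℝ)) *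
        (ENNReal.ofReal F₀ * ENNReal.ofReal (256 * Q1 ^ 3 * min e1 D1) *
          mu (ex T X) (gd T f) (Ioo a b)
            (shell (ex T X) (exV T p) R1 d1 e1 D1 Q1)) ^ (1 / (2 : ℝ))) ^ 2 := by
        gcongr
    _ = (ENNReal.ofReal ((b - a + 2 * R1) / d1) * ENNReal.ofReal C₀) *
        (ENNReal.ofReal F₀ * ENNReal.ofReal (256 * Q1 ^ 3 * min e1 D1) *
          mu (ex T X) (gd T f) (Ioo a b)
            (shell (ex T X) (exV T p) R1 d1 e1 D1 Q1)) := by
        rw [← ENNReal.rpow_two, ENNReal.mul_rpow_of_nonneg _ _ (by norm_num : (0 : ℝ) ≤ 2),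
          rpow_half_two, rpow_half_two]
    _ = ENNReal.ofReal ((b - a + 2 * R1) / d1 * C₀ * (F₀ * (256 * Q1 ^ 3 * min e1 D1))) *
          mu (ex T X) (gd T f) (Ioo a b) (shell (ex T X) (exV T p) R1 d1 e1 D1 Q1) := by
        rw [← ENNReal.ofReal_mul (by positivity), ← ENNReal.ofReal_mul h.F0, ← mul_assoc,
          ← ENNReal.ofReal_mul (mul_nonneg (by positivity) h.C0)]
    _ ≤ ENNReal.ofReal ((512 * F₀ * C₀) * ((b - a + R1) / d1 * (Q1 ^ 3 * min e1 D1))) *
          mu (ex T X) (gd T f) (Ioo a b) (shell (ex T X) (exV T p) R1 d1 e1 D1 Q1) := by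
        refine mul_le_mul' (ENNReal.ofReal_le_ofReal ?_) le_rfl
        have h3 : (b - a + 2 * R1) / d1 ≤ 2 * ((b - a + R1) / d1) := by
          rw [← mul_div_assoc]
          gcongr
          linarith
        have h4 : 0 ≤ C₀ * (F₀ * (256 * Q1 ^ 3 * min e1 D1)) :=
          mul_nonneg h.C0 (mul_nonneg h.F0 (by positivity))
        calc (b - a + 2 * R1) / d1 * C₀ * (F₀ * (256 * Q1 ^ 3 * min e1 D1))
            = (b - a + 2 * R1) / d1 * (C₀ * (F₀ * (256 * Q1 ^ 3 * min e1 D1))) := by ring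
          _ ≤ 2 * ((b - a + R1) / d1) * (C₀ * (F₀ * (256 * Q1 ^ 3 * min e1 D1))) :=
              mul_le_mul_of_nonneg_right h3 h4
          _ = (512 * F₀ * C₀) * ((b - a + R1) / d1 * (Q1 ^ 3 * min e1 D1)) := by ring

/-- the five Props of `MomIface`. -/
theorem cost_all (hf : ContinuousOn (fun q : ℝ × R3 × R3 => f q.1 q.2.1 q.2.2) (Iio T ×ˢ univ))
    (hE : ContinuousOn (fun q : ℝ × R3 => E q.1 q.2) (Iio T ×ˢ univ))
    (hB : ContinuousOn (fun q : ℝ × R3 => B q.1 q.2) (Iio T ×ˢ univ))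
    (h : EnHyp T f E B F₀ C₀) :
    Mom.OccA T f E B ∧ Mom.OccB T f E B ∧ Mom.OccC T f E B ∧ Mom.CoreA T f E B ∧
      Mom.CoreB T f E B := by
  refine ⟨⟨2 ^ 16 * F₀, mul_nonneg (by norm_num) h.F0, ?_⟩, ⟨C₀, h.C0, ?_⟩,
    ⟨2 * C₀, mul_nonneg (by norm_num) h.C0, ?_⟩,
    ⟨512 * F₀ * C₀, mul_nonneg (mul_nonneg (by norm_num) h.F0) h.C0, ?_⟩,
    ⟨512 * F₀ * C₀, mul_nonneg (mul_nonneg (by norm_num) h.F0) h.C0, ?_⟩⟩
  · intro X p hc R1 d1 e1 D1 Q1 hR hd he hD hQ s hs
    exact occA' hf h hc hR hd he hD hQ hs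
  · intro X p hc R1 d1 e1 D1 Q1 hR hd he hD hQ s hs
    exact occB' h hc he hQ hs
  · intro X p hc R1 d1 e1 D1 Q1 hR hd he hD hQ a b ha hab hb
    exact occC' hf h hc hR hd hQ ha hab hb
  · intro X p hc R1 d1 e1 D1 Q1 hR hd he hD hQ s hs
    exact coreA' hf hE hB h hc he hD hQ hs
  · intro X p hc R1 d1 e1 D1 Q1 hR hd he hD hQ a b ha hab hb
    exact coreB' hf hB h hc hR hd he hD hQ ha hab hb

/-- the five Props of `MomIface` for a solution of the class `Mom.SmoothSol`. -/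
theorem cost_sol {f₀ : R3 → R3 → ℝ} {E₀ B₀ : R3 → R3} (hs : Mom.SmoothSol T f₀ E₀ B₀ f E B)
    (h : EnHyp T f E B F₀ C₀) :
    Mom.OccA T f E B ∧ Mom.OccB T f E B ∧ Mom.OccC T f E B ∧ Mom.CoreA T f E B ∧
      Mom.CoreB T f E B :=
  cost_all hs.smf.continuousOn hs.smE.continuousOn hs.smB.continuousOn h

end main

end Crest.Agent.R106.Cost
end
end

-- ▼ part R106/EnMain

/-!
Row 106, module EN (helper412), part 7: the structure `Cost.EnHyp` from the energy identity and the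
cone flux.
-/

set_option autoImplicit false

open MeasureTheory Filter Set Topology
open Crest.AnalysisR.VecCalc3 Crest.AnalysisR.PDE.RVM
open scoped ENNReal InnerProductSpace

namespace Crest.Agent.R106.En

variable {T : ℝ} {f : ℝ → R3 → R3 → ℝ} {E B : ℝ → R3 → R3} {f₀ : R3 → R3 → ℝ} {E₀ B₀ : R3 → R3}

lemma gam_eq (v : R3) : GSR.gam v = gam v := rfl

/-- finiteness of the energy. -/
lemma en_ne_top (h : Reg T f E B) {t : ℝ} (ht : t ∈ Ico 0 T) (hE : MemLp (E t) 2) (hB : MemLp (B t) 2) :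
    en f E B t ≠ ⊤ := by
  have i1 : Integrable (fun x => emE E B t x) := by
    have h1 := hE.integrable_norm_pow (by norm_num : (2 : ℕ) ≠ 0)
    have h2 := hB.integrable_norm_pow (by norm_num : (2 : ℕ) ≠ 0)
    have h3 := (h1.add h2).div_const 2
    refine h3.congr (Eventually.of_forall fun x => ?_)
    simp only [Pi.add_apply]
    rw [emE_eq]
  have i2 : Integrable (fun z : R3 × R3 => gam z.2 * f t z.1 z.2) := by
    have hc : Continuous (fun z : R3 × R3 => gam z.2 * f t z.1 z.2) :=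
      (continuous_gam.comp continuous_snd).mul (h.continuous_f ht)
    refine hc.integrable_of_hasCompactSupport ?_
    obtain ⟨R, hR⟩ := h.exists_R ht
    refine HasCompactSupport.intro (isCompact_closedBall (0 : R3 × R3) R) fun z hz => ?_
    have hz' : R < ‖z‖ := by simpa [Metric.mem_closedBall, dist_zero_right] using hz
    rw [Prod.norm_def] at hz'
    rw [hR z.1 z.2 (lt_max_iff.1 hz')]
    simp
  unfold en
  rw [ENNReal.add_ne_top]
  exact ⟨i1.lintegral_lt_top.ne, i2.lintegral_lt_top.ne⟩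

lemma en_eq_iterated (h : Reg T f E B) {t : ℝ} (ht : t ∈ Ico 0 T) :
    ∫⁻ z : R3 × R3, ENNReal.ofReal (gam z.2 * f t z.1 z.2)
      = ∫⁻ y, ∫⁻ w, ENNReal.ofReal (gam w * f t y w) := by
  have hc : Continuous (fun z : R3 × R3 => gam z.2 * f t z.1 z.2) :=
    (continuous_gam.comp continuous_snd).mul (h.continuous_f ht)
  rw [Measure.volume_eq_prod, lintegral_prod _ hc.measurable.ennreal_ofReal.aemeasurable]

/-- `K_g² / 2 ≤ ` electromagnetic flux density (equality off the vertex). -/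
lemma Kg_le (X : ℝ → R3) (s : ℝ) (y : R3) :
    Mom.Kg E B X s y ^ 2 / 2 ≤ qE (om0 (X s) y) E B (s - ‖y - X s‖) y := by
  have hret : Mom.ret X s y = s - ‖y - X s‖ := by
    unfold Mom.ret; rw [norm_sub_rev]
  have hsq : Mom.Kg E B X s y ^ 2 = ⟪Mom.nn X s y, E (Mom.ret X s y) y⟫_ℝ ^ 2
      + ⟪Mom.nn X s y, B (Mom.ret X s y) y⟫_ℝ ^ 2
      + ‖B (Mom.ret X s y) y - ⟪Mom.nn X s y, B (Mom.ret X s y) y⟫_ℝ • Mom.nn X s y
        - cross3 (Mom.nn X s y) (E (Mom.ret X s y) y)‖ ^ 2 := by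
    unfold Mom.Kg
    exact Real.sq_sqrt (by positivity)
  have hom : om0 (X s) y = - Mom.nn X s y := by
    unfold om0 Mom.nn
    rw [norm_sub_rev, ← smul_neg, neg_sub]
  rw [hsq, hom, hret]
  set n := Mom.nn X s y with hn
  set e := E (s - ‖y - X s‖) y with he
  set b := B (s - ‖y - X s‖) y with hb
  unfold qE
  rw [emE_eq, ← he, ← hb, inner_neg_left]
  by_cases hy : X s = y
  · have hn0 : n = 0 := by rw [hn]; unfold Mom.nn; rw [hy]; simp
    have hc0 : cross3 0 e = 0 := by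
      ext i; fin_cases i <;> simp
    rw [hn0, hc0]
    simp only [inner_zero_left, zero_smul, sub_zero]
    nlinarith [sq_nonneg ‖e‖]
  · have hn1 : ‖n‖ = 1 := by
      rw [hn]; unfold Mom.nn
      rw [norm_smul, norm_inv, norm_norm]
      exact inv_mul_cancel₀ (norm_ne_zero_iff.2 (sub_ne_zero.2 hy))
    have hn2 : n 0 ^ 2 + n 1 ^ 2 + n 2 ^ 2 = 1 := by
      rw [← norm_sq_coord, hn1]; norm_num
    refine le_of_eq ?_
    simp only [norm_sq_coord, inner_coord, cross3_0, cross3_1, cross3_2, PiLp.sub_apply,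
      PiLp.smul_apply, smul_eq_mul]
    linear_combination (1 / 2) * ((n 0 * b 0 + n 1 * b 1 + n 2 * b 2) ^ 2
      + (e 0 ^ 2 + e 1 ^ 2 + e 2 ^ 2)) * hn2

lemma qP_eq (X : ℝ → R3) (s : ℝ) (q : R3 × R3) :
    qP (om0 (X s) q.1) f (s - ‖q.1 - X s‖) q
      = f (Mom.ret X s q.1) q.1 q.2 * (Mom.ep X s q.1 q.2 * GSR.gam q.2) := by
  have hret : Mom.ret X s q.1 = s - ‖q.1 - X s‖ := by
    unfold Mom.ret; rw [norm_sub_rev]
  have hom : om0 (X s) q.1 = - Mom.nn X s q.1 := by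
    unfold om0 Mom.nn
    rw [norm_sub_rev, ← smul_neg, neg_sub]
  unfold qP Mom.ep
  rw [hret, hom, gam_eq, inner_neg_left]
  have h1 : ⟪Mom.nn X s q.1, q.2⟫_ℝ = gam q.2 * ⟪Mom.nn X s q.1, relVel q.2⟫_ℝ := by
    rw [relVel_eq, inner_smul_right, ← mul_assoc, mul_inv_cancel₀ (gam_pos q.2).ne', one_mul]
  rw [h1]
  ring

/-- `Cost.EnHyp` from nonnegativity and the sup bound. -/
theorem enHyp_of (hsol : IsClassicalSolutionOn T f₀ E₀ B₀ f E B)
    (hf : ∀ t ∈ Ico 0 T, ∀ x v, 0 ≤ f t x v) {F₀ : ℝ} (hF0 : 0 ≤ F₀)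
    (hfle : ∀ t ∈ Ioo 0 T, ∀ x v, f t x v ≤ F₀) : ∃ C₀, Cost.EnHyp T f E B F₀ C₀ := by
  by_cases hT : 0 < T
  swap
  · exact ⟨0, hF0, le_rfl, hfle, fun τ hτ => absurd (hτ.1.trans hτ.2) hT,
      fun τ hτ => absurd (hτ.1.trans hτ.2) hT, fun X s hs => absurd (hs.1.trans hs.2) hT⟩
  have h : Reg T f E B := Reg.of_sol hsol
  have hz : (0 : ℝ) ∈ Ico 0 T := ⟨le_rfl, hT⟩
  have hL2 := hsol.2.2.2.2.2.2.2.2 0 hz
  have htop := en_ne_top h hz hL2.1 hL2.2.1
  have hC : ENNReal.ofReal (2 * (en f E B 0).toReal) = 2 * en f E B 0 := by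
    rw [ENNReal.ofReal_mul (by norm_num), ENNReal.ofReal_toReal htop]
    simp
  have hle : en f E B 0 ≤ ENNReal.ofReal (2 * (en f E B 0).toReal) := by
    rw [hC, two_mul]; exact le_self_add
  refine ⟨2 * (en f E B 0).toReal, hF0, by positivity, hfle, fun τ hτ => ?_, fun τ hτ => ?_,
    fun X s hs => ?_⟩
  · have hτ' := Ioo_subset_Ico_self hτ
    refine le_trans ?_ hle
    rw [← energy_eq h hf hz hτ']
    have h1 := en_eq_iterated h hτ'
    simp only [gam_eq]
    rw [← h1]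
    unfold en
    exact le_add_self
  · have hτ' := Ioo_subset_Ico_self hτ
    rw [hC, ← energy_eq h hf hz hτ']
    unfold en
    rw [mul_add]
    refine le_trans ?_ le_self_add
    rw [← lintegral_const_mul' _ _ (by norm_num)]
    refine lintegral_mono fun x => ?_
    have h3 : ‖B τ x‖ ^ 2 ≤ 2 * emE E B τ x := by
      rw [emE_eq]
      nlinarith [sq_nonneg ‖E τ x‖]
    refine (ENNReal.ofReal_le_ofReal h3).trans (le_of_eq ?_)
    rw [ENNReal.ofReal_mul (by norm_num)]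
    simp
  · have hs' := Ioo_subset_Ico_self hs
    refine le_trans ?_ ((sol_cone_flux h hf hs' (X s)).trans hle)
    refine add_le_add ?_ (le_of_eq ?_)
    · exact lintegral_mono fun y => ENNReal.ofReal_le_ofReal (Kg_le X s y)
    · unfold Mom.kap
      have hball : ∀ q ∈ Metric.ball (X s) s ×ˢ (univ : Set R3), Mom.ret X s q.1 ∈ Ico 0 T := by
        intro q hq
        have hx := hq.1
        rw [Metric.mem_ball, dist_eq_norm] at hx
        unfold Mom.ret
        rw [norm_sub_rev]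
        exact ⟨by linarith, by linarith [norm_nonneg (q.1 - X s), hs.2]⟩
      have hd : AEMeasurable (fun q : R3 × R3 => ENNReal.ofReal (f (Mom.ret X s q.1) q.1 q.2))
          (volume.restrict (Metric.ball (X s) s ×ˢ (univ : Set R3))) := by
        refine (ContinuousOn.aemeasurable ?_
          (Metric.isOpen_ball.measurableSet.prod MeasurableSet.univ)).ennreal_ofReal
        have hp : ContinuousOn (fun q : R3 × R3 => ((Mom.ret X s q.1, q) : ℝ × R3 × R3))
            (Metric.ball (X s) s ×ˢ (univ : Set R3)) := by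
          unfold Mom.ret
          exact (by fun_prop : Continuous fun q : R3 × R3 =>
            ((s - ‖X s - q.1‖, q) : ℝ × R3 × R3)).continuousOn
        exact h.hf.continuousOn.comp hp fun q hq => ⟨hball q hq, mem_univ _⟩
      have hnn : Measurable (fun q : R3 × R3 => Mom.nn X s q.1) := by
        unfold Mom.nn
        fun_prop
      have hg : AEMeasurable (fun q : R3 × R3 => ENNReal.ofReal (Mom.ep X s q.1 q.2 * GSR.gam q.2))
          (volume.restrict (Metric.ball (X s) s ×ˢ (univ : Set R3))) := by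
        refine Measurable.aemeasurable ?_
        refine Measurable.ennreal_ofReal ?_
        unfold Mom.ep
        have h1 : Measurable (fun q : R3 × R3 => relVel q.2) :=
          (continuous_relVel.comp continuous_snd).measurable
        have h2 : Measurable (fun q : R3 × R3 => GSR.gam q.2) :=
          (continuous_gam.comp continuous_snd).measurable
        exact (measurable_const.sub (hnn.inner h1)).mul h2
      rw [lintegral_withDensity_eq_lintegral_mul₀ hd hg]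
      refine setLIntegral_congr_fun (Metric.isOpen_ball.measurableSet.prod MeasurableSet.univ)
        fun q hq => ?_
      simp only [Pi.mul_apply]
      rw [qP_eq X s q, ENNReal.ofReal_mul (hf _ (hball q hq) _ _)]

end Crest.Agent.R106.En
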