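import Crest.Agent.R106.EnFlux
import Crest.Agent.R106.EnMain

-- ▼ part R106/EnSign
section

/-!
Row 106, module EN (helper412), part 8: sign and sup bound of the density, without characteristics:
for a C^1 function `β` with `β 0 = 0`, `∫∫ β(f(t))` is constant in time.
-/

set_option autoImplicit false

open MeasureTheory Filter Set Topology
open Crest.AnalysisR.VecCalc3 Crest.AnalysisR.PDE.RVM
open scoped ENNReal

namespace Crest.Agent.R106.En

variable {T : ℝ} {f : ℝ → R3 → R3 → ℝ} {E B : ℝ → R3 → R3}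

lemma contDiff_relVel_coord (i : Fin 3) : ContDiff ℝ 1 (fun v : R3 => relVel v i) := by
  have : (fun v : R3 => relVel v i) = fun v => (gam v)⁻¹ * v i := funext fun v => relVel_apply v i
  rw [this]
  exact (contDiff_gam.inv fun v => (gam_pos v).ne').mul (contDiff_coord i)

/-- composition of a CS-type density with β. -/
lemma cs_beta (h : Reg T f E B) {β : ℝ → ℝ} (hβ : ContDiff ℝ 1 β) (hβ0 : β 0 = 0)
    {g : ℝ → R3 × R3 → ℝ}
    (hg : ContDiffOn ℝ 1 (fun p : ℝ × R3 × R3 => g p.1 p.2) (Ico 0 T ×ˢ univ)) :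
    CS T (fun t (z : R3 × R3) => g t z * β (f t z.1 z.2)) := by
  refine ⟨hg.mul (hβ.comp_contDiffOn h.hf), fun T' h0 h1 => ?_⟩
  obtain ⟨R, hR⟩ := h.supp T' h0 h1
  refine ⟨R, fun t ht z hz => ?_⟩
  have : R < ‖z.1‖ ∨ R < ‖z.2‖ := by
    rw [Prod.norm_def] at hz
    exact lt_max_iff.1 hz
  simp only [hR t ht z.1 z.2 this, hβ0, mul_zero]

/-- partial derivatives of the relativistic velocity: the symmetric matrix
`(δ_ij - û_i û_j)/γ`. -/
lemma hasFDerivAt_relVel (v : R3) (i : Fin 3) :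
    HasFDerivAt (fun v : R3 => relVel v i)
      ((gam v)⁻¹ • (EuclideanSpace.proj (𝕜 := ℝ) i : R3 →L[ℝ] ℝ)
        + v i • (-((gam v) ^ 2)⁻¹ • innerSL ℝ (relVel v))) v := by
  have h0 : (fun v : R3 => relVel v i) = fun v => (gam v)⁻¹ * v i := funext fun v => relVel_apply v i
  rw [h0]
  have h1 : HasFDerivAt (fun v => (gam v)⁻¹) (-((gam v) ^ 2)⁻¹ • innerSL ℝ (relVel v)) v := by
    have := (hasDerivAt_inv (gam_pos v).ne').comp_hasFDerivAt v (hasFDerivAt_gam v)
    exact this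
  exact h1.mul (EuclideanSpace.proj (𝕜 := ℝ) i : R3 →L[ℝ] ℝ).hasFDerivAt

/-- The pointwise identity: divergence form of the transport of `β(f)`. -/
lemma beta_pointwise (h : Reg T f E B) {β : ℝ → ℝ} (hβ : ContDiff ℝ 1 β) {t : ℝ} (ht : t ∈ Ioo 0 T)
    (x v : R3) :
    fderiv ℝ (fun p : ℝ × R3 × R3 => 1 * β (f p.1 p.2.1 p.2.2)) (t, x, v) (1, 0)
      + ∑ i : Fin 3, fderiv ℝ (fun z : R3 × R3 => relVel z.2 i * β (f t z.1 z.2)) (x, v) (ee i, 0)
      + ∑ i : Fin 3, fderiv ℝ (fun z : R3 × R3 =>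
          (E t z.1 i + cross3 (relVel z.2) (B t z.1) i) * β (f t z.1 z.2)) (x, v) (0, ee i)
    = 0 := by
  set p0 : ℝ × R3 × R3 := (t, x, v) with hp0
  have hf := hasFDerivAt_of (G := fun t (z : R3 × R3) => f t z.1 z.2) h.hf ht (x, v)
  have hb : HasDerivAt β (deriv β (f t x v)) (f t x v) :=
    ((hβ.differentiable one_ne_zero) _).hasDerivAt
  have hbf := HasDerivAt.comp_hasFDerivAt (h₂ := β) (t, x, v) hb hf
  have hproj : HasFDerivAt (fun p : ℝ × R3 × R3 => (p.1, p.2.1))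
      ((ContinuousLinearMap.fst ℝ ℝ (R3 × R3)).prod
        ((ContinuousLinearMap.fst ℝ R3 R3).comp (ContinuousLinearMap.snd ℝ ℝ (R3 × R3)))) p0 :=
    ((ContinuousLinearMap.fst ℝ ℝ (R3 × R3)).prod
        ((ContinuousLinearMap.fst ℝ R3 R3).comp (ContinuousLinearMap.snd ℝ ℝ (R3 × R3)))).hasFDerivAt
  have hproj2 : HasFDerivAt (fun p : ℝ × R3 × R3 => p.2.2)
      ((ContinuousLinearMap.snd ℝ R3 R3).comp (ContinuousLinearMap.snd ℝ ℝ (R3 × R3))) p0 :=
    ((ContinuousLinearMap.snd ℝ R3 R3).comp (ContinuousLinearMap.snd ℝ ℝ (R3 × R3))).hasFDerivAt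
  have hE := fun i => HasFDerivAt.comp (g := fun p : ℝ × R3 => E p.1 p.2 i) p0
    (hasFDerivAt_of (G := fun t x => E t x i) (contDiffOn_coord h.hE i) ht x) hproj
  have hB := fun i => HasFDerivAt.comp (g := fun p : ℝ × R3 => B p.1 p.2 i) p0
    (hasFDerivAt_of (G := fun t x => B t x i) (contDiffOn_coord h.hB i) ht x) hproj
  have hr := fun i : Fin 3 => HasFDerivAt.comp (g := fun w : R3 => relVel w i) p0
    (hasFDerivAt_relVel v i) hproj2
  obtain ⟨hV, -⟩ := h.eq t ht.1 ht.2 x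
  have hV := hV v
  have hft : deriv (fun s => f s x v) t = fderiv ℝ (fun p : ℝ × R3 × R3 => f p.1 p.2.1 p.2.2) p0 (1, 0) :=
    (hasDerivAt_of (G := fun t (z : R3 × R3) => f t z.1 z.2) h.hf ht (x, v)).deriv
  have hfx : ∀ i, pderiv (fun y => f t y v) i x
      = fderiv ℝ (fun p : ℝ × R3 × R3 => f p.1 p.2.1 p.2.2) p0 (0, (ee i, 0)) := fun i => by
    have h1 : HasFDerivAt (fun y : R3 => ((t, y, v) : ℝ × R3 × R3))
      ((ContinuousLinearMap.inr ℝ ℝ (R3 × R3)).comp (ContinuousLinearMap.inl ℝ R3 R3)) x :=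
      (hasFDerivAt_prodMk_right t (x, v)).comp x (hasFDerivAt_prodMk_left x v)
    have h2 := (hf.comp x h1).fderiv
    unfold pderiv
    have h3 : fderiv ℝ (fun y => f t y v) x = _ := h2
    rw [h3]
    rfl
  have hfv : ∀ i, pderiv (fun w => f t x w) i v
      = fderiv ℝ (fun p : ℝ × R3 × R3 => f p.1 p.2.1 p.2.2) p0 (0, (0, ee i)) := fun i => by
    have h1 : HasFDerivAt (fun y : R3 => ((t, x, y) : ℝ × R3 × R3))
      ((ContinuousLinearMap.inr ℝ ℝ (R3 × R3)).comp (ContinuousLinearMap.inr ℝ R3 R3)) v :=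
      (hasFDerivAt_prodMk_right t (x, v)).comp v (hasFDerivAt_prodMk_right x v)
    have h2 := (hf.comp v h1).fderiv
    unfold pderiv
    have h3 : fderiv ℝ (fun w => f t x w) v = _ := h2
    rw [h3]
    rfl
  simp only [hft, hfx, hfv, Fin.sum_univ_three, cross3_0, cross3_1, cross3_2] at hV
  have h1 : fderiv ℝ (fun p : ℝ × R3 × R3 => 1 * β (f p.1 p.2.1 p.2.2)) p0 = _ :=
    (hbf.const_mul 1).fderiv
  have hk : ∀ (u : ℝ × R3 × R3 → ℝ) (u' : ℝ × R3 × R3 →L[ℝ] ℝ), HasFDerivAt u u' p0 →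
      ∀ w, fderiv ℝ (fun y : R3 × R3 => u (t, y)) (x, v) w = u' (0, w) := by
    intro u u' hu w
    have := (hu.comp (x, v) (hasFDerivAt_prodMk_right t (x, v))).fderiv
    have h2 : fderiv ℝ (fun y : R3 × R3 => u (t, y)) (x, v)
      = u'.comp (ContinuousLinearMap.inr ℝ ℝ (R3 × R3)) := this
    rw [h2]; rfl
  have a0 := hk _ _ ((hr 0).mul hbf) (ee 0, 0)
  have a1 := hk _ _ ((hr 1).mul hbf) (ee 1, 0)
  have a2 := hk _ _ ((hr 2).mul hbf) (ee 2, 0)
  have b0 := hk _ _ (((hE 0).add (((hr 1).mul (hB 2)).sub ((hr 2).mul (hB 1)))).mul hbf) (0, ee 0)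
  have b1 := hk _ _ (((hE 1).add (((hr 2).mul (hB 0)).sub ((hr 0).mul (hB 2)))).mul hbf) (0, ee 1)
  have b2 := hk _ _ (((hE 2).add (((hr 0).mul (hB 1)).sub ((hr 1).mul (hB 0)))).mul hbf) (0, ee 2)
  rw [h1]
  simp only [Pi.mul_apply, Pi.sub_apply, Pi.add_apply, Function.comp_apply] at a0 a1 a2 b0 b1 b2
  simp only [Fin.sum_univ_three, cross3_0, cross3_1, cross3_2, a0, a1, a2, b0, b1, b2]
  have hin : ∀ i, inner ℝ (relVel v) (ee i) = relVel v i := fun i => by
    rw [EuclideanSpace.inner_single_right]; simp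
  have hpr : ∀ i j : Fin 3, (EuclideanSpace.proj (𝕜 := ℝ) i : R3 →L[ℝ] ℝ) (ee j)
      = if i = j then 1 else 0 := fun i j => by
    simp
  have hr0 := gam_mul_relVel v 0
  have hr1 := gam_mul_relVel v 1
  have hr2 := gam_mul_relVel v 2
  simp only [smul_eq_mul,
    _root_.add_apply, _root_.smul_apply, _root_.sub_apply,
    ContinuousLinearMap.comp_apply, ContinuousLinearMap.prod_apply, ContinuousLinearMap.coe_fst',
    ContinuousLinearMap.coe_snd', innerSL_apply_apply, hin, hp0, Prod.mk_zero_zero, map_zero, hpr]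
  simp only [hp0] at hV
  simp only [Fin.reduceEq, if_false]
  simp only [← hr0, ← hr1, ← hr2]
  linear_combination (deriv β (f t x v)) * hV

/-- `∫∫ β(f(t))` is constant in time. -/
theorem beta_const (h : Reg T f E B) {β : ℝ → ℝ} (hβ : ContDiff ℝ 1 β) (hβ0 : β 0 = 0) {t : ℝ}
    (ht : t ∈ Ico 0 T) :
    ∫ z : R3 × R3, β (f t z.1 z.2) = ∫ z : R3 × R3, β (f 0 z.1 z.2) := by
  have hz : (0 : ℝ) ∈ Ico 0 T := ⟨le_rfl, lt_of_le_of_lt ht.1 ht.2⟩
  have hone : ContDiffOn ℝ 1 (fun _ : ℝ × R3 × R3 => (1 : ℝ)) (Ico 0 T ×ˢ univ) := contDiffOn_const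
  have c0 : CS T (fun t (z : R3 × R3) => 1 * β (f t z.1 z.2)) :=
    cs_beta h hβ hβ0 (g := fun _ _ => 1) hone
  have cK : ∀ i, CS T (fun t (z : R3 × R3) => relVel z.2 i * β (f t z.1 z.2)) := fun i =>
    cs_beta h hβ hβ0 (g := fun _ z => relVel z.2 i) (contDiffOn_momentum (contDiff_relVel_coord i))
  have cL : ∀ i, CS T (fun t (z : R3 × R3) =>
      (E t z.1 i + cross3 (relVel z.2) (B t z.1) i) * β (f t z.1 z.2)) := by
    have hE := fun i => contDiffOn_phase (g := fun t x => E t x i) (contDiffOn_coord h.hE i)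
    have hB := fun i => contDiffOn_phase (g := fun t x => B t x i) (contDiffOn_coord h.hB i)
    have hv := fun i => contDiffOn_momentum (S := Ico 0 T ×ˢ univ) (contDiff_relVel_coord i)
    intro i
    refine cs_beta h hβ hβ0 (g := fun t z => E t z.1 i + cross3 (relVel z.2) (B t z.1) i) ?_
    refine (hE i).add ?_
    fin_cases i
    · simpa using ((hv 1).mul (hB 2)).sub ((hv 2).mul (hB 1))
    · simpa using ((hv 2).mul (hB 0)).sub ((hv 0).mul (hB 2))
    · simpa using ((hv 0).mul (hB 1)).sub ((hv 1).mul (hB 0))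
  have hder : ∀ t ∈ Ioo 0 T, HasDerivAt (fun t => ∫ z : R3 × R3, 1 * β (f t z.1 z.2)) 0 t := by
    intro t ht
    obtain ⟨i0, d0⟩ := c0.hasDerivAt_integral volume ht
    have hK := fun i => (cK i).integral_space_deriv volume ht (ee i, 0)
    have hL := fun i => (cL i).integral_space_deriv volume ht (0, ee i)
    have iK := integrable_finsetSum (μ := (volume : Measure (R3 × R3))) (Finset.univ : Finset (Fin 3))
      fun i _ => (hK i).1
    have iL := integrable_finsetSum (μ := (volume : Measure (R3 × R3))) (Finset.univ : Finset (Fin 3))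
      fun i _ => (hL i).1
    have zK : ∫ z, ∑ i : Fin 3, fderiv ℝ (fun z : R3 × R3 => relVel z.2 i * β (f t z.1 z.2)) z (ee i, 0)
        = 0 := by
      rw [integral_finsetSum _ fun i _ => (hK i).1]
      exact Finset.sum_eq_zero fun i _ => (hK i).2
    have zL : ∫ z, ∑ i : Fin 3, fderiv ℝ (fun z : R3 × R3 =>
          (E t z.1 i + cross3 (relVel z.2) (B t z.1) i) * β (f t z.1 z.2)) z (0, ee i) = 0 := by
      rw [integral_finsetSum _ fun i _ => (hL i).1]
      exact Finset.sum_eq_zero fun i _ => (hL i).2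
    have s1 := integral_add (i0.add iK) iL
    have s2 := integral_add i0 iK
    simp only [Pi.add_apply] at s1
    have hz0 : ∀ z : R3 × R3,
      (fderiv ℝ (fun p : ℝ × R3 × R3 => 1 * β (f p.1 p.2.1 p.2.2)) (t, z) (1, 0)
      + ∑ i : Fin 3, fderiv ℝ (fun z : R3 × R3 => relVel z.2 i * β (f t z.1 z.2)) z (ee i, 0))
      + ∑ i : Fin 3, fderiv ℝ (fun z : R3 × R3 =>
          (E t z.1 i + cross3 (relVel z.2) (B t z.1) i) * β (f t z.1 z.2)) z (0, ee i)
      = 0 := fun z => beta_pointwise h hβ ht z.1 z.2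
    rw [s2, zK, zL, add_zero, add_zero] at s1
    simp only [hz0, integral_zero] at s1
    rw [← s1] at d0
    exact d0
  have hcont := c0.continuousOn_integral (volume : Measure (R3 × R3))
  have hanti : AntitoneOn (fun t => ∫ z : R3 × R3, 1 * β (f t z.1 z.2)) (Ico 0 T) := by
    refine antitoneOn_of_deriv_nonpos (convex_Ico 0 T) hcont ?_ ?_
    · rw [interior_Ico]
      exact fun t ht => (hder t ht).differentiableAt.differentiableWithinAt
    · rw [interior_Ico]
      exact fun t ht => (hder t ht).deriv.le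
  have hmono : MonotoneOn (fun t => ∫ z : R3 × R3, 1 * β (f t z.1 z.2)) (Ico 0 T) := by
    refine monotoneOn_of_deriv_nonneg (convex_Ico 0 T) hcont ?_ ?_
    · rw [interior_Ico]
      exact fun t ht => (hder t ht).differentiableAt.differentiableWithinAt
    · rw [interior_Ico]
      exact fun t ht => (hder t ht).deriv.ge
  have := le_antisymm (hanti hz ht ht.1) (hmono hz ht ht.1)
  simpa only [one_mul] using this

/-- if `β ≥ 0` vanishes on the initial values, then it vanishes on all values. -/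
lemma beta_zero (h : Reg T f E B) {β : ℝ → ℝ} (hβ : ContDiff ℝ 1 β) (hβ0 : β 0 = 0)
    (hpos : ∀ s, 0 ≤ β s) (hini : ∀ x v, β (f 0 x v) = 0) {t : ℝ} (ht : t ∈ Ico 0 T) (x v : R3) :
    β (f t x v) = 0 := by
  have h1 := beta_const h hβ hβ0 ht
  simp only [hini, integral_zero] at h1
  have hc : Continuous (fun z : R3 × R3 => β (f t z.1 z.2)) := hβ.continuous.comp (h.continuous_f ht)
  have hint : Integrable (fun z : R3 × R3 => β (f t z.1 z.2)) := by
    have c0 := cs_beta (T := T) h hβ hβ0 (g := fun _ _ => 1) contDiffOn_const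
    simpa only [one_mul] using c0.integrable volume ht
  have h2 := (integral_eq_zero_iff_of_nonneg (fun z => hpos _) hint).1 h1
  have h3 := (hc.ae_eq_iff_eq (μ := (volume : Measure (R3 × R3))) continuous_const).1 h2
  exact congrFun h3 (x, v)

/-- **Positivity.** -/
theorem f_nonneg (h : Reg T f E B) (h0 : ∀ x v, 0 ≤ f 0 x v) :
    ∀ t ∈ Ico 0 T, ∀ x v, 0 ≤ f t x v := by
  intro t ht x v
  have h1 := beta_zero h (β := fun s => expNegInvGlue (-s))
    ((expNegInvGlue.contDiff (n := 1)).comp contDiff_neg) (by simp [expNegInvGlue.zero])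
    (fun s => expNegInvGlue.nonneg _)
    (fun x v => expNegInvGlue.zero_of_nonpos (by linarith [h0 x v])) ht x v
  have h2 := expNegInvGlue.zero_iff_nonpos.1 h1
  linarith

/-- **Sup bound.** -/
theorem f_le (h : Reg T f E B) {F₀ : ℝ} (hF : 0 ≤ F₀) (h0 : ∀ x v, f 0 x v ≤ F₀) :
    ∀ t ∈ Ico 0 T, ∀ x v, f t x v ≤ F₀ := by
  intro t ht x v
  have h1 := beta_zero h (β := fun s => expNegInvGlue (s - F₀))
    ((expNegInvGlue.contDiff (n := 1)).comp (contDiff_id.sub contDiff_const))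
    (expNegInvGlue.zero_of_nonpos (by linarith))
    (fun s => expNegInvGlue.nonneg _)
    (fun x v => expNegInvGlue.zero_of_nonpos (by linarith [h0 x v])) ht x v
  have h2 := expNegInvGlue.zero_iff_nonpos.1 h1
  linarith

end Crest.Agent.R106.En
end

-- ▼ part R106/EnLink

/-!
Row 106, module EN (helper412), part 9: `OccA, OccB, OccC, CoreA, CoreB` for every solution of the
class of the new part (through helper904's `Cost.cost_sol`).
-/

set_option autoImplicit false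

open MeasureTheory Filter Set Topology
open Crest.AnalysisR.VecCalc3 Crest.AnalysisR.PDE.RVM
open scoped ENNReal InnerProductSpace

namespace Crest.Agent.R106.En

variable {T : ℝ} {f : ℝ → R3 → R3 → ℝ} {E B : ℝ → R3 → R3} {f₀ : R3 → R3 → ℝ} {E₀ B₀ : R3 → R3}

/-- sign and sup bound for classical solutions with admissible datum. -/
theorem sol_bounds (hadm : IsAdmissibleDatum f₀ E₀ B₀) (hsol : IsClassicalSolutionOn T f₀ E₀ B₀ f E B) :
    (∀ t ∈ Ico 0 T, ∀ x v, 0 ≤ f t x v) ∧ ∃ F₀ : ℝ, 0 ≤ F₀ ∧ ∀ t ∈ Ico 0 T, ∀ x v, f t x v ≤ F₀ := by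
  have h : Reg T f E B := Reg.of_sol hsol
  have hf0 : f 0 = f₀ := hsol.2.2.2.1
  refine ⟨f_nonneg h fun x v => by rw [hf0]; exact hadm.1 x v, ?_⟩
  obtain ⟨C, hC⟩ := hadm.2.1.continuous.bounded_above_of_compact_support hadm.2.2.1
  have hC0 : 0 ≤ C := le_trans (norm_nonneg _) (hC (0, 0))
  refine ⟨C, hC0, f_le h hC0 fun x v => ?_⟩
  rw [hf0]
  exact (le_abs_self _).trans (hC (x, v))

/-- the energy hypotheses of helper904's costs. -/
theorem sol_enHyp (hadm : IsAdmissibleDatum f₀ E₀ B₀)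
    (hsol : IsClassicalSolutionOn T f₀ E₀ B₀ f E B) : ∃ F₀ C₀, Cost.EnHyp T f E B F₀ C₀ := by
  obtain ⟨h1, F₀, h2, h3⟩ := sol_bounds hadm hsol
  obtain ⟨C₀, hC⟩ := enHyp_of hsol h1 h2 fun t ht => h3 t (Ioo_subset_Ico_self ht)
  exact ⟨F₀, C₀, hC⟩

/-- all occupation bounds (a), (b), (c) and costs (A), (B). -/
theorem occ_core (hs : Mom.SmoothSol T f₀ E₀ B₀ f E B) :
    Mom.OccA T f E B ∧ Mom.OccB T f E B ∧ Mom.OccC T f E B ∧ Mom.CoreA T f E B ∧
      Mom.CoreB T f E B := by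
  obtain ⟨F₀, C₀, h⟩ := sol_enHyp hs.adm hs.sol
  exact Cost.cost_sol hs h

end Crest.Agent.R106.En
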