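import Crest.Agent.R106.FieldIface

/-!
# Row 106 (helper835): directional derivatives, Maxwell in component form, wave equations.
-/

set_option autoImplicit false
open MeasureTheory Set
open scoped ContDiff InnerProductSpace
open Crest.AnalysisR.VecCalc3 Crest.AnalysisR.PDE.RVM

noncomputable section

namespace Crest.Agent.R106.Field

open Crest.Agent.R106.GSR (pt px box)
open Crest.Agent.R106.Gs2 (PS Tr divv dxt mom Wv ev)

/-! ### Directional derivatives -/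

section dd

variable {V W : Type*} [NormedAddCommGroup V] [NormedSpace ℝ V] [NormedAddCommGroup W]
  [NormedSpace ℝ W] {Ω : Set V} {u w : V → W} {q : V}

/-- directional derivative -/
def dd (a : V) (u : V → W) (q : V) : W := fderiv ℝ u q a

theorem contDiffOn_dd (hΩ : IsOpen Ω) (hu : ContDiffOn ℝ ∞ u Ω) (a : V) :
    ContDiffOn ℝ ∞ (dd a u) Ω := by
  have h := hu.fderiv_of_isOpen (m := ∞) hΩ (by simp)
  exact h.clm_apply contDiffOn_const

theorem diffAt (hΩ : IsOpen Ω) (hu : ContDiffOn ℝ ∞ u Ω) (hq : q ∈ Ω) :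
    DifferentiableAt ℝ u q :=
  (hu.contDiffAt (hΩ.mem_nhds hq)).differentiableAt (by norm_num)

theorem two_le_inf : (2 : WithTop ℕ∞) ≤ ∞ := by
  have : ((2 : ℕ∞) : WithTop ℕ∞) ≤ ((⊤ : ℕ∞) : WithTop ℕ∞) := by exact_mod_cast le_top
  exact this

theorem dd_comm (hΩ : IsOpen Ω) (hu : ContDiffOn ℝ ∞ u Ω) (a b : V) (hq : q ∈ Ω) :
    dd a (dd b u) q = dd b (dd a u) q := by
  have h1 : ContDiffAt ℝ ∞ u q := hu.contDiffAt (hΩ.mem_nhds hq)
  have h2 : DifferentiableAt ℝ (fderiv ℝ u) q :=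
    (h1.fderiv_right (m := 1) two_le_inf).differentiableAt (by norm_num)
  have h3 : ∀ c d : V, dd c (dd d u) q = fderiv ℝ (fderiv ℝ u) q c d := by
    intro c d
    unfold dd
    rw [fderiv_clm_apply h2 (differentiableAt_const d)]
    simp
  rw [h3, h3]
  exact (h1.isSymmSndFDerivAt (by
    rw [minSmoothness_of_isRCLikeNormedField]; exact two_le_inf)).eq a b

theorem dd_congr (hΩ : IsOpen Ω) (h : ∀ p ∈ Ω, u p = w p) (a : V) (hq : q ∈ Ω) :
    dd a u q = dd a w q := by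
  unfold dd
  have : u =ᶠ[nhds q] w := Filter.eventually_of_mem (hΩ.mem_nhds hq) h
  rw [this.fderiv_eq]

theorem dd_add (hu : DifferentiableAt ℝ u q) (hw : DifferentiableAt ℝ w q) (a : V) :
    dd a (fun p => u p + w p) q = dd a u q + dd a w q := by
  unfold dd
  rw [fderiv_fun_add hu hw]; rfl

theorem dd_sub (hu : DifferentiableAt ℝ u q) (hw : DifferentiableAt ℝ w q) (a : V) :
    dd a (fun p => u p - w p) q = dd a u q - dd a w q := by
  unfold dd
  rw [fderiv_fun_sub hu hw]; rfl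

theorem dd_neg (a : V) : dd a (fun p => - u p) q = - dd a u q := by
  unfold dd
  rw [fderiv_fun_neg]; rfl

theorem dd_sum {ι : Type*} (s : Finset ι) {U : ι → V → W}
    (h : ∀ i ∈ s, DifferentiableAt ℝ (U i) q) (a : V) :
    dd a (fun p => ∑ i ∈ s, U i p) q = ∑ i ∈ s, dd a (U i) q := by
  unfold dd
  rw [fderiv_fun_sum h, sum_apply]

end dd

/-! ### Maxwell in component form -/

/-- `i`-th component of the curl, joint derivatives -/
def curlc (U : Fin 3 → ℝ × R3 → ℝ) (i : Fin 3) (q : ℝ × R3) : ℝ :=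
  px (i + 1) (U (i + 2)) q - px (i + 2) (U (i + 1)) q

theorem px_eq (j : Fin 3) (u : ℝ × R3 → ℝ) : px j u = dd (0, EuclideanSpace.single j 1) u := rfl

/-- Maxwell's equations in component form on `J × ℝ³` -/
structure MaxC (J : Set ℝ) (E B : Fin 3 → ℝ × R3 → ℝ) (ρ : ℝ × R3 → ℝ)
    (j : Fin 3 → ℝ × R3 → ℝ) : Prop where
  isOpen : IsOpen J
  smE : ∀ i, ContDiffOn ℝ ∞ (E i) (J ×ˢ univ)
  smB : ∀ i, ContDiffOn ℝ ∞ (B i) (J ×ˢ univ)
  smρ : ContDiffOn ℝ ∞ ρ (J ×ˢ univ)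
  smj : ∀ i, ContDiffOn ℝ ∞ (j i) (J ×ˢ univ)
  amp : ∀ i, ∀ q ∈ J ×ˢ (univ : Set R3), pt (E i) q = curlc B i q - j i q
  far : ∀ i, ∀ q ∈ J ×ˢ (univ : Set R3), pt (B i) q = - curlc E i q
  gau : ∀ q ∈ J ×ˢ (univ : Set R3), ∑ i, px i (E i) q = ρ q
  gauB : ∀ q ∈ J ×ˢ (univ : Set R3), ∑ i, px i (B i) q = 0

variable {J : Set ℝ} {E B : Fin 3 → ℝ × R3 → ℝ} {ρ : ℝ × R3 → ℝ} {j : Fin 3 → ℝ × R3 → ℝ}

theorem sm_px (hJ : IsOpen J) {u : ℝ × R3 → ℝ} (hu : ContDiffOn ℝ ∞ u (J ×ˢ univ)) (i : Fin 3) :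
    ContDiffOn ℝ ∞ (px i u) (J ×ˢ univ) := contDiffOn_dd (hJ.prod isOpen_univ) hu _

theorem sm_pt (hJ : IsOpen J) {u : ℝ × R3 → ℝ} (hu : ContDiffOn ℝ ∞ u (J ×ˢ univ)) :
    ContDiffOn ℝ ∞ (pt u) (J ×ˢ univ) := contDiffOn_dd (hJ.prod isOpen_univ) hu _

theorem sm_curlc (hJ : IsOpen J) {U : Fin 3 → ℝ × R3 → ℝ}
    (hU : ∀ i, ContDiffOn ℝ ∞ (U i) (J ×ˢ univ)) (i : Fin 3) :
    ContDiffOn ℝ ∞ (curlc U i) (J ×ˢ univ) :=
  (sm_px hJ (hU _) _).sub (sm_px hJ (hU _) _)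

/-- directional derivative of a curl -/
theorem dd_curlc (hJ : IsOpen J) {U : Fin 3 → ℝ × R3 → ℝ}
    (hU : ∀ i, ContDiffOn ℝ ∞ (U i) (J ×ˢ univ)) (i : Fin 3) (a : ℝ × R3) {q : ℝ × R3}
    (hq : q ∈ J ×ˢ (univ : Set R3)) :
    dd a (curlc U i) q = curlc (fun k => dd a (U k)) i q := by
  have hΩ := hJ.prod (isOpen_univ (X := R3))
  unfold curlc
  rw [dd_sub (diffAt hΩ (sm_px hJ (hU _) _) hq) (diffAt hΩ (sm_px hJ (hU _) _) hq)]
  simp only [px_eq]
  rw [dd_comm hΩ (hU _) _ _ hq, dd_comm hΩ (hU (i + 1)) _ _ hq]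

theorem curlc_congr (hJ : IsOpen J) {U U' : Fin 3 → ℝ × R3 → ℝ}
    (h : ∀ i, ∀ p ∈ J ×ˢ (univ : Set R3), U i p = U' i p) (i : Fin 3) {q : ℝ × R3}
    (hq : q ∈ J ×ˢ (univ : Set R3)) : curlc U i q = curlc U' i q := by
  have hΩ := hJ.prod (isOpen_univ (X := R3))
  unfold curlc
  simp only [px_eq]
  rw [dd_congr hΩ (h _) _ hq, dd_congr hΩ (h (i + 1)) _ hq]

/-- `curl curl = grad div - Δ` -/
theorem curl_curl (hJ : IsOpen J) {U : Fin 3 → ℝ × R3 → ℝ}
    (hU : ∀ i, ContDiffOn ℝ ∞ (U i) (J ×ˢ univ)) (i : Fin 3) {q : ℝ × R3}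
    (hq : q ∈ J ×ˢ (univ : Set R3)) :
    curlc (fun k => curlc U k) i q =
      px i (fun p => ∑ k, px k (U k) p) q - ∑ k, px k (px k (U i)) q := by
  have hΩ := hJ.prod (isOpen_univ (X := R3))
  have e1 : ∀ a b c : Fin 3, ∀ d e : Fin 3, px a (fun p => px b (U c) p - px d (U e) p) q =
      px a (px b (U c)) q - px a (px d (U e)) q := fun a b c d e =>
    dd_sub (diffAt hΩ (sm_px hJ (hU c) b) hq) (diffAt hΩ (sm_px hJ (hU e) d) hq) _
  have e2 : px i (fun p => ∑ k, px k (U k) p) q = ∑ k, px i (px k (U k)) q :=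
    dd_sum _ (fun k _ => diffAt hΩ (sm_px hJ (hU k) k) hq) _
  have e3 : ∀ a b c : Fin 3, px a (px b (U c)) q = px b (px a (U c)) q := fun a b c =>
    dd_comm hΩ (hU c) _ _ hq
  rw [e2]
  unfold curlc
  rw [e1, e1]
  fin_cases i
  · simp only [Fin.sum_univ_three, Fin.isValue, Fin.zero_eta, zero_add, Fin.reduceAdd,
      e3 1 0 (1 : Fin 3), e3 2 0 (2 : Fin 3)]
    ring
  · simp only [Fin.sum_univ_three, Fin.isValue, Fin.mk_one, Fin.reduceAdd,
      e3 2 1 (2 : Fin 3), e3 0 1 (0 : Fin 3)]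
    ring
  · simp only [Fin.sum_univ_three, Fin.isValue, Fin.reduceFinMk, Fin.reduceAdd,
      e3 0 2 (0 : Fin 3), e3 1 2 (1 : Fin 3)]
    ring

namespace MaxC

/-- wave equation of `E` -/
theorem boxE (h : MaxC J E B ρ j) (i : Fin 3) {q : ℝ × R3} (hq : q ∈ J ×ˢ (univ : Set R3)) :
    box (E i) q = - px i ρ q - pt (j i) q := by
  have hJ := h.isOpen
  have hΩ := hJ.prod (isOpen_univ (X := R3))
  have h1 : pt (pt (E i)) q = curlc (fun k => pt (B k)) i q - pt (j i) q := by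
    have e1 : pt (pt (E i)) q = pt (fun p => curlc B i p - j i p) q :=
      dd_congr hΩ (h.amp i) _ hq
    rw [e1]
    show dd (1, 0) _ q = _
    rw [dd_sub (diffAt hΩ (sm_curlc hJ h.smB i) hq) (diffAt hΩ (h.smj i) hq),
      dd_curlc hJ h.smB i _ hq]
    rfl
  have h2 : curlc (fun k => pt (B k)) i q = curlc (fun k p => - curlc E k p) i q :=
    curlc_congr hJ (fun k => h.far k) i hq
  have h3 : curlc (fun k p => - curlc E k p) i q = - curlc (fun k => curlc E k) i q := by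
    unfold curlc
    show dd _ (fun p => - _) q - dd _ (fun p => - _) q = _
    rw [dd_neg, dd_neg]
    show _ = -(dd _ _ q - dd _ _ q)
    ring
  have h4 : px i (fun p => ∑ k, px k (E k) p) q = px i ρ q := dd_congr hΩ h.gau _ hq
  unfold box
  rw [h1, h2, h3, curl_curl hJ h.smE i hq, h4]
  ring

/-- wave equation of `B` -/
theorem boxB (h : MaxC J E B ρ j) (i : Fin 3) {q : ℝ × R3} (hq : q ∈ J ×ˢ (univ : Set R3)) :
    box (B i) q = curlc j i q := by
  have hJ := h.isOpen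
  have hΩ := hJ.prod (isOpen_univ (X := R3))
  have h1 : pt (pt (B i)) q = - curlc (fun k => pt (E k)) i q := by
    have e1 : pt (pt (B i)) q = pt (fun p => - curlc E i p) q :=
      dd_congr hΩ (h.far i) _ hq
    rw [e1]
    show dd (1, 0) _ q = _
    rw [dd_neg, dd_curlc hJ h.smE i _ hq]
    rfl
  have h2 : curlc (fun k => pt (E k)) i q = curlc (fun k p => curlc B k p - j k p) i q :=
    curlc_congr hJ (fun k => h.amp k) i hq
  have h3 : curlc (fun k p => curlc B k p - j k p) i q =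
      curlc (fun k => curlc B k) i q - curlc j i q := by
    show dd _ (fun p => _ - _) q - dd _ (fun p => _ - _) q = _
    rw [dd_sub (diffAt hΩ (sm_curlc hJ h.smB _) hq) (diffAt hΩ (h.smj _) hq),
      dd_sub (diffAt hΩ (sm_curlc hJ h.smB _) hq) (diffAt hΩ (h.smj _) hq)]
    show _ = (dd _ _ q - dd _ _ q) - (dd _ _ q - dd _ _ q)
    ring
  have h4 : px i (fun p => ∑ k, px k (B k) p) q = 0 := by
    have : px i (fun p => ∑ k, px k (B k) p) q = px i (fun _ => (0 : ℝ)) q :=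
      dd_congr hΩ h.gauB _ hq
    rw [this]
    show fderiv ℝ (fun _ => (0 : ℝ)) q _ = 0
    simp
  unfold box
  rw [h1, h2, h3, curl_curl hJ h.smB i hq, h4]
  ring

end MaxC

end Crest.Agent.R106.Field
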