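import Crest.Prelude.Def_VecCalc3

/-!
# Row 106, KIR (helper246): calculus of jointly smooth functions on `I × ℝ³`
-/

set_option autoImplicit false

open MeasureTheory Set Metric Filter Topology
open scoped ContDiff
open Crest.AnalysisR.VecCalc3

noncomputable section

namespace Crest.Agent.R106.Kir

/-- jointly smooth on `I × ℝ³` -/
def JSOn (I : Set ℝ) {V : Type*} [NormedAddCommGroup V] [NormedSpace ℝ V] (u : ℝ → R3 → V) : Prop :=
  ContDiffOn ℝ ∞ (fun p : ℝ × R3 => u p.1 p.2) (I ×ˢ univ)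

section
variable {I : Set ℝ} {V : Type*} [NormedAddCommGroup V] [NormedSpace ℝ V] {u : ℝ → R3 → V}

theorem openIU (hI : IsOpen I) : IsOpen (I ×ˢ (univ : Set R3)) := hI.prod isOpen_univ

theorem JSOn.at (hI : IsOpen I) (hu : JSOn I u) {t : ℝ} (ht : t ∈ I) (x : R3) :
    ContDiffAt ℝ ∞ (fun p : ℝ × R3 => u p.1 p.2) (t, x) :=
  (hu (t, x) ⟨ht, mem_univ _⟩).contDiffAt ((openIU hI).mem_nhds ⟨ht, mem_univ _⟩)

theorem JSOn.mono {J : Set ℝ} (hJ : J ⊆ I) (hu : JSOn I u) : JSOn J u :=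
  ContDiffOn.mono hu (prod_mono hJ (subset_univ _))

theorem JSOn.hasFDerivAt (hI : IsOpen I) (hu : JSOn I u) {t : ℝ} (ht : t ∈ I) (x : R3) :
    HasFDerivAt (fun p : ℝ × R3 => u p.1 p.2) (fderiv ℝ (fun p : ℝ × R3 => u p.1 p.2) (t, x)) (t, x) :=
  ((hu.at hI ht x).differentiableAt (by simp)).hasFDerivAt

theorem JSOn.hasDerivAt_time (hI : IsOpen I) (hu : JSOn I u) {t : ℝ} (ht : t ∈ I) (x : R3) :
    HasDerivAt (fun s => u s x) (fderiv ℝ (fun p : ℝ × R3 => u p.1 p.2) (t, x) (1, 0)) t := by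
  have h1 : HasDerivAt (fun s : ℝ => (s, x)) ((1 : ℝ), (0 : R3)) t :=
    (hasDerivAt_id t).prodMk (hasDerivAt_const t x)
  exact (hu.hasFDerivAt hI ht x).comp_hasDerivAt t h1

theorem JSOn.hasFDerivAt_space (hI : IsOpen I) (hu : JSOn I u) {t : ℝ} (ht : t ∈ I) (x : R3) :
    HasFDerivAt (fun y => u t y)
      ((fderiv ℝ (fun p : ℝ × R3 => u p.1 p.2) (t, x)).comp (ContinuousLinearMap.inr ℝ ℝ R3)) x := by
  have h1 : HasFDerivAt (fun y : R3 => (t, y)) (ContinuousLinearMap.inr ℝ ℝ R3) x :=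
    hasFDerivAt_prodMk_right t x
  exact (hu.hasFDerivAt hI ht x).comp x h1

theorem JSOn.deriv_eq (hI : IsOpen I) (hu : JSOn I u) {t : ℝ} (ht : t ∈ I) (x : R3) :
    deriv (fun s => u s x) t = fderiv ℝ (fun p : ℝ × R3 => u p.1 p.2) (t, x) (1, 0) :=
  (hu.hasDerivAt_time hI ht x).deriv

theorem JSOn.hasDerivAt (hI : IsOpen I) (hu : JSOn I u) {t : ℝ} (ht : t ∈ I) (x : R3) :
    HasDerivAt (fun s => u s x) (deriv (fun s => u s x) t) t := by
  rw [hu.deriv_eq hI ht x]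
  exact hu.hasDerivAt_time hI ht x

theorem JSOn.contDiff_space (hI : IsOpen I) (hu : JSOn I u) {t : ℝ} (ht : t ∈ I) :
    ContDiff ℝ ∞ (fun y => u t y) := by
  rw [contDiff_iff_contDiffAt]
  intro x
  exact (hu.at hI ht x).comp x (by fun_prop : ContDiffAt ℝ ∞ (fun y : R3 => (t, y)) x)


theorem JSOn.continuousOn (hu : JSOn I u) :
    ContinuousOn (fun p : ℝ × R3 => u p.1 p.2) (I ×ˢ univ) := ContDiffOn.continuousOn hu

theorem JSOn.congr {v : ℝ → R3 → V} (hu : JSOn I u) (h : ∀ t ∈ I, ∀ x, v t x = u t x) : JSOn I v :=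
  ContDiffOn.congr hu fun p hp => h p.1 hp.1 p.2

theorem JSOn.add {v : ℝ → R3 → V} (hu : JSOn I u) (hv : JSOn I v) :
    JSOn I (fun t x => u t x + v t x) := ContDiffOn.add hu hv

theorem JSOn.sub {v : ℝ → R3 → V} (hu : JSOn I u) (hv : JSOn I v) :
    JSOn I (fun t x => u t x - v t x) := ContDiffOn.sub hu hv

theorem JSOn.neg (hu : JSOn I u) : JSOn I (fun t x => - u t x) := ContDiffOn.neg hu


theorem JSOn.sum {ι : Type*} {s : Finset ι} {v : ι → ℝ → R3 → V} (h : ∀ i ∈ s, JSOn I (v i)) :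
    JSOn I (fun t x => ∑ i ∈ s, v i t x) := ContDiffOn.sum h

theorem JSOn.smul {c : ℝ → R3 → ℝ} (hc : JSOn I c) (hu : JSOn I u) :
    JSOn I (fun t x => c t x • u t x) := ContDiffOn.smul hc hu

theorem JSOn.mul {c v : ℝ → R3 → ℝ} (hc : JSOn I c) (hv : JSOn I v) :
    JSOn I (fun t x => c t x * v t x) := ContDiffOn.mul hc hv

/-- the full derivative is jointly smooth -/
theorem JSOn.contDiffOn_fderiv (hI : IsOpen I) (hu : JSOn I u) :
    ContDiffOn ℝ ∞ (fderiv ℝ (fun p : ℝ × R3 => u p.1 p.2)) (I ×ˢ univ) :=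
  ContDiffOn.fderiv_of_isOpen hu (openIU hI) (by simp)

theorem JSOn.dt (hI : IsOpen I) (hu : JSOn I u) : JSOn I (fun t x => deriv (fun s => u s x) t) := by
  have h := (hu.contDiffOn_fderiv hI).clm_apply
    (contDiffOn_const (c := ((1 : ℝ), (0 : R3))))
  refine ContDiffOn.congr h ?_
  rintro ⟨t, x⟩ ⟨ht, -⟩
  exact hu.deriv_eq hI ht x

theorem JSOn.fderiv_space (hI : IsOpen I) (hu : JSOn I u) :
    JSOn I (fun t x => fderiv ℝ (u t) x) := by
  have h : ContDiffOn ℝ ∞ (fun p : ℝ × R3 =>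
      (fderiv ℝ (fun p : ℝ × R3 => u p.1 p.2) p).comp (ContinuousLinearMap.inr ℝ ℝ R3))
      (I ×ˢ univ) := (hu.contDiffOn_fderiv hI).clm_comp contDiffOn_const
  refine ContDiffOn.congr h ?_
  rintro ⟨t, x⟩ ⟨ht, -⟩
  exact (hu.hasFDerivAt_space hI ht x).fderiv


end

section scalar
variable {I : Set ℝ} {u v : ℝ → R3 → ℝ}

theorem JSOn.pderiv_eq (hI : IsOpen I) (hu : JSOn I u) {t : ℝ} (ht : t ∈ I) (i : Fin 3) (x : R3) :
    pderiv (u t) i x
      = fderiv ℝ (fun p : ℝ × R3 => u p.1 p.2) (t, x) (0, EuclideanSpace.single i 1) := by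
  unfold pderiv
  rw [(hu.hasFDerivAt_space hI ht x).fderiv]
  simp

theorem JSOn.dx (hI : IsOpen I) (hu : JSOn I u) (i : Fin 3) :
    JSOn I (fun t x => pderiv (u t) i x) := by
  have h := (hu.contDiffOn_fderiv hI).clm_apply
    (contDiffOn_const (c := ((0 : ℝ), (EuclideanSpace.single i (1 : ℝ) : R3))))
  refine ContDiffOn.congr h ?_
  rintro ⟨t, x⟩ ⟨ht, -⟩
  exact hu.pderiv_eq hI ht i x





end scalar

section pd
variable {φ ψ : R3 → ℝ} {x : R3} {i : Fin 3}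




theorem pderiv_const_mul (c : ℝ) (hφ : DifferentiableAt ℝ φ x) :
    pderiv (fun y => c * φ y) i x = c * pderiv φ i x := by
  unfold pderiv
  rw [fderiv_const_mul hφ]
  rfl


theorem pderiv_congr (h : ∀ y, φ y = ψ y) : pderiv φ i x = pderiv ψ i x := by
  have : φ = ψ := funext h
  rw [this]


end pd

end Crest.Agent.R106.Kir
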