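import Crest.Agent.R106.KirMean
import Crest.Agent.R106.KirCalc

-- ▼ part R106/KirOps
section

/-!
# Row 106, KIR (helper246): the propagators `Sop`, `Sdot` : linearity, commutation with derivatives,
smooth dependence on parameters
-/

set_option autoImplicit false

open MeasureTheory Set Metric Filter Topology
open scoped ContDiff ENNReal Pointwise
open Crest.AnalysisR.VecCalc3

noncomputable section

namespace Crest.Agent.R106.Kir

/-- jointly smooth on `ℝ × ℝ³` -/
def JS {V : Type*} [NormedAddCommGroup V] [NormedSpace ℝ V] (u : ℝ → R3 → V) : Prop :=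
  ContDiff ℝ ∞ (fun p : ℝ × R3 => u p.1 p.2)

theorem js_iff {V : Type*} [NormedAddCommGroup V] [NormedSpace ℝ V] {u : ℝ → R3 → V} :
    JS u ↔ JSOn univ u := by
  unfold JS JSOn
  rw [univ_prod_univ, contDiffOn_univ]

theorem JS.on {V : Type*} [NormedAddCommGroup V] [NormedSpace ℝ V] {u : ℝ → R3 → V} (h : JS u) :
    JSOn univ u := js_iff.1 h

section
variable {V : Type*} [NormedAddCommGroup V] [NormedSpace ℝ V] {u v : ℝ → R3 → V}

theorem JS.space (h : JS u) (t : ℝ) : ContDiff ℝ ∞ (u t) := h.on.contDiff_space isOpen_univ (mem_univ t)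


theorem JS.hasDerivAt (h : JS u) (t : ℝ) (x : R3) :
    HasDerivAt (fun s => u s x) (deriv (fun s => u s x) t) t :=
  h.on.hasDerivAt isOpen_univ (mem_univ t) x

theorem JS.dt (h : JS u) : JS (fun t x => deriv (fun s => u s x) t) := js_iff.2 (h.on.dt isOpen_univ)

theorem JS.add (hu : JS u) (hv : JS v) : JS (fun t x => u t x + v t x) := ContDiff.add hu hv
theorem JS.sub (hu : JS u) (hv : JS v) : JS (fun t x => u t x - v t x) := ContDiff.sub hu hv
theorem JS.neg (hu : JS u) : JS (fun t x => - u t x) := ContDiff.neg hu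

theorem JS.diff (h : JS u) (t : ℝ) (x : R3) : DifferentiableAt ℝ (u t) x :=
  ((h.space t).differentiable (by simp)) x

end

section
variable {u v : ℝ → R3 → ℝ}

theorem JS.dx (h : JS u) (i : Fin 3) : JS (fun t x => pderiv (u t) i x) :=
  js_iff.2 (h.on.dx isOpen_univ i)

theorem JS.mul (hu : JS u) (hv : JS v) : JS (fun t x => u t x * v t x) := ContDiff.mul hu hv

theorem JS.sum {ι : Type*} {s : Finset ι} {w : ι → ℝ → R3 → ℝ} (h : ∀ i ∈ s, JS (w i)) :
    JS (fun t x => ∑ i ∈ s, w i t x) := ContDiff.sum h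

theorem JS.lap (h : JS u) : JS (fun t x => lap (u t) x) := by
  unfold Kir.lap
  exact JS.sum fun i _ => (h.dx i).dx i



end

/-- partial derivative along the line -/
theorem hasDerivAt_line {f : R3 → ℝ} {x : R3} (hf : DifferentiableAt ℝ f x) (i : Fin 3) :
    HasDerivAt (fun s : ℝ => f (x + s • EuclideanSpace.single i (1 : ℝ))) (pderiv f i x) 0 := by
  have h1 : HasDerivAt (fun s : ℝ => x + s • (EuclideanSpace.single i (1 : ℝ) : R3))
      (EuclideanSpace.single i (1 : ℝ)) 0 := by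
    simpa using ((hasDerivAt_id (0 : ℝ)).smul_const (EuclideanSpace.single i (1 : ℝ) : R3)).const_add x
  have h2 : HasFDerivAt f (fderiv ℝ f x) (x + (0 : ℝ) • (EuclideanSpace.single i (1 : ℝ) : R3)) := by
    rw [zero_smul, add_zero]
    exact hf.hasFDerivAt
  exact h2.comp_hasDerivAt 0 h1

theorem hasDerivAt_line' {f : R3 → ℝ} (hf : Differentiable ℝ f) (x : R3) (i : Fin 3) (s : ℝ) :
    HasDerivAt (fun s : ℝ => f (x + s • EuclideanSpace.single i (1 : ℝ)))
      (pderiv f i (x + s • EuclideanSpace.single i (1 : ℝ))) s := by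
  have h1 : HasDerivAt (fun s : ℝ => x + s • (EuclideanSpace.single i (1 : ℝ) : R3))
      (EuclideanSpace.single i (1 : ℝ)) s := by
    simpa using ((hasDerivAt_id s).smul_const (EuclideanSpace.single i (1 : ℝ) : R3)).const_add x
  exact ((hf _).hasFDerivAt).comp_hasDerivAt s h1

/-- two-variable chain rule along `s ↦ (s, c - s)` -/
theorem hasDerivAt_diag {K : ℝ × ℝ → ℝ} {τ c A B : ℝ} (hK : DifferentiableAt ℝ K (τ, c - τ))
    (hA : HasDerivAt (fun s => K (s, c - τ)) A τ) (hB : HasDerivAt (fun s => K (τ, s)) B (c - τ)) :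
    HasDerivAt (fun s => K (s, c - s)) (A - B) τ := by
  have h1 : HasDerivAt (fun s : ℝ => (s, c - s)) ((1 : ℝ), (-1 : ℝ)) τ := by
    simpa using (hasDerivAt_id τ).prodMk ((hasDerivAt_id τ).const_sub c)
  have h2 := hK.hasFDerivAt.comp_hasDerivAt τ h1
  refine h2.congr_deriv ?_
  have ha : HasDerivAt (fun s : ℝ => (s, c - τ)) ((1 : ℝ), (0 : ℝ)) τ :=
    (hasDerivAt_id τ).prodMk (hasDerivAt_const τ _)
  have hb : HasDerivAt (fun s : ℝ => (τ, s)) ((0 : ℝ), (1 : ℝ)) (c - τ) :=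
    (hasDerivAt_const _ τ).prodMk (hasDerivAt_id _)
  have hA' : fderiv ℝ K (τ, c - τ) (1, 0) = A :=
    (hK.hasFDerivAt.comp_hasDerivAt τ ha).unique hA
  have hB' : fderiv ℝ K (τ, c - τ) (0, 1) = B :=
    (HasFDerivAt.comp_hasDerivAt (c - τ) (f := fun s : ℝ => (τ, s)) hK.hasFDerivAt hb).unique hB
  have e : ((1 : ℝ), (-1 : ℝ)) = (1, 0) - ((0 : ℝ), (1 : ℝ)) := by simp
  rw [e, map_sub, hA', hB']

theorem symmE {E : Type*} [NormedAddCommGroup E] [NormedSpace ℝ E] {F : E → ℝ} {p : E}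
    (hF : ContDiffAt ℝ ∞ F p) (v w : E) :
    fderiv ℝ (fun q => fderiv ℝ F q v) p w = fderiv ℝ (fun q => fderiv ℝ F q w) p v := by
  have hd : DifferentiableAt ℝ (fderiv ℝ F) p :=
    (hF.fderiv_right (m := ∞) (by simp)).differentiableAt (by simp)
  have e : ∀ v w : E, fderiv ℝ (fun q => fderiv ℝ F q v) p w
      = fderiv ℝ (fderiv ℝ F) p w v := by
    intro v w
    have := (hd.hasFDerivAt.clm_apply (hasFDerivAt_const v p)).fderiv
    rw [this]
    simp
  rw [e, e]
  refine (hF.isSymmSndFDerivAt ?_).eq w v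
  rw [minSmoothness_of_isRCLikeNormedField]
  exact WithTop.coe_le_coe.2 le_top

/-- symmetry of the mixed derivatives on `ℝ × ℝ` -/
theorem symmRR {K K1 K2 K12 : ℝ → ℝ → ℝ} (hK : ContDiff ℝ ∞ (fun p : ℝ × ℝ => K p.1 p.2))
    (h1 : ∀ a b, HasDerivAt (fun s => K s b) (K1 a b) a)
    (h2 : ∀ a b, HasDerivAt (fun s => K a s) (K2 a b) b)
    (h12 : ∀ a b, HasDerivAt (fun s => K1 a s) (K12 a b) b) (a b : ℝ) :
    HasDerivAt (fun s => K2 s b) (K12 a b) a := by
  set F : ℝ × ℝ → ℝ := fun p => K p.1 p.2 with hF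
  have hd : ∀ p, HasFDerivAt F (fderiv ℝ F p) p := fun p =>
    ((hK.differentiable (by simp)) p).hasFDerivAt
  have ha : ∀ a b : ℝ, HasDerivAt (fun s : ℝ => (s, b)) ((1 : ℝ), (0 : ℝ)) a := fun a b =>
    (hasDerivAt_id a).prodMk (hasDerivAt_const a _)
  have hb : ∀ a b : ℝ, HasDerivAt (fun s : ℝ => (a, s)) ((0 : ℝ), (1 : ℝ)) b := fun a b =>
    (hasDerivAt_const b a).prodMk (hasDerivAt_id b)
  have e1 : ∀ a b, K1 a b = fderiv ℝ F (a, b) (1, 0) := fun a b =>
    (h1 a b).unique (HasFDerivAt.comp_hasDerivAt a (f := fun s : ℝ => (s, b)) (hd (a, b)) (ha a b))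
  have e2 : ∀ a b, K2 a b = fderiv ℝ F (a, b) (0, 1) := fun a b =>
    (h2 a b).unique (HasFDerivAt.comp_hasDerivAt b (f := fun s : ℝ => (a, s)) (hd (a, b)) (hb a b))
  have hs : ContDiff ℝ ∞ (fderiv ℝ F) := hK.fderiv_right (by simp)
  have hsd : ∀ v : ℝ × ℝ, Differentiable ℝ (fun q => fderiv ℝ F q v) := fun v =>
    (hs.clm_apply contDiff_const).differentiable (by simp)
  have e12 : K12 a b = fderiv ℝ (fun q => fderiv ℝ F q (1, 0)) (a, b) (0, 1) := by
    have h3 := HasFDerivAt.comp_hasDerivAt b (f := fun s : ℝ => (a, s))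
      ((hsd (1, 0)) (a, b)).hasFDerivAt (hb a b)
    refine (h12 a b).unique ?_
    have : (fun s => K1 a s) = (fun q => fderiv ℝ F q (1, 0)) ∘ fun s => (a, s) := by
      funext s
      exact e1 a s
    rw [this]
    exact h3
  have h4 := HasFDerivAt.comp_hasDerivAt a (f := fun s : ℝ => (s, b))
    ((hsd (0, 1)) (a, b)).hasFDerivAt (ha a b)
  have : (fun s => K2 s b) = (fun q => fderiv ℝ F q (0, 1)) ∘ fun s => (s, b) := by
    funext s
    exact e2 s b
  rw [this, e12, symmE hK.contDiffAt]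
  exact h4

/-! ### linearity -/

section lin
variable {φ ψ : R3 → ℝ}

theorem integrable_line {V : Type} [NormedAddCommGroup V] [NormedSpace ℝ V] {φ : R3 → V}
    (hφ : Continuous φ) (r : ℝ) (x : R3) :
    Integrable (fun w => φ (x + r • w)) sg :=
  integrable_sg (hφ.comp (by fun_prop)).continuousOn

theorem Mn_add (hφ : Continuous φ) (hψ : Continuous ψ) (r : ℝ) (x : R3) :
    Mn (fun y => φ y + ψ y) r x = Mn φ r x + Mn ψ r x :=
  integral_add (integrable_line hφ r x) (integrable_line hψ r x)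

theorem Mn_const_mul (c : ℝ) (φ : R3 → ℝ) (r : ℝ) (x : R3) :
    Mn (fun y => c * φ y) r x = c * Mn φ r x := by
  unfold Mn
  rw [integral_const_mul]

theorem Mn_sum {ι : Type*} {s : Finset ι} {f : ι → R3 → ℝ} (h : ∀ k ∈ s, Continuous (f k))
    (r : ℝ) (x : R3) : Mn (fun y => ∑ k ∈ s, f k y) r x = ∑ k ∈ s, Mn (f k) r x := by
  unfold Mn
  exact integral_finsetSum _ fun k hk => integrable_line (h k hk) r x

theorem Sop_add (hφ : Continuous φ) (hψ : Continuous ψ) (t : ℝ) (x : R3) :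
    Sop (fun y => φ y + ψ y) t x = Sop φ t x + Sop ψ t x := by
  unfold Sop
  rw [Mn_add hφ hψ, mul_add]

theorem Sop_const_mul (c : ℝ) (φ : R3 → ℝ) (t : ℝ) (x : R3) :
    Sop (fun y => c * φ y) t x = c * Sop φ t x := by
  unfold Sop
  rw [Mn_const_mul]
  ring

theorem Sop_neg (φ : R3 → ℝ) (t : ℝ) (x : R3) : Sop (fun y => - φ y) t x = - Sop φ t x := by
  have := Sop_const_mul (-1) φ t x
  simpa using this

theorem Sop_sub (hφ : Continuous φ) (hψ : Continuous ψ) (t : ℝ) (x : R3) :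
    Sop (fun y => φ y - ψ y) t x = Sop φ t x - Sop ψ t x := by
  simp_rw [sub_eq_add_neg]
  rw [Sop_add hφ (show Continuous fun y => - ψ y from hψ.neg), Sop_neg]

theorem Sop_sum {ι : Type*} {s : Finset ι} {f : ι → R3 → ℝ} (h : ∀ k ∈ s, Continuous (f k))
    (t : ℝ) (x : R3) : Sop (fun y => ∑ k ∈ s, f k y) t x = ∑ k ∈ s, Sop (f k) t x := by
  unfold Sop
  rw [Mn_sum h, Finset.mul_sum]







end lin

/-! ### smooth dependence on parameters -/

theorem js_Sop {φ : R3 → ℝ} (hφ : ContDiff ℝ ∞ φ) : JS (fun t x => Sop φ t x) := contDiff_Sop hφ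

theorem contDiff_Sop_param {h : ℝ → R3 → ℝ} (hh : JS h) :
    ContDiff ℝ ∞ (fun p : ℝ × ℝ × R3 => Sop (h p.1) p.2.1 p.2.2) := by
  unfold Sop Mn
  refine (contDiff_fst.comp contDiff_snd).mul ?_
  refine mean_smooth (E := ℝ × ℝ × R3)
    (g := fun q : (ℝ × ℝ × R3) × R3 => h q.1.1 (q.1.2.2 + q.1.2.1 • q.2)) ?_
  exact ContDiff.comp (g := fun p : ℝ × R3 => h p.1 p.2) hh
    (f := fun q : (ℝ × ℝ × R3) × R3 => (q.1.1, q.1.2.2 + q.1.2.1 • q.2)) (by fun_prop)

theorem contDiff_Sdot_param {h : ℝ → R3 → ℝ} (hh : JS h) :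
    ContDiff ℝ ∞ (fun p : ℝ × ℝ × R3 => Sdot (h p.1) p.2.1 p.2.2) := by
  unfold Sdot Mn Mr
  refine ContDiff.add ?_ ?_
  · refine mean_smooth (E := ℝ × ℝ × R3)
      (g := fun q : (ℝ × ℝ × R3) × R3 => h q.1.1 (q.1.2.2 + q.1.2.1 • q.2)) ?_
    exact ContDiff.comp (g := fun p : ℝ × R3 => h p.1 p.2) hh
      (f := fun q : (ℝ × ℝ × R3) × R3 => (q.1.1, q.1.2.2 + q.1.2.1 • q.2)) (by fun_prop)
  · refine (contDiff_fst.comp contDiff_snd).mul ?_
    refine mean_smooth (E := ℝ × ℝ × R3)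
      (g := fun q : (ℝ × ℝ × R3) × R3 => fderiv ℝ (h q.1.1) (q.1.2.2 + q.1.2.1 • q.2) q.2) ?_
    have h1 : JS (fun t x => fderiv ℝ (h t) x) := js_iff.2 (hh.on.fderiv_space isOpen_univ)
    refine ContDiff.clm_apply ?_ contDiff_snd
    exact ContDiff.comp (g := fun p : ℝ × R3 => fderiv ℝ (h p.1) p.2) h1
      (f := fun q : (ℝ × ℝ × R3) × R3 => (q.1.1, q.1.2.2 + q.1.2.1 • q.2)) (by fun_prop)

/-- derivative with respect to a parameter -/
theorem hasDerivAt_Sop_param {h : ℝ → R3 → ℝ} (hh : JS h) (τ r : ℝ) (x : R3) :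
    HasDerivAt (fun s => Sop (h s) r x) (Sop (fun y => deriv (fun s => h s y) τ) r x) τ := by
  unfold Sop Mn
  refine HasDerivAt.const_mul r ?_
  refine mean_hasDerivAt (g := fun q : ℝ × R3 => h q.1 (x + r • q.2)) ?_ ?_
  · exact ContDiff.comp (g := fun p : ℝ × R3 => h p.1 p.2) hh
      (f := fun q : ℝ × R3 => (q.1, x + r • q.2)) (by fun_prop)
  · intro w
    exact hh.hasDerivAt τ (x + r • w)

theorem hasDerivAt_Sdot_param {h : ℝ → R3 → ℝ} (hh : JS h) (τ r : ℝ) (x : R3) :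
    HasDerivAt (fun s => Sdot (h s) r x) (Sdot (fun y => deriv (fun s => h s y) τ) r x) τ := by
  refine symmRR (K := fun s r => Sop (h s) r x)
    (K1 := fun s r => Sop (fun y => deriv (fun s => h s y) s) r x)
    (K2 := fun s r => Sdot (h s) r x)
    (K12 := fun s r => Sdot (fun y => deriv (fun s => h s y) s) r x) ?_ ?_ ?_ ?_ τ r
  · exact ContDiff.comp (contDiff_Sop_param hh) (f := fun p : ℝ × ℝ => (p.1, p.2, x)) (by fun_prop)
  · exact fun a b => hasDerivAt_Sop_param hh a b x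
  · exact fun a b => hasDerivAt_Sop (hh.space a) b x
  · exact fun a b => hasDerivAt_Sop (hh.dt.space a) b x

/-! ### commutation with space derivatives -/

theorem pderiv_Mn {φ : R3 → ℝ} (hφ : ContDiff ℝ ∞ φ) (r : ℝ) (i : Fin 3) (x : R3) :
    pderiv (fun y => Mn φ r y) i x = Mn (fun y => pderiv φ i y) r x := by
  unfold Mn
  show fderiv ℝ _ x _ = _
  refine mean_fderiv_apply (E := R3) (g := fun q : R3 × R3 => φ (q.1 + r • q.2))
    (hφ.comp (by fun_prop)) x _ ?_
  intro w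
  show fderiv ℝ (fun y => φ (y + r • w)) x _ = fderiv ℝ φ (x + r • w) _
  rw [fderiv_comp_add_right]

theorem pderiv_Sop {φ : R3 → ℝ} (hφ : ContDiff ℝ ∞ φ) (t : ℝ) (i : Fin 3) (x : R3) :
    pderiv (fun y => Sop φ t y) i x = Sop (fun y => pderiv φ i y) t x := by
  unfold Sop
  rw [pderiv_const_mul, pderiv_Mn hφ]
  have : ContDiff ℝ ∞ (fun y => Mn φ t y) :=
    (contDiff_Mn hφ).comp (by fun_prop : ContDiff ℝ ∞ fun y : R3 => (t, y))
  exact (this.differentiable (by simp)) x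



/-- sup bounds -/
theorem abs_Sop_le {φ : R3 → ℝ} {t : ℝ} {x : R3} {C : ℝ}
    (h : ∀ y : R3, ‖y - x‖ = |t| → |φ y| ≤ C) : |Sop φ t x| ≤ |t| * C := by
  unfold Sop
  rw [abs_mul]
  refine mul_le_mul_of_nonneg_left ?_ (abs_nonneg t)
  have := norm_Mn_le (g := φ) (r := t) (x := x) (C := C) (by simpa using h)
  simpa using this

theorem abs_Sdot_le {φ : R3 → ℝ} {t : ℝ} {x : R3} {C D : ℝ}
    (h : ∀ y : R3, ‖y - x‖ = |t| → |φ y| ≤ C)
    (h' : ∀ y : R3, ‖y - x‖ = |t| → ‖fderiv ℝ φ y‖ ≤ D) : |Sdot φ t x| ≤ C + |t| * D := by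
  unfold Sdot Mr
  refine (abs_add_le _ _).trans (add_le_add ?_ ?_)
  · have := norm_Mn_le (g := φ) (r := t) (x := x) (C := C) (by simpa using h)
    simpa using this
  · rw [abs_mul]
    refine mul_le_mul_of_nonneg_left ?_ (abs_nonneg t)
    have := norm_integral_sg_le (g := fun w => fderiv ℝ φ (x + t • w) w) (C := D) (fun w hw => by
      have h1 := (fderiv ℝ φ (x + t • w)).le_opNorm w
      rw [hw, mul_one] at h1
      refine h1.trans (h' _ ?_)
      rw [add_sub_cancel_left, norm_smul, hw, mul_one, Real.norm_eq_abs])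
    simpa using this

end Crest.Agent.R106.Kir
end
end

-- ▼ part R106/KirWav

/-!
# Row 106, KIR (helper246): the Duhamel operator `W`, wave equation, Kirchhoff representation
-/

set_option autoImplicit false

open MeasureTheory Set Metric Filter Topology
open scoped ContDiff ENNReal Pointwise
open Crest.AnalysisR.VecCalc3

noncomputable section

namespace Crest.Agent.R106.Kir

/-- retarded potential: solution of `u_tt - Δu = h` with zero data (for `t` of both signs) -/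
def W (h : ℝ → R3 → ℝ) (t : ℝ) (x : R3) : ℝ := ∫ τ in (0 : ℝ)..t, Sop (h τ) (t - τ) x

/-- its time derivative -/
def Wd (h : ℝ → R3 → ℝ) (t : ℝ) (x : R3) : ℝ := ∫ τ in (0 : ℝ)..t, Sdot (h τ) (t - τ) x

/-! ### generic Leibniz rules -/

section leibniz
variable {k k' : ℝ → ℝ → ℝ}

theorem deriv_smooth (hk : ContDiff ℝ ∞ (fun p : ℝ × ℝ => k p.1 p.2))
    (hk' : ∀ t τ, HasDerivAt (fun s => k s τ) (k' t τ) t) :
    Continuous (fun p : ℝ × ℝ => k' p.1 p.2) := by
  have hd : ∀ p : ℝ × ℝ, HasFDerivAt (fun p : ℝ × ℝ => k p.1 p.2)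
      (fderiv ℝ (fun p : ℝ × ℝ => k p.1 p.2) p) p := fun p =>
    ((hk.differentiable (by simp)) p).hasFDerivAt
  have e : (fun p : ℝ × ℝ => k' p.1 p.2)
      = fun p => fderiv ℝ (fun p : ℝ × ℝ => k p.1 p.2) p (1, 0) := by
    funext p
    have ha : HasDerivAt (fun s : ℝ => (s, p.2)) ((1 : ℝ), (0 : ℝ)) p.1 :=
      (hasDerivAt_id _).prodMk (hasDerivAt_const _ _)
    exact (hk' p.1 p.2).unique
      (HasFDerivAt.comp_hasDerivAt p.1 (f := fun s : ℝ => (s, p.2)) (hd p) ha)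
  rw [e]
  exact (hk.continuous_fderiv (by simp)).clm_apply continuous_const

theorem hasDerivAt_param (hk : ContDiff ℝ ∞ (fun p : ℝ × ℝ => k p.1 p.2))
    (hk' : ∀ t τ, HasDerivAt (fun s => k s τ) (k' t τ) t) (a b t : ℝ) :
    HasDerivAt (fun s => ∫ τ in a..b, k s τ) (∫ τ in a..b, k' t τ) t := by
  have hc : Continuous (fun p : ℝ × ℝ => k p.1 p.2) := hk.continuous
  have hc' := deriv_smooth hk hk'
  obtain ⟨C, hC⟩ : ∃ C, ∀ p ∈ closedBall t 1 ×ˢ uIcc a b, ‖(fun p : ℝ × ℝ => k' p.1 p.2) p‖ ≤ C :=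
    ((isCompact_closedBall t 1).prod isCompact_uIcc).exists_bound_of_continuousOn hc'.continuousOn
  refine (intervalIntegral.hasDerivAt_integral_of_dominated_loc_of_deriv_le (μ := volume)
    (F := fun s τ => k s τ) (F' := fun s τ => k' s τ) (bound := fun _ => C) (s := ball t 1)
    (ball_mem_nhds t one_pos) ?_ ?_ ?_ ?_ ?_ ?_).2
  · exact Eventually.of_forall fun s =>
      (hc.comp (by fun_prop : Continuous fun τ : ℝ => (s, τ))).aestronglyMeasurable
  · exact (hc.comp (by fun_prop : Continuous fun τ : ℝ => (t, τ))).intervalIntegrable _ _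
  · exact (hc'.comp (by fun_prop : Continuous fun τ : ℝ => (t, τ))).aestronglyMeasurable
  · refine Eventually.of_forall fun τ hτ s hs => ?_
    exact hC (s, τ) ⟨ball_subset_closedBall hs, uIoc_subset_uIcc hτ⟩
  · exact intervalIntegrable_const
  · exact Eventually.of_forall fun τ _ s _ => hk' s τ

theorem leibniz (hk : ContDiff ℝ ∞ (fun p : ℝ × ℝ => k p.1 p.2))
    (hk' : ∀ t τ, HasDerivAt (fun s => k s τ) (k' t τ) t) (t : ℝ) :
    HasDerivAt (fun t => ∫ τ in (0 : ℝ)..t, k t τ) (k t t + ∫ τ in (0 : ℝ)..t, k' t τ) t := by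
  set F : ℝ × ℝ → ℝ := fun p => ∫ τ in (0 : ℝ)..p.2, k p.1 τ with hF
  have hFs : ContDiff ℝ ∞ F := R216.contDiff_param_primitive (n := ⊤) (P := ℝ) (h := k) 0 hk
  have hd := ((hFs.differentiable (by simp)) (t, t)).hasFDerivAt
  have hdiag : HasDerivAt (fun s : ℝ => (s, s)) ((1 : ℝ), (1 : ℝ)) t :=
    (hasDerivAt_id t).prodMk (hasDerivAt_id t)
  have ha : HasDerivAt (fun s : ℝ => (s, t)) ((1 : ℝ), (0 : ℝ)) t :=
    (hasDerivAt_id t).prodMk (hasDerivAt_const _ _)
  have hb : HasDerivAt (fun s : ℝ => (t, s)) ((0 : ℝ), (1 : ℝ)) t :=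
    (hasDerivAt_const _ _).prodMk (hasDerivAt_id t)
  have h1 : HasDerivAt (fun s => F (s, s)) (fderiv ℝ F (t, t) (1, 1)) t :=
    HasFDerivAt.comp_hasDerivAt t (f := fun s : ℝ => (s, s)) hd hdiag
  have e1 : fderiv ℝ F (t, t) (1, 0) = ∫ τ in (0 : ℝ)..t, k' t τ :=
    (HasFDerivAt.comp_hasDerivAt t (f := fun s : ℝ => (s, t)) hd ha).unique
      (hasDerivAt_param hk hk' 0 t t)
  have e2 : fderiv ℝ F (t, t) (0, 1) = k t t :=
    (HasFDerivAt.comp_hasDerivAt t (f := fun s : ℝ => (t, s)) hd hb).unique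
      (R216.hasDerivAt_param_primitive (P := ℝ) (h := k) 0 hk.continuous t t)
  refine h1.congr_deriv ?_
  rw [show ((1 : ℝ), (1 : ℝ)) = (0, 1) + (1, 0) by simp, map_add, e1, e2]

end leibniz

variable {h g : ℝ → R3 → ℝ}

/-! ### smoothness -/

theorem js_W (hh : JS h) : JS (fun t x => W h t x) := by
  have h1 : ContDiff ℝ ∞ (Function.uncurry fun (p : ℝ × R3) (τ : ℝ) => Sop (h τ) (p.1 - τ) p.2) :=
    ContDiff.comp (contDiff_Sop_param hh)
      (f := fun q : (ℝ × R3) × ℝ => (q.2, q.1.1 - q.2, q.1.2)) (by fun_prop)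
  have h2 := R216.contDiff_param_primitive (n := ⊤) (P := ℝ × R3) 0 h1
  exact ContDiff.comp (g := fun x : (ℝ × R3) × ℝ => ∫ t in (0:ℝ)..x.2, Sop (h t) (x.1.1 - t) x.1.2)
    h2 (f := fun p : ℝ × R3 => (p, p.1)) (by fun_prop)


theorem smooth_kS (hh : JS h) (x : R3) :
    ContDiff ℝ ∞ (fun p : ℝ × ℝ => Sop (h p.2) (p.1 - p.2) x) :=
  ContDiff.comp (contDiff_Sop_param hh) (f := fun p : ℝ × ℝ => (p.2, p.1 - p.2, x)) (by fun_prop)

theorem smooth_kSd (hh : JS h) (x : R3) :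
    ContDiff ℝ ∞ (fun p : ℝ × ℝ => Sdot (h p.2) (p.1 - p.2) x) :=
  ContDiff.comp (contDiff_Sdot_param hh) (f := fun p : ℝ × ℝ => (p.2, p.1 - p.2, x)) (by fun_prop)

theorem cont_kS (hh : JS h) (t : ℝ) (x : R3) : Continuous fun τ : ℝ => Sop (h τ) (t - τ) x :=
  (smooth_kS hh x).continuous.comp (by fun_prop : Continuous fun τ : ℝ => (t, τ))


/-! ### time derivatives -/

theorem hasDerivAt_W (hh : JS h) (t : ℝ) (x : R3) :
    HasDerivAt (fun t => W h t x) (Wd h t x) t := by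
  have := leibniz (k := fun t τ => Sop (h τ) (t - τ) x) (k' := fun t τ => Sdot (h τ) (t - τ) x)
    (smooth_kS hh x) (fun t τ => (hasDerivAt_Sop (hh.space τ) (t - τ) x).comp_sub_const t τ) t
  simpa [W, Wd] using this

theorem hasDerivAt_Wd (hh : JS h) (t : ℝ) (x : R3) :
    HasDerivAt (fun t => Wd h t x) (h t x + W (fun τ y => lap (h τ) y) t x) t := by
  have := leibniz (k := fun t τ => Sdot (h τ) (t - τ) x)
    (k' := fun t τ => Sop (lap (h τ)) (t - τ) x)
    (smooth_kSd hh x) (fun t τ => (hasDerivAt_Sdot (hh.space τ) (t - τ) x).comp_sub_const t τ) t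
  simpa [W, Wd] using this

theorem W_zero (h : ℝ → R3 → ℝ) (x : R3) : W h 0 x = 0 := by simp [W]

theorem W_eq_sub (h : ℝ → R3 → ℝ) (t : ℝ) (x : R3) :
    W h t x = ∫ r in (0 : ℝ)..t, Sop (h (t - r)) r x := by
  unfold W
  have := intervalIntegral.integral_comp_sub_left (a := 0) (b := t)
    (fun τ => Sop (h τ) (t - τ) x) t
  simp only [sub_self, sub_zero, sub_sub_cancel] at this
  exact this.symm

/-- `∂ₜ W[h] = W[hₜ] + S[h(0)]` -/
theorem Wd_eq (hh : JS h) (t : ℝ) (x : R3) :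
    Wd h t x = W (fun τ y => deriv (fun s => h s y) τ) t x + Sop (h 0) t x := by
  have h1 := hasDerivAt_W hh t x
  have h2 := leibniz (k := fun t r => Sop (h (t - r)) r x)
    (k' := fun t r => Sop (fun y => deriv (fun s => h s y) (t - r)) r x)
    (ContDiff.comp (contDiff_Sop_param hh) (f := fun p : ℝ × ℝ => (p.1 - p.2, p.2, x))
      (by fun_prop)) (fun t r => (hasDerivAt_Sop_param hh (t - r) r x).comp_sub_const t r) t
  have e : (fun t => W h t x) = fun t => ∫ τ in (0 : ℝ)..t, Sop (h (t - τ)) τ x := by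
    funext s
    exact W_eq_sub h s x
  rw [e] at h1
  have h3 := h1.unique h2
  rw [h3, sub_self, W_eq_sub, add_comm]

/-! ### linearity -/

theorem W_add (hh : JS h) (hg : JS g) (t : ℝ) (x : R3) :
    W (fun τ y => h τ y + g τ y) t x = W h t x + W g t x := by
  unfold W
  rw [← intervalIntegral.integral_add ((cont_kS hh t x).intervalIntegrable _ _)
    ((cont_kS hg t x).intervalIntegrable _ _)]
  refine intervalIntegral.integral_congr fun τ _ => ?_
  exact Sop_add (hh.space τ).continuous (hg.space τ).continuous _ _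

theorem W_const_mul (c : ℝ) (h : ℝ → R3 → ℝ) (t : ℝ) (x : R3) :
    W (fun τ y => c * h τ y) t x = c * W h t x := by
  unfold W
  rw [← intervalIntegral.integral_const_mul]
  refine intervalIntegral.integral_congr fun τ _ => ?_
  exact Sop_const_mul c _ _ _



theorem W_sum {ι : Type*} {s : Finset ι} {f : ι → ℝ → R3 → ℝ} (hf : ∀ k ∈ s, JS (f k)) (t : ℝ)
    (x : R3) : W (fun τ y => ∑ k ∈ s, f k τ y) t x = ∑ k ∈ s, W (f k) t x := by
  unfold W
  rw [← intervalIntegral.integral_finsetSum fun k hk =>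
    (cont_kS (hf k hk) t x).intervalIntegrable _ _]
  refine intervalIntegral.integral_congr fun τ _ => ?_
  exact Sop_sum (fun k hk => ((hf k hk).space τ).continuous) _ _

/-! ### space derivatives -/

theorem pderiv_W (hh : JS h) (t : ℝ) (i : Fin 3) (x : R3) :
    pderiv (fun y => W h t y) i x = W (fun τ y => pderiv (h τ) i y) t x := by
  have h1 := hasDerivAt_line ((js_W hh).diff t x) i
  have h2 := hasDerivAt_param
    (k := fun s τ => Sop (h τ) (t - τ) (x + s • EuclideanSpace.single i (1 : ℝ)))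
    (k' := fun s τ => Sop (fun y => pderiv (h τ) i y) (t - τ)
      (x + s • EuclideanSpace.single i (1 : ℝ)))
    (ContDiff.comp (contDiff_Sop_param hh)
      (f := fun p : ℝ × ℝ => (p.2, t - p.2, x + p.1 • (EuclideanSpace.single i (1 : ℝ) : R3)))
      (by fun_prop)) (fun s τ => by
      have h3 := hasDerivAt_line' (f := fun y => Sop (h τ) (t - τ) y)
        (((js_Sop (hh.space τ)).space (t - τ)).differentiable (by simp)) x i s
      rwa [pderiv_Sop (hh.space τ)] at h3) 0 t 0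
  have h3 := h1.unique h2
  rw [h3]
  unfold W
  simp


theorem lap_W (hh : JS h) (t : ℝ) (x : R3) :
    lap (fun y => W h t y) x = W (fun τ y => lap (h τ) y) t x := by
  unfold lap
  rw [W_sum fun i _ => (hh.dx i).dx i]
  refine Finset.sum_congr rfl fun i _ => ?_
  have h1 := pderiv_W (hh.dx i) t i x
  rw [← h1]
  exact pderiv_congr fun y => pderiv_W hh t i y

/-! ### the wave equation -/

theorem deriv_W (hh : JS h) (t : ℝ) (x : R3) : deriv (fun s => W h s x) t = Wd h t x :=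
  (hasDerivAt_W hh t x).deriv

/-- `□ W[h] = h` -/
theorem wave_W (hh : JS h) (t : ℝ) (x : R3) :
    deriv (fun s => deriv (fun s' => W h s' x) s) t - lap (fun y => W h t y) x = h t x := by
  have e : (fun s => deriv (fun s' => W h s' x) s) = fun s => Wd h s x := by
    funext s
    exact deriv_W hh s x
  rw [e, (hasDerivAt_Wd hh t x).deriv, lap_W hh]
  ring

/-- KIRCHHOFF REPRESENTATION: every smooth `u` is given by its data and `□u` -/
theorem kirchhoff {u : ℝ → R3 → ℝ} (hu : JS u) (t : ℝ) (x : R3) :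
    u t x = W (fun τ y => deriv (fun s => deriv (fun s' => u s' y) s) τ - lap (u τ) y) t x
      + Sop (fun y => deriv (fun s => u s y) 0) t x + Sdot (u 0) t x := by
  have hu1 : JS (fun τ y => deriv (fun s => u s y) τ) := hu.dt
  have hu2 : JS (fun τ y => deriv (fun s => deriv (fun s' => u s' y) s) τ) := hu1.dt
  set Φ : ℝ → ℝ := fun τ => Sdot (u τ) (t - τ) x + Sop (fun y => deriv (fun s => u s y) τ) (t - τ) x
    with hΦ
  have hA : ∀ τ, HasDerivAt (fun τ => Sdot (u τ) (t - τ) x)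
      (Sdot (fun y => deriv (fun s => u s y) τ) (t - τ) x - Sop (lap (u τ)) (t - τ) x) τ := by
    intro τ
    refine hasDerivAt_diag (K := fun p : ℝ × ℝ => Sdot (u p.1) p.2 x) ?_ ?_ ?_
    · exact ((ContDiff.comp (contDiff_Sdot_param hu) (f := fun p : ℝ × ℝ => (p.1, p.2, x))
        (by fun_prop)).differentiable (by simp)) _
    · exact hasDerivAt_Sdot_param hu τ (t - τ) x
    · exact hasDerivAt_Sdot (hu.space τ) (t - τ) x
  have hB : ∀ τ, HasDerivAt (fun τ => Sop (fun y => deriv (fun s => u s y) τ) (t - τ) x)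
      (Sop (fun y => deriv (fun s => deriv (fun s' => u s' y) s) τ) (t - τ) x
        - Sdot (fun y => deriv (fun s => u s y) τ) (t - τ) x) τ := by
    intro τ
    refine hasDerivAt_diag
      (K := fun p : ℝ × ℝ => Sop (fun y => deriv (fun s => u s y) p.1) p.2 x) ?_ ?_ ?_
    · exact ((ContDiff.comp (contDiff_Sop_param hu1) (f := fun p : ℝ × ℝ => (p.1, p.2, x))
        (by fun_prop)).differentiable (by simp)) _
    · exact hasDerivAt_Sop_param hu1 τ (t - τ) x
    · exact hasDerivAt_Sop (hu1.space τ) (t - τ) x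
  have hbox : JS (fun τ y => deriv (fun s => deriv (fun s' => u s' y) s) τ - lap (u τ) y) :=
    hu2.sub hu.lap
  have hΦd : ∀ τ, HasDerivAt Φ
      (Sop (fun y => deriv (fun s => deriv (fun s' => u s' y) s) τ - lap (u τ) y) (t - τ) x) τ := by
    intro τ
    refine ((hA τ).add (hB τ)).congr_deriv ?_
    rw [Sop_sub (hu2.space τ).continuous (hu.lap.space τ).continuous]
    show _ = Sop _ _ _ - Sop (lap (u τ)) (t - τ) x
    ring
  have hftc := intervalIntegral.integral_eq_sub_of_hasDerivAt (a := 0) (b := t)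
    (fun τ _ => hΦd τ) ((cont_kS hbox t x).intervalIntegrable _ _)
  have e1 : Φ t = u t x := by simp [hΦ]
  have e0 : Φ 0 = Sdot (u 0) t x + Sop (fun y => deriv (fun s => u s y) 0) t x := by simp [hΦ]
  rw [e1, e0] at hftc
  have e2 : W (fun τ y => deriv (fun s => deriv (fun s' => u s' y) s) τ - lap (u τ) y) t x
      = ∫ τ in (0 : ℝ)..t,
        Sop (fun y => deriv (fun s => deriv (fun s' => u s' y) s) τ - lap (u τ) y) (t - τ) x := rfl
  rw [e2, hftc]
  ring


/-! ### bounds -/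


/-- domain of dependence -/
theorem W_congr {t : ℝ} {x : R3} (hb : ∀ τ ∈ uIcc 0 t, ∀ y : R3, ‖y - x‖ = |t - τ| → h τ y = g τ y) :
    W h t x = W g t x := by
  unfold W
  refine intervalIntegral.integral_congr fun τ hτ => ?_
  show (t - τ) * Mn (h τ) (t - τ) x = (t - τ) * Mn (g τ) (t - τ) x
  congr 1
  unfold Mn
  refine integral_sg_congr fun w hw => ?_
  refine hb τ hτ _ ?_
  rw [add_sub_cancel_left, norm_smul, hw, mul_one, Real.norm_eq_abs]

end Crest.Agent.R106.Kir
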