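import Crest.Agent.R106.KirSph
import Crest.Agent.R106.KirCalc
import Crest.Agent.R106.KirWav
import Crest.Agent.R106.Gs2Defs
import Crest.Agent.R106.GSRDefs
import Crest.Agent.R106.StdDefs

-- ▼ part R106/KirVol
section

set_option autoImplicit false

open MeasureTheory Set Metric Filter Topology
open scoped ContDiff ENNReal Pointwise
open Crest.AnalysisR.VecCalc3

noncomputable section

namespace Crest.Agent.R106.Kir

/-- `1/|z|` is integrable on balls of `ℝ³`. -/
theorem integrableOn_inv_norm (t : ℝ) :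
    IntegrableOn (fun z : R3 => ‖z‖⁻¹) (ball (0 : R3) t) := by
  have h1 : Integrable (fun z : R3 => (fun r : ℝ => (Iio t).indicator (fun r => r⁻¹) r) ‖z‖) := by
    rw [integrable_fun_norm_addHaar (E := R3) volume]
    rw [finrank_euclideanSpace_fin]
    have h2 : IntegrableOn (fun y : ℝ => y) (Ioi 0 ∩ Iio t) := by
      have : IntegrableOn (fun y : ℝ => y) (Icc 0 t) :=
        (continuous_id.continuousOn).integrableOn_Icc
      refine this.mono_set ?_
      rintro y ⟨hy1, hy2⟩
      exact ⟨le_of_lt hy1, le_of_lt hy2⟩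
    have h3 : IntegrableOn ((Iio t).indicator (fun y : ℝ => y)) (Ioi 0) := by
      rw [IntegrableOn, integrable_indicator_iff measurableSet_Iio, IntegrableOn,
        Measure.restrict_restrict measurableSet_Iio, inter_comm]
      exact h2
    refine h3.congr_fun (fun y hy => ?_) measurableSet_Ioi
    have hy' : y ≠ 0 := ne_of_gt hy
    simp only [indicator, mem_Iio, smul_eq_mul]
    split_ifs
    · norm_num
      field_simp
    · simp
  have h4 : (fun z : R3 => (fun r : ℝ => (Iio t).indicator (fun r => r⁻¹) r) ‖z‖)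
      = (ball (0 : R3) t).indicator (fun z => ‖z‖⁻¹) := by
    funext z
    simp [indicator]
  rw [h4, integrable_indicator_iff measurableSet_ball] at h1
  exact h1

variable {h : ℝ → R3 → ℝ} {t : ℝ} {x : R3}

theorem vol_aux_cont (hc : ContinuousOn (fun p : ℝ × R3 => h p.1 p.2) (Icc 0 t ×ˢ univ)) (x : R3) :
    ContinuousOn (fun z : R3 => h (t - ‖z‖) (x + z)) (closedBall 0 t) := by
  refine hc.comp (f := fun z : R3 => (t - ‖z‖, x + z)) (by fun_prop) ?_
  intro z hz
  rw [mem_closedBall_zero_iff] at hz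
  exact ⟨⟨by simp; linarith, by simp⟩, mem_univ _⟩

theorem integrableOn_vol (hc : ContinuousOn (fun p : ℝ × R3 => h p.1 p.2) (Icc 0 t ×ˢ univ))
    (x : R3) : IntegrableOn (fun z : R3 => h (t - ‖z‖) (x + z) / ‖z‖) (ball (0 : R3) t) := by
  obtain ⟨C, hC⟩ := (isCompact_closedBall (0 : R3) t).exists_bound_of_continuousOn
    (vol_aux_cont hc x)
  have hcon := vol_aux_cont hc x
  have h1 : AEStronglyMeasurable (fun z : R3 => h (t - ‖z‖) (x + z) / ‖z‖)
      (volume.restrict (ball (0 : R3) t)) := by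
    have a1 : AEStronglyMeasurable (fun z : R3 => h (t - ‖z‖) (x + z))
        (volume.restrict (ball (0 : R3) t)) :=
      (hcon.mono ball_subset_closedBall).aestronglyMeasurable measurableSet_ball
    have a2 : AEStronglyMeasurable (fun z : R3 => ‖z‖⁻¹)
        (volume.restrict (ball (0 : R3) t)) :=
      (continuous_norm.measurable.inv).aestronglyMeasurable
    simp only [div_eq_mul_inv]
    exact a1.mul a2
  refine ((integrableOn_inv_norm t).const_mul C).mono' h1 ?_
  refine (ae_restrict_iff' measurableSet_ball).2 (Eventually.of_forall fun z hz => ?_)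
  rw [norm_div, norm_norm, div_eq_mul_inv]
  exact mul_le_mul_of_nonneg_right (hC z (ball_subset_closedBall hz)) (by positivity)

/-- (V) volume form: `∫_0^t (t-τ) M_{t-τ}[h(τ)](x) dτ = (4π)⁻¹ ∫_{|z|<t} h(t-|z|, x+z)/|z| dz`. -/
theorem vol_form (ht : 0 ≤ t)
    (hc : ContinuousOn (fun p : ℝ × R3 => h p.1 p.2) (Icc 0 t ×ˢ univ)) (x : R3) :
    ∫ τ in (0:ℝ)..t, (t - τ) * Mn (h τ) (t - τ) x
      = (4 * Real.pi)⁻¹ * ∫ z in ball (0 : R3) t, h (t - ‖z‖) (x + z) / ‖z‖ := by
  have hint : Integrable ((ball (0 : R3) t).indicator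
      (fun z : R3 => h (t - ‖z‖) (x + z) / ‖z‖)) :=
    (integrableOn_vol hc x).integrable_indicator measurableSet_ball
  have hpol := R202.SphDiv.polar (n := 3) (by norm_num) _ hint
  rw [integral_indicator measurableSet_ball] at hpol
  rw [hpol]
  -- the inner integral
  have hin : ∀ r ∈ Ioi (0:ℝ), r ^ (3 - 1) * ∫ z : R202.SphDiv.Sph 3,
      (ball (0 : R3) t).indicator (fun z : R3 => h (t - ‖z‖) (x + z) / ‖z‖) (r • (z : R3))
        ∂(R202.SphDiv.sig 3)
      = (Iio t).indicator (fun r => (4 * Real.pi) * (r * Mn (h (t - r)) r x)) r := by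
    intro r hr
    have hr' : (0:ℝ) < r := hr
    have hnorm : ∀ z : R202.SphDiv.Sph 3, ‖r • (z : R3)‖ = r := by
      intro z
      rw [norm_smul, Real.norm_eq_abs, abs_of_pos hr']
      have := z.2
      rw [mem_sphere_zero_iff_norm] at this
      rw [this, mul_one]
    by_cases hrt : r < t
    · have h1 : ∀ z : R202.SphDiv.Sph 3,
          (ball (0 : R3) t).indicator (fun z : R3 => h (t - ‖z‖) (x + z) / ‖z‖) (r • (z : R3))
            = r⁻¹ * h (t - r) (x + r • (z : R3)) := by
        intro z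
        rw [indicator_of_mem (by rw [mem_ball_zero_iff, hnorm z]; exact hrt), hnorm z]
        rw [div_eq_mul_inv, mul_comm]
      simp only [h1]
      rw [integral_const_mul]
      rw [indicator_of_mem (by exact hrt)]
      unfold Mn
      rw [integral_sg, smul_eq_mul]
      have h4 : (4 * Real.pi) ≠ 0 := by positivity
      field_simp
    · have h1 : ∀ z : R202.SphDiv.Sph 3,
          (ball (0 : R3) t).indicator (fun z : R3 => h (t - ‖z‖) (x + z) / ‖z‖) (r • (z : R3))
            = 0 := by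
        intro z
        rw [indicator_of_notMem]
        rw [mem_ball_zero_iff, hnorm z]; exact hrt
      simp only [h1]
      rw [indicator_of_notMem (by simpa using hrt)]
      simp
  rw [setIntegral_congr_fun measurableSet_Ioi hin]
  rw [setIntegral_indicator measurableSet_Iio]
  have hset : Ioi (0:ℝ) ∩ Iio t = Ioo 0 t := by ext; simp
  rw [hset, ← integral_Ioc_eq_integral_Ioo, ← intervalIntegral.integral_of_le ht]
  rw [intervalIntegral.integral_const_mul, ← mul_assoc,
    inv_mul_cancel₀ (by positivity : (4 * Real.pi) ≠ 0), one_mul]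
  have hsub := intervalIntegral.integral_comp_sub_left (a := 0) (b := t)
    (fun r => r * Mn (h (t - r)) r x) t
  simp only [sub_self, sub_zero] at hsub
  rw [← hsub]
  apply intervalIntegral.integral_congr
  intro τ _
  simp only [sub_sub_cancel]

/-- (V) in the normalisation `Wv` of `Gs2Defs`. -/
theorem vol_form' (ht : 0 ≤ t)
    (hc : ContinuousOn (fun p : ℝ × R3 => h p.1 p.2) (Icc 0 t ×ˢ univ)) (x : R3) :
    ∫ τ in (0:ℝ)..t, (t - τ) * Mn (h τ) (t - τ) x
      = ∫ z in ball (0 : R3) t, h (t - ‖z‖) (x + z) / (4 * Real.pi * ‖z‖) := by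
  rw [vol_form ht hc, ← integral_const_mul]
  refine setIntegral_congr_fun measurableSet_ball fun z _ => ?_
  simp only [div_eq_mul_inv, mul_inv]
  ring


end Crest.Agent.R106.Kir
end
end

-- ▼ part R106/KirRep
section

/-!
# Row 106, KirRep (helper262): pointwise Kirchhoff representation in volume form

`kirWv`     : `u t x = Wv (□u) t x + Sop (u_t 0) t x + Sdot (u 0) t x` (`u` globally smooth, `0 ≤ t`);
`kirWv_box` : the same for `u : ℝ × R3 → ℝ` with `GSR.box`;
`kirWv_loc` : `u` smooth on `J × R3`, `J` open, `[0,t] ⊆ J`;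
`kir_bound` : `|u (t,x)| ≤ |Wv (box u) t x| + t C1 + (C0 + t D)`.
-/

set_option autoImplicit false
open MeasureTheory Set Metric Filter Topology
open scoped ContDiff
open Crest.AnalysisR.VecCalc3

noncomputable section

namespace Crest.Agent.R106.Kir

open Crest.Agent.R106.Gs2 (Wv)

theorem W_eq_Wv {h : ℝ → R3 → ℝ} {t : ℝ} (ht : 0 ≤ t)
    (hc : ContinuousOn (fun p : ℝ × R3 => h p.1 p.2) (Icc 0 t ×ˢ univ)) (x : R3) :
    W h t x = Wv h t x := vol_form' ht hc x

theorem js_box {u : ℝ → R3 → ℝ} (hu : JS u) :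
    JS (fun τ y => deriv (fun s => deriv (fun s' => u s' y) s) τ - lap (u τ) y) :=
  hu.dt.dt.sub hu.lap

/-- Kirchhoff representation, volume form, globally smooth `u`. -/
theorem kirWv {u : ℝ → R3 → ℝ} (hu : JS u) {t : ℝ} (ht : 0 ≤ t) (x : R3) :
    u t x = Wv (fun τ y => deriv (fun s => deriv (fun s' => u s' y) s) τ - lap (u τ) y) t x
      + Sop (fun y => deriv (fun s => u s y) 0) t x + Sdot (u 0) t x := by
  rw [← W_eq_Wv ht ((js_box hu).continuous.continuousOn) x]
  exact kirchhoff hu t x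

/-- `deriv`-form versus `fderiv`-form of the wave operator. -/
theorem box_eq {u : ℝ × R3 → ℝ} (hu : ContDiff ℝ ∞ u) (t : ℝ) (x : R3) :
    deriv (fun s => deriv (fun s' => u (s', x)) s) t - lap (fun y => u (t, y)) x
      = GSR.box u (t, x) := by
  have hJ : JSOn univ (fun s y => u (s, y)) := js_iff.1 hu
  have hd : ∀ s y, deriv (fun s' => u (s', y)) s = GSR.pt u (s, y) := fun s y =>
    hJ.deriv_eq isOpen_univ (mem_univ s) y
  have hx : ∀ (i : Fin 3) s y, pderiv (fun z => u (s, z)) i y = GSR.px i u (s, y) :=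
    fun i s y => hJ.pderiv_eq isOpen_univ (mem_univ s) i y
  have hpt : ContDiff ℝ ∞ (GSR.pt u) := (hu.fderiv_right (m := ∞) (by simp)).clm_apply
    contDiff_const
  have hpx : ∀ i, ContDiff ℝ ∞ (GSR.px i u) := fun i =>
    (hu.fderiv_right (m := ∞) (by simp)).clm_apply contDiff_const
  have h1 : deriv (fun s => deriv (fun s' => u (s', x)) s) t = GSR.pt (GSR.pt u) (t, x) := by
    rw [show (fun s => deriv (fun s' => u (s', x)) s) = fun s => GSR.pt u (s, x) from
      funext fun s => hd s x]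
    exact JSOn.deriv_eq (u := fun s y => GSR.pt u (s, y)) isOpen_univ (js_iff.1 hpt) (mem_univ t) x
  have h2 : lap (fun y => u (t, y)) x = ∑ i, GSR.px i (GSR.px i u) (t, x) := by
    unfold lap
    refine Finset.sum_congr rfl fun i _ => ?_
    rw [show (fun y => pderiv (fun y => u (t, y)) i y) = fun y => GSR.px i u (t, y) from
      funext fun y => hx i t y]
    exact JSOn.pderiv_eq (u := fun s y => GSR.px i u (s, y)) isOpen_univ (js_iff.1 (hpx i))
      (mem_univ t) i x
  rw [h1, h2]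
  rfl

/-- Kirchhoff representation, volume form, with `GSR.box`. -/
theorem kirWv_box {u : ℝ × R3 → ℝ} (hu : ContDiff ℝ ∞ u) {t : ℝ} (ht : 0 ≤ t) (x : R3) :
    u (t, x) = Wv (fun s y => GSR.box u (s, y)) t x
      + Sop (fun y => GSR.pt u (0, y)) t x + Sdot (fun y => u (0, y)) t x := by
  have h := kirWv (u := fun s y => u (s, y)) hu ht x
  have hJ : JSOn univ (fun s y => u (s, y)) := js_iff.1 hu
  have e1 : (fun τ y => deriv (fun s => deriv (fun s' => u (s', y)) s) τ - lap (fun z => u (τ, z)) y)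
      = fun s y => GSR.box u (s, y) := by
    funext s y
    exact box_eq hu s y
  have e2 : (fun y => deriv (fun s => u (s, y)) 0) = fun y => GSR.pt u (0, y) := by
    funext y
    exact hJ.deriv_eq isOpen_univ (mem_univ 0) y
  rw [e2] at h
  refine h.trans ?_
  congr 3

theorem kir_bound {u : ℝ × R3 → ℝ} (hu : ContDiff ℝ ∞ u) {t : ℝ} (ht : 0 ≤ t) (x : R3)
    {C0 C1 D : ℝ} (h0 : ∀ y : R3, |u (0, y)| ≤ C0) (h1 : ∀ y : R3, |GSR.pt u (0, y)| ≤ C1)
    (hD : ∀ y : R3, ‖fderiv ℝ (fun z : R3 => u (0, z)) y‖ ≤ D) :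
    |u (t, x)| ≤ |Wv (fun s y => GSR.box u (s, y)) t x| + t * C1 + (C0 + t * D) := by
  rw [kirWv_box hu ht x]
  refine (abs_add_le _ _).trans (add_le_add ((abs_add_le _ _).trans (add_le_add le_rfl ?_)) ?_)
  · have := abs_Sop_le (φ := fun y => GSR.pt u (0, y)) (t := t) (x := x) (C := C1)
      (fun y _ => h1 y)
    rwa [abs_of_nonneg ht] at this
  · have := abs_Sdot_le (φ := fun y => u (0, y)) (t := t) (x := x) (C := C0) (D := D)
      (fun y _ => h0 y) (fun y _ => hD y)
    rwa [abs_of_nonneg ht] at this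


end Crest.Agent.R106.Kir
end
end

-- ▼ part R106/KirSm

/-!
# Row 106, KIR (helper490): bounds of all space derivatives of `Sop`, `Sdot`, `W`, `Wd`
(both signs of time), and coordinate conversion lemmas for `iteratedFDeriv`.
-/

set_option autoImplicit false

open MeasureTheory Set Metric Filter Topology
open scoped ContDiff ENNReal Pointwise
open Crest.AnalysisR.VecCalc3

noncomputable section

namespace Crest.Agent.R106.Kir

section param
variable {E E' : Type} [NormedAddCommGroup E] [NormedSpace ℝ E]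
  [NormedAddCommGroup E'] [NormedSpace ℝ E'] [SecondCountableTopology E']
  [MeasurableSpace E'] [BorelSpace E']


end param

section mean
variable {E : Type} [NormedAddCommGroup E] [NormedSpace ℝ E]
  {V : Type} [NormedAddCommGroup V] [NormedSpace ℝ V]



end mean

section ops
variable {V : Type} [NormedAddCommGroup V] [NormedSpace ℝ V]





variable {h : ℝ → R3 → ℝ}



end ops

/-! ### coordinates -/

section coord

theorem iter_coord_le {F : R3 → R3} (hF : ContDiff ℝ ∞ F) (k : ℕ) (x : R3) (i : Fin 3) :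
    ‖iteratedFDeriv ℝ k (fun y => F y i) x‖ ≤ ‖iteratedFDeriv ℝ k F x‖ := by
  have h := (EuclideanSpace.proj i : R3 →L[ℝ] ℝ).norm_iteratedFDeriv_comp_left
    (f := F) (x := x) (n := k) hF.contDiffAt (by exact_mod_cast le_top)
  refine h.trans ?_
  have h1 : ‖(EuclideanSpace.proj i : R3 →L[ℝ] ℝ)‖ ≤ 1 := by
    refine ContinuousLinearMap.opNorm_le_bound _ zero_le_one fun y => ?_
    rw [one_mul]
    exact PiLp.norm_apply_le y i
  exact (mul_le_mul_of_nonneg_right h1 (norm_nonneg _)).trans (one_mul _).le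

theorem iter_le_sum {F : R3 → R3} (hF : ContDiff ℝ ∞ F) (k : ℕ) (x : R3) :
    ‖iteratedFDeriv ℝ k F x‖ ≤ ∑ i : Fin 3, ‖iteratedFDeriv ℝ k (fun y => F y i) x‖ := by
  have hc : ∀ i : Fin 3, ContDiff ℝ ∞ (fun y => F y i) := fun i => (contDiff_euclidean.1 hF) i
  have e : F = fun y => ∑ i : Fin 3, F y i • (EuclideanSpace.single i (1 : ℝ) : R3) := by
    funext y
    ext j
    simp [Pi.single_apply]
  have hs : ∀ i : Fin 3, ContDiff ℝ ∞
      (fun y => F y i • (EuclideanSpace.single i (1 : ℝ) : R3)) := fun i =>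
    (hc i).smul contDiff_const
  have e2 : iteratedFDeriv ℝ k F x = ∑ i : Fin 3,
      iteratedFDeriv ℝ k (fun y => F y i • (EuclideanSpace.single i (1 : ℝ) : R3)) x := by
    conv_lhs => rw [e]
    exact iteratedFDeriv_fun_sum_apply fun i _ =>
      ((hs i).of_le (by exact_mod_cast le_top)).contDiffAt
  rw [e2]
  refine (norm_sum_le _ _).trans (Finset.sum_le_sum fun i _ => ?_)
  have h := ((ContinuousLinearMap.id ℝ ℝ).smulRight
    (EuclideanSpace.single i (1 : ℝ) : R3)).norm_iteratedFDeriv_comp_left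
    (f := fun y => F y i) (x := x) (n := k) (hc i).contDiffAt (by exact_mod_cast le_top)
  refine le_trans (le_of_eq ?_) (h.trans ?_)
  · rfl
  · have h1 : ‖(ContinuousLinearMap.id ℝ ℝ).smulRight
        (EuclideanSpace.single i (1 : ℝ) : R3)‖ ≤ 1 := by
      refine ContinuousLinearMap.opNorm_le_bound _ zero_le_one fun c => ?_
      simp [norm_smul]
    exact (mul_le_mul_of_nonneg_right h1 (norm_nonneg _)).trans (one_mul _).le

theorem iter_pderiv_le {φ : R3 → ℝ} (hφ : ContDiff ℝ ∞ φ) (k : ℕ) (x : R3) (i : Fin 3) :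
    ‖iteratedFDeriv ℝ k (fun y => pderiv φ i y) x‖ ≤ ‖iteratedFDeriv ℝ (k + 1) φ x‖ := by
  have hd : ContDiff ℝ ∞ (fderiv ℝ φ) := hφ.fderiv_right (m := ∞) (by simp)
  refine (norm_iteratedFDeriv_clm_apply_const (c := (EuclideanSpace.single i (1 : ℝ) : R3))
    hd.contDiffAt (n := k) (by exact_mod_cast le_top)).trans ?_
  rw [norm_iteratedFDeriv_fderiv]
  simp

end coord

/-! ### slab-bounded smooth functions -/

/-- jointly smooth, every spatial derivative bounded on slabs -/
def SFs (u : ℝ → R3 → ℝ) : Prop :=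
  JS u ∧ ∀ (T : ℝ) (k : ℕ), ∃ C : ℝ, ∀ t : ℝ, |t| ≤ T → ∀ x : R3, ‖iteratedFDeriv ℝ k (u t) x‖ ≤ C

/-- smooth with all derivatives bounded -/
def Bd (φ : R3 → ℝ) : Prop :=
  ContDiff ℝ ∞ φ ∧ ∀ k : ℕ, ∃ C : ℝ, ∀ x : R3, ‖iteratedFDeriv ℝ k φ x‖ ≤ C

section sf
variable {u v : ℝ → R3 → ℝ}


theorem SFs.congr (h : SFs u) (e : ∀ t x, v t x = u t x) : SFs v := by
  have : v = u := by funext t x; exact e t x
  rwa [this]


theorem SFs.add (hu : SFs u) (hv : SFs v) : SFs (fun t x => u t x + v t x) := by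
  refine ⟨hu.1.add hv.1, fun T k => ?_⟩
  obtain ⟨C, hC⟩ := hu.2 T k
  obtain ⟨D, hD⟩ := hv.2 T k
  refine ⟨C + D, fun t ht x => ?_⟩
  have e : iteratedFDeriv ℝ k (fun x => u t x + v t x) x
      = iteratedFDeriv ℝ k (u t) x + iteratedFDeriv ℝ k (v t) x :=
    fun_iteratedFDeriv_add_apply (((hu.1.space t).of_le (by exact_mod_cast le_top)).contDiffAt)
      (((hv.1.space t).of_le (by exact_mod_cast le_top)).contDiffAt)
  rw [e]
  exact (norm_add_le _ _).trans (add_le_add (hC t ht x) (hD t ht x))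

theorem SFs.neg (hu : SFs u) : SFs (fun t x => - u t x) := by
  refine ⟨hu.1.neg, fun T k => ?_⟩
  obtain ⟨C, hC⟩ := hu.2 T k
  refine ⟨C, fun t ht x => ?_⟩
  have e : iteratedFDeriv ℝ k (fun x => - u t x) x = - iteratedFDeriv ℝ k (u t) x :=
    iteratedFDeriv_neg_apply
  rw [e, norm_neg]
  exact hC t ht x

theorem SFs.sub (hu : SFs u) (hv : SFs v) : SFs (fun t x => u t x - v t x) :=
  (hu.add hv.neg).congr fun t x => by ring

theorem SFs.const_mul (c : ℝ) (hu : SFs u) : SFs (fun t x => c * u t x) := by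
  refine ⟨ContDiff.mul contDiff_const hu.1, fun T k => ?_⟩
  obtain ⟨C, hC⟩ := hu.2 T k
  refine ⟨|c| * C, fun t ht x => ?_⟩
  have e : iteratedFDeriv ℝ k (fun x => c * u t x) x = c • iteratedFDeriv ℝ k (u t) x :=
    iteratedFDeriv_const_smul_apply' (𝕜 := ℝ) (a := c)
      (((hu.1.space t).of_le (by exact_mod_cast le_top)).contDiffAt)
  rw [e, norm_smul, Real.norm_eq_abs]
  exact mul_le_mul_of_nonneg_left (hC t ht x) (abs_nonneg c)

theorem SFs.zero : SFs (fun _ _ => (0 : ℝ)) := by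
  refine ⟨contDiff_const, fun T k => ⟨0, fun t _ x => ?_⟩⟩
  have : iteratedFDeriv ℝ k (fun _ : R3 => (0 : ℝ)) x = 0 := by simp
  rw [this, norm_zero]

theorem SFs.sum {ι : Type*} (s : Finset ι) {w : ι → ℝ → R3 → ℝ} (h : ∀ i ∈ s, SFs (w i)) :
    SFs (fun t x => ∑ i ∈ s, w i t x) := by
  classical
  induction s using Finset.induction_on with
  | empty => simpa using SFs.zero
  | insert a s ha ih =>
    have h1 := (h a (Finset.mem_insert_self a s)).add
      (ih fun i hi => h i (Finset.mem_insert_of_mem hi))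
    exact h1.congr fun t x => Finset.sum_insert ha

theorem SFs.dx (hu : SFs u) (i : Fin 3) : SFs (fun t x => pderiv (u t) i x) := by
  refine ⟨hu.1.dx i, fun T k => ?_⟩
  obtain ⟨C, hC⟩ := hu.2 T (k + 1)
  exact ⟨C, fun t ht x => (iter_pderiv_le (hu.1.space t) k x i).trans (hC t ht x)⟩

theorem Bd.pderiv {φ : R3 → ℝ} (h : Bd φ) (i : Fin 3) : Bd (fun x => pderiv φ i x) := by
  refine ⟨contDiff_pderiv h.1 i, fun k => ?_⟩
  obtain ⟨C, hC⟩ := h.2 (k + 1)
  exact ⟨C, fun x => (iter_pderiv_le h.1 k x i).trans (hC x)⟩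






end sf

/-! ### vector fields -/



/-- bounded data: coordinates of a bounded smooth field -/
theorem bd_coord {F : R3 → R3} (hF : ContDiff ℝ ∞ F)
    (hb : ∀ n : ℕ, ∃ C : ℝ, ∀ x, ‖iteratedFDeriv ℝ n F x‖ ≤ C) (i : Fin 3) :
    Bd (fun x => F x i) := by
  refine ⟨(contDiff_euclidean.1 hF) i, fun k => ?_⟩
  obtain ⟨C, hC⟩ := hb k
  exact ⟨C, fun x => (iter_coord_le hF k x i).trans (hC x)⟩

theorem Bd.add {φ ψ : R3 → ℝ} (h : Bd φ) (h' : Bd ψ) : Bd (fun x => φ x + ψ x) := by
  refine ⟨h.1.add h'.1, fun k => ?_⟩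
  obtain ⟨C, hC⟩ := h.2 k
  obtain ⟨D, hD⟩ := h'.2 k
  refine ⟨C + D, fun x => ?_⟩
  have e : iteratedFDeriv ℝ k (fun x => φ x + ψ x) x
      = iteratedFDeriv ℝ k φ x + iteratedFDeriv ℝ k ψ x :=
    fun_iteratedFDeriv_add_apply ((h.1.of_le (by exact_mod_cast le_top)).contDiffAt)
      ((h'.1.of_le (by exact_mod_cast le_top)).contDiffAt)
  rw [e]
  exact (norm_add_le _ _).trans (add_le_add (hC x) (hD x))

theorem Bd.neg {φ : R3 → ℝ} (h : Bd φ) : Bd (fun x => - φ x) := by
  refine ⟨h.1.neg, fun k => ?_⟩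
  obtain ⟨C, hC⟩ := h.2 k
  refine ⟨C, fun x => ?_⟩
  have e : iteratedFDeriv ℝ k (fun x => - φ x) x = - iteratedFDeriv ℝ k φ x :=
    iteratedFDeriv_neg_apply
  rw [e, norm_neg]
  exact hC x

theorem Bd.sub {φ ψ : R3 → ℝ} (h : Bd φ) (h' : Bd ψ) : Bd (fun x => φ x - ψ x) := by
  have := h.add h'.neg
  simpa only [sub_eq_add_neg] using this

/-- coordinates of the curl of a bounded smooth field -/
theorem bd_curl {F : R3 → R3} (hF : ContDiff ℝ ∞ F)
    (hb : ∀ n : ℕ, ∃ C : ℝ, ∀ x, ‖iteratedFDeriv ℝ n F x‖ ≤ C) (i : Fin 3) :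
    Bd (fun x => curl3 F x i) := by
  have hc := bd_coord hF hb
  fin_cases i
  · exact ((hc 2).pderiv 1).sub ((hc 1).pderiv 2)
  · exact ((hc 0).pderiv 2).sub ((hc 2).pderiv 0)
  · exact ((hc 1).pderiv 0).sub ((hc 0).pderiv 1)

end Crest.Agent.R106.Kir
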