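import Crest.Agent.R106.Main0
import Crest.Agent.R106.StdDefs

/-!
# Row 106, STANDARD PART: FROZEN PROPS of the nodes (helper797).

Bottom nodes : `Trunc` (301), `Flow` (332), `Src` (105), `Max` (246/195), `FB`, `FBz` (<= `Field.GS1`,
`Field.GS1D` of 835/330 + time reversal, 105), `FBlog` (<= `Field.GSLog` of 835/375 + time reversal),
`Tr0`, `Tr1`, `Trk` (728), `SmoothLim` (301), `L2F` (727), `Grow` (332).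
Middle nodes : `StepEx` (201) <= Flow + Src + Max;  `B0`, `B1` (562) <= FB, FBlog, Tr1;
`Bk` (330) <= FB + Trk;  `Cdiff` (312) <= FBz + Tr0;  `Pic` (797/775) <= B0, B1, Bk, Cdiff;
`TB` (195).   Top: `TruncEx` (797/775) <= StepEx, Pic, TB, SmoothLim, L2F, Grow, Trunc.

All majorants `φ` are continuous functions of time on `ℝ`; `|∫ s in (0:ℝ)..t, φ s|` covers both signs of `t`.
-/

set_option autoImplicit false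
open MeasureTheory Set Filter Topology
open scoped ContDiff
open Crest.AnalysisR.VecCalc3 Crest.AnalysisR.PDE.RVM

namespace Crest.Agent.R106.Std

/-! ### Bottom nodes -/

/-- TRUNC (301): the truncated force exists. -/
def Trunc : Prop := ∀ P : ℝ, 0 < P → ∃ G : R3 → (R3 × R3) →L[ℝ] R3, IsTrunc P G

/-- FLOW (332): linear Vlasov equation with smooth fields. -/
def Flow : Prop :=
  ∀ (P : ℝ) (G : R3 → (R3 × R3) →L[ℝ] R3), IsTrunc P G →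
    ∀ (f₀ : R3 → R3 → ℝ), ContDiff ℝ ∞ (Function.uncurry f₀) → HasCompactSupport (Function.uncurry f₀) →
    ∀ E B : ℝ → R3 → R3, SF E → SF B →
    ∃ f : ℝ → R3 → R3 → ℝ, PC f ∧ f 0 = f₀ ∧ (∀ (t : ℝ) (x v : R3), TransEq G E B f t x v) ∧
      (∀ (t : ℝ) (x v : R3), ∃ y w : R3, f t x v = f₀ y w) ∧
      (∀ R : ℝ, 2 * P ≤ R → (∀ x v : R3, R < ‖v‖ → f₀ x v = 0) →
        ∀ (t : ℝ) (x v : R3), R < ‖v‖ → f t x v = 0) ∧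
      (∀ R : ℝ, (∀ x v : R3, R < ‖x‖ → f₀ x v = 0) →
        ∀ (t : ℝ) (x v : R3), R + |t| < ‖x‖ → f t x v = 0)


/-- SRC (105): moments of a `PC` function are smooth with bounded support on slabs, and the
continuity equation holds for solutions of the linear Vlasov equation (`div_v G = 0`). -/
def Src : Prop :=
  ∀ (P : ℝ) (G : R3 → (R3 × R3) →L[ℝ] R3), IsTrunc P G →
    ∀ E B : ℝ → R3 → R3, SF E → SF B → ∀ f : ℝ → R3 → R3 → ℝ, PC f →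
    (∀ (t : ℝ) (x v : R3), TransEq G E B f t x v) →
    ContDiff ℝ ∞ (fun p : ℝ × R3 => chargeDensity f p.1 p.2) ∧
    ContDiff ℝ ∞ (fun p : ℝ × R3 => currentDensity f p.1 p.2) ∧
    (∀ T : ℝ, ∃ R : ℝ, ∀ t : ℝ, |t| ≤ T → ∀ x : R3, R < ‖x‖ →
      chargeDensity f t x = 0 ∧ currentDensity f t x = 0) ∧
    (∀ (t : ℝ) (x : R3), deriv (fun s => chargeDensity f s x) t + div3 (currentDensity f t) x = 0)

/-- MAX (246/195): the linear Maxwell system with smooth sources of bounded support on slabs. -/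
def Max : Prop :=
  ∀ (ρ : ℝ → R3 → ℝ) (j : ℝ → R3 → R3) (E₀ B₀ : R3 → R3),
    ContDiff ℝ ∞ (fun p : ℝ × R3 => ρ p.1 p.2) → ContDiff ℝ ∞ (fun p : ℝ × R3 => j p.1 p.2) →
    (∀ T : ℝ, ∃ R : ℝ, ∀ t : ℝ, |t| ≤ T → ∀ x : R3, R < ‖x‖ → ρ t x = 0 ∧ j t x = 0) →
    (∀ (t : ℝ) (x : R3), deriv (fun s => ρ s x) t + div3 (j t) x = 0) →
    ContDiff ℝ ∞ E₀ → ContDiff ℝ ∞ B₀ →
    (∀ n : ℕ, ∃ C : ℝ, ∀ x : R3, ‖iteratedFDeriv ℝ n E₀ x‖ ≤ C ∧ ‖iteratedFDeriv ℝ n B₀ x‖ ≤ C) →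
    (∀ x : R3, div3 E₀ x = ρ 0 x) → (∀ x : R3, div3 B₀ x = 0) →
    ∃ E B : ℝ → R3 → R3, SF E ∧ SF B ∧ E 0 = E₀ ∧ B 0 = B₀ ∧
      ∀ (t : ℝ) (x : R3), MaxwellAt ρ j E B t x

/-- FB (from 835's `GS1` + time reversal (105)): two-sided linear field bound with the datum of the
problem: `∂ₜ h + u·∇ₓ h = - div_v g`, fields `(E,B)` solve Maxwell with the moments of `h`. -/
def FB : Prop :=
  ∀ (f₀ : R3 → R3 → ℝ) (E₀ B₀ : R3 → R3), IsAdmissibleDatum f₀ E₀ B₀ →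
  ∀ (k : ℕ) (R T : ℝ), ∃ C : ℝ, 0 ≤ C ∧
    ∀ (h : ℝ → R3 → R3 → ℝ) (g : Fin 3 → ℝ → R3 → R3 → ℝ) (E B : ℝ → R3 → R3) (φ : ℝ → ℝ),
      PC h → (∀ i, PC (g i)) → SF E → SF B →
      (∀ (t : ℝ) (x v : R3), R < ‖v‖ → h t x v = 0 ∧ ∀ i, g i t x v = 0) →
      (∀ (t : ℝ) (x v : R3), Tfree h t x v = - ∑ i : Fin 3, pderiv (fun w => g i t x w) i v) →
      (∀ (t : ℝ) (x : R3), MaxwellAt (chargeDensity h) (currentDensity h) E B t x) →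
      h 0 = f₀ → E 0 = E₀ → B 0 = B₀ →
      Continuous φ →
      (∀ t : ℝ, |t| ≤ T → ∀ x v : R3, ‖iteratedFDeriv ℝ k (fun y => h t y v) x‖ ≤ φ t ∧
        ∀ i, ‖iteratedFDeriv ℝ k (fun y => g i t y v) x‖ ≤ φ t) →
      ∀ t : ℝ, |t| ≤ T → FBd k E B t (C * (1 + |∫ s in (0:ℝ)..t, φ s|))

/-- FBz (from 835's `GS1D` + time reversal (105)): the same with zero data. -/
def FBz : Prop :=
  ∀ (k : ℕ) (R T : ℝ), ∃ C : ℝ, 0 ≤ C ∧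
    ∀ (h : ℝ → R3 → R3 → ℝ) (g : Fin 3 → ℝ → R3 → R3 → ℝ) (E B : ℝ → R3 → R3) (φ : ℝ → ℝ),
      PC h → (∀ i, PC (g i)) → SF E → SF B →
      (∀ (t : ℝ) (x v : R3), R < ‖v‖ → h t x v = 0 ∧ ∀ i, g i t x v = 0) →
      (∀ (t : ℝ) (x v : R3), Tfree h t x v = - ∑ i : Fin 3, pderiv (fun w => g i t x w) i v) →
      (∀ (t : ℝ) (x : R3), MaxwellAt (chargeDensity h) (currentDensity h) E B t x) →
      (∀ x v : R3, h 0 x v = 0) → (∀ x : R3, E 0 x = 0) → (∀ x : R3, B 0 x = 0) →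
      Continuous φ →
      (∀ t : ℝ, |t| ≤ T → ∀ x v : R3, ‖iteratedFDeriv ℝ k (fun y => h t y v) x‖ ≤ φ t ∧
        ∀ i, ‖iteratedFDeriv ℝ k (fun y => g i t y v) x‖ ≤ φ t) →
      ∀ t : ℝ, |t| ≤ T → FBd k E B t (C * |∫ s in (0:ℝ)..t, φ s|)

/-- FBlog (835/375, GS2): logarithmic bound of the first derivatives (space and time) of the output
fields of one step. -/
def FBlog : Prop :=
  ∀ (P : ℝ) (G : R3 → (R3 × R3) →L[ℝ] R3), IsTrunc P G →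
    ∀ (f₀ : R3 → R3 → ℝ) (E₀ B₀ : R3 → R3), IsAdmissibleDatum f₀ E₀ B₀ → ∀ T A : ℝ,
    ∃ C : ℝ, 0 ≤ C ∧ ∀ (E B : ℝ → R3 → R3) (f : ℝ → R3 → R3 → ℝ) (E' B' : ℝ → R3 → R3)
      (φ : ℝ → ℝ) (τ L : ℝ),
      Step P G f₀ E₀ B₀ E B f E' B' → |τ| ≤ T → 0 ≤ L → Continuous φ →
      (∀ s : ℝ, |s| ≤ T → FBd 0 E B s A) →
      (∀ s : ℝ, |s| ≤ T → FBd 1 E B s (φ s) ∧ FBt E B s (φ s)) →
      (∀ s ∈ uIcc 0 τ, fBd 1 f s (Real.exp L)) →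
      FBd 1 E' B' τ (C * (1 + L + |∫ s in (0:ℝ)..τ, φ s|)) ∧
      FBt E' B' τ (C * (1 + L + |∫ s in (0:ℝ)..τ, φ s|))

/-- Tr0 (728): sup bound for the linear Vlasov equation with a source `q`. -/
def Tr0 : Prop :=
  ∀ (P : ℝ) (G : R3 → (R3 × R3) →L[ℝ] R3), IsTrunc P G →
    ∀ E B : ℝ → R3 → R3, SF E → SF B → ∀ (r : ℝ → R3 → R3 → ℝ) (T a : ℝ) (φ : ℝ → ℝ), PC r →
      Continuous φ → (∀ x v : R3, |r 0 x v| ≤ a) →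
      (∀ t : ℝ, |t| ≤ T → ∀ x v : R3, |Tfree r t x v + Gv G E B r t x v| ≤ φ t) →
      ∀ t : ℝ, |t| ≤ T → ∀ x v : R3, |r t x v| ≤ a + |∫ s in (0:ℝ)..t, φ s|

/-- Tr1 (728): first derivatives in `(x,v)` of a solution of the linear Vlasov equation. -/
def Tr1 : Prop :=
  ∀ (P : ℝ) (G : R3 → (R3 × R3) →L[ℝ] R3), IsTrunc P G →
    ∀ (f₀ : R3 → R3 → ℝ), ContDiff ℝ ∞ (Function.uncurry f₀) → HasCompactSupport (Function.uncurry f₀) →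
    ∀ T A : ℝ, ∃ C : ℝ, 0 ≤ C ∧ ∀ (E B : ℝ → R3 → R3) (f : ℝ → R3 → R3 → ℝ) (φ : ℝ → ℝ),
      SF E → SF B → PC f → f 0 = f₀ → (∀ (t : ℝ) (x v : R3), TransEq G E B f t x v) →
      (∀ s : ℝ, |s| ≤ T → FBd 0 E B s A) → Continuous φ →
      (∀ s : ℝ, |s| ≤ T → FBd 1 E B s (φ s)) →
      ∀ t : ℝ, |t| ≤ T → fBd 1 f t (Real.exp (C * (1 + |∫ s in (0:ℝ)..t, φ s|)))

/-- Trk (728): derivatives of order `k ≥ 2` in `(x,v)`, linear in the top order of the fields. -/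
def Trk : Prop :=
  ∀ (P : ℝ) (G : R3 → (R3 × R3) →L[ℝ] R3), IsTrunc P G →
    ∀ (f₀ : R3 → R3 → ℝ), ContDiff ℝ ∞ (Function.uncurry f₀) → HasCompactSupport (Function.uncurry f₀) →
    ∀ (k : ℕ) (T A : ℝ), 2 ≤ k → ∃ C : ℝ, 0 ≤ C ∧
      ∀ (E B : ℝ → R3 → R3) (f : ℝ → R3 → R3 → ℝ) (φ : ℝ → ℝ),
      SF E → SF B → PC f → f 0 = f₀ → (∀ (t : ℝ) (x v : R3), TransEq G E B f t x v) →
      (∀ s : ℝ, |s| ≤ T → ∀ j < k, FBd j E B s A ∧ fBd j f s A) → Continuous φ →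
      (∀ s : ℝ, |s| ≤ T → FBd k E B s (φ s)) →
      ∀ t : ℝ, |t| ≤ T → fBd k f t (C * (1 + |∫ s in (0:ℝ)..t, φ s|))

/-- SMOOTHLIM (301): uniform local bounds of all derivatives + pointwise convergence. -/
def SmoothLim : Prop :=
  ∀ (X Y : Type) [NormedAddCommGroup X] [NormedSpace ℝ X] [FiniteDimensional ℝ X]
    [NormedAddCommGroup Y] [NormedSpace ℝ Y] [FiniteDimensional ℝ Y]
    (g : ℕ → X → Y) (gl : X → Y),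
    (∀ n, ContDiff ℝ ∞ (g n)) →
    (∀ (k : ℕ) (r : ℝ), ∃ C : ℝ, ∀ (n : ℕ) (x : X), ‖x‖ ≤ r → ‖iteratedFDeriv ℝ k (g n) x‖ ≤ C) →
    (∀ x, Tendsto (fun n => g n x) atTop (𝓝 (gl x))) →
    ContDiff ℝ ∞ gl ∧
    ∀ (k : ℕ) (x : X), Tendsto (fun n => iteratedFDeriv ℝ k (g n) x) atTop
      (𝓝 (iteratedFDeriv ℝ k gl x))


/-! ### Middle nodes -/

/-- ITER-A (201): every pair of smooth fields has a step. -/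
def StepEx : Prop :=
  ∀ (P : ℝ) (G : R3 → (R3 × R3) →L[ℝ] R3), IsTrunc P G →
    ∀ (f₀ : R3 → R3 → ℝ) (E₀ B₀ : R3 → R3), IsAdmissibleDatum f₀ E₀ B₀ →
    ∀ E B : ℝ → R3 → R3, SF E → SF B →
    ∃ (f : ℝ → R3 → R3 → ℝ) (E' B' : ℝ → R3 → R3), Step P G f₀ E₀ B₀ E B f E' B'

/-- ITER-B0 (562): level 0. -/
def B0 : Prop :=
  ∀ (P : ℝ) (G : R3 → (R3 × R3) →L[ℝ] R3), IsTrunc P G →
    ∀ (f₀ : R3 → R3 → ℝ) (E₀ B₀ : R3 → R3), IsAdmissibleDatum f₀ E₀ B₀ → ∀ T : ℝ,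
    ∃ C : ℝ, 0 ≤ C ∧ ∀ (E B : ℝ → R3 → R3) (f : ℝ → R3 → R3 → ℝ) (E' B' : ℝ → R3 → R3) (φ : ℝ → ℝ),
      Step P G f₀ E₀ B₀ E B f E' B' → Continuous φ →
      (∀ s : ℝ, |s| ≤ T → FBd 0 E B s (φ s)) →
      ∀ t : ℝ, |t| ≤ T → FBd 0 E' B' t (C * (1 + |∫ s in (0:ℝ)..t, φ s|))

/-- ITER-B1 (562): level 1 (logarithm absorbed: `log |D f| ≤ C (1 + |∫ φ|)`). -/
def B1 : Prop :=
  ∀ (P : ℝ) (G : R3 → (R3 × R3) →L[ℝ] R3), IsTrunc P G →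
    ∀ (f₀ : R3 → R3 → ℝ) (E₀ B₀ : R3 → R3), IsAdmissibleDatum f₀ E₀ B₀ → ∀ T A : ℝ,
    ∃ C : ℝ, 0 ≤ C ∧ ∀ (E B : ℝ → R3 → R3) (f : ℝ → R3 → R3 → ℝ) (E' B' : ℝ → R3 → R3) (φ : ℝ → ℝ),
      Step P G f₀ E₀ B₀ E B f E' B' → Continuous φ →
      (∀ s : ℝ, |s| ≤ T → FBd 0 E B s A) →
      (∀ s : ℝ, |s| ≤ T → FBd 1 E B s (φ s) ∧ FBt E B s (φ s)) →
      ∀ t : ℝ, |t| ≤ T →
        fBd 1 f t (Real.exp (C * (1 + |∫ s in (0:ℝ)..t, φ s|))) ∧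
        FBd 1 E' B' t (C * (1 + |∫ s in (0:ℝ)..t, φ s|)) ∧
        FBt E' B' t (C * (1 + |∫ s in (0:ℝ)..t, φ s|))

/-- ITER-Bk (330): levels `k ≥ 2`. -/
def Bk : Prop :=
  ∀ (P : ℝ) (G : R3 → (R3 × R3) →L[ℝ] R3), IsTrunc P G →
    ∀ (f₀ : R3 → R3 → ℝ) (E₀ B₀ : R3 → R3), IsAdmissibleDatum f₀ E₀ B₀ →
    ∀ (k : ℕ) (T A : ℝ), 2 ≤ k →
    ∃ C : ℝ, 0 ≤ C ∧ ∀ (E B : ℝ → R3 → R3) (f : ℝ → R3 → R3 → ℝ) (E' B' : ℝ → R3 → R3) (φ : ℝ → ℝ),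
      Step P G f₀ E₀ B₀ E B f E' B' → Continuous φ →
      (∀ s : ℝ, |s| ≤ T → ∀ j < k, FBd j E B s A ∧ fBd j f s A) →
      (∀ s : ℝ, |s| ≤ T → FBd k E B s (φ s)) →
      ∀ t : ℝ, |t| ≤ T →
        fBd k f t (C * (1 + |∫ s in (0:ℝ)..t, φ s|)) ∧
        FBd k E' B' t (C * (1 + |∫ s in (0:ℝ)..t, φ s|))

/-- ITER-C (312): difference of two steps with the same datum. -/
def Cdiff : Prop :=
  ∀ (P : ℝ) (G : R3 → (R3 × R3) →L[ℝ] R3), IsTrunc P G →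
    ∀ (f₀ : R3 → R3 → ℝ) (E₀ B₀ : R3 → R3), IsAdmissibleDatum f₀ E₀ B₀ → ∀ T A : ℝ,
    ∃ C : ℝ, 0 ≤ C ∧
      ∀ (E₁ B₁ : ℝ → R3 → R3) (f₁ : ℝ → R3 → R3 → ℝ) (E₁' B₁' : ℝ → R3 → R3)
        (E₂ B₂ : ℝ → R3 → R3) (f₂ : ℝ → R3 → R3 → ℝ) (E₂' B₂' : ℝ → R3 → R3) (φ : ℝ → ℝ),
      Step P G f₀ E₀ B₀ E₁ B₁ f₁ E₁' B₁' → Step P G f₀ E₀ B₀ E₂ B₂ f₂ E₂' B₂' → Continuous φ →
      (∀ s : ℝ, |s| ≤ T → FBd 0 E₁ B₁ s A ∧ FBd 0 E₂ B₂ s A ∧ fBd 1 f₂ s A) →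
      (∀ s : ℝ, |s| ≤ T → ∀ x : R3, ‖E₁ s x - E₂ s x‖ ≤ φ s ∧ ‖B₁ s x - B₂ s x‖ ≤ φ s) →
      ∀ t : ℝ, |t| ≤ T →
        (∀ x v : R3, |f₁ t x v - f₂ t x v| ≤ C * |∫ s in (0:ℝ)..t, φ s|) ∧
        (∀ x : R3, ‖E₁' t x - E₂' t x‖ ≤ C * |∫ s in (0:ℝ)..t, φ s| ∧
          ‖B₁' t x - B₂' t x‖ ≤ C * |∫ s in (0:ℝ)..t, φ s|)

/-- PIC (797): the Picard sequence has all spatial (resp. phase space) derivatives bounded on slabs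
uniformly in `n`, and summable differences. -/
def Pic : Prop :=
  ∀ (P : ℝ) (G : R3 → (R3 × R3) →L[ℝ] R3), IsTrunc P G →
    ∀ (f₀ : R3 → R3 → ℝ) (E₀ B₀ : R3 → R3), IsAdmissibleDatum f₀ E₀ B₀ →
    ∀ (E B : ℕ → ℝ → R3 → R3) (f : ℕ → ℝ → R3 → R3 → ℝ), Seq P G f₀ E₀ B₀ E B f →
    (∀ (T : ℝ) (k : ℕ), ∃ C : ℝ, ∀ (n : ℕ) (t : ℝ), |t| ≤ T →
      FBd k (E n) (B n) t C ∧ fBd k (f n) t C) ∧
    (∀ T : ℝ, ∃ u : ℕ → ℝ, Summable u ∧ ∀ (n : ℕ) (t : ℝ), |t| ≤ T → ∀ x : R3,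
      ‖E (n + 1) t x - E n t x‖ ≤ u n ∧ ‖B (n + 1) t x - B n t x‖ ≤ u n ∧
      ∀ v : R3, |f (n + 1) t x v - f n t x v| ≤ u n)

/-- TB (195): space derivative bounds + equations => all joint derivatives bounded on slabs,
uniformly in `n`. -/
def TB : Prop :=
  ∀ (P : ℝ) (G : R3 → (R3 × R3) →L[ℝ] R3), IsTrunc P G →
    ∀ (f₀ : R3 → R3 → ℝ) (E₀ B₀ : R3 → R3), IsAdmissibleDatum f₀ E₀ B₀ →
    ∀ (E B : ℕ → ℝ → R3 → R3) (f : ℕ → ℝ → R3 → R3 → ℝ), Seq P G f₀ E₀ B₀ E B f →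
    (∀ (T : ℝ) (k : ℕ), ∃ C : ℝ, ∀ (n : ℕ) (t : ℝ), |t| ≤ T →
      FBd k (E n) (B n) t C ∧ fBd k (f n) t C) →
    ∀ (T : ℝ) (k : ℕ), ∃ C : ℝ, ∀ (n : ℕ) (t : ℝ), |t| ≤ T →
      (∀ x : R3, ‖iteratedFDeriv ℝ k (fun p : ℝ × R3 => E n p.1 p.2) (t, x)‖ ≤ C ∧
        ‖iteratedFDeriv ℝ k (fun p : ℝ × R3 => B n p.1 p.2) (t, x)‖ ≤ C) ∧
      (∀ x v : R3, ‖iteratedFDeriv ℝ k (fun p : ℝ × R3 × R3 => f n p.1 p.2.1 p.2.2) (t, x, v)‖ ≤ C)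

/-- LIM (775 with 797): a global smooth solution of the truncated system = a step with
input = output. -/
def LimEx : Prop :=
  ∀ (P : ℝ) (G : R3 → (R3 × R3) →L[ℝ] R3), IsTrunc P G →
    ∀ (f₀ : R3 → R3 → ℝ) (E₀ B₀ : R3 → R3), IsAdmissibleDatum f₀ E₀ B₀ →
    ∃ (f : ℝ → R3 → R3 → ℝ) (E B : ℝ → R3 → R3), Step P G f₀ E₀ B₀ E B f E B

end Crest.Agent.R106.Std
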