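import Crest.Agent.R106.Src
import Crest.Agent.R106.Gs2Defs

/-!
Row 106, module SRC / MOM part 2 (helper105): charge and current densities of a smooth phase-space
density with locally uniform momentum support, continuity equation, moments of `Gs2Defs`.
-/

set_option autoImplicit false
set_option linter.unusedSectionVars false

open MeasureTheory Set Filter Topology
open scoped ContDiff
open Crest.AnalysisR.VecCalc3 Crest.AnalysisR.PDE.RVM

noncomputable section

namespace Crest.Agent.R106.Src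

/-! ### the relativistic velocity -/

lemma one_add_norm_sq_pos (v : R3) : 0 < 1 + ‖v‖ ^ 2 := by positivity

lemma contDiff_sqrt_one_add {n : WithTop ℕ∞} : ContDiff ℝ n (fun v : R3 => Real.sqrt (1 + ‖v‖ ^ 2)) := by
  have h1 : ContDiff ℝ n (fun v : R3 => 1 + ‖v‖ ^ 2) := contDiff_const.add (contDiff_norm_sq ℝ)
  exact h1.sqrt (fun v => (one_add_norm_sq_pos v).ne')

lemma contDiff_relVel {n : WithTop ℕ∞} : ContDiff ℝ n relVel := by
  have h : ContDiff ℝ n (fun v : R3 => (Real.sqrt (1 + ‖v‖ ^ 2))⁻¹ • v) :=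
    (contDiff_sqrt_one_add.inv
      (fun v : R3 => (Real.sqrt_pos.2 (one_add_norm_sq_pos v)).ne')).smul contDiff_id
  exact h





/-! ### moments -/

/-- locally (in time) uniform momentum support -/
def VSupp {F : Type*} [Zero F] (f : ℝ → R3 → R3 → F) (J : Set ℝ) : Prop :=
  ∀ t ∈ J, ∃ N ∈ 𝓝 t, ∃ R : ℝ, ∀ t' ∈ N, ∀ x v, R < ‖v‖ → f t' x v = 0

lemma VSupp.of_bound {F : Type*} [Zero F] {f : ℝ → R3 → R3 → F} {P : ℝ}
    (h : ∀ t x v, P < ‖v‖ → f t x v = 0) (J : Set ℝ) : VSupp f J :=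
  fun _ _ => ⟨univ, univ_mem, P, fun t' _ x v hv => h t' x v hv⟩

section moments

variable {F : Type*} [NormedAddCommGroup F] [NormedSpace ℝ F]

lemma VSupp.locSupp {f : ℝ → R3 → R3 → ℝ} {J : Set ℝ} (h : VSupp f J) (a : R3 → F) :
    LocSupp (fun (q : ℝ × R3) v => f q.1 q.2 v • a v) (J ×ˢ univ) := by
  rintro ⟨t, x⟩ ⟨ht, -⟩
  obtain ⟨N, hN, R, hR⟩ := h t ht
  refine ⟨N ×ˢ univ, prod_mem_nhds hN univ_mem, R, ?_⟩
  rintro ⟨t', x'⟩ ⟨ht', -⟩ v hv
  simp [hR t' ht' x' v hv]

lemma contDiffOn_smul_weight {n : WithTop ℕ∞} {f : ℝ → R3 → R3 → ℝ} {J : Set ℝ}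
    (hf : ContDiffOn ℝ n (fun p : ℝ × R3 × R3 => f p.1 p.2.1 p.2.2) (J ×ˢ univ)) {a : R3 → F}
    (ha : ContDiff ℝ n a) :
    ContDiffOn ℝ n (fun p : (ℝ × R3) × R3 => f p.1.1 p.1.2 p.2 • a p.2) ((J ×ˢ univ) ×ˢ univ) := by
  have h1 : ContDiff ℝ n (fun p : (ℝ × R3) × R3 => (p.1.1, p.1.2, p.2)) := by fun_prop
  have h2 := hf.comp (h1.contDiffOn (s := (J ×ˢ univ) ×ˢ univ)) (by
    rintro ⟨⟨t, x⟩, v⟩ ⟨⟨ht, -⟩, -⟩
    exact ⟨ht, trivial⟩)
  exact h2.smul ((ha.comp contDiff_snd).contDiffOn)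

/-- Moments are smooth. -/
theorem contDiffOn_moment [CompleteSpace F] {n : ℕ∞} {f : ℝ → R3 → R3 → ℝ} {J : Set ℝ}
    (hJ : IsOpen J)
    (hf : ContDiffOn ℝ n (fun p : ℝ × R3 × R3 => f p.1 p.2.1 p.2.2) (J ×ˢ univ))
    (hs : VSupp f J) {a : R3 → F} (ha : ContDiff ℝ n a) :
    ContDiffOn ℝ n (fun q : ℝ × R3 => ∫ v, f q.1 q.2 v • a v) (J ×ˢ univ) :=
  contDiffOn_integral (f := fun (q : ℝ × R3) v => f q.1 q.2 v • a v) (hJ.prod isOpen_univ)
    (contDiffOn_smul_weight hf ha) (hs.locSupp a)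

/-- Derivatives of moments in a space-time direction. -/
theorem fderiv_moment {f : ℝ → R3 → R3 → ℝ} {J : Set ℝ} (hJ : IsOpen J)
    (hf : ContDiffOn ℝ 1 (fun p : ℝ × R3 × R3 => f p.1 p.2.1 p.2.2) (J ×ˢ univ))
    (hs : VSupp f J) {a : R3 → F} (ha : ContDiff ℝ 1 a) {t : ℝ} (ht : t ∈ J) (x : R3)
    (e : ℝ × R3) :
    fderiv ℝ (fun q : ℝ × R3 => ∫ v, f q.1 q.2 v • a v) (t, x) e =
      ∫ v, fderiv ℝ (fun q : ℝ × R3 => f q.1 q.2 v) (t, x) e • a v := by
  rw [fderiv_integral_apply (f := fun (q : ℝ × R3) v => f q.1 q.2 v • a v)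
    (hJ.prod isOpen_univ) (contDiffOn_smul_weight hf ha) (hs.locSupp a)
    (y := (t, x)) ⟨ht, trivial⟩ e]
  refine integral_congr_ae (Eventually.of_forall fun v => ?_)
  have hd : DifferentiableAt ℝ (fun q : ℝ × R3 => f q.1 q.2 v) (t, x) := by
    have h1 : DifferentiableAt ℝ (fun p : ℝ × R3 × R3 => f p.1 p.2.1 p.2.2) (t, x, v) :=
      (hf.differentiableOn one_ne_zero).differentiableAt
        ((hJ.prod isOpen_univ).mem_nhds ⟨ht, trivial⟩)
    exact DifferentiableAt.comp (t, x) (f := fun q : ℝ × R3 => (q.1, q.2, v)) h1 (by fun_prop)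
  change fderiv ℝ (fun q : ℝ × R3 => f q.1 q.2 v • a v) (t, x) e = _
  have h2 : HasFDerivAt (fun q : ℝ × R3 => f q.1 q.2 v • a v)
      ((fderiv ℝ (fun q : ℝ × R3 => f q.1 q.2 v) (t, x)).smulRight (a v)) (t, x) :=
    hd.hasFDerivAt.smul_const (a v)
  rw [h2.fderiv]
  rfl

end moments

/-! ### charge and current -/

lemma chargeDensity_eq (f : ℝ → R3 → R3 → ℝ) (t : ℝ) (x : R3) :
    chargeDensity f t x = ∫ v, f t x v • (1 : ℝ) := by simp [chargeDensity]

theorem contDiffOn_chargeDensity {n : ℕ∞} {f : ℝ → R3 → R3 → ℝ} {J : Set ℝ} (hJ : IsOpen J)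
    (hf : ContDiffOn ℝ n (fun p : ℝ × R3 × R3 => f p.1 p.2.1 p.2.2) (J ×ˢ univ))
    (hs : VSupp f J) :
    ContDiffOn ℝ n (fun q : ℝ × R3 => chargeDensity f q.1 q.2) (J ×ˢ univ) := by
  simp_rw [chargeDensity_eq]
  exact contDiffOn_moment hJ hf hs contDiff_const

theorem contDiffOn_currentDensity {n : ℕ∞} {f : ℝ → R3 → R3 → ℝ} {J : Set ℝ} (hJ : IsOpen J)
    (hf : ContDiffOn ℝ n (fun p : ℝ × R3 × R3 => f p.1 p.2.1 p.2.2) (J ×ˢ univ))
    (hs : VSupp f J) :
    ContDiffOn ℝ n (fun q : ℝ × R3 => currentDensity f q.1 q.2) (J ×ˢ univ) :=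
  contDiffOn_moment hJ hf hs contDiff_relVel

theorem contDiff_chargeDensity {n : ℕ∞} {f : ℝ → R3 → R3 → ℝ}
    (hf : ContDiff ℝ n (fun p : ℝ × R3 × R3 => f p.1 p.2.1 p.2.2)) (hs : VSupp f univ) :
    ContDiff ℝ n (fun q : ℝ × R3 => chargeDensity f q.1 q.2) := by
  rw [← contDiffOn_univ, ← univ_prod_univ]
  refine contDiffOn_chargeDensity isOpen_univ ?_ hs
  rw [univ_prod_univ]; exact hf.contDiffOn

theorem contDiff_currentDensity {n : ℕ∞} {f : ℝ → R3 → R3 → ℝ}
    (hf : ContDiff ℝ n (fun p : ℝ × R3 × R3 => f p.1 p.2.1 p.2.2)) (hs : VSupp f univ) :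
    ContDiff ℝ n (fun q : ℝ × R3 => currentDensity f q.1 q.2) := by
  rw [← contDiffOn_univ, ← univ_prod_univ]
  refine contDiffOn_currentDensity isOpen_univ ?_ hs
  rw [univ_prod_univ]; exact hf.contDiffOn

/-- space support -/
lemma chargeDensity_eq_zero {f : ℝ → R3 → R3 → ℝ} {t : ℝ} {x : R3} (h : ∀ v, f t x v = 0) :
    chargeDensity f t x = 0 := by simp [chargeDensity, h]

lemma currentDensity_eq_zero {f : ℝ → R3 → R3 → ℝ} {t : ℝ} {x : R3} (h : ∀ v, f t x v = 0) :
    currentDensity f t x = 0 := by simp [currentDensity, h]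

/-! ### continuity equation -/

/-- `∫ ∂_i g = 0` for compactly supported `C^1` `g` on `ℝ³` -/
lemma integral_pderiv_eq_zero {g : R3 → ℝ} (hg : ContDiff ℝ 1 g) (hc : HasCompactSupport g)
    (i : Fin 3) : ∫ v, pderiv g i v = 0 := by
  have h1 : Integrable (fun v : R3 => fderiv ℝ g v (EuclideanSpace.single i 1)) := by
    refine Continuous.integrable_of_hasCompactSupport ?_ ?_
    · exact (hg.continuous_fderiv one_ne_zero).clm_apply continuous_const
    · exact hc.fderiv_apply ℝ (EuclideanSpace.single i 1)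
  have h2 : Integrable g := hg.continuous.integrable_of_hasCompactSupport hc
  have h := integral_mul_fderiv_eq_neg_fderiv_mul_of_integrable (μ := (volume : Measure R3))
    (f := fun _ : R3 => (1 : ℝ)) (g := g) (v := EuclideanSpace.single i 1)
    (by simp) (by simpa using h1) (by simpa using h2)
    (fun v _ => differentiableAt_const _) (fun v _ => (hg.differentiable one_ne_zero) v)
  simpa [pderiv] using h

lemma hasCompactSupport_pderiv {g : R3 → ℝ} (hc : HasCompactSupport g) (i : Fin 3) :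
    HasCompactSupport (fun v => pderiv g i v) := hc.fderiv_apply ℝ (EuclideanSpace.single i 1)

lemma continuous_pderiv {g : R3 → ℝ} (hg : ContDiff ℝ 1 g) (i : Fin 3) :
    Continuous (fun v => pderiv g i v) :=
  (hg.continuous_fderiv one_ne_zero).clm_apply continuous_const

lemma deriv_slice {f : ℝ → R3 → R3 → ℝ} {J : Set ℝ} (hJ : IsOpen J)
    (hf : ContDiffOn ℝ 1 (fun p : ℝ × R3 × R3 => f p.1 p.2.1 p.2.2) (J ×ˢ univ)) {t : ℝ}
    (ht : t ∈ J) (x v : R3) :
    fderiv ℝ (fun q : ℝ × R3 => f q.1 q.2 v) (t, x) (1, 0) = deriv (fun s => f s x v) t := by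
  have h1 : DifferentiableAt ℝ (fun p : ℝ × R3 × R3 => f p.1 p.2.1 p.2.2) (t, x, v) :=
    (hf.differentiableOn one_ne_zero).differentiableAt
      ((hJ.prod isOpen_univ).mem_nhds ⟨ht, trivial⟩)
  have hd : DifferentiableAt ℝ (fun q : ℝ × R3 => f q.1 q.2 v) (t, x) :=
    DifferentiableAt.comp (t, x) (f := fun q : ℝ × R3 => (q.1, q.2, v)) h1 (by fun_prop)
  have hc : HasDerivAt (fun s : ℝ => ((s, x) : ℝ × R3)) (1, 0) t :=
    (hasDerivAt_id t).prodMk (hasDerivAt_const t x)
  have := HasFDerivAt.comp_hasDerivAt (f := fun s : ℝ => ((s, x) : ℝ × R3)) t hd.hasFDerivAt hc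
  exact this.deriv.symm

lemma pderiv_slice {f : ℝ → R3 → R3 → ℝ} {J : Set ℝ} (hJ : IsOpen J)
    (hf : ContDiffOn ℝ 1 (fun p : ℝ × R3 × R3 => f p.1 p.2.1 p.2.2) (J ×ˢ univ)) {t : ℝ}
    (ht : t ∈ J) (x v : R3) (i : Fin 3) :
    fderiv ℝ (fun q : ℝ × R3 => f q.1 q.2 v) (t, x) (0, EuclideanSpace.single i 1) =
      pderiv (fun y => f t y v) i x := by
  have h1 : DifferentiableAt ℝ (fun p : ℝ × R3 × R3 => f p.1 p.2.1 p.2.2) (t, x, v) :=
    (hf.differentiableOn one_ne_zero).differentiableAt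
      ((hJ.prod isOpen_univ).mem_nhds ⟨ht, trivial⟩)
  have hd : DifferentiableAt ℝ (fun q : ℝ × R3 => f q.1 q.2 v) (t, x) :=
    DifferentiableAt.comp (t, x) (f := fun q : ℝ × R3 => (q.1, q.2, v)) h1 (by fun_prop)
  have h2 : HasFDerivAt (fun y : R3 => f t y v)
      ((fderiv ℝ (fun q : ℝ × R3 => f q.1 q.2 v) (t, x)).comp (ContinuousLinearMap.inr ℝ ℝ R3)) x :=
    HasFDerivAt.comp x (f := fun y : R3 => ((t, y) : ℝ × R3)) hd.hasFDerivAt
      (hasFDerivAt_prodMk_right t x)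
  unfold pderiv
  rw [h2.fderiv]
  rfl

/-- time derivative of the charge density -/
theorem deriv_chargeDensity {f : ℝ → R3 → R3 → ℝ} {J : Set ℝ} (hJ : IsOpen J)
    (hf : ContDiffOn ℝ 1 (fun p : ℝ × R3 × R3 => f p.1 p.2.1 p.2.2) (J ×ˢ univ))
    (hs : VSupp f J) {t : ℝ} (ht : t ∈ J) (x : R3) :
    deriv (fun s => chargeDensity f s x) t = ∫ v, deriv (fun s => f s x v) t := by
  have hρ := contDiffOn_chargeDensity (n := 1) hJ (by exact_mod_cast hf) hs
  have hd : DifferentiableAt ℝ (fun q : ℝ × R3 => chargeDensity f q.1 q.2) (t, x) :=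
    (hρ.differentiableOn one_ne_zero).differentiableAt
      ((hJ.prod isOpen_univ).mem_nhds ⟨ht, trivial⟩)
  have hc : HasDerivAt (fun s : ℝ => ((s, x) : ℝ × R3)) (1, 0) t :=
    (hasDerivAt_id t).prodMk (hasDerivAt_const t x)
  have h1 := (HasFDerivAt.comp_hasDerivAt (f := fun s : ℝ => ((s, x) : ℝ × R3)) t
    hd.hasFDerivAt hc).deriv
  have h2 : deriv (fun s => chargeDensity f s x) t =
      fderiv ℝ (fun q : ℝ × R3 => chargeDensity f q.1 q.2) (t, x) (1, 0) := h1
  rw [h2]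
  simp_rw [chargeDensity_eq]
  rw [fderiv_moment hJ hf hs contDiff_const ht x]
  refine integral_congr_ae (Eventually.of_forall fun v => ?_)
  simp only [smul_eq_mul, mul_one]
  exact deriv_slice hJ hf ht x v

/-- space derivative of a component of the current density -/
theorem pderiv_currentDensity {f : ℝ → R3 → R3 → ℝ} {J : Set ℝ} (hJ : IsOpen J)
    (hf : ContDiffOn ℝ 1 (fun p : ℝ × R3 × R3 => f p.1 p.2.1 p.2.2) (J ×ˢ univ))
    (hs : VSupp f J) {t : ℝ} (ht : t ∈ J) (x : R3) (i j : Fin 3) :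
    pderiv (fun y => currentDensity f t y j) i x =
      ∫ v, relVel v j * pderiv (fun y => f t y v) i x := by
  have ha : ContDiff ℝ 1 (fun v => relVel v j) :=
    (EuclideanSpace.proj j : R3 →L[ℝ] ℝ).contDiff.comp contDiff_relVel
  have hcomp : ∀ s y, currentDensity f s y j = ∫ v, f s y v • relVel v j ∨ s ∉ J := by
    intro s y
    by_cases hsJ : s ∈ J
    · left
      unfold currentDensity
      have hint : Integrable (fun v => f s y v • relVel v) :=
        integrable_slice (f := fun (q : ℝ × R3) v => f q.1 q.2 v • relVel v) (U := J ×ˢ univ)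
          (contDiffOn_smul_weight hf contDiff_relVel).continuousOn (hs.locSupp relVel)
          (y := (s, y)) ⟨hsJ, trivial⟩
      have := (EuclideanSpace.proj j : R3 →L[ℝ] ℝ).integral_comp_comm hint
      simpa using this.symm
    · exact Or.inr hsJ
  have hfun : (fun y => currentDensity f t y j) = fun y => ∫ v, f t y v • relVel v j := by
    funext y
    exact (hcomp t y).resolve_right (fun h => h ht)
  have hρ := contDiffOn_moment (n := 1) hJ (by exact_mod_cast hf) hs (a := fun v => relVel v j)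
    (by exact_mod_cast ha)
  have hd : DifferentiableAt ℝ (fun q : ℝ × R3 => ∫ v, f q.1 q.2 v • relVel v j) (t, x) :=
    (hρ.differentiableOn one_ne_zero).differentiableAt
      ((hJ.prod isOpen_univ).mem_nhds ⟨ht, trivial⟩)
  have h2 : HasFDerivAt (fun y : R3 => ∫ v, f t y v • relVel v j)
      ((fderiv ℝ (fun q : ℝ × R3 => ∫ v, f q.1 q.2 v • relVel v j) (t, x)).comp
        (ContinuousLinearMap.inr ℝ ℝ R3)) x :=
    HasFDerivAt.comp x (f := fun y : R3 => ((t, y) : ℝ × R3)) hd.hasFDerivAt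
      (hasFDerivAt_prodMk_right t x)
  rw [hfun]
  unfold pderiv
  rw [h2.fderiv]
  change fderiv ℝ (fun q : ℝ × R3 => ∫ v, f q.1 q.2 v • relVel v j) (t, x)
    (0, EuclideanSpace.single i 1) = _
  rw [fderiv_moment hJ hf hs ha ht x]
  refine integral_congr_ae (Eventually.of_forall fun v => ?_)
  simp only [smul_eq_mul]
  rw [pderiv_slice hJ hf ht x v i, mul_comm]
  rfl

/-- **Continuity equation**, general form: `S f = - div_v g` with `g` compactly supported. -/
theorem continuity_eq_of_div {f : ℝ → R3 → R3 → ℝ} {J : Set ℝ} (hJ : IsOpen J)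
    (hf : ContDiffOn ℝ 1 (fun p : ℝ × R3 × R3 => f p.1 p.2.1 p.2.2) (J ×ˢ univ))
    (hs : VSupp f J) {t : ℝ} (ht : t ∈ J) (x : R3) {g : R3 → R3} (hg : ContDiff ℝ 1 g)
    (hgs : HasCompactSupport g)
    (heq : ∀ v : R3, deriv (fun s => f s x v) t
      + ∑ i : Fin 3, relVel v i * pderiv (fun y => f t y v) i x
      + ∑ i : Fin 3, pderiv (fun w => g w i) i v = 0) :
    deriv (fun s => chargeDensity f s x) t + div3 (currentDensity f t) x = 0 := by
  have hU : IsOpen (J ×ˢ (univ : Set R3)) := hJ.prod isOpen_univ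
  -- integrability
  have hw1 : ContDiff ℝ 1 (fun _ : R3 => (1 : ℝ)) := contDiff_const
  have hI1 : Integrable (fun v => deriv (fun s => f s x v) t) := by
    have h1 := continuousOn_dpar (f := fun (q : ℝ × R3) v => f q.1 q.2 v • (1 : ℝ)) hU
      (contDiffOn_smul_weight hf hw1)
    have h2 : Integrable (dpar (fun (q : ℝ × R3) v => f q.1 q.2 v • (1 : ℝ)) (t, x)) :=
      integrable_slice h1 ((hs.locSupp (fun _ => (1 : ℝ))).dpar) ⟨ht, trivial⟩
    have h3 := (ContinuousLinearMap.apply ℝ ℝ ((1 : ℝ), (0 : R3))).integrable_comp h2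
    refine h3.congr (Eventually.of_forall fun v => ?_)
    simp only [ContinuousLinearMap.apply_apply, dpar, smul_eq_mul, mul_one]
    exact deriv_slice hJ hf ht x v
  have hI2 : ∀ i : Fin 3, Integrable (fun v => relVel v i * pderiv (fun y => f t y v) i x) := by
    intro i
    have ha : ContDiff ℝ 1 (fun v => relVel v i) :=
      (EuclideanSpace.proj i : R3 →L[ℝ] ℝ).contDiff.comp contDiff_relVel
    have h1 := continuousOn_dpar (f := fun (q : ℝ × R3) v => f q.1 q.2 v • (1 : ℝ)) hU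
      (contDiffOn_smul_weight hf hw1)
    have h2 : Continuous (dpar (fun (q : ℝ × R3) v => f q.1 q.2 v • (1 : ℝ)) (t, x)) :=
      continuous_slice h1 ⟨ht, trivial⟩
    have h3 : HasCompactSupport (dpar (fun (q : ℝ × R3) v => f q.1 q.2 v • (1 : ℝ)) (t, x)) :=
      hasCompactSupport_slice ((hs.locSupp (fun _ => (1 : ℝ))).dpar) (U := J ×ˢ univ) ⟨ht, trivial⟩
    have h4 : ∀ v, dpar (fun (q : ℝ × R3) v => f q.1 q.2 v • (1 : ℝ)) (t, x) v
        (0, EuclideanSpace.single i 1) = pderiv (fun y => f t y v) i x := by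
      intro v
      simp only [dpar, smul_eq_mul, mul_one]
      exact pderiv_slice hJ hf ht x v i
    have h5 : Continuous (fun v => relVel v i * pderiv (fun y => f t y v) i x) := by
      simp_rw [← h4]
      exact ha.continuous.mul (h2.clm_apply continuous_const)
    refine h5.integrable_of_hasCompactSupport ?_
    refine HasCompactSupport.mul_left ?_
    refine h3.mono' ?_
    intro v hv
    apply subset_tsupport
    intro h0
    apply hv
    have := h4 v
    rw [h0] at this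
    simpa using this.symm
  have hgi : ∀ i : Fin 3, ContDiff ℝ 1 (fun w => g w i) := fun i =>
    (EuclideanSpace.proj i : R3 →L[ℝ] ℝ).contDiff.comp hg
  have hgc : ∀ i : Fin 3, HasCompactSupport (fun w => g w i) := fun i =>
    hgs.comp_left (g := fun z : R3 => z i) (by simp)
  have hI3 : ∀ i : Fin 3, Integrable (fun v => pderiv (fun w => g w i) i v) := fun i =>
    (continuous_pderiv (hgi i) i).integrable_of_hasCompactSupport
      (hasCompactSupport_pderiv (hgc i) i)
  have hint : ∫ v, (deriv (fun s => f s x v) t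
      + ∑ i : Fin 3, relVel v i * pderiv (fun y => f t y v) i x
      + ∑ i : Fin 3, pderiv (fun w => g w i) i v) = 0 := by
    simp_rw [heq]; simp
  have hI2' : Integrable (fun v => ∑ i : Fin 3, relVel v i * pderiv (fun y => f t y v) i x) :=
    integrable_finsetSum _ fun i _ => hI2 i
  have hI3' : Integrable (fun v => ∑ i : Fin 3, pderiv (fun w => g w i) i v) :=
    integrable_finsetSum _ fun i _ => hI3 i
  have hI12 : Integrable (fun v => deriv (fun s => f s x v) t
      + ∑ i : Fin 3, relVel v i * pderiv (fun y => f t y v) i x) := hI1.add hI2'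
  rw [integral_add hI12 hI3', integral_add hI1 hI2', integral_finsetSum _ (fun i _ => hI2 i),
    integral_finsetSum _ (fun i _ => hI3 i)] at hint
  rw [deriv_chargeDensity hJ hf hs ht x]
  unfold div3
  simp_rw [pderiv_currentDensity hJ hf hs ht x]
  simp_rw [integral_pderiv_eq_zero (hgi _) (hgc _)] at hint
  simpa using hint

/-- **Continuity equation** for a density transported by a force field `G` with `div_v G = 0`. -/
theorem continuity_eq_of_force {f : ℝ → R3 → R3 → ℝ} {J : Set ℝ} (hJ : IsOpen J)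
    (hf : ContDiffOn ℝ 1 (fun p : ℝ × R3 × R3 => f p.1 p.2.1 p.2.2) (J ×ˢ univ))
    (hs : VSupp f J) {t : ℝ} (ht : t ∈ J) (x : R3) {G : R3 → R3} (hG : ContDiff ℝ 1 G)
    (hdiv : ∀ v, ∑ i : Fin 3, pderiv (fun w => G w i) i v = 0)
    (heq : ∀ v : R3, deriv (fun s => f s x v) t
      + ∑ i : Fin 3, relVel v i * pderiv (fun y => f t y v) i x
      + ∑ i : Fin 3, G v i * pderiv (fun w => f t x w) i v = 0) :
    deriv (fun s => chargeDensity f s x) t + div3 (currentDensity f t) x = 0 := by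
  have hft : ContDiff ℝ 1 (fun w => f t x w) := by
    rw [← contDiffOn_univ]
    have h1 : ContDiff ℝ 1 (fun w : R3 => ((t, x, w) : ℝ × R3 × R3)) := by fun_prop
    exact hf.comp (h1.contDiffOn (s := univ)) (fun w _ => ⟨ht, trivial⟩)
  have hcs : HasCompactSupport (fun w => f t x w) := by
    have := hasCompactSupport_slice (hs.locSupp (fun _ => (1 : ℝ))) (U := J ×ˢ univ)
      (y := (t, x)) ⟨ht, trivial⟩
    simpa using this
  refine continuity_eq_of_div hJ hf hs ht x (g := fun v => f t x v • G v) (hft.smul hG)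
    (hcs.smul_right) (fun v => ?_)
  rw [← heq v]
  congr 1
  have h1 : ∀ i : Fin 3, pderiv (fun w => (f t x w • G w) i) i v =
      G v i * pderiv (fun w => f t x w) i v + f t x v * pderiv (fun w => G w i) i v := by
    intro i
    have hd1 : DifferentiableAt ℝ (fun w => f t x w) v := (hft.differentiable one_ne_zero) v
    have hGi : ContDiff ℝ 1 (fun w => G w i) :=
      (EuclideanSpace.proj i : R3 →L[ℝ] ℝ).contDiff.comp hG
    have hd2 : DifferentiableAt ℝ (fun w => G w i) v := (hGi.differentiable one_ne_zero) v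
    have h2 : HasFDerivAt (fun w => (f t x w • G w) i)
        (f t x v • fderiv ℝ (fun w => G w i) v + G v i • fderiv ℝ (fun w => f t x w) v) v := by
      exact hd1.hasFDerivAt.mul hd2.hasFDerivAt
    unfold pderiv
    rw [h2.fderiv]
    simp only [add_apply, smul_apply, smul_eq_mul]
    ring
  simp_rw [h1]
  rw [Finset.sum_add_distrib, ← Finset.mul_sum, hdiv v, mul_zero, add_zero]



/-! ### the moments of `Gs2Defs` -/

/-- derivatives of `Gs2.mom` -/
theorem fderiv_mom {m : R3 → ℝ} (hm : ContDiff ℝ 1 m) {g : Gs2.PS → ℝ} {J : Set ℝ}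
    (hJ : IsOpen J) (hg : ContDiffOn ℝ 1 g (J ×ˢ univ))
    (hs : VSupp (fun t x v => g (t, x, v)) J) {t : ℝ} (ht : t ∈ J) (x : R3) (a : ℝ) (b : R3) :
    fderiv ℝ (fun q : ℝ × R3 => Gs2.mom m g q.1 q.2) (t, x) (a, b) =
      Gs2.mom m (Gs2.dxt a b g) t x := by
  have h1 : (fun q : ℝ × R3 => Gs2.mom m g q.1 q.2) =
      fun q : ℝ × R3 => ∫ v, (fun t x v => g (t, x, v)) q.1 q.2 v • m v := by
    funext q
    simp only [Gs2.mom, smul_eq_mul]
    refine integral_congr_ae (Eventually.of_forall fun v => ?_)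
    simp only [mul_comm]
  rw [h1, fderiv_moment (f := fun t x v => g (t, x, v)) hJ hg hs hm ht x (a, b)]
  simp only [Gs2.mom, smul_eq_mul]
  refine integral_congr_ae (Eventually.of_forall fun v => ?_)
  simp only
  rw [mul_comm]
  congr 1
  unfold Gs2.dxt
  have hd : DifferentiableAt ℝ g (t, x, v) :=
    (hg.differentiableOn one_ne_zero).differentiableAt
      ((hJ.prod isOpen_univ).mem_nhds ⟨ht, trivial⟩)
  have hL : HasFDerivAt (fun q : ℝ × R3 => ((q.1, q.2, v) : ℝ × R3 × R3))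
      ((ContinuousLinearMap.fst ℝ ℝ R3).prod ((ContinuousLinearMap.snd ℝ ℝ R3).prod 0)) (t, x) :=
    (ContinuousLinearMap.fst ℝ ℝ R3).hasFDerivAt.prodMk
      ((ContinuousLinearMap.snd ℝ ℝ R3).hasFDerivAt.prodMk (hasFDerivAt_const v (t, x)))
  have h2 : HasFDerivAt (fun q : ℝ × R3 => g (q.1, q.2, v))
      ((fderiv ℝ g (t, x, v)).comp
        ((ContinuousLinearMap.fst ℝ ℝ R3).prod ((ContinuousLinearMap.snd ℝ ℝ R3).prod 0))) (t, x) :=
    HasFDerivAt.comp (t, x) (f := fun q : ℝ × R3 => ((q.1, q.2, v) : ℝ × R3 × R3))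
      hd.hasFDerivAt hL
  rw [h2.fderiv]
  rfl

theorem contDiffOn_mom {n : ℕ∞} {m : R3 → ℝ} (hm : ContDiff ℝ n m) {g : Gs2.PS → ℝ} {J : Set ℝ}
    (hJ : IsOpen J) (hg : ContDiffOn ℝ n g (J ×ˢ univ))
    (hs : VSupp (fun t x v => g (t, x, v)) J) :
    ContDiffOn ℝ n (fun q : ℝ × R3 => Gs2.mom m g q.1 q.2) (J ×ˢ univ) := by
  have h1 : (fun q : ℝ × R3 => Gs2.mom m g q.1 q.2) =
      fun q : ℝ × R3 => ∫ v, (fun t x v => g (t, x, v)) q.1 q.2 v • m v := by
    funext q
    simp only [Gs2.mom, smul_eq_mul]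
    refine integral_congr_ae (Eventually.of_forall fun v => ?_)
    simp only [mul_comm]
  rw [h1]
  exact contDiffOn_moment (f := fun t x v => g (t, x, v)) hJ hg hs hm

end Crest.Agent.R106.Src
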