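import Crest.Agent.R106.IterB
import Mathlib
import Crest.Prelude.Def_VecCalc3
import Crest.Prelude.Def_VlasovMaxwell
import Crest.Agent.R106.KirMean
import Crest.Agent.R106.KirWav
import Crest.Agent.R106.StdIface
import Crest.Agent.R106.Rev
import Crest.Agent.R106.FieldIface
import Crest.Agent.R106.Gs2Defs
import Crest.Agent.R106.Src2
import Crest.Agent.R106.SrcStd
import Crest.Agent.R106.KirSm_Mg
import Crest.Agent.R106.FieldWave

-- ▼ part R106/IterBk
section

set_option autoImplicit false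
open MeasureTheory Set Filter Topology
open scoped ContDiff
open Crest.AnalysisR.VecCalc3 Crest.AnalysisR.PDE.RVM

namespace Crest.Agent.R106.Std

/-- The `x`-derivatives of a phase space function are bounded by the joint derivatives. -/
theorem norm_iteratedFDeriv_slice_x {f : R3 × R3 → ℝ} (hf : ContDiff ℝ ∞ f) (n : ℕ) (x v : R3) :
    ‖iteratedFDeriv ℝ n (fun y => f (y, v)) x‖ ≤ ‖iteratedFDeriv ℝ n f (x, v)‖ := by
  set F' : R3 × R3 → ℝ := fun p => f (p + (0, v)) with hF'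
  have hF's : ContDiff ℝ ∞ F' := hf.comp (contDiff_id.add contDiff_const)
  have h1 : (fun y => f (y, v)) = F' ∘ (ContinuousLinearMap.inl ℝ R3 R3) := by
    funext y; simp [hF']
  have h2 := (ContinuousLinearMap.inl ℝ R3 R3).iteratedFDeriv_comp_right (f := F') hF's x
    (i := n) (by exact_mod_cast le_top)
  have h3 : iteratedFDeriv ℝ n F' (x, 0) = iteratedFDeriv ℝ n f (x, v) := by
    have := iteratedFDeriv_comp_add_right (𝕜 := ℝ) (f := f) n ((0 : R3), v) (x, 0)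
    rw [hF']
    simpa using this
  rw [h1, h2]
  have h4 : (ContinuousLinearMap.inl ℝ R3 R3) x = (x, 0) := rfl
  rw [h4, h3]
  refine (ContinuousMultilinearMap.norm_compContinuousLinearMap_le _ _).trans ?_
  have h5 : ∏ _i : Fin n, ‖(ContinuousLinearMap.inl ℝ R3 R3)‖ ≤ 1 := by
    refine Finset.prod_le_one (fun _ _ => norm_nonneg _) (fun _ _ => ?_)
    exact ContinuousLinearMap.opNorm_le_bound _ zero_le_one (fun y => by simp [Prod.norm_def])
  calc _ ≤ ‖iteratedFDeriv ℝ n f (x, v)‖ * 1 :=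
        mul_le_mul_of_nonneg_left h5 (norm_nonneg _)
    _ = _ := mul_one _

/-- space derivatives of the source `G_i f` -/
theorem gsrc_deriv_le {P : ℝ} {G : R3 → (R3 × R3) →L[ℝ] R3} (_hG : IsTrunc P G) {CG : ℝ}
    (hCG0 : 0 ≤ CG) (hCG : ∀ v, ‖G v‖ ≤ CG) {E B : ℝ → R3 → R3} {f : ℝ → R3 → R3 → ℝ}
    (hE : SF E) (hB : SF B) (hf : PC f) (k : ℕ) (s : ℝ) (a b : ℕ → ℝ)
    (ha : ∀ j ≤ k, FBd j E B s (a j)) (hb : ∀ j ≤ k, fBd j f s (b j)) (i : Fin 3) (x v : R3) :
    ‖iteratedFDeriv ℝ k (fun y => gsrc G E B f i s y v) x‖ ≤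
      ∑ j ∈ Finset.range (k + 1), (k.choose j : ℝ) * (CG * a j) * b (k - j) := by
  have hEs : ContDiff ℝ ∞ (E s) := hE.1.comp (contDiff_const.prodMk contDiff_id)
  have hBs : ContDiff ℝ ∞ (B s) := hB.1.comp (contDiff_const.prodMk contDiff_id)
  have hEB : ContDiff ℝ ∞ (fun y => (E s y, B s y)) := hEs.prodMk hBs
  have hfs : ContDiff ℝ ∞ (fun z : R3 × R3 => f s z.1 z.2) :=
    hf.1.comp (contDiff_const.prodMk contDiff_id)
  have hfx : ContDiff ℝ ∞ (fun y => f s y v) :=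
    hfs.comp (contDiff_id.prodMk contDiff_const)
  set ℓ : (R3 × R3) →L[ℝ] ℝ := (EuclideanSpace.proj (𝕜 := ℝ) i : R3 →L[ℝ] ℝ).comp (G v) with hℓ
  have hℓn : ‖ℓ‖ ≤ CG := by
    refine ContinuousLinearMap.opNorm_le_bound _ hCG0 fun z => ?_
    calc ‖ℓ z‖ = ‖(G v z) i‖ := rfl
      _ ≤ ‖G v z‖ := PiLp.norm_apply_le _ _
      _ ≤ ‖G v‖ * ‖z‖ := (G v).le_opNorm z
      _ ≤ CG * ‖z‖ := by gcongr; exact hCG v
  have hg : (fun y => gsrc G E B f i s y v) = fun y => (ℓ (E s y, B s y)) * f s y v := rfl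
  have hℓs : ContDiff ℝ ∞ (fun y => ℓ (E s y, B s y)) := ℓ.contDiff.comp hEB
  rw [hg]
  refine (norm_iteratedFDeriv_mul_le hℓs hfx x (n := k) (by exact_mod_cast le_top)).trans ?_
  refine Finset.sum_le_sum fun j hj => ?_
  have hjk : j ≤ k := Nat.lt_succ_iff.1 (Finset.mem_range.1 hj)
  have h1 : ‖iteratedFDeriv ℝ j (fun y => ℓ (E s y, B s y)) x‖ ≤ CG * a j := by
    have e1 := ℓ.norm_iteratedFDeriv_comp_left (f := fun y => (E s y, B s y)) hEB.contDiffAt
      (x := x) (n := j) (by exact_mod_cast le_top)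
    refine e1.trans ?_
    have e2 : ‖iteratedFDeriv ℝ j (fun y => (E s y, B s y)) x‖ ≤ a j := by
      have e3 := iteratedFDeriv_prodMk (𝕜 := ℝ) (f := E s) (g := B s) (n := ∞) (x := x)
        hEs.contDiffAt hBs.contDiffAt (i := j) (by exact_mod_cast le_top)
      rw [e3, ContinuousMultilinearMap.opNorm_prod]
      exact max_le (ha j hjk x).1 (ha j hjk x).2
    exact mul_le_mul hℓn e2 (norm_nonneg _) hCG0
  have h2 : ‖iteratedFDeriv ℝ (k - j) (fun y => f s y v) x‖ ≤ b (k - j) :=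
    (norm_iteratedFDeriv_slice_x hfs (k - j) x v).trans (hb (k - j) (Nat.sub_le _ _) (x, v))
  have h3 : 0 ≤ CG * a j := (norm_nonneg _).trans h1
  have h4 : (0:ℝ) ≤ (k.choose j : ℝ) := Nat.cast_nonneg _
  have h5 : ((k.choose j : ℕ) : ℝ) * ‖iteratedFDeriv ℝ j (fun y => ℓ (E s y, B s y)) x‖ ≤
      (k.choose j : ℝ) * (CG * a j) := mul_le_mul_of_nonneg_left h1 h4
  exact mul_le_mul h5 h2 (norm_nonneg _) (mul_nonneg h4 h3)

/-- `|∫₀ˢ φ| ≤ |∫₀ᵗ φ|` for `s` between `0` and `t`. -/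
theorem abs_integral_le_of_mem {φ : ℝ → ℝ} {T t : ℝ} (hφ : Continuous φ)
    (hφn : ∀ s, |s| ≤ T → 0 ≤ φ s) (ht : |t| ≤ T) {s : ℝ} (hs : s ∈ uIcc 0 t) :
    |s| ≤ T ∧ |∫ r in (0:ℝ)..s, φ r| ≤ |∫ r in (0:ℝ)..t, φ r| := by
  have hTt : ∀ r ∈ uIcc 0 t, |r| ≤ T := by
    intro r hr
    rcases le_total 0 t with h0 | h0
    · rw [uIcc_of_le h0] at hr
      rw [abs_of_nonneg h0] at ht
      rw [abs_of_nonneg hr.1]
      exact hr.2.trans ht
    · rw [uIcc_of_ge h0] at hr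
      rw [abs_of_nonpos h0] at ht
      rw [abs_of_nonpos hr.2]
      linarith [hr.1]
  refine ⟨hTt s hs, ?_⟩
  rcases le_total 0 t with h0 | h0
  · rw [uIcc_of_le h0] at hs hTt
    have a1 : 0 ≤ ∫ r in (0:ℝ)..s, φ r := intervalIntegral.integral_nonneg hs.1
      (fun r hr => hφn r (hTt r ⟨hr.1, hr.2.trans hs.2⟩))
    have a2 : 0 ≤ ∫ r in s..t, φ r := intervalIntegral.integral_nonneg hs.2
      (fun r hr => hφn r (hTt r ⟨hs.1.trans hr.1, hr.2⟩))
    have a3 := intervalIntegral.integral_add_adjacent_intervals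
      (hφ.intervalIntegrable (μ := volume) 0 s) (hφ.intervalIntegrable s t)
    rw [abs_of_nonneg a1, ← a3, abs_of_nonneg (by positivity)]
    linarith
  · rw [uIcc_of_ge h0] at hs hTt
    have a1 : 0 ≤ ∫ r in s..(0:ℝ), φ r := intervalIntegral.integral_nonneg hs.2
      (fun r hr => hφn r (hTt r ⟨hs.1.trans hr.1, hr.2⟩))
    have a2 : 0 ≤ ∫ r in t..s, φ r := intervalIntegral.integral_nonneg hs.1
      (fun r hr => hφn r (hTt r ⟨hr.1, hr.2.trans hs.2⟩))
    have a3 := intervalIntegral.integral_add_adjacent_intervals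
      (hφ.intervalIntegrable (μ := volume) t s) (hφ.intervalIntegrable s 0)
    rw [intervalIntegral.integral_symm s 0, intervalIntegral.integral_symm t 0, abs_neg, abs_neg,
      abs_of_nonneg a1, ← a3, abs_of_nonneg (by positivity)]
    linarith

theorem bk_of (hFB : FB) (hTk : Trk) : Bk := by
  intro P G hG f₀ E₀ B₀ hd k T A hk
  obtain ⟨C1, hC1, h1⟩ := hTk P G hG f₀ hd.2.1 hd.2.2.1 k T A hk
  obtain ⟨-, hsm, hcs, -, -, -, -, -, -, -⟩ := id hd
  -- support radius of f₀ in v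
  obtain ⟨R0, hR0⟩ := hcs.isCompact.isBounded.subset_closedBall (0 : R3 × R3)
  have hR0' : ∀ x v : R3, R0 < ‖v‖ → f₀ x v = 0 := by
    intro x v hv
    by_contra hne
    have h1 : (x, v) ∈ tsupport (Function.uncurry f₀) := subset_tsupport _ hne
    have h2 := hR0 h1
    rw [mem_closedBall_zero_iff] at h2
    exact absurd ((norm_snd_le (x, v)).trans h2) (not_le.2 hv)
  set R : ℝ := max (2 * P) R0 with hRdef
  obtain ⟨CG, hCG0, hCG⟩ := hG.bdd
  obtain ⟨C2, hC2, h2⟩ := hFB f₀ E₀ B₀ hd k R T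
  set K : ℝ := 2 ^ k * CG * |A| * (|A| + 1 + C1) + C1 with hKdef
  have hK0 : 0 ≤ K := by positivity
  refine ⟨max C1 (C2 * (1 + K * (1 + |T|))), le_max_of_le_left hC1, ?_⟩
  intro E B f E' B' φ hst hφ hA hφb t ht
  have hφn : ∀ s, |s| ≤ T → 0 ≤ φ s := fun s hs => (hφb s hs).nonneg
  have hf := h1 E B f φ hst.inE hst.inB hst.pc hst.init hst.trans hA hφ hφb
  have hI : 0 ≤ |∫ s in (0:ℝ)..t, φ s| := abs_nonneg _
  have hcI : Continuous fun s => |∫ r in (0:ℝ)..s, φ r| :=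
    (intervalIntegral.continuous_primitive (fun a b => hφ.intervalIntegrable a b) 0).abs
  refine ⟨(hf t ht).mono ?_, ?_⟩
  · exact mul_le_mul_of_nonneg_right (le_max_left _ _) (by positivity)
  have key := h2 f (gsrc G E B f) E' B' (fun s => K * (1 + φ s + |∫ r in (0:ℝ)..s, φ r|)) hst.pc
    (fun i => pc_gsrc hG hst.inE hst.inB hst.pc i) hst.outE hst.outB ?_ ?_ hst.maxwell
    hst.init hst.initE hst.initB (by fun_prop) ?_ t ht
  · refine key.mono ?_
    have hint : |∫ s in (0:ℝ)..t, K * (1 + φ s + |∫ r in (0:ℝ)..s, φ r|)| ≤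
        K * (|T| + |∫ s in (0:ℝ)..t, φ s| + |T| * |∫ s in (0:ℝ)..t, φ s|) := by
      have e1 : ∫ s in (0:ℝ)..t, K * (1 + φ s + |∫ r in (0:ℝ)..s, φ r|)
          = K * (t + (∫ s in (0:ℝ)..t, φ s) + ∫ s in (0:ℝ)..t, |∫ r in (0:ℝ)..s, φ r|) := by
        have i1 : IntervalIntegrable (fun _ : ℝ => (1:ℝ)) volume 0 t := by simp
        have i2 : IntervalIntegrable φ volume 0 t := hφ.intervalIntegrable _ _
        have i3 : IntervalIntegrable (fun s => |∫ r in (0:ℝ)..s, φ r|) volume 0 t :=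
          hcI.intervalIntegrable _ _
        rw [intervalIntegral.integral_const_mul, intervalIntegral.integral_add (i1.add i2) i3,
          intervalIntegral.integral_add i1 i2]
        simp
      rw [e1, abs_mul, abs_of_nonneg hK0]
      apply mul_le_mul_of_nonneg_left _ hK0
      have e2 : |∫ s in (0:ℝ)..t, (|∫ r in (0:ℝ)..s, φ r|)| ≤ |T| * |∫ s in (0:ℝ)..t, φ s| := by
        have e3 := intervalIntegral.norm_integral_le_of_norm_le_const
          (a := (0:ℝ)) (b := t) (f := fun s => |∫ r in (0:ℝ)..s, φ r|)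
          (C := |∫ s in (0:ℝ)..t, φ s|) (fun s hs => by
            rw [Real.norm_eq_abs, abs_abs]
            exact (abs_integral_le_of_mem hφ hφn ht (uIoc_subset_uIcc hs)).2)
        rw [Real.norm_eq_abs, sub_zero] at e3
        refine e3.trans ?_
        rw [mul_comm]
        exact mul_le_mul_of_nonneg_right (ht.trans (le_abs_self T)) hI
      have e4 : |t| ≤ |T| := ht.trans (le_abs_self T)
      refine (abs_add_le _ _).trans ?_
      refine add_le_add ((abs_add_le _ _).trans ?_) e2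
      linarith
    calc C2 * (1 + |∫ s in (0:ℝ)..t, K * (1 + φ s + |∫ r in (0:ℝ)..s, φ r|)|)
        ≤ C2 * (1 + K * (|T| + |∫ s in (0:ℝ)..t, φ s| + |T| * |∫ s in (0:ℝ)..t, φ s|)) := by
          gcongr
      _ ≤ C2 * ((1 + K * (1 + |T|)) * (1 + |∫ s in (0:ℝ)..t, φ s|)) := by
          apply mul_le_mul_of_nonneg_left _ hC2
          have a1 : 0 ≤ K * |T| := by positivity
          nlinarith
      _ = C2 * (1 + K * (1 + |T|)) * (1 + |∫ s in (0:ℝ)..t, φ s|) := by ring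
      _ ≤ max C1 (C2 * (1 + K * (1 + |T|))) * (1 + |∫ s in (0:ℝ)..t, φ s|) :=
          mul_le_mul_of_nonneg_right (le_max_right _ _) (by positivity)
  · -- momentum support
    intro s x v hv
    have h1 := hst.suppv R (le_max_left _ _)
      (fun x v hv => hR0' x v (lt_of_le_of_lt (le_max_right _ _) hv)) s x v hv
    exact ⟨h1, fun i => by simp [gsrc, h1]⟩
  · -- transport
    intro s x v
    have h1 := hst.trans s x v
    unfold TransEq at h1
    rw [div_gsrc hG hst.pc]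
    linarith
  · intro s hs x v
    have hφs : 0 ≤ φ s := hφn s hs
    have hIs : 0 ≤ |∫ r in (0:ℝ)..s, φ r| := abs_nonneg _
    have hA0 : 0 ≤ A := (hA s hs 0 (by omega)).1.nonneg
    have hfs : ContDiff ℝ ∞ (fun z : R3 × R3 => f s z.1 z.2) :=
      hst.pc.1.comp (contDiff_const.prodMk contDiff_id)
    have hfk := hf s hs
    refine ⟨?_, fun i => ?_⟩
    · refine (norm_iteratedFDeriv_slice_x hfs k x v).trans ((hfk (x, v)).trans ?_)
      have : C1 ≤ K := by
        rw [hKdef]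
        have : 0 ≤ 2 ^ k * CG * |A| * (|A| + 1 + C1) := by positivity
        linarith
      calc C1 * (1 + |∫ r in (0:ℝ)..s, φ r|) ≤ K * (1 + |∫ r in (0:ℝ)..s, φ r|) := by gcongr
        _ ≤ K * (1 + φ s + |∫ r in (0:ℝ)..s, φ r|) := by
            apply mul_le_mul_of_nonneg_left _ hK0
            linarith
    · set S : ℝ := A + φ s + C1 * (1 + |∫ r in (0:ℝ)..s, φ r|) with hS
      have hS0 : 0 ≤ S := by positivity
      set a : ℕ → ℝ := fun j => if j < k then A else φ s with ha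
      set b : ℕ → ℝ := fun j => if j < k then A else C1 * (1 + |∫ r in (0:ℝ)..s, φ r|) with hb
      have h3 := gsrc_deriv_le hG hCG0 hCG hst.inE hst.inB hst.pc k s a b
        (fun j hj => by
          by_cases hjk : j < k
          · simpa [ha, hjk] using (hA s hs j hjk).1
          · have : j = k := by omega
            subst this
            simpa [ha] using hφb s hs)
        (fun j hj => by
          by_cases hjk : j < k
          · simpa [hb, hjk] using (hA s hs j hjk).2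
          · have : j = k := by omega
            subst this
            simpa [hb] using hfk) i x v
      refine h3.trans ?_
      have h4 : ∀ j ∈ Finset.range (k + 1), (k.choose j : ℝ) * (CG * a j) * b (k - j) ≤
          (k.choose j : ℝ) * (CG * A * S) := by
        intro j hj
        have hjk : j ≤ k := Nat.lt_succ_iff.1 (Finset.mem_range.1 hj)
        rw [mul_assoc]
        apply mul_le_mul_of_nonneg_left _ (Nat.cast_nonneg _)
        have hb0 : 0 ≤ C1 * (1 + |∫ r in (0:ℝ)..s, φ r|) := by positivity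
        by_cases hlt : j < k
        · have e1 : a j = A := by simp [ha, hlt]
          have e2 : b (k - j) ≤ S := by
            simp only [hb]
            split_ifs
            · linarith
            · linarith
          rw [e1]
          exact mul_le_mul_of_nonneg_left e2 (by positivity)
        · have hjk' : j = k := by omega
          subst hjk'
          have e1 : a j = φ s := by simp [ha]
          have e2 : b (j - j) = A := by
            simp only [hb, Nat.sub_self]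
            rw [if_pos (by omega)]
          rw [e1, e2]
          have e3 : φ s ≤ S := by linarith
          calc CG * φ s * A = CG * A * φ s := by ring
            _ ≤ CG * A * S := mul_le_mul_of_nonneg_left e3 (by positivity)
      refine (Finset.sum_le_sum h4).trans ?_
      rw [← Finset.sum_mul]
      have h5 : ∑ j ∈ Finset.range (k + 1), (k.choose j : ℝ) = 2 ^ k := by
        have := Nat.sum_range_choose k
        exact_mod_cast this
      rw [h5]
      have hAA : |A| = A := abs_of_nonneg hA0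
      have h6 : S ≤ (|A| + 1 + C1) * (1 + φ s + |∫ r in (0:ℝ)..s, φ r|) := by
        rw [hS, hAA]
        have a1 : 0 ≤ A * φ s := by positivity
        have a2 : 0 ≤ A * |∫ r in (0:ℝ)..s, φ r| := by positivity
        have a3 : 0 ≤ C1 * φ s := by positivity
        nlinarith
      calc 2 ^ k * (CG * A * S) = 2 ^ k * CG * A * S := by ring
        _ ≤ 2 ^ k * CG * A * ((|A| + 1 + C1) * (1 + φ s + |∫ r in (0:ℝ)..s, φ r|)) := by
            apply mul_le_mul_of_nonneg_left h6 (by positivity)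
        _ = (2 ^ k * CG * |A| * (|A| + 1 + C1)) * (1 + φ s + |∫ r in (0:ℝ)..s, φ r|) := by
            rw [hAA]; ring
        _ ≤ K * (1 + φ s + |∫ r in (0:ℝ)..s, φ r|) := by
            apply mul_le_mul_of_nonneg_right _ (by positivity)
            rw [hKdef]
            linarith

end Crest.Agent.R106.Std
end

-- ▼ part R106/MaxAlg
section

/-!
# Row 106: linear Maxwell solver from the scalar wave propagators (algebra part, K4)

`WaveOps S W` lists the facts about the scalar solution operators `S` (Kirchhoff: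
`□ S g = 0, S g 0 = 0, ∂ₜ S g 0 = g`) and `W` (Duhamel: `□ W h = h`, zero data). From it:
`maxwell_solve`: global smooth solutions of the linear Maxwell system on all of `ℝ × R3`.
-/

set_option autoImplicit false
set_option linter.unusedSimpArgs false
open scoped ContDiff
open Crest.AnalysisR.VecCalc3 Crest.AnalysisR.PDE.RVM

namespace Crest.Agent.R106.Max

/-- jointly smooth scalar field on `ℝ × R3` -/
def Sm (u : ℝ → R3 → ℝ) : Prop := ContDiff ℝ ∞ (fun p : ℝ × R3 => u p.1 p.2)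

/-- time derivative -/
noncomputable def dt (u : ℝ → R3 → ℝ) (t : ℝ) (x : R3) : ℝ := deriv (fun s => u s x) t

/-- space derivative -/
noncomputable def dx (i : Fin 3) (u : ℝ → R3 → ℝ) (t : ℝ) (x : R3) : ℝ := pderiv (u t) i x

/-- the facts about the scalar propagators which are used by the Maxwell solver -/
structure WaveOps (S : (R3 → ℝ) → ℝ → R3 → ℝ) (W : (ℝ → R3 → ℝ) → ℝ → R3 → ℝ) : Prop where
  S_smooth : ∀ g, ContDiff ℝ ∞ g → Sm (S g)
  S_zero : ∀ g, ContDiff ℝ ∞ g → ∀ x, S g 0 x = 0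
  S_dt_zero : ∀ g, ContDiff ℝ ∞ g → ∀ x, dt (S g) 0 x = g x
  S_add : ∀ g h, ContDiff ℝ ∞ g → ContDiff ℝ ∞ h →
    ∀ t x, S (fun y => g y + h y) t x = S g t x + S h t x
  S_smul : ∀ (c : ℝ) (g), ContDiff ℝ ∞ g → ∀ t x, S (fun y => c * g y) t x = c * S g t x
  S_dx : ∀ g, ContDiff ℝ ∞ g → ∀ i t x, dx i (S g) t x = S (fun y => pderiv g i y) t x
  S_wave : ∀ g, ContDiff ℝ ∞ g → ∀ t x,
    dt (dt (S g)) t x = ∑ i : Fin 3, dx i (dx i (S g)) t x
  W_smooth : ∀ h, Sm h → Sm (W h)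
  W_zero : ∀ h, Sm h → ∀ x, W h 0 x = 0
  W_add : ∀ g h, Sm g → Sm h → ∀ t x, W (fun s y => g s y + h s y) t x = W g t x + W h t x
  W_smul : ∀ (c : ℝ) (h), Sm h → ∀ t x, W (fun s y => c * h s y) t x = c * W h t x
  W_dx : ∀ h, Sm h → ∀ i t x, dx i (W h) t x = W (dx i h) t x
  W_dt : ∀ h, Sm h → ∀ t x, dt (W h) t x = W (dt h) t x + S (h 0) t x
  W_wave : ∀ h, Sm h → ∀ t x,
    dt (dt (W h)) t x = h t x + ∑ i : Fin 3, dx i (dx i (W h)) t x

section calculus

variable {u v : ℝ → R3 → ℝ}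

theorem Sm.diff (hu : Sm u) : Differentiable ℝ (fun p : ℝ × R3 => u p.1 p.2) :=
  ContDiff.differentiable hu (by simp)

theorem dt_eq (hu : Sm u) (t : ℝ) (x : R3) :
    dt u t x = fderiv ℝ (fun p : ℝ × R3 => u p.1 p.2) (t, x) (1, 0) := by
  have h := (hu.diff (t, x)).hasFDerivAt
  have h2 : HasDerivAt (fun s : ℝ => (s, x)) ((1 : ℝ), (0 : R3)) t :=
    (hasDerivAt_id t).prodMk (hasDerivAt_const t x)
  have h3 := h.comp_hasDerivAt t h2
  exact h3.deriv

theorem dx_eq (hu : Sm u) (i : Fin 3) (t : ℝ) (x : R3) :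
    dx i u t x = fderiv ℝ (fun p : ℝ × R3 => u p.1 p.2) (t, x)
      (0, EuclideanSpace.single i 1) := by
  have h := (hu.diff (t, x)).hasFDerivAt
  have h2 : HasFDerivAt (fun y : R3 => (t, y)) (ContinuousLinearMap.inr ℝ ℝ R3) x :=
    hasFDerivAt_prodMk_right t x
  have h3 := h.comp x h2
  unfold dx pderiv
  rw [show u t = (fun p : ℝ × R3 => u p.1 p.2) ∘ (fun y : R3 => (t, y)) from rfl, h3.fderiv]
  simp

theorem Sm.dir (hu : Sm u) (a : ℝ × R3) :
    ContDiff ℝ ∞ (fun p : ℝ × R3 => fderiv ℝ (fun p : ℝ × R3 => u p.1 p.2) p a) := by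
  have : ContDiff ℝ ∞ (fderiv ℝ (fun p : ℝ × R3 => u p.1 p.2)) :=
    ContDiff.fderiv_right (m := ∞) hu (by simp)
  exact this.clm_apply contDiff_const

theorem Sm.dt (hu : Sm u) : Sm (dt u) := by
  have h := hu.dir (1, 0)
  unfold Sm
  convert h using 2 with p
  exact dt_eq hu p.1 p.2

theorem Sm.dx (hu : Sm u) (i : Fin 3) : Sm (dx i u) := by
  have h := hu.dir (0, EuclideanSpace.single i 1)
  unfold Sm
  convert h using 2 with p
  exact dx_eq hu i p.1 p.2

/-- mixed second derivatives commute -/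
theorem dir_comm (hu : Sm u) (a b : ℝ × R3) (p : ℝ × R3) :
    fderiv ℝ (fun p : ℝ × R3 => fderiv ℝ (fun p : ℝ × R3 => u p.1 p.2) p a) p b
      = fderiv ℝ (fun p : ℝ × R3 => fderiv ℝ (fun p : ℝ × R3 => u p.1 p.2) p b) p a := by
  have hd : Differentiable ℝ (fderiv ℝ (fun p : ℝ × R3 => u p.1 p.2)) :=
    (ContDiff.fderiv_right (m := ∞) hu (by simp)).differentiable (by simp)
  have key : ∀ a : ℝ × R3, ∀ b : ℝ × R3,
      fderiv ℝ (fun p : ℝ × R3 => fderiv ℝ (fun p : ℝ × R3 => u p.1 p.2) p a) p b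
      = fderiv ℝ (fderiv ℝ (fun p : ℝ × R3 => u p.1 p.2)) p b a := by
    intro a b
    have h := (hd p).hasFDerivAt.clm_apply (hasFDerivAt_const a p)
    rw [h.fderiv]
    simp
  rw [key a b, key b a]
  have hs : IsSymmSndFDerivAt ℝ (fun p : ℝ × R3 => u p.1 p.2) p := by
    apply ContDiffAt.isSymmSndFDerivAt (n := ∞) (ContDiff.contDiffAt hu)
    rw [minSmoothness_of_isRCLikeNormedField]
    exact WithTop.coe_le_coe.2 (le_top : (2 : ℕ∞) ≤ ⊤)
  exact hs.eq b a

theorem dt_dx (hu : Sm u) (i : Fin 3) (t : ℝ) (x : R3) :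
    dt (dx i u) t x = dx i (dt u) t x := by
  rw [dt_eq (hu.dx i), dx_eq hu.dt]
  have e1 : (fun p : ℝ × R3 => dx i u p.1 p.2) = (fun p : ℝ × R3 =>
      fderiv ℝ (fun p : ℝ × R3 => u p.1 p.2) p (0, EuclideanSpace.single i 1)) := by
    funext p; exact dx_eq hu i p.1 p.2
  have e2 : (fun p : ℝ × R3 => dt u p.1 p.2) = (fun p : ℝ × R3 =>
      fderiv ℝ (fun p : ℝ × R3 => u p.1 p.2) p (1, 0)) := by
    funext p; exact dt_eq hu p.1 p.2
  rw [e1, e2]
  exact dir_comm hu _ _ _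

theorem dx_dx (hu : Sm u) (i j : Fin 3) (t : ℝ) (x : R3) :
    dx i (dx j u) t x = dx j (dx i u) t x := by
  rw [dx_eq (hu.dx j), dx_eq (hu.dx i)]
  have e1 : ∀ i : Fin 3, (fun p : ℝ × R3 => dx i u p.1 p.2) = (fun p : ℝ × R3 =>
      fderiv ℝ (fun p : ℝ × R3 => u p.1 p.2) p (0, EuclideanSpace.single i 1)) := by
    intro i
    funext p; exact dx_eq hu i p.1 p.2
  rw [e1, e1]
  exact dir_comm hu _ _ _

theorem Sm.slice (hu : Sm u) (t : ℝ) : ContDiff ℝ ∞ (u t) := by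
  have hu' : ContDiff ℝ ∞ (fun p : ℝ × R3 => u p.1 p.2) := hu
  exact hu'.comp (contDiff_prodMk_right t)

theorem Sm.tslice (hu : Sm u) (x : R3) : ContDiff ℝ ∞ (fun t => u t x) := by
  have hu' : ContDiff ℝ ∞ (fun p : ℝ × R3 => u p.1 p.2) := hu
  exact hu'.comp (contDiff_prodMk_left x)

theorem dt_add (hu : Sm u) (hv : Sm v) (t : ℝ) (x : R3) :
    dt (fun s y => u s y + v s y) t x = dt u t x + dt v t x := by
  unfold dt
  exact deriv_fun_add ((hu.tslice x).differentiable (by simp) t)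
    ((hv.tslice x).differentiable (by simp) t)

theorem dt_smul (c : ℝ) (hu : Sm u) (t : ℝ) (x : R3) :
    dt (fun s y => c * u s y) t x = c * dt u t x := by
  unfold dt
  exact deriv_const_mul c ((hu.tslice x).differentiable (by simp) t)

theorem pderiv_add {g h : R3 → ℝ} (hg : ContDiff ℝ ∞ g) (hh : ContDiff ℝ ∞ h) (i : Fin 3)
    (x : R3) : pderiv (fun y => g y + h y) i x = pderiv g i x + pderiv h i x := by
  unfold pderiv
  rw [fderiv_fun_add (hg.differentiable (by simp) x) (hh.differentiable (by simp) x)]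
  rfl

theorem pderiv_smul (c : ℝ) {g : R3 → ℝ} (hg : ContDiff ℝ ∞ g) (i : Fin 3)
    (x : R3) : pderiv (fun y => c * g y) i x = c * pderiv g i x := by
  unfold pderiv
  rw [fderiv_const_mul (hg.differentiable (by simp) x)]
  rfl

theorem pderiv_contDiff {g : R3 → ℝ} (hg : ContDiff ℝ ∞ g) (i : Fin 3) :
    ContDiff ℝ ∞ (fun x => pderiv g i x) := by
  unfold pderiv
  exact (hg.fderiv_right (m := ∞) (by simp)).clm_apply contDiff_const

end calculus

/-- the module of smooth fields on `ℝ × R3` -/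
def FF : Submodule ℝ (ℝ → R3 → ℝ) where
  carrier := {u | Sm u}
  zero_mem' := by
    show ContDiff ℝ ∞ (fun p : ℝ × R3 => (0 : ℝ → R3 → ℝ) p.1 p.2)
    exact contDiff_const
  add_mem' := by
    intro a b ha hb
    have ha' : ContDiff ℝ ∞ (fun p : ℝ × R3 => a p.1 p.2) := ha
    have hb' : ContDiff ℝ ∞ (fun p : ℝ × R3 => b p.1 p.2) := hb
    exact ha'.add hb'
  smul_mem' := by
    intro c a ha
    have ha' : ContDiff ℝ ∞ (fun p : ℝ × R3 => a p.1 p.2) := ha
    exact ha'.const_smul c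

/-- the module of smooth functions on `R3` -/
def GG : Submodule ℝ (R3 → ℝ) where
  carrier := {g | ContDiff ℝ ∞ g}
  zero_mem' := by
    show ContDiff ℝ ∞ (fun _ : R3 => (0 : ℝ))
    exact contDiff_const
  add_mem' := by
    intro a b ha hb
    have ha' : ContDiff ℝ ∞ a := ha
    have hb' : ContDiff ℝ ∞ b := hb
    exact ha'.add hb'
  smul_mem' := by
    intro c a ha
    have ha' : ContDiff ℝ ∞ a := ha
    exact ha'.const_smul c

noncomputable def opT : FF →ₗ[ℝ] FF where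
  toFun u := ⟨dt u.1, Sm.dt u.2⟩
  map_add' u v := by
    ext t x
    exact dt_add u.2 v.2 t x
  map_smul' c u := by
    ext t x
    exact dt_smul c u.2 t x

noncomputable def opX (i : Fin 3) : FF →ₗ[ℝ] FF where
  toFun u := ⟨dx i u.1, Sm.dx u.2 i⟩
  map_add' u v := by
    ext t x
    exact pderiv_add (Sm.slice u.2 t) (Sm.slice v.2 t) i x
  map_smul' c u := by
    ext t x
    exact pderiv_smul c (Sm.slice u.2 t) i x

noncomputable def opY (i : Fin 3) : GG →ₗ[ℝ] GG where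
  toFun g := ⟨fun x => pderiv g.1 i x, pderiv_contDiff g.2 i⟩
  map_add' u v := by
    ext x
    exact pderiv_add u.2 v.2 i x
  map_smul' c u := by
    ext x
    exact pderiv_smul c u.2 i x

/-- evaluation at time `t` -/
def ev (t : ℝ) : FF →ₗ[ℝ] GG where
  toFun u := ⟨u.1 t, Sm.slice u.2 t⟩
  map_add' _ _ := rfl
  map_smul' _ _ := rfl

theorem opT_X (i : Fin 3) (u : FF) : opT (opX i u) = opX i (opT u) := by
  ext t x
  exact dt_dx u.2 i t x

theorem opX_X (i j : Fin 3) (u : FF) : opX i (opX j u) = opX j (opX i u) := by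
  ext t x
  exact dx_dx u.2 i j t x

theorem ev_X (i : Fin 3) (t : ℝ) (u : FF) : ev t (opX i u) = opY i (ev t u) := rfl

section ops

variable {S : (R3 → ℝ) → ℝ → R3 → ℝ} {W : (ℝ → R3 → ℝ) → ℝ → R3 → ℝ}

noncomputable def opS (h : WaveOps S W) : GG →ₗ[ℝ] FF where
  toFun g := ⟨S g.1, h.S_smooth g.1 g.2⟩
  map_add' u v := by
    ext t x
    exact h.S_add u.1 v.1 u.2 v.2 t x
  map_smul' c u := by
    ext t x
    exact h.S_smul c u.1 u.2 t x

noncomputable def opW (h : WaveOps S W) : FF →ₗ[ℝ] FF where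
  toFun g := ⟨W g.1, h.W_smooth g.1 g.2⟩
  map_add' u v := by
    ext t x
    exact h.W_add u.1 v.1 u.2 v.2 t x
  map_smul' c u := by
    ext t x
    exact h.W_smul c u.1 u.2 t x

variable (h : WaveOps S W)

theorem opS_Y (i : Fin 3) (g : GG) : opS h (opY i g) = opX i (opS h g) := by
  ext t x
  exact (h.S_dx g.1 g.2 i t x).symm

theorem opTT_S (g : GG) : opT (opT (opS h g)) =
    opX 0 (opX 0 (opS h g)) + opX 1 (opX 1 (opS h g)) + opX 2 (opX 2 (opS h g)) := by
  ext t x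
  have := h.S_wave g.1 g.2 t x
  rw [Fin.sum_univ_three] at this
  exact this

theorem opW_X (i : Fin 3) (u : FF) : opW h (opX i u) = opX i (opW h u) := by
  ext t x
  exact (h.W_dx u.1 u.2 i t x).symm

theorem opW_T (u : FF) : opW h (opT u) = opT (opW h u) - opS h (ev 0 u) := by
  ext t x
  have := h.W_dt u.1 u.2 t x
  show W (dt u.1) t x = dt (W u.1) t x - S (u.1 0) t x
  linarith

theorem opTT_W (u : FF) : opT (opT (opW h u)) = u +
    (opX 0 (opX 0 (opW h u)) + opX 1 (opX 1 (opW h u)) + opX 2 (opX 2 (opW h u))) := by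
  ext t x
  have := h.W_wave u.1 u.2 t x
  rw [Fin.sum_univ_three] at this
  exact this

theorem ev_S (g : GG) : ev 0 (opS h g) = 0 := by
  ext x
  exact h.S_zero g.1 g.2 x

theorem ev_TS (g : GG) : ev 0 (opT (opS h g)) = g := by
  ext x
  exact h.S_dt_zero g.1 g.2 x

theorem ev_W (u : FF) : ev 0 (opW h u) = 0 := by
  ext x
  exact h.W_zero u.1 u.2 x

theorem ev_TW (u : FF) : ev 0 (opT (opW h u)) = 0 := by
  have h1 := opW_T h u
  have h2 : opT (opW h u) = opW h (opT u) + opS h (ev 0 u) := by rw [h1]; abel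
  rw [h2, map_add, ev_W, ev_S, add_zero]

/-- electric field, component `i`; `e` = data, `cb` = curl of the magnetic data -/
noncomputable def solE (e cb : Fin 3 → GG) (rho : FF) (j : Fin 3 → FF) (i : Fin 3) : FF :=
  opT (opS h (e i)) + opS h (cb i) - opT (opW h (j i)) - opX i (opW h rho)

/-- magnetic field, component `i`; `ce` = curl of the electric data -/
noncomputable def solB (b ce : Fin 3 → GG) (j : Fin 3 → FF) (i : Fin 3) : FF :=
  opT (opS h (b i)) - opS h (ce i) +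
    (opX (i + 1) (opW h (j (i + 2))) - opX (i + 2) (opW h (j (i + 1))))

/-- curl of data -/
noncomputable def cG (b : Fin 3 → GG) (i : Fin 3) : GG :=
  opY (i + 1) (b (i + 2)) - opY (i + 2) (b (i + 1))

theorem ampere (e b : Fin 3 → GG) (rho : FF) (j : Fin 3 → FF)
    (hc : opT rho + (opX 0 (j 0) + opX 1 (j 1) + opX 2 (j 2)) = 0)
    (he : opY 0 (e 0) + opY 1 (e 1) + opY 2 (e 2) = ev 0 rho) (i : Fin 3) :
    opT (solE h e (cG b) rho j i) -
      (opX (i + 1) (solB h b (cG e) j (i + 2)) - opX (i + 2) (solB h b (cG e) j (i + 1)))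
      = - j i := by
  have hT : opW h (opT rho) + (opX 0 (opW h (j 0)) + opX 1 (opW h (j 1)) + opX 2 (opW h (j 2)))
      = 0 := by
    have := congrArg (opW h) hc
    simpa only [map_add, opW_X, map_zero] using this
  rw [opW_T] at hT
  have hS : opX 0 (opS h (e 0)) + opX 1 (opS h (e 1)) + opX 2 (opS h (e 2))
      = opS h (ev 0 rho) := by
    rw [← he]; simp only [map_add, opS_Y]
  have hT' : ∀ k : Fin 3, opX k (opT (opW h rho)) - opX k (opS h (ev 0 rho)) +
      (opX k (opX 0 (opW h (j 0))) + opX k (opX 1 (opW h (j 1))) + opX k (opX 2 (opW h (j 2))))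
      = 0 := by
    intro k
    have := congrArg (opX k) hT
    simpa only [map_add, map_sub, map_zero] using this
  have hS' : ∀ k : Fin 3, opX k (opX 0 (opS h (e 0))) + opX k (opX 1 (opS h (e 1))) +
      opX k (opX 2 (opS h (e 2))) = opX k (opS h (ev 0 rho)) := by
    intro k
    have := congrArg (opX k) hS
    simpa only [map_add] using this
  have hk := hT' i
  have hs := hS' i
  fin_cases i
  · simp only [solE, solB, cG, Fin.zero_eta, Fin.isValue, Fin.mk_one, Fin.reduceFinMk, zero_add,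
      show (1 : Fin 3) + 1 = 2 from rfl, show (1 : Fin 3) + 2 = 0 from rfl,
      show (2 : Fin 3) + 1 = 0 from rfl, show (2 : Fin 3) + 2 = 1 from rfl,
      map_add, map_sub, opTT_S, opTT_W, opS_Y, opT_X, opX_X 1 0, opX_X 2 0, opX_X 2 1] at hk hs ⊢
    linear_combination (norm := module) hs - hk
  · simp only [solE, solB, cG, Fin.zero_eta, Fin.isValue, Fin.mk_one, Fin.reduceFinMk, zero_add,
      show (1 : Fin 3) + 1 = 2 from rfl, show (1 : Fin 3) + 2 = 0 from rfl,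
      show (2 : Fin 3) + 1 = 0 from rfl, show (2 : Fin 3) + 2 = 1 from rfl,
      map_add, map_sub, opTT_S, opTT_W, opS_Y, opT_X, opX_X 1 0, opX_X 2 0, opX_X 2 1] at hk hs ⊢
    linear_combination (norm := module) hs - hk
  · simp only [solE, solB, cG, Fin.zero_eta, Fin.isValue, Fin.mk_one, Fin.reduceFinMk, zero_add,
      show (1 : Fin 3) + 1 = 2 from rfl, show (1 : Fin 3) + 2 = 0 from rfl,
      show (2 : Fin 3) + 1 = 0 from rfl, show (2 : Fin 3) + 2 = 1 from rfl,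
      map_add, map_sub, opTT_S, opTT_W, opS_Y, opT_X, opX_X 1 0, opX_X 2 0, opX_X 2 1] at hk hs ⊢
    linear_combination (norm := module) hs - hk

theorem faraday (e b : Fin 3 → GG) (rho : FF) (j : Fin 3 → FF)
    (hb : opY 0 (b 0) + opY 1 (b 1) + opY 2 (b 2) = 0) (i : Fin 3) :
    opT (solB h b (cG e) j i) +
      (opX (i + 1) (solE h e (cG b) rho j (i + 2)) - opX (i + 2) (solE h e (cG b) rho j (i + 1)))
      = 0 := by
  have hS : opX 0 (opS h (b 0)) + opX 1 (opS h (b 1)) + opX 2 (opS h (b 2)) = 0 := by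
    have := congrArg (opS h) hb
    simpa only [map_add, opS_Y, map_zero] using this
  have hS' : ∀ k : Fin 3, opX k (opX 0 (opS h (b 0))) + opX k (opX 1 (opS h (b 1))) +
      opX k (opX 2 (opS h (b 2))) = 0 := by
    intro k
    have := congrArg (opX k) hS
    simpa only [map_add, map_zero] using this
  have hs := hS' i
  fin_cases i
  · simp only [solE, solB, cG, Fin.zero_eta, Fin.isValue, Fin.mk_one, Fin.reduceFinMk, zero_add,
      show (1 : Fin 3) + 1 = 2 from rfl, show (1 : Fin 3) + 2 = 0 from rfl,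
      show (2 : Fin 3) + 1 = 0 from rfl, show (2 : Fin 3) + 2 = 1 from rfl,
      map_add, map_sub, opTT_S, opTT_W, opS_Y, opT_X, opX_X 1 0, opX_X 2 0, opX_X 2 1] at hs ⊢
    linear_combination (norm := module) hs
  · simp only [solE, solB, cG, Fin.zero_eta, Fin.isValue, Fin.mk_one, Fin.reduceFinMk, zero_add,
      show (1 : Fin 3) + 1 = 2 from rfl, show (1 : Fin 3) + 2 = 0 from rfl,
      show (2 : Fin 3) + 1 = 0 from rfl, show (2 : Fin 3) + 2 = 1 from rfl,
      map_add, map_sub, opTT_S, opTT_W, opS_Y, opT_X, opX_X 1 0, opX_X 2 0, opX_X 2 1] at hs ⊢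
    linear_combination (norm := module) hs
  · simp only [solE, solB, cG, Fin.zero_eta, Fin.isValue, Fin.mk_one, Fin.reduceFinMk, zero_add,
      show (1 : Fin 3) + 1 = 2 from rfl, show (1 : Fin 3) + 2 = 0 from rfl,
      show (2 : Fin 3) + 1 = 0 from rfl, show (2 : Fin 3) + 2 = 1 from rfl,
      map_add, map_sub, opTT_S, opTT_W, opS_Y, opT_X, opX_X 1 0, opX_X 2 0, opX_X 2 1] at hs ⊢
    linear_combination (norm := module) hs

theorem gauss (e b : Fin 3 → GG) (rho : FF) (j : Fin 3 → FF)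
    (hc : opT rho + (opX 0 (j 0) + opX 1 (j 1) + opX 2 (j 2)) = 0)
    (he : opY 0 (e 0) + opY 1 (e 1) + opY 2 (e 2) = ev 0 rho) :
    opX 0 (solE h e (cG b) rho j 0) + opX 1 (solE h e (cG b) rho j 1) +
      opX 2 (solE h e (cG b) rho j 2) = rho := by
  have hT : opW h (opT rho) + (opX 0 (opW h (j 0)) + opX 1 (opW h (j 1)) + opX 2 (opW h (j 2)))
      = 0 := by
    have := congrArg (opW h) hc
    simpa only [map_add, opW_X, map_zero] using this
  rw [opW_T] at hT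
  have hT' : opT (opT (opW h rho)) - opT (opS h (ev 0 rho)) +
      (opX 0 (opT (opW h (j 0))) + opX 1 (opT (opW h (j 1))) + opX 2 (opT (opW h (j 2))))
      = 0 := by
    have := congrArg opT hT
    simpa only [map_add, map_sub, opT_X, map_zero] using this
  have hS : opX 0 (opS h (e 0)) + opX 1 (opS h (e 1)) + opX 2 (opS h (e 2))
      = opS h (ev 0 rho) := by
    rw [← he]; simp only [map_add, opS_Y]
  have hS' : opX 0 (opT (opS h (e 0))) + opX 1 (opT (opS h (e 1))) + opX 2 (opT (opS h (e 2)))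
      = opT (opS h (ev 0 rho)) := by
    have := congrArg opT hS
    simpa only [map_add, opT_X] using this
  simp only [solE, solB, cG, Fin.isValue, zero_add,
      show (1 : Fin 3) + 1 = 2 from rfl, show (1 : Fin 3) + 2 = 0 from rfl,
      show (2 : Fin 3) + 1 = 0 from rfl, show (2 : Fin 3) + 2 = 1 from rfl,
      map_add, map_sub, opTT_S, opTT_W, opS_Y, opT_X, opX_X 1 0, opX_X 2 0, opX_X 2 1]
      at hT' hS' ⊢
  linear_combination (norm := module) hS' - hT'

theorem divB (e b : Fin 3 → GG) (j : Fin 3 → FF)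
    (hb : opY 0 (b 0) + opY 1 (b 1) + opY 2 (b 2) = 0) :
    opX 0 (solB h b (cG e) j 0) + opX 1 (solB h b (cG e) j 1) +
      opX 2 (solB h b (cG e) j 2) = 0 := by
  have hS : opX 0 (opS h (b 0)) + opX 1 (opS h (b 1)) + opX 2 (opS h (b 2)) = 0 := by
    have := congrArg (opS h) hb
    simpa only [map_add, opS_Y, map_zero] using this
  have hS' : opX 0 (opT (opS h (b 0))) + opX 1 (opT (opS h (b 1))) + opX 2 (opT (opS h (b 2)))
      = 0 := by
    have := congrArg opT hS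
    simpa only [map_add, opT_X, map_zero] using this
  simp only [solE, solB, cG, Fin.isValue, zero_add,
      show (1 : Fin 3) + 1 = 2 from rfl, show (1 : Fin 3) + 2 = 0 from rfl,
      show (2 : Fin 3) + 1 = 0 from rfl, show (2 : Fin 3) + 2 = 1 from rfl,
      map_add, map_sub, opTT_S, opTT_W, opS_Y, opT_X, opX_X 1 0, opX_X 2 0, opX_X 2 1]
      at hS' ⊢
  linear_combination (norm := module) hS'

theorem solE_zero (e cb : Fin 3 → GG) (rho : FF) (j : Fin 3 → FF) (i : Fin 3) :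
    ev 0 (solE h e cb rho j i) = e i := by
  simp only [solE, map_add, map_sub, ev_S, ev_TS, ev_TW, ev_X, ev_W, map_zero, add_zero, sub_zero]

theorem solB_zero (b ce : Fin 3 → GG) (j : Fin 3 → FF) (i : Fin 3) :
    ev 0 (solB h b ce j i) = b i := by
  simp only [solB, map_add, map_sub, ev_S, ev_TS, ev_TW, ev_X, ev_W, map_zero, add_zero, sub_zero]

end ops

/-! ### Vector form -/

/-- the electric field -/
noncomputable def fieldE (S : (R3 → ℝ) → ℝ → R3 → ℝ) (W : (ℝ → R3 → ℝ) → ℝ → R3 → ℝ)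
    (E₀ B₀ : R3 → R3) (ρ : ℝ → R3 → ℝ) (j : ℝ → R3 → R3) (t : ℝ) (x : R3) : R3 :=
  WithLp.toLp 2 (fun i => dt (S (fun y => E₀ y i)) t x + S (fun y => curl3 B₀ y i) t x
    - dt (W (fun s y => j s y i)) t x - dx i (W ρ) t x)

/-- the magnetic field -/
noncomputable def fieldB (S : (R3 → ℝ) → ℝ → R3 → ℝ) (W : (ℝ → R3 → ℝ) → ℝ → R3 → ℝ)
    (E₀ B₀ : R3 → R3) (j : ℝ → R3 → R3) (t : ℝ) (x : R3) : R3 :=
  WithLp.toLp 2 (fun i => dt (S (fun y => B₀ y i)) t x - S (fun y => curl3 E₀ y i) t x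
    + (dx (i + 1) (W (fun s y => j s y (i + 2))) t x
      - dx (i + 2) (W (fun s y => j s y (i + 1))) t x))

theorem curl3_apply (F : R3 → R3) (x : R3) (i : Fin 3) :
    curl3 F x i = pderiv (fun y => F y (i + 2)) (i + 1) x
      - pderiv (fun y => F y (i + 1)) (i + 2) x := by
  fin_cases i <;> rfl

section main

variable {S : (R3 → ℝ) → ℝ → R3 → ℝ} {W : (ℝ → R3 → ℝ) → ℝ → R3 → ℝ}
  {E₀ B₀ : R3 → R3} {ρ : ℝ → R3 → ℝ} {j : ℝ → R3 → R3}

theorem comp_contDiff {X : Type*} [NormedAddCommGroup X] [NormedSpace ℝ X] {F : X → R3}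
    (hF : ContDiff ℝ ∞ F) (i : Fin 3) : ContDiff ℝ ∞ (fun x => F x i) :=
  (contDiff_euclidean.1 hF) i

/-- data as elements of the module -/
def dat (F : R3 → R3) (hF : ContDiff ℝ ∞ F) (i : Fin 3) : GG :=
  ⟨fun y => F y i, comp_contDiff hF i⟩

def cur (j : ℝ → R3 → R3) (hj : ContDiff ℝ ∞ (fun p : ℝ × R3 => j p.1 p.2)) (i : Fin 3) : FF :=
  ⟨fun s y => j s y i, comp_contDiff hj i⟩

theorem fieldE_eq (h : WaveOps S W) (hE : ContDiff ℝ ∞ E₀) (hB : ContDiff ℝ ∞ B₀)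
    (hρ : ContDiff ℝ ∞ (fun p : ℝ × R3 => ρ p.1 p.2))
    (hj : ContDiff ℝ ∞ (fun p : ℝ × R3 => j p.1 p.2)) (t : ℝ) (x : R3) (i : Fin 3) :
    fieldE S W E₀ B₀ ρ j t x i =
      (solE h (dat E₀ hE) (cG (dat B₀ hB)) ⟨ρ, hρ⟩ (cur j hj) i).1 t x := by
  have e : (fun y => curl3 B₀ y i) = (cG (dat B₀ hB) i).1 := by
    funext y
    exact curl3_apply B₀ y i
  show dt (S (fun y => E₀ y i)) t x + S (fun y => curl3 B₀ y i) t x
    - dt (W (fun s y => j s y i)) t x - dx i (W ρ) t x = _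
  rw [e]
  rfl

theorem fieldB_eq (h : WaveOps S W) (hE : ContDiff ℝ ∞ E₀) (hB : ContDiff ℝ ∞ B₀)
    (hj : ContDiff ℝ ∞ (fun p : ℝ × R3 => j p.1 p.2)) (t : ℝ) (x : R3) (i : Fin 3) :
    fieldB S W E₀ B₀ j t x i =
      (solB h (dat B₀ hB) (cG (dat E₀ hE)) (cur j hj) i).1 t x := by
  have e : (fun y => curl3 E₀ y i) = (cG (dat E₀ hE) i).1 := by
    funext y
    exact curl3_apply E₀ y i
  show dt (S (fun y => B₀ y i)) t x - S (fun y => curl3 E₀ y i) t x
    + (dx (i + 1) (W (fun s y => j s y (i + 2))) t x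
      - dx (i + 2) (W (fun s y => j s y (i + 1))) t x) = _
  rw [e]
  rfl

/-- **Linear Maxwell solver**, all of `ℝ × R3`. -/
theorem maxwell_solve (h : WaveOps S W) (hE : ContDiff ℝ ∞ E₀) (hB : ContDiff ℝ ∞ B₀)
    (hρ : ContDiff ℝ ∞ (fun p : ℝ × R3 => ρ p.1 p.2))
    (hj : ContDiff ℝ ∞ (fun p : ℝ × R3 => j p.1 p.2))
    (hcont : ∀ t x, deriv (fun s => ρ s x) t + div3 (j t) x = 0)
    (hdE : ∀ x, div3 E₀ x = ρ 0 x) (hdB : ∀ x, div3 B₀ x = 0) :
    ContDiff ℝ ∞ (fun p : ℝ × R3 => fieldE S W E₀ B₀ ρ j p.1 p.2) ∧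
    ContDiff ℝ ∞ (fun p : ℝ × R3 => fieldB S W E₀ B₀ j p.1 p.2) ∧
    fieldE S W E₀ B₀ ρ j 0 = E₀ ∧ fieldB S W E₀ B₀ j 0 = B₀ ∧
    ∀ t x,
      (∀ i : Fin 3, deriv (fun s => fieldE S W E₀ B₀ ρ j s x i) t
        - curl3 (fieldB S W E₀ B₀ j t) x i = - j t x i) ∧
      (∀ i : Fin 3, deriv (fun s => fieldB S W E₀ B₀ j s x i) t
        + curl3 (fieldE S W E₀ B₀ ρ j t) x i = 0) ∧
      div3 (fieldE S W E₀ B₀ ρ j t) x = ρ t x ∧
      div3 (fieldB S W E₀ B₀ j t) x = 0 := by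
  set e := dat E₀ hE with he_def
  set b := dat B₀ hB with hb_def
  set r : FF := ⟨ρ, hρ⟩ with hr_def
  set jj := cur j hj with hj_def
  have hc : opT r + (opX 0 (jj 0) + opX 1 (jj 1) + opX 2 (jj 2)) = 0 := by
    ext t x
    have := hcont t x
    rw [div3, Fin.sum_univ_three] at this
    exact this
  have he : opY 0 (e 0) + opY 1 (e 1) + opY 2 (e 2) = ev 0 r := by
    ext x
    have := hdE x
    rw [div3, Fin.sum_univ_three] at this
    exact this
  have hb : opY 0 (b 0) + opY 1 (b 1) + opY 2 (b 2) = 0 := by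
    ext x
    have := hdB x
    rw [div3, Fin.sum_univ_three] at this
    exact this
  have eE : ∀ t x i, fieldE S W E₀ B₀ ρ j t x i = (solE h e (cG b) r jj i).1 t x :=
    fieldE_eq h hE hB hρ hj
  have eB : ∀ t x i, fieldB S W E₀ B₀ j t x i = (solB h b (cG e) jj i).1 t x :=
    fieldB_eq h hE hB hj
  refine ⟨?_, ?_, ?_, ?_, ?_⟩
  · rw [contDiff_euclidean]
    intro i
    have : (fun p : ℝ × R3 => fieldE S W E₀ B₀ ρ j p.1 p.2 i)
        = fun p : ℝ × R3 => (solE h e (cG b) r jj i).1 p.1 p.2 := by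
      funext p; exact eE p.1 p.2 i
    rw [this]
    exact (solE h e (cG b) r jj i).2
  · rw [contDiff_euclidean]
    intro i
    have : (fun p : ℝ × R3 => fieldB S W E₀ B₀ j p.1 p.2 i)
        = fun p : ℝ × R3 => (solB h b (cG e) jj i).1 p.1 p.2 := by
      funext p; exact eB p.1 p.2 i
    rw [this]
    exact (solB h b (cG e) jj i).2
  · funext x
    ext i
    rw [eE]
    have := solE_zero h e (cG b) r jj i
    exact congrFun (congrArg Subtype.val this) x
  · funext x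
    ext i
    rw [eB]
    have := solB_zero h b (cG e) jj i
    exact congrFun (congrArg Subtype.val this) x
  · intro t x
    have fE : ∀ (s : ℝ) (i : Fin 3), (fun y => fieldE S W E₀ B₀ ρ j s y i)
        = (solE h e (cG b) r jj i).1 s := by
      intro s i; funext y; exact eE s y i
    have fB : ∀ (s : ℝ) (i : Fin 3), (fun y => fieldB S W E₀ B₀ j s y i)
        = (solB h b (cG e) jj i).1 s := by
      intro s i; funext y; exact eB s y i
    have gE : ∀ (i : Fin 3), (fun s => fieldE S W E₀ B₀ ρ j s x i)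
        = fun s => (solE h e (cG b) r jj i).1 s x := by
      intro i; funext s; exact eE s x i
    have gB : ∀ (i : Fin 3), (fun s => fieldB S W E₀ B₀ j s x i)
        = fun s => (solB h b (cG e) jj i).1 s x := by
      intro i; funext s; exact eB s x i
    refine ⟨?_, ?_, ?_, ?_⟩
    · intro i
      have := congrFun (congrFun (congrArg Subtype.val (ampere h e b r jj hc he i)) t) x
      rw [gE i, curl3_apply, fB, fB]
      exact this
    · intro i
      have := congrFun (congrFun (congrArg Subtype.val (faraday h e b r jj hb i)) t) x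
      rw [gB i, curl3_apply, fE, fE]
      exact this
    · have := congrFun (congrFun (congrArg Subtype.val (gauss h e b r jj hc he)) t) x
      rw [div3, Fin.sum_univ_three, fE, fE, fE]
      exact this
    · have := congrFun (congrFun (congrArg Subtype.val (divB h e b jj hb)) t) x
      rw [div3, Fin.sum_univ_three, fB, fB, fB]
      exact this

end main

end Crest.Agent.R106.Max
end

-- ▼ part R106/MaxS
section

/-!
# Row 106, MAX: the Kirchhoff operator `S = Kir.Sop`: the `S`-half of `WaveOps`, and sup bounds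
-/

set_option autoImplicit false
set_option linter.unusedSimpArgs false

open MeasureTheory Set Metric Filter Topology
open scoped ContDiff
open Crest.AnalysisR.VecCalc3
open Crest.Agent.R106.Kir

noncomputable section

namespace Crest.Agent.R106.Max

/-! ### spherical means: bounds of all derivatives -/

theorem mean_iter_bound (n : ℕ) : ∀ {V : Type} [NormedAddCommGroup V] [NormedSpace ℝ V]
    [CompleteSpace V] {g : R3 × R3 → V} (_ : ContDiff ℝ ∞ g) {C : ℝ} (_ : 0 ≤ C)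
    (_ : ∀ x w : R3, ‖w‖ = 1 → ‖iteratedFDeriv ℝ n (fun y => g (y, w)) x‖ ≤ C) (x : R3),
    ‖iteratedFDeriv ℝ n (fun y => ∫ w, g (y, w) ∂sg) x‖ ≤ C := by
  induction n with
  | zero =>
    intro V _ _ _ g hg C hC hb x
    simp only [norm_iteratedFDeriv_zero] at hb ⊢
    calc ‖∫ w, g (x, w) ∂sg‖ ≤ ∫ w, C ∂sg := by
          apply norm_integral_le_of_norm_le (integrable_const C)
          filter_upwards [ae_norm] with w hw
          exact hb x w hw
      _ = C := by simp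
  | succ n ih =>
    intro V _ _ _ g hg C hC hb x
    rw [← norm_iteratedFDeriv_fderiv]
    have e : fderiv ℝ (fun y => ∫ w, g (y, w) ∂sg) = fun y => ∫ w, dfst g (y, w) ∂sg := by
      funext y
      exact (mean_hasFDerivAt hg y).fderiv
    rw [e]
    have hd : ContDiff ℝ ∞ (dfst g) := by
      have h := R240.SmJ.contDiffOn_dx (s := univ) isOpen_univ hg.contDiffOn
      rwa [contDiffOn_univ] at h
    refine ih hd hC ?_ x
    intro x w hw
    have e2 : (fun y => dfst g (y, w)) = fderiv ℝ (fun y => g (y, w)) := by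
      funext y
      exact (dfst_apply hg y w).fderiv.symm
    rw [e2, norm_iteratedFDeriv_fderiv]
    exact hb x w hw

theorem iter_translate {V : Type} [NormedAddCommGroup V] [NormedSpace ℝ V] {φ : R3 → V}
    (n : ℕ) (a x : R3) :
    iteratedFDeriv ℝ n (fun y => φ (y + a)) x = iteratedFDeriv ℝ n φ (x + a) :=
  iteratedFDeriv_comp_add_right n a x

theorem Mn_iter_bound {V : Type} [NormedAddCommGroup V] [NormedSpace ℝ V]
    [CompleteSpace V] {φ : R3 → V} (hφ : ContDiff ℝ ∞ φ) (n : ℕ) {C : ℝ}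
    (hb : ∀ x, ‖iteratedFDeriv ℝ n φ x‖ ≤ C) (r : ℝ) (x : R3) :
    ‖iteratedFDeriv ℝ n (fun y => Mn φ r y) x‖ ≤ C := by
  have hC : 0 ≤ C := (norm_nonneg _).trans (hb 0)
  unfold Mn
  refine mean_iter_bound n (g := fun q : R3 × R3 => φ (q.1 + r • q.2)) (hφ.comp (by fun_prop))
    hC ?_ x
  intro x w _
  show ‖iteratedFDeriv ℝ n (fun y => φ (y + r • w)) x‖ ≤ C
  rw [iter_translate]
  exact hb _

theorem Mr_iter_bound {φ : R3 → ℝ} (hφ : ContDiff ℝ ∞ φ) (n : ℕ) {C : ℝ}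
    (hb : ∀ x, ‖iteratedFDeriv ℝ (n + 1) φ x‖ ≤ C) (r : ℝ) (x : R3) :
    ‖iteratedFDeriv ℝ n (fun y => Mr φ r y) x‖ ≤ C := by
  have hC : 0 ≤ C := (norm_nonneg _).trans (hb 0)
  unfold Mr
  have hd : ContDiff ℝ ∞ (fderiv ℝ φ) := hφ.fderiv_right (m := ∞) (by simp)
  refine mean_iter_bound n (g := fun q : R3 × R3 => fderiv ℝ φ (q.1 + r • q.2) q.2)
    ((hd.comp (by fun_prop)).clm_apply (by fun_prop)) hC ?_ x
  intro x w hw
  show ‖iteratedFDeriv ℝ n (fun y => fderiv ℝ φ (y + r • w) w) x‖ ≤ C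
  have e : (fun y => fderiv ℝ φ (y + r • w) w)
      = (ContinuousLinearMap.apply ℝ ℝ w) ∘ (fun y => fderiv ℝ φ (y + r • w)) := by
    funext y; rfl
  rw [e]
  have h1 := (ContinuousLinearMap.apply ℝ ℝ w).norm_iteratedFDeriv_comp_left
    (f := fun y => fderiv ℝ φ (y + r • w)) (x := x) (N := ∞) (n := n)
    (ContDiff.contDiffAt (hd.comp (by fun_prop))) (by exact_mod_cast le_top)
  refine h1.trans ?_
  have h2 : ‖(ContinuousLinearMap.apply ℝ ℝ w : (R3 →L[ℝ] ℝ) →L[ℝ] ℝ)‖ ≤ 1 := by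
    refine ContinuousLinearMap.opNorm_le_bound _ zero_le_one fun L => ?_
    have := L.le_opNorm w
    rw [hw, mul_one] at this
    simpa using this
  have h3 : ‖iteratedFDeriv ℝ n (fun y => fderiv ℝ φ (y + r • w)) x‖ ≤ C := by
    rw [iter_translate, norm_iteratedFDeriv_fderiv]
    exact hb _
  calc _ ≤ 1 * C := mul_le_mul h2 h3 (norm_nonneg _) zero_le_one
    _ = C := one_mul C

/-- every space derivative bounded, uniformly in time on slabs -/
def SB (u : ℝ → R3 → ℝ) : Prop :=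
  ∀ (T : ℝ) (k : ℕ), ∃ C : ℝ, ∀ t : ℝ, |t| ≤ T → ∀ x : R3, ‖iteratedFDeriv ℝ k (u t) x‖ ≤ C

theorem SB.add {u v : ℝ → R3 → ℝ} (hu : Sm u) (hv : Sm v) (h1 : SB u) (h2 : SB v) :
    SB (fun t x => u t x + v t x) := by
  intro T k
  obtain ⟨C1, h1⟩ := h1 T k
  obtain ⟨C2, h2⟩ := h2 T k
  refine ⟨C1 + C2, fun t ht x => ?_⟩
  have e : iteratedFDeriv ℝ k (fun x => u t x + v t x) x
      = iteratedFDeriv ℝ k (u t) x + iteratedFDeriv ℝ k (v t) x := by
    have := iteratedFDeriv_add_apply (𝕜 := ℝ) (i := k) (x := x) (f := u t) (g := v t)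
      (ContDiff.contDiffAt ((hu.slice t).of_le (by exact_mod_cast le_top)))
      (ContDiff.contDiffAt ((hv.slice t).of_le (by exact_mod_cast le_top)))
    exact this
  rw [e]
  exact (norm_add_le _ _).trans (add_le_add (h1 t ht x) (h2 t ht x))

theorem SB.smul {u : ℝ → R3 → ℝ} {c : ℝ → ℝ} (hu : Sm u)
    (hc : ∀ T : ℝ, ∃ C : ℝ, ∀ t : ℝ, |t| ≤ T → |c t| ≤ C) (h1 : SB u) :
    SB (fun t x => c t * u t x) := by
  intro T k
  obtain ⟨C1, h1⟩ := h1 T k
  obtain ⟨C2, h2⟩ := hc T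
  refine ⟨C2 * C1, fun t ht x => ?_⟩
  have e : iteratedFDeriv ℝ k (fun x => c t * u t x) x
      = c t • iteratedFDeriv ℝ k (u t) x := by
    have := iteratedFDeriv_const_smul_apply (𝕜 := ℝ) (i := k) (x := x) (f := u t) (a := c t)
      (ContDiff.contDiffAt ((hu.slice t).of_le (by exact_mod_cast le_top)))
    exact this
  rw [e, norm_smul, Real.norm_eq_abs]
  exact mul_le_mul (h2 t ht) (h1 t ht x) (norm_nonneg _) ((abs_nonneg _).trans (h2 t ht))

/-- every derivative bounded -/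
def AB (φ : R3 → ℝ) : Prop := ∀ n : ℕ, ∃ C : ℝ, ∀ x, ‖iteratedFDeriv ℝ n φ x‖ ≤ C

theorem sm_Mn {φ : R3 → ℝ} (hφ : ContDiff ℝ ∞ φ) : Sm (fun t x => Mn φ t x) := contDiff_Mn hφ

theorem sm_Mr {φ : R3 → ℝ} (hφ : ContDiff ℝ ∞ φ) : Sm (fun t x => Mr φ t x) := contDiff_Mr hφ

theorem sb_Mn {φ : R3 → ℝ} (hφ : ContDiff ℝ ∞ φ) (hb : AB φ) : SB (fun t x => Mn φ t x) := by
  intro T k
  obtain ⟨C, hC⟩ := hb k
  exact ⟨C, fun t _ x => Mn_iter_bound hφ k hC t x⟩

theorem sb_Mr {φ : R3 → ℝ} (hφ : ContDiff ℝ ∞ φ) (hb : AB φ) : SB (fun t x => Mr φ t x) := by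
  intro T k
  obtain ⟨C, hC⟩ := hb (k + 1)
  exact ⟨C, fun t _ x => Mr_iter_bound hφ k hC t x⟩

theorem sb_Sop {φ : R3 → ℝ} (hφ : ContDiff ℝ ∞ φ) (hb : AB φ) : SB (fun t x => Sop φ t x) :=
  SB.smul (c := fun t => t) (sm_Mn hφ) (fun T => ⟨T, fun _ h => h⟩) (sb_Mn hφ hb)

theorem sb_Sdot {φ : R3 → ℝ} (hφ : ContDiff ℝ ∞ φ) (hb : AB φ) : SB (fun t x => Sdot φ t x) := by
  refine SB.add (sm_Mn hφ) ?_ (sb_Mn hφ hb)
    (SB.smul (c := fun t => t) (sm_Mr hφ) (fun T => ⟨T, fun _ h => h⟩) (sb_Mr hφ hb))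
  exact contDiff_fst.mul (contDiff_Mr hφ)

theorem AB.comp {F : R3 → R3} (hF : ContDiff ℝ ∞ F)
    (hb : ∀ n : ℕ, ∃ C : ℝ, ∀ x, ‖iteratedFDeriv ℝ n F x‖ ≤ C) (i : Fin 3) :
    AB (fun y => F y i) := by
  intro n
  obtain ⟨C, hC⟩ := hb n
  refine ⟨C, fun x => ?_⟩
  have e : (fun y => F y i) = (EuclideanSpace.proj i : R3 →L[ℝ] ℝ) ∘ F := by
    funext y; rfl
  rw [e]
  have h1 := (EuclideanSpace.proj i : R3 →L[ℝ] ℝ).norm_iteratedFDeriv_comp_left
    (f := F) (x := x) (N := ∞) (n := n) hF.contDiffAt (by exact_mod_cast le_top)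
  refine h1.trans ?_
  have h2 : ‖(EuclideanSpace.proj i : R3 →L[ℝ] ℝ)‖ ≤ 1 := by
    refine ContinuousLinearMap.opNorm_le_bound _ zero_le_one fun v => ?_
    rw [one_mul]
    exact PiLp.norm_apply_le v i
  calc _ ≤ 1 * C := mul_le_mul h2 (hC x) (norm_nonneg _) zero_le_one
    _ = C := one_mul C

theorem AB.pderiv {φ : R3 → ℝ} (hφ : ContDiff ℝ ∞ φ) (hb : AB φ) (i : Fin 3) :
    AB (fun y => pderiv φ i y) := by
  intro n
  obtain ⟨C, hC⟩ := hb (n + 1)
  refine ⟨C, fun x => ?_⟩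
  have hd : ContDiff ℝ ∞ (fderiv ℝ φ) := hφ.fderiv_right (m := ∞) (by simp)
  set w : R3 := EuclideanSpace.single i 1 with hw0
  have hw : ‖w‖ = 1 := by simp [hw0]
  have e : (fun y => Crest.AnalysisR.VecCalc3.pderiv φ i y)
      = (ContinuousLinearMap.apply ℝ ℝ w) ∘ (fderiv ℝ φ) := by
    funext y; rfl
  rw [e]
  have h1 := (ContinuousLinearMap.apply ℝ ℝ w).norm_iteratedFDeriv_comp_left
    (f := fderiv ℝ φ) (x := x) (N := ∞) (n := n)
    (ContDiff.contDiffAt hd) (by exact_mod_cast le_top)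
  refine h1.trans ?_
  have h2 : ‖(ContinuousLinearMap.apply ℝ ℝ w : (R3 →L[ℝ] ℝ) →L[ℝ] ℝ)‖ ≤ 1 := by
    refine ContinuousLinearMap.opNorm_le_bound _ zero_le_one fun L => ?_
    have := L.le_opNorm w
    rw [hw, mul_one] at this
    simpa using this
  have h3 : ‖iteratedFDeriv ℝ n (fderiv ℝ φ) x‖ ≤ C := by
    rw [norm_iteratedFDeriv_fderiv]
    exact hC _
  calc _ ≤ 1 * C := mul_le_mul h2 h3 (norm_nonneg _) zero_le_one
    _ = C := one_mul C

theorem AB.sub {φ ψ : R3 → ℝ} (hφ : ContDiff ℝ ∞ φ) (hψ : ContDiff ℝ ∞ ψ) (h1 : AB φ)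
    (h2 : AB ψ) : AB (fun y => φ y - ψ y) := by
  intro n
  obtain ⟨C1, h1⟩ := h1 n
  obtain ⟨C2, h2⟩ := h2 n
  refine ⟨C1 + C2, fun x => ?_⟩
  have e : iteratedFDeriv ℝ n (fun x => φ x - ψ x) x
      = iteratedFDeriv ℝ n φ x - iteratedFDeriv ℝ n ψ x := by
    have := iteratedFDeriv_sub_apply (𝕜 := ℝ) (i := n) (x := x) (f := φ) (g := ψ)
      (ContDiff.contDiffAt (hφ.of_le (by exact_mod_cast le_top)))
      (ContDiff.contDiffAt (hψ.of_le (by exact_mod_cast le_top)))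
    exact this
  rw [e]
  exact (norm_sub_le _ _).trans (add_le_add (h1 x) (h2 x))

theorem AB.curl {F : R3 → R3} (hF : ContDiff ℝ ∞ F)
    (hb : ∀ n : ℕ, ∃ C : ℝ, ∀ x, ‖iteratedFDeriv ℝ n F x‖ ≤ C) (i : Fin 3) :
    AB (fun y => curl3 F y i) := by
  have e : (fun y => curl3 F y i) = fun y => Crest.AnalysisR.VecCalc3.pderiv (fun z => F z (i + 2)) (i + 1) y
      - Crest.AnalysisR.VecCalc3.pderiv (fun z => F z (i + 1)) (i + 2) y := by
    funext y; exact curl3_apply F y i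
  rw [e]
  have c : ∀ k : Fin 3, ContDiff ℝ ∞ (fun z => F z k) := fun k => comp_contDiff hF k
  exact AB.sub (pderiv_contDiff (c _) _) (pderiv_contDiff (c _) _)
    (AB.pderiv (c _) (AB.comp hF hb _) _) (AB.pderiv (c _) (AB.comp hF hb _) _)

/-! ### the `S` half of `WaveOps` -/

theorem integrable_ball {φ : R3 → ℝ} (hφ : Continuous φ) (r : ℝ) (x : R3) :
    Integrable (fun w => φ (x + r • w)) sg :=
  integrable_sg (Continuous.continuousOn (hφ.comp (by fun_prop)))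

theorem Sop_add {g h : R3 → ℝ} (hg : Continuous g) (hh : Continuous h) (t : ℝ) (x : R3) :
    Sop (fun y => g y + h y) t x = Sop g t x + Sop h t x := by
  unfold Sop Mn
  rw [integral_add (integrable_ball hg t x) (integrable_ball hh t x)]
  ring

theorem Sop_smul (c : ℝ) (g : R3 → ℝ) (t : ℝ) (x : R3) :
    Sop (fun y => c * g y) t x = c * Sop g t x := by
  unfold Sop Mn
  rw [integral_const_mul]
  ring

theorem pderiv_Mn {g : R3 → ℝ} (hg : ContDiff ℝ ∞ g) (i : Fin 3) (t : ℝ) (x : R3) :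
    pderiv (fun y => Mn g t y) i x = Mn (fun y => pderiv g i y) t x := by
  unfold pderiv Mn
  refine mean_fderiv_apply (g := fun q : R3 × R3 => g (q.1 + t • q.2)) (hg.comp (by fun_prop)) x _
    ?_
  intro w
  show fderiv ℝ (fun y => g (y + t • w)) x _ = fderiv ℝ g (x + t • w) _
  rw [fderiv_comp_add_right]

theorem Sop_dx {g : R3 → ℝ} (hg : ContDiff ℝ ∞ g) (i : Fin 3) (t : ℝ) (x : R3) :
    dx i (Sop g) t x = Sop (fun y => pderiv g i y) t x := by
  unfold dx
  show pderiv (fun y => t * Mn g t y) i x = t * _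
  rw [← pderiv_Mn hg]
  exact pderiv_smul t (Sm.slice (sm_Mn hg) t) i x

theorem dt_Sop {g : R3 → ℝ} (hg : ContDiff ℝ ∞ g) : dt (Sop g) = Sdot g := by
  funext t x
  exact (hasDerivAt_Sop hg t x).deriv

theorem Sop_wave {g : R3 → ℝ} (hg : ContDiff ℝ ∞ g) (t : ℝ) (x : R3) :
    dt (dt (Sop g)) t x = ∑ i : Fin 3, dx i (dx i (Sop g)) t x := by
  rw [dt_Sop hg]
  have h1 : dt (Sdot g) t x = Sop (lap g) t x := (hasDerivAt_Sdot hg t x).deriv
  rw [h1]
  have h2 : ∀ i : Fin 3, dx i (dx i (Sop g)) t x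
      = Sop (fun y => pderiv (fun z => pderiv g i z) i y) t x := by
    intro i
    have : dx i (Sop g) = Sop (fun y => pderiv g i y) := by
      funext t x; exact Sop_dx hg i t x
    rw [this]
    exact Sop_dx (pderiv_contDiff hg i) i t x
  simp only [h2, Fin.sum_univ_three]
  have c : ∀ i : Fin 3, Continuous (fun y => pderiv (fun z => pderiv g i z) i y) := fun i =>
    (pderiv_contDiff (pderiv_contDiff hg i) i).continuous
  have e1 := Sop_add (c 0) (c 1) t x
  have e2 := Sop_add (g := fun y => pderiv (fun z => pderiv g 0 z) 0 y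
    + pderiv (fun z => pderiv g 1 z) 1 y) ((c 0).add (c 1)) (c 2) t x
  rw [e1] at e2
  rw [← e2]
  congr 1
  funext y
  simp only [lap, Fin.sum_univ_three]

/-- the remaining (Duhamel) half of `WaveOps Sop W` -/
structure DuhOps (W : (ℝ → R3 → ℝ) → ℝ → R3 → ℝ) : Prop where
  W_smooth : ∀ h, Sm h → Sm (W h)
  W_zero : ∀ h, Sm h → ∀ x, W h 0 x = 0
  W_add : ∀ g h, Sm g → Sm h → ∀ t x, W (fun s y => g s y + h s y) t x = W g t x + W h t x
  W_smul : ∀ (c : ℝ) (h), Sm h → ∀ t x, W (fun s y => c * h s y) t x = c * W h t x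
  W_dx : ∀ h, Sm h → ∀ i t x, dx i (W h) t x = W (dx i h) t x
  W_dt : ∀ h, Sm h → ∀ t x, dt (W h) t x = W (dt h) t x + Sop (h 0) t x
  W_wave : ∀ h, Sm h → ∀ t x,
    dt (dt (W h)) t x = h t x + ∑ i : Fin 3, dx i (dx i (W h)) t x

theorem waveOps {W : (ℝ → R3 → ℝ) → ℝ → R3 → ℝ} (hW : DuhOps W) : WaveOps Sop W where
  S_smooth g hg := contDiff_Sop hg
  S_zero g _ x := Sop_zero g x
  S_dt_zero g hg x := by rw [dt_Sop hg]; exact Sdot_zero g x
  S_add g h hg hh t x := Sop_add hg.continuous hh.continuous t x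
  S_smul c g _ t x := Sop_smul c g t x
  S_dx g hg i t x := Sop_dx hg i t x
  S_wave g hg t x := Sop_wave hg t x
  W_smooth := hW.W_smooth
  W_zero := hW.W_zero
  W_add := hW.W_add
  W_smul := hW.W_smul
  W_dx := hW.W_dx
  W_dt := hW.W_dt
  W_wave := hW.W_wave

end Crest.Agent.R106.Max
end
end

-- ▼ part R106/BddAux
section

/-!
Row 106, node ITER-A: smooth functions of (time, space) all of whose derivatives are bounded on
compact time intervals.
-/

set_option autoImplicit false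

open Set Filter Topology
open scoped ContDiff

noncomputable section

namespace Crest.Agent.R106.IterA

variable {X : Type*} [NormedAddCommGroup X] [NormedSpace ℝ X]
variable {Y : Type*} [NormedAddCommGroup Y] [NormedSpace ℝ Y]

/-- The derivatives of a slice `x ↦ F (t, x)` are bounded by the joint derivatives. -/
theorem norm_iteratedFDeriv_slice_le {F : ℝ × X → Y} (hF : ContDiff ℝ ∞ F) (n : ℕ) (t : ℝ)
    (x : X) :
    ‖iteratedFDeriv ℝ n (fun y => F (t, y)) x‖ ≤ ‖iteratedFDeriv ℝ n F (t, x)‖ := by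
  set F' : ℝ × X → Y := fun p => F (p + (t, 0)) with hF'
  have hF's : ContDiff ℝ ∞ F' := hF.comp (contDiff_id.add contDiff_const)
  have h1 : (fun y => F (t, y)) = F' ∘ (ContinuousLinearMap.inr ℝ ℝ X) := by
    funext y; simp [hF']
  have h2 := (ContinuousLinearMap.inr ℝ ℝ X).iteratedFDeriv_comp_right (f := F') hF's x
    (i := n) (by exact_mod_cast le_top)
  have h3 : iteratedFDeriv ℝ n F' (0, x) = iteratedFDeriv ℝ n F (t, x) := by
    have := iteratedFDeriv_comp_add_right (𝕜 := ℝ) (f := F) n (t, (0 : X)) (0, x)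
    rw [hF']
    simpa using this
  rw [h1, h2]
  have h4 : (ContinuousLinearMap.inr ℝ ℝ X) x = (0, x) := rfl
  rw [h4, h3]
  refine (ContinuousMultilinearMap.norm_compContinuousLinearMap_le _ _).trans ?_
  have h5 : ∏ _i : Fin n, ‖(ContinuousLinearMap.inr ℝ ℝ X)‖ ≤ 1 := by
    refine Finset.prod_le_one (fun _ _ => norm_nonneg _) (fun _ _ => ?_)
    exact ContinuousLinearMap.opNorm_le_bound _ zero_le_one (fun y => by simp [Prod.norm_def])
  calc _ ≤ ‖iteratedFDeriv ℝ n F (t, x)‖ * 1 :=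
        mul_le_mul_of_nonneg_left h5 (norm_nonneg _)
    _ = _ := mul_one _

/-- A smooth function with compact support in `x`, locally uniformly in time, has all its
derivatives bounded on compact time intervals. -/
theorem exists_bound_of_support [FiniteDimensional ℝ X] {F : ℝ × X → Y} (hF : ContDiff ℝ ∞ F)
    (hs : ∀ T : ℝ, ∃ R : ℝ, ∀ t x, |t| ≤ T → R < ‖x‖ → F (t, x) = 0) (n : ℕ) (T : ℝ) :
    ∃ C : ℝ, 0 ≤ C ∧ ∀ t x, |t| ≤ T → ‖iteratedFDeriv ℝ n F (t, x)‖ ≤ C := by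
  obtain ⟨R, hR⟩ := hs (T + 1)
  have hpX : ProperSpace X := FiniteDimensional.proper ℝ X
  have hK : IsCompact (Icc (-T) T ×ˢ Metric.closedBall (0 : X) R) :=
    isCompact_Icc.prod (isCompact_closedBall _ _)
  have hc : Continuous (fun p => ‖iteratedFDeriv ℝ n F p‖) :=
    (hF.continuous_iteratedFDeriv (by exact_mod_cast le_top)).norm
  obtain ⟨C, hC⟩ := (hK.image hc).bddAbove
  refine ⟨max C 0, le_max_right _ _, fun t x ht => ?_⟩
  by_cases hx : ‖x‖ ≤ R
  · exact (hC ⟨(t, x), ⟨abs_le.1 ht, by simpa using hx⟩, rfl⟩).trans (le_max_left _ _)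
  · push Not at hx
    have h1 : F =ᶠ[𝓝 (t, x)] fun _ => (0 : Y) := by
      have h2 : {p : ℝ × X | |p.1| < T + 1 ∧ R < ‖p.2‖} ∈ 𝓝 (t, x) := by
        apply IsOpen.mem_nhds
        · have h5 : IsOpen {p : ℝ × X | |p.1| < T + 1} :=
            isOpen_lt (continuous_abs.comp continuous_fst) continuous_const
          have h6 : IsOpen {p : ℝ × X | R < ‖p.2‖} :=
            isOpen_lt continuous_const (continuous_norm.comp continuous_snd)
          exact h5.inter h6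
        · exact ⟨by simpa using ht.trans_lt (by linarith), hx⟩
      filter_upwards [h2] with p hp
      exact hR p.1 p.2 hp.1.le hp.2
    have h3 : iteratedFDeriv ℝ n F (t, x) = iteratedFDeriv ℝ n (fun _ : ℝ × X => (0 : Y)) (t, x) :=
      (Filter.EventuallyEq.iteratedFDeriv ℝ h1 n).eq_of_nhds
    rw [h3]
    have h4 : iteratedFDeriv ℝ n (fun _ : ℝ × X => (0 : Y)) = 0 := iteratedFDeriv_fun_zero
    rw [h4]
    simp

end Crest.Agent.R106.IterA
end
end

-- ▼ part R106/Max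
section

/-!
# Row 106, node MAX (`Std.Max`): the linear Maxwell system
-/

set_option autoImplicit false
set_option linter.unusedSimpArgs false

open MeasureTheory Set Metric Filter Topology
open scoped ContDiff
open Crest.AnalysisR.VecCalc3
open Crest.Agent.R106.Kir

noncomputable section

namespace Crest.Agent.R106.Max


theorem duhOps : DuhOps Kir.W where
  W_smooth h hh := js_W hh
  W_zero h _ x := Kir.W_zero h x
  W_add g h hg hh t x := Kir.W_add hg hh t x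
  W_smul c h _ t x := Kir.W_const_mul c h t x
  W_dx h hh i t x := Kir.pderiv_W hh t i x
  W_dt h hh t x := (Kir.deriv_W hh t x).trans (Kir.Wd_eq hh t x)
  W_wave h hh t x := by
    have h1 := Kir.wave_W hh t x
    have h2 : ∑ i : Fin 3, dx i (dx i (Kir.W h)) t x = lap (fun y => Kir.W h t y) x := rfl
    rw [h2]
    show deriv (fun s => deriv (fun s' => Kir.W h s' x) s) t = _
    linarith

theorem ops : WaveOps Sop Kir.W := waveOps duhOps

/-! ### supports -/

/-- bounded support in `x` on slabs -/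
def Sp (u : ℝ → R3 → ℝ) : Prop :=
  ∀ T : ℝ, ∃ R : ℝ, ∀ t : ℝ, |t| ≤ T → ∀ x : R3, R < ‖x‖ → u t x = 0

theorem Sp.W {h : ℝ → R3 → ℝ} (hs : Sp h) : Sp (Kir.W h) := by
  intro T
  obtain ⟨R, hR⟩ := hs T
  refine ⟨R + T, fun t ht x hx => ?_⟩
  have h1 : Kir.W h t x = Kir.W (fun _ _ => (0 : ℝ)) t x := by
    refine Kir.W_congr fun τ hτ y hy => ?_
    have h2 : |τ| ≤ |t| := by
      rcases le_total 0 t with h | h
      · rw [uIcc_of_le h] at hτ
        rw [abs_of_nonneg h, abs_of_nonneg hτ.1]; exact hτ.2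
      · rw [uIcc_of_ge h] at hτ
        rw [abs_of_nonpos h, abs_of_nonpos hτ.2]; linarith [hτ.1]
    have h3 : |t - τ| ≤ |t| := by
      rcases le_total 0 t with h | h
      · rw [uIcc_of_le h] at hτ
        rw [abs_of_nonneg h, abs_of_nonneg (by linarith [hτ.2])]; linarith [hτ.1]
      · rw [uIcc_of_ge h] at hτ
        rw [abs_of_nonpos h, abs_of_nonpos (by linarith [hτ.1])]; linarith [hτ.2]
    refine hR τ (h2.trans ht) y ?_
    have h4 : ‖x‖ ≤ ‖y‖ + ‖y - x‖ := by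
      have := norm_sub_le y (y - x)
      simpa using this
    rw [hy] at h4
    linarith
  rw [h1]
  simp [Kir.W, Kir.Sop, Kir.Mn]

theorem Sp.dt {u : ℝ → R3 → ℝ} (hs : Sp u) : Sp (dt u) := by
  intro T
  obtain ⟨R, hR⟩ := hs (T + 1)
  refine ⟨R, fun t ht x hx => ?_⟩
  have h1 : (fun s => u s x) =ᶠ[𝓝 t] fun _ => (0 : ℝ) := by
    have h2 : {s : ℝ | |s| < T + 1} ∈ 𝓝 t :=
      (isOpen_lt continuous_abs continuous_const).mem_nhds (by show |t| < T + 1; linarith)
    filter_upwards [h2] with s hs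
    exact hR s (le_of_lt hs) x hx
  show deriv (fun s => u s x) t = 0
  rw [h1.deriv_eq]
  simp

theorem Sp.dx {u : ℝ → R3 → ℝ} (hs : Sp u) (i : Fin 3) : Sp (dx i u) := by
  intro T
  obtain ⟨R, hR⟩ := hs T
  refine ⟨R, fun t ht x hx => ?_⟩
  have h1 : u t =ᶠ[𝓝 x] fun _ => (0 : ℝ) := by
    have h2 : {y : R3 | R < ‖y‖} ∈ 𝓝 x :=
      (isOpen_lt continuous_const continuous_norm).mem_nhds hx
    filter_upwards [h2] with y hy
    exact hR t ht y hy
  show fderiv ℝ (u t) x _ = 0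
  rw [h1.fderiv_eq]
  simp

theorem sb_of_supp {u : ℝ → R3 → ℝ} (hu : Sm u) (hs : Sp u) : SB u := by
  intro T k
  obtain ⟨C, _, hC⟩ := IterA.exists_bound_of_support (F := fun p : ℝ × R3 => u p.1 p.2) hu
    (fun T => by
      obtain ⟨R, hR⟩ := hs T
      exact ⟨R, fun t x ht hx => hR t ht x hx⟩) k T
  refine ⟨C, fun t ht x => ?_⟩
  exact (IterA.norm_iteratedFDeriv_slice_le (F := fun p : ℝ × R3 => u p.1 p.2) hu k t x).trans
    (hC t x ht)

/-! ### vector-valued fields from components -/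

theorem iter_vec_le {F : R3 → R3} (hF : ContDiff ℝ ∞ F) (k : ℕ) (x : R3) :
    ‖iteratedFDeriv ℝ k F x‖ ≤ ∑ i : Fin 3, ‖iteratedFDeriv ℝ k (fun y => F y i) x‖ := by
  set L : Fin 3 → ℝ →L[ℝ] R3 := fun i =>
    (ContinuousLinearMap.id ℝ ℝ).smulRight (EuclideanSpace.single i (1 : ℝ) : R3) with hL
  have hLn : ∀ i, ‖L i‖ ≤ 1 := by
    intro i
    refine ContinuousLinearMap.opNorm_le_bound _ zero_le_one fun c => ?_
    simp [hL, norm_smul]
  have e : F = fun y => ∑ i : Fin 3, (L i ∘ fun z => F z i) y := by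
    funext y
    ext j
    simp [hL, Finset.sum_apply, Pi.single_apply, Fin.sum_univ_three]
    fin_cases j <;> simp
  have hc : ∀ i : Fin 3, ContDiff ℝ ∞ (fun z => F z i) := fun i => comp_contDiff hF i
  have h1 : iteratedFDeriv ℝ k F x
      = ∑ i : Fin 3, iteratedFDeriv ℝ k (L i ∘ fun z => F z i) x := by
    conv_lhs => rw [e]
    exact iteratedFDeriv_fun_sum_apply (𝕜 := ℝ) (u := (Finset.univ : Finset (Fin 3))) (n := k)
      (f := fun i => L i ∘ fun z => F z i)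
      (fun j _ => (((L j).contDiff.comp (hc j)).of_le (by exact_mod_cast le_top)).contDiffAt)
  rw [h1]
  refine (norm_sum_le _ _).trans (Finset.sum_le_sum fun i _ => ?_)
  have h2 := (L i).norm_iteratedFDeriv_comp_left (f := fun z => F z i) (x := x) (N := ∞) (n := k)
    (hc i).contDiffAt (by exact_mod_cast le_top)
  refine h2.trans ?_
  calc _ ≤ 1 * ‖iteratedFDeriv ℝ k (fun y => F y i) x‖ :=
        mul_le_mul_of_nonneg_right (hLn i) (norm_nonneg _)
    _ = _ := one_mul _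

theorem sf_of_comp {E : ℝ → R3 → R3} (hE : ContDiff ℝ ∞ (fun p : ℝ × R3 => E p.1 p.2))
    (hb : ∀ i : Fin 3, SB (fun t x => E t x i)) : Std.SF E := by
  refine ⟨hE, fun T k => ?_⟩
  choose C hC using fun i => hb i T k
  refine ⟨∑ i : Fin 3, C i, fun t ht x => ?_⟩
  have hs : ContDiff ℝ ∞ (E t) := hE.comp (contDiff_prodMk_right t)
  exact (iter_vec_le hs k x).trans (Finset.sum_le_sum fun i _ => hC i t ht x)

theorem SB.neg {u : ℝ → R3 → ℝ} (hu : Sm u) (h1 : SB u) : SB (fun t x => - u t x) := by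
  have := SB.smul (c := fun _ => (-1 : ℝ)) hu (fun T => ⟨1, fun _ _ => by simp⟩) h1
  simpa using this

theorem Sm.neg {u : ℝ → R3 → ℝ} (hu : Sm u) : Sm (fun t x => - u t x) := ContDiff.neg hu

theorem Sm.add {u v : ℝ → R3 → ℝ} (hu : Sm u) (hv : Sm v) : Sm (fun t x => u t x + v t x) :=
  ContDiff.add hu hv

theorem SB.sub {u v : ℝ → R3 → ℝ} (hu : Sm u) (hv : Sm v) (h1 : SB u) (h2 : SB v) :
    SB (fun t x => u t x - v t x) := by
  have := SB.add hu hv.neg h1 (h2.neg hv)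
  simpa [sub_eq_add_neg] using this

theorem Sm.sub {u v : ℝ → R3 → ℝ} (hu : Sm u) (hv : Sm v) : Sm (fun t x => u t x - v t x) :=
  ContDiff.sub hu hv

/-- **node MAX** -/
theorem max : Std.Max := by
  intro ρ j E₀ B₀ hρ hj hsupp hcont hE hB hbd hdE hdB
  obtain ⟨h1, h2, h3, h4, h5⟩ := maxwell_solve ops hE hB hρ hj hcont hdE hdB
  have hbE : ∀ n : ℕ, ∃ C : ℝ, ∀ x, ‖iteratedFDeriv ℝ n E₀ x‖ ≤ C := fun n => by
    obtain ⟨C, hC⟩ := hbd n
    exact ⟨C, fun x => (hC x).1⟩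
  have hbB : ∀ n : ℕ, ∃ C : ℝ, ∀ x, ‖iteratedFDeriv ℝ n B₀ x‖ ≤ C := fun n => by
    obtain ⟨C, hC⟩ := hbd n
    exact ⟨C, fun x => (hC x).2⟩
  have hjs : ∀ i : Fin 3, Sm (fun s y => j s y i) := fun i => comp_contDiff hj i
  have hjsp : ∀ i : Fin 3, Sp (fun s y => j s y i) := by
    intro i T
    obtain ⟨R, hR⟩ := hsupp T
    refine ⟨R, fun t ht x hx => ?_⟩
    have := (hR t ht x hx).2
    simp [this]
  have hρsp : Sp ρ := by
    intro T
    obtain ⟨R, hR⟩ := hsupp T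
    exact ⟨R, fun t ht x hx => (hR t ht x hx).1⟩
  have hρs : Sm ρ := hρ
  have cE : ∀ i : Fin 3, ContDiff ℝ ∞ (fun y => E₀ y i) := fun i => comp_contDiff hE i
  have cB : ∀ i : Fin 3, ContDiff ℝ ∞ (fun y => B₀ y i) := fun i => comp_contDiff hB i
  have ccE : ∀ i : Fin 3, ContDiff ℝ ∞ (fun y => curl3 E₀ y i) := by
    intro i
    have e : (fun y => curl3 E₀ y i) = fun y => pderiv (fun z => E₀ z (i + 2)) (i + 1) y
      - pderiv (fun z => E₀ z (i + 1)) (i + 2) y := by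
      funext y; exact curl3_apply E₀ y i
    rw [e]
    exact (pderiv_contDiff (cE _) _).sub (pderiv_contDiff (cE _) _)
  have ccB : ∀ i : Fin 3, ContDiff ℝ ∞ (fun y => curl3 B₀ y i) := by
    intro i
    have e : (fun y => curl3 B₀ y i) = fun y => pderiv (fun z => B₀ z (i + 2)) (i + 1) y
      - pderiv (fun z => B₀ z (i + 1)) (i + 2) y := by
      funext y; exact curl3_apply B₀ y i
    rw [e]
    exact (pderiv_contDiff (cB _) _).sub (pderiv_contDiff (cB _) _)
  have sW : ∀ h : ℝ → R3 → ℝ, Sm h → Sm (Kir.W h) := fun h hh => js_W hh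
  refine ⟨fieldE Sop Kir.W E₀ B₀ ρ j, fieldB Sop Kir.W E₀ B₀ j, ?_, ?_, h3, h4, h5⟩
  · refine sf_of_comp h1 fun i => ?_
    show SB (fun t x => dt (Sop (fun y => E₀ y i)) t x + Sop (fun y => curl3 B₀ y i) t x
      - dt (Kir.W (fun s y => j s y i)) t x - dx i (Kir.W ρ) t x)
    rw [dt_Sop (cE i)]
    have a1 : Sm (Sdot (fun y => E₀ y i)) := contDiff_Sdot (cE i)
    have a2 : Sm (Sop (fun y => curl3 B₀ y i)) := contDiff_Sop (ccB i)
    have a3 : Sm (dt (Kir.W (fun s y => j s y i))) := Sm.dt (sW _ (hjs i))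
    have a4 : Sm (dx i (Kir.W ρ)) := Sm.dx (sW _ hρs) i
    refine SB.sub ((a1.add a2).sub a3) a4 (SB.sub (a1.add a2) a3 (SB.add a1 a2 ?_ ?_) ?_) ?_
    · exact sb_Sdot (cE i) (AB.comp hE hbE i)
    · exact sb_Sop (ccB i) (AB.curl hB hbB i)
    · exact sb_of_supp a3 (Sp.dt (Sp.W (hjsp i)))
    · exact sb_of_supp a4 (Sp.dx (Sp.W hρsp) i)
  · refine sf_of_comp h2 fun i => ?_
    show SB (fun t x => dt (Sop (fun y => B₀ y i)) t x - Sop (fun y => curl3 E₀ y i) t x
      + (dx (i + 1) (Kir.W (fun s y => j s y (i + 2))) t x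
        - dx (i + 2) (Kir.W (fun s y => j s y (i + 1))) t x))
    rw [dt_Sop (cB i)]
    have a1 : Sm (Sdot (fun y => B₀ y i)) := contDiff_Sdot (cB i)
    have a2 : Sm (Sop (fun y => curl3 E₀ y i)) := contDiff_Sop (ccE i)
    have a3 : Sm (dx (i + 1) (Kir.W (fun s y => j s y (i + 2)))) := Sm.dx (sW _ (hjs _)) _
    have a4 : Sm (dx (i + 2) (Kir.W (fun s y => j s y (i + 1)))) := Sm.dx (sW _ (hjs _)) _
    refine SB.add (a1.sub a2) (a3.sub a4) (SB.sub a1 a2 ?_ ?_) (SB.sub a3 a4 ?_ ?_)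
    · exact sb_Sdot (cB i) (AB.comp hB hbB i)
    · exact sb_Sop (ccE i) (AB.curl hE hbE i)
    · exact sb_of_supp a3 (Sp.dx (Sp.W (hjsp _)) _)
    · exact sb_of_supp a4 (Sp.dx (Sp.W (hjsp _)) _)

end Crest.Agent.R106.Max
end
end

-- ▼ part R106/FbRev
section

/-!
Row 106 (helper105): `Field.GS1 → Std.FB`, `Field.GS1D → Std.FBz`.
-/

set_option autoImplicit false

open MeasureTheory Set Filter Topology
open scoped ContDiff
open Crest.AnalysisR.VecCalc3 Crest.AnalysisR.PDE.RVM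

namespace Crest.Agent.R106.Std.FbRev

open Crest.Agent.R106.Field (LinSol GS1 GS1D GSLog)
open Crest.Agent.R106.Gs2 (PS Tr divv ev)

/-- uncurried density -/
def unc (f : ℝ → R3 → R3 → ℝ) : PS → ℝ := fun p => f p.1 p.2.1 p.2.2

lemma differentiableAt_unc {f : ℝ → R3 → R3 → ℝ}
    (hf : ContDiff ℝ ∞ (fun p : ℝ × R3 × R3 => f p.1 p.2.1 p.2.2)) (p : PS) :
    DifferentiableAt ℝ (unc f) p :=
  (hf.differentiable (by simp)) p

lemma fderiv_unc_t {f : ℝ → R3 → R3 → ℝ}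
    (hf : ContDiff ℝ ∞ (fun p : ℝ × R3 × R3 => f p.1 p.2.1 p.2.2)) (t : ℝ) (x v : R3) :
    fderiv ℝ (unc f) (t, x, v) (1, 0, 0) = deriv (fun s => f s x v) t := by
  have hc : HasDerivAt (fun s : ℝ => ((s, x, v) : PS)) (1, 0, 0) t :=
    (hasDerivAt_id t).prodMk ((hasDerivAt_const t x).prodMk (hasDerivAt_const t v))
  have := HasFDerivAt.comp_hasDerivAt (f := fun s : ℝ => ((s, x, v) : PS)) t
    (differentiableAt_unc hf (t, x, v)).hasFDerivAt hc
  exact this.deriv.symm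

lemma fderiv_unc_x {f : ℝ → R3 → R3 → ℝ}
    (hf : ContDiff ℝ ∞ (fun p : ℝ × R3 × R3 => f p.1 p.2.1 p.2.2)) (t : ℝ) (x v e : R3) :
    fderiv ℝ (unc f) (t, x, v) (0, e, 0) = fderiv ℝ (fun y => f t y v) x e := by
  have hc : HasFDerivAt (fun y : R3 => ((t, y, v) : PS))
      ((0 : R3 →L[ℝ] ℝ).prod ((ContinuousLinearMap.id ℝ R3).prod (0 : R3 →L[ℝ] R3))) x :=
    (hasFDerivAt_const t x).prodMk ((hasFDerivAt_id x).prodMk (hasFDerivAt_const v x))
  have := HasFDerivAt.comp x (f := fun y : R3 => ((t, y, v) : PS))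
    (differentiableAt_unc hf (t, x, v)).hasFDerivAt hc
  have h2 : fderiv ℝ (fun y => f t y v) x = (fderiv ℝ (unc f) (t, x, v)).comp
    ((0 : R3 →L[ℝ] ℝ).prod ((ContinuousLinearMap.id ℝ R3).prod (0 : R3 →L[ℝ] R3))) := this.fderiv
  rw [h2]
  simp

lemma fderiv_unc_v {f : ℝ → R3 → R3 → ℝ}
    (hf : ContDiff ℝ ∞ (fun p : ℝ × R3 × R3 => f p.1 p.2.1 p.2.2)) (t : ℝ) (x v e : R3) :
    fderiv ℝ (unc f) (t, x, v) (0, 0, e) = fderiv ℝ (fun w => f t x w) v e := by
  have hc : HasFDerivAt (fun w : R3 => ((t, x, w) : PS))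
      ((0 : R3 →L[ℝ] ℝ).prod ((0 : R3 →L[ℝ] R3).prod (ContinuousLinearMap.id ℝ R3))) v :=
    (hasFDerivAt_const t v).prodMk ((hasFDerivAt_const x v).prodMk (hasFDerivAt_id v))
  have := HasFDerivAt.comp v (f := fun w : R3 => ((t, x, w) : PS))
    (differentiableAt_unc hf (t, x, v)).hasFDerivAt hc
  have h2 : fderiv ℝ (fun w => f t x w) v = (fderiv ℝ (unc f) (t, x, v)).comp
    ((0 : R3 →L[ℝ] ℝ).prod ((0 : R3 →L[ℝ] R3).prod (ContinuousLinearMap.id ℝ R3))) := this.fderiv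
  rw [h2]
  simp

lemma r3_sum (e : R3) : e = ∑ i : Fin 3, e i • EuclideanSpace.single i (1 : ℝ) := by
  ext j
  simp only [PiLp.smul_apply, WithLp.ofLp_sum, Finset.sum_apply]
  fin_cases j <;> simp

/-- the transport operator of `Gs2Defs` and of `StdDefs` agree -/
lemma Tr_unc {f : ℝ → R3 → R3 → ℝ}
    (hf : ContDiff ℝ ∞ (fun p : ℝ × R3 × R3 => f p.1 p.2.1 p.2.2)) (t : ℝ) (x v : R3) :
    Tr (unc f) (t, x, v) = Tfree f t x v := by
  unfold Tr Tfree
  have h1 : ((1 : ℝ), relVel v, (0 : R3)) = (1, 0, 0) + (0, relVel v, 0) := by simp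
  simp only
  rw [h1, map_add, fderiv_unc_t hf, fderiv_unc_x hf]
  congr 1
  conv_lhs => rw [r3_sum (relVel v)]
  rw [map_sum]
  refine Finset.sum_congr rfl fun i _ => ?_
  rw [map_smul, smul_eq_mul]
  rfl

lemma divv_unc {g : Fin 3 → ℝ → R3 → R3 → ℝ}
    (hg : ∀ i, ContDiff ℝ ∞ (fun p : ℝ × R3 × R3 => g i p.1 p.2.1 p.2.2)) (t : ℝ) (x v : R3) :
    divv (fun i p => -g i p.1 p.2.1 p.2.2) (t, x, v) =
      -∑ i : Fin 3, pderiv (fun w => g i t x w) i v := by
  unfold divv ev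
  rw [← Finset.sum_neg_distrib]
  refine Finset.sum_congr rfl fun i _ => ?_
  have h1 : ((fun (i : Fin 3) (p : PS) => -g i p.1 p.2.1 p.2.2) i) = -(unc (g i)) := rfl
  rw [h1, fderiv_neg]
  change -(fderiv ℝ (unc (g i)) (t, x, v) (0, 0, EuclideanSpace.single i 1)) = _
  rw [fderiv_unc_v (hg i)]
  rfl

/-- zero datum is admissible -/
lemma adm_zero : IsAdmissibleDatum (fun _ _ => 0) (fun _ => 0) (fun _ => 0) := by
  refine ⟨fun _ _ => le_rfl, ?_, ?_, contDiff_const, contDiff_const, ?_, ?_, ?_, ?_, ?_⟩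
  · exact contDiff_const
  · have : Function.uncurry (fun (_ _ : R3) => (0 : ℝ)) = 0 := by funext p; rfl
    rw [this]
    exact HasCompactSupport.zero
  · intro n
    refine ⟨0, fun x => ?_⟩
    have : iteratedFDeriv ℝ n (fun _ : R3 => (0 : R3)) x = 0 := by
      rw [iteratedFDeriv_fun_zero]; rfl
    simp [this]
  · exact MemLp.zero'
  · exact MemLp.zero'
  · intro x
    simp [div3, pderiv]
  · intro x
    simp [div3, pderiv]

/-- The linear solution structure from the data of `FB`. -/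
lemma linSol_of {f₀ : R3 → R3 → ℝ} {E₀ B₀ : R3 → R3} (had : IsAdmissibleDatum f₀ E₀ B₀)
    {R T : ℝ} {h : ℝ → R3 → R3 → ℝ} {g : Fin 3 → ℝ → R3 → R3 → ℝ} {E B : ℝ → R3 → R3}
    (hh : PC h) (hg : ∀ i, PC (g i)) (hE : SF E) (hB : SF B)
    (hs : ∀ (t : ℝ) (x v : R3), R < ‖v‖ → h t x v = 0 ∧ ∀ i, g i t x v = 0)
    (hT : ∀ (t : ℝ) (x v : R3), Tfree h t x v = - ∑ i : Fin 3, pderiv (fun w => g i t x w) i v)
    (hM : ∀ (t : ℝ) (x : R3), MaxwellAt (chargeDensity h) (currentDensity h) E B t x)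
    (h0 : h 0 = f₀) (hE0 : E 0 = E₀) (hB0 : B 0 = B₀) :
    LinSol R T f₀ E₀ B₀ univ h (fun i p => -g i p.1 p.2.1 p.2.2) E B where
  adm := had
  isOpen := isOpen_univ
  subset := subset_univ _
  smf := hh.1.contDiffOn
  smG := fun i => (hg i).1.neg.contDiffOn
  smE := hE.1.contDiffOn
  smB := hB.1.contDiffOn
  suppf := fun s _ y v hv => (hs s y v hv).1
  suppG := fun s _ y v hv i => by simp [(hs s y v hv).2 i]
  cpt := by
    obtain ⟨R1, hR1⟩ := hh.2 T
    choose R2 hR2 using fun i => (hg i).2 T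
    refine ⟨max R1 (max (R2 0) (max (R2 1) (R2 2))), fun s hs' y v hy => ⟨?_, fun i => ?_⟩⟩
    · refine hR1 s ?_ y v (Or.inl ((le_max_left _ _).trans_lt hy))
      rw [abs_of_nonneg hs'.1]; exact hs'.2
    · have : R2 i ≤ max R1 (max (R2 0) (max (R2 1) (R2 2))) := by
        fin_cases i <;> simp
      have h3 := hR2 i s (by rw [abs_of_nonneg hs'.1]; exact hs'.2) y v
        (Or.inl (this.trans_lt hy))
      simp [h3]
  f0 := h0
  E0 := hE0
  B0 := hB0
  tr := fun s _ y v => by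
    have h1 : Tr (fun p : PS => h p.1 p.2.1 p.2.2) (s, y, v) = Tfree h s y v := Tr_unc hh.1 s y v
    rw [h1, hT s y v, divv_unc (fun i => (hg i).1)]
  ampere := fun s _ x i => (hM s x).1 i
  faraday := fun s _ x i => (hM s x).2.1 i
  gauss := fun s _ x => (hM s x).2.2.1
  gaussB := fun s _ x => (hM s x).2.2.2

lemma norm_iteratedFDeriv_neg_fun {k : ℕ} (g : R3 → ℝ) (x : R3) :
    ‖iteratedFDeriv ℝ k (fun y => -g y) x‖ = ‖iteratedFDeriv ℝ k g x‖ :=
  norm_iteratedFDeriv_neg' k g x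

/-- `∫ (t-s) φ ≤ T ∫ φ`. -/
lemma weighted_le {φ : ℝ → ℝ} (hφ : Continuous φ) {t T : ℝ} (h0 : 0 ≤ t) (ht : t ≤ T)
    (hnn : ∀ s ∈ Icc 0 t, 0 ≤ φ s) :
    ∫ s in (0:ℝ)..t, (t - s) * φ s ≤ T * |∫ s in (0:ℝ)..t, φ s| := by
  have h1 : ∫ s in (0:ℝ)..t, (t - s) * φ s ≤ ∫ s in (0:ℝ)..t, T * φ s := by
    refine intervalIntegral.integral_mono_on h0 ?_ ?_ (fun s hs => ?_)
    · exact ((continuous_const.sub continuous_id).mul hφ).intervalIntegrable _ _
    · exact (continuous_const.mul hφ).intervalIntegrable _ _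
    · exact mul_le_mul_of_nonneg_right (by linarith [hs.1]) (hnn s hs)
  rw [intervalIntegral.integral_const_mul] at h1
  exact h1.trans (mul_le_mul_of_nonneg_left (le_abs_self _) (h0.trans ht))

theorem fbpos (H : GS1) : FBpos := by
  intro f₀ E₀ B₀ had k R T
  obtain ⟨C, hC, HC⟩ := H k R (|T| + 1) (by positivity) f₀ E₀ B₀
  refine ⟨C * (1 + |T|), by positivity,
    fun h g E B φ hh hg hE hB hs hT hM h0 hE0 hB0 hφ hb t ht0 htT => ?_⟩
  have hL : LinSol R (|T| + 1) f₀ E₀ B₀ univ h (fun i p => -g i p.1 p.2.1 p.2.2) E B :=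
    linSol_of had hh hg hE hB hs hT hM h0 hE0 hB0
  have hab : ∀ s ∈ Icc 0 t, |s| ≤ T := fun s hs' => by
    rw [abs_of_nonneg hs'.1]; exact hs'.2.trans htT
  have hT0 : 0 ≤ T := ht0.trans htT
  have key := HC univ h (fun i p => -g i p.1 p.2.1 p.2.2) E B hL t
    ⟨ht0, by rw [abs_of_nonneg hT0]; linarith⟩ φ φ
    (fun s hs' y v => (hb s (hab s hs') y v).1)
    (fun s hs' i y v => by
      have := (hb s (hab s hs') y v).2 i
      rw [norm_iteratedFDeriv_neg_fun (fun z => g i s z v) y]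
      exact this)
    (hφ.intervalIntegrable _ _) (hφ.intervalIntegrable _ _)
  have hnn : ∀ s ∈ Icc 0 t, 0 ≤ φ s := fun s hs' =>
    (norm_nonneg _).trans (hb s (hab s hs') 0 0).1
  have hw := weighted_le hφ ht0 htT hnn
  have hle : C * (1 + (∫ s in (0:ℝ)..t, φ s) + ∫ s in (0:ℝ)..t, (t - s) * φ s) ≤
      C * (1 + |T|) * (1 + |∫ s in (0:ℝ)..t, φ s|) := by
    rw [mul_assoc]
    refine mul_le_mul_of_nonneg_left ?_ hC
    have h1 := le_abs_self (∫ s in (0:ℝ)..t, φ s)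
    rw [abs_of_nonneg hT0]
    nlinarith [abs_nonneg (∫ s in (0:ℝ)..t, φ s)]
  exact fun x => ⟨(key x).1.trans hle, (key x).2.trans hle⟩

/-- **FB** from GS1. -/
theorem fb (H : GS1) : FB := fb_of_pos (fbpos H)

theorem fbzpos (H : GS1D) : FBzpos := by
  intro k R T
  obtain ⟨C, hC, HC⟩ := H k R (|T| + 1) (by positivity)
  refine ⟨C * (1 + |T|), by positivity,
    fun h g E B φ hh hg hE hB hs hT hM h0 hE0 hB0 hφ hb t ht0 htT => ?_⟩
  have hL : LinSol R (|T| + 1) (fun _ _ => 0) (fun _ => 0) (fun _ => 0) univ h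
      (fun i p => -g i p.1 p.2.1 p.2.2) E B :=
    linSol_of adm_zero hh hg hE hB hs hT hM (by funext x v; exact h0 x v) (by funext x; exact hE0 x)
      (by funext x; exact hB0 x)
  have hab : ∀ s ∈ Icc 0 t, |s| ≤ T := fun s hs' => by
    rw [abs_of_nonneg hs'.1]; exact hs'.2.trans htT
  have hT0 : 0 ≤ T := ht0.trans htT
  have key := HC univ h (fun i p => -g i p.1 p.2.1 p.2.2) E B hL t
    ⟨ht0, by rw [abs_of_nonneg hT0]; linarith⟩ φ φ
    (fun s hs' y v => (hb s (hab s hs') y v).1)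
    (fun s hs' i y v => by
      have := (hb s (hab s hs') y v).2 i
      rw [norm_iteratedFDeriv_neg_fun (fun z => g i s z v) y]
      exact this)
    (hφ.intervalIntegrable _ _) (hφ.intervalIntegrable _ _)
  have hnn : ∀ s ∈ Icc 0 t, 0 ≤ φ s := fun s hs' =>
    (norm_nonneg _).trans (hb s (hab s hs') 0 0).1
  have hw := weighted_le hφ ht0 htT hnn
  have hle : C * ((∫ s in (0:ℝ)..t, φ s) + ∫ s in (0:ℝ)..t, (t - s) * φ s) ≤
      C * (1 + |T|) * |∫ s in (0:ℝ)..t, φ s| := by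
    rw [mul_assoc]
    refine mul_le_mul_of_nonneg_left ?_ hC
    have h1 := le_abs_self (∫ s in (0:ℝ)..t, φ s)
    rw [abs_of_nonneg hT0]
    nlinarith [abs_nonneg (∫ s in (0:ℝ)..t, φ s)]
  exact fun x => ⟨(key x).1.trans hle, (key x).2.trans hle⟩

/-- **FBz** from GS1D. -/
theorem fbz (H : GS1D) : FBz := fbz_of_pos (fbzpos H)

end Crest.Agent.R106.Std.FbRev
end

-- ▼ part R106/FBDir

/-!
# Row 106, standard part, FB and FBz (helper330)

The field bounds `FBpos`, `FBzpos` of `Rev` from Kirchhoff's formula (helper246, 262), Maxwell's wave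
equations (helper835) and the sup estimate `Gs2.SupEst` (helper375), directly in the global class
(`J = univ`).

Class `SW`: a scalar wave `u` with `□u = mom m₁ (D₁ H) + mom m₂ (D₂ H)`, `T H = div_v G`; it is closed
under `∂_i`, and the bound of order `k + 1` follows from the bound of order `k` for `∂_i u`.
-/

set_option autoImplicit false
set_option linter.unusedSectionVars false
set_option linter.unusedVariables false
set_option maxHeartbeats 1000000
open MeasureTheory Set Filter Topology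
open scoped ContDiff
open Crest.AnalysisR.VecCalc3 Crest.AnalysisR.PDE.RVM

noncomputable section

namespace Crest.Agent.R106.FBDir

open Crest.Agent.R106.Gs2 (PS ev Tr divv dxt mom Wv SupEst)
open Crest.Agent.R106.Kir (JS W Sop Sdot lap Bd)
open Crest.Agent.R106.GSR (pt px box)
open Crest.Agent.R106.Field (dd dd_comm dd_sub dd_add dd_sum contDiffOn_dd diffAt)

abbrev eb (i : Fin 3) : R3 := EuclideanSpace.single i (1 : ℝ)


theorem inf_le {k : ℕ} : ((k : ℕ∞) : WithTop ℕ∞) ≤ ∞ := by exact_mod_cast le_top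

/-! ### norm comparisons -/

/-- the coordinate functional -/
def dxi (i : Fin 3) : R3 →L[ℝ] ℝ := EuclideanSpace.proj i

theorem norm_dxi_le (i : Fin 3) : ‖dxi i‖ ≤ 1 := by
  refine ContinuousLinearMap.opNorm_le_bound _ zero_le_one fun x => ?_
  rw [one_mul]
  exact PiLp.norm_apply_le x i

theorem fderiv_eq_sum_dxi {F : R3 → ℝ} (x : R3) :
    fderiv ℝ F x = ∑ i : Fin 3, pderiv F i x • dxi i := by
  ext v
  conv_lhs => rw [Std.FbRev.r3_sum v]
  rw [map_sum]
  simp only [map_smul, smul_eq_mul, FunLike.coe_sum, Finset.sum_apply, FunLike.coe_smul,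
    Pi.smul_apply]
  refine Finset.sum_congr rfl fun i _ => ?_
  show v i * pderiv F i x = pderiv F i x * v i
  ring

theorem norm_iter_smul_const_le {V : Type*} [NormedAddCommGroup V] [NormedSpace ℝ V]
    {F : R3 → ℝ} (hF : ContDiff ℝ ∞ F) (c : V) (k : ℕ) (x : R3) :
    ‖iteratedFDeriv ℝ k (fun y => F y • c) x‖ ≤ ‖c‖ * ‖iteratedFDeriv ℝ k F x‖ := by
  have h := (ContinuousLinearMap.toSpanSingleton ℝ c).norm_iteratedFDeriv_comp_left
    (f := F) (x := x) (N := ∞) (n := k) hF.contDiffAt inf_le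
  refine le_trans (le_of_eq ?_) (h.trans (mul_le_mul_of_nonneg_right ?_ (norm_nonneg _)))
  · rfl
  · rw [ContinuousLinearMap.norm_toSpanSingleton]

theorem norm_iter_succ_le {F : R3 → ℝ} (hF : ContDiff ℝ ∞ F) (k : ℕ) (x : R3) :
    ‖iteratedFDeriv ℝ (k + 1) F x‖ ≤
      ∑ i : Fin 3, ‖iteratedFDeriv ℝ k (fun y => pderiv F i y) x‖ := by
  have hp : ∀ i, ContDiff ℝ ∞ (fun y => pderiv F i y) := fun i => Kir.contDiff_pderiv hF i
  have hs : ∀ i : Fin 3, ContDiff ℝ ∞ (fun y => pderiv F i y • dxi i) := fun i =>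
    (hp i).smul contDiff_const
  rw [← norm_iteratedFDeriv_fderiv]
  have e : fderiv ℝ F = fun y => ∑ i : Fin 3, pderiv F i y • dxi i := by
    funext y; exact fderiv_eq_sum_dxi y
  have e2 : iteratedFDeriv ℝ k (fderiv ℝ F) x = ∑ i : Fin 3,
      iteratedFDeriv ℝ k (fun y => pderiv F i y • dxi i) x := by
    rw [e]
    exact iteratedFDeriv_fun_sum_apply fun i _ => ((hs i).of_le inf_le).contDiffAt
  rw [e2]
  refine (norm_sum_le _ _).trans (Finset.sum_le_sum fun i _ => ?_)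
  refine (norm_iter_smul_const_le (hp i) (dxi i) k x).trans ?_
  calc ‖dxi i‖ * _ ≤ 1 * _ := mul_le_mul_of_nonneg_right (norm_dxi_le i) (norm_nonneg _)
    _ = _ := one_mul _

/-! ### slices -/

section slices
variable {H : PS → ℝ}

theorem diffH (hH : ContDiff ℝ ∞ H) (p : PS) : DifferentiableAt ℝ H p :=
  (hH.differentiable (by simp)) p

theorem dxt_slice (hH : ContDiff ℝ ∞ H) (s : ℝ) (y v e : R3) :
    dxt 0 e H (s, y, v) = fderiv ℝ (fun z => H (s, z, v)) y e := by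
  have h2 : HasFDerivAt (fun z : R3 => ((s, z, v) : PS))
      ((0 : R3 →L[ℝ] ℝ).prod ((ContinuousLinearMap.id ℝ R3).prod 0)) y :=
    (hasFDerivAt_const s y).prodMk ((hasFDerivAt_id y).prodMk (hasFDerivAt_const v y))
  have h3 : HasFDerivAt (fun z : R3 => H (s, z, v))
      ((fderiv ℝ H (s, y, v)).comp
        ((0 : R3 →L[ℝ] ℝ).prod ((ContinuousLinearMap.id ℝ R3).prod 0))) y :=
    HasFDerivAt.comp y (f := fun z : R3 => ((s, z, v) : PS)) (diffH hH _).hasFDerivAt h2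
  rw [h3.fderiv]
  rfl

theorem smooth_dir (hH : ContDiff ℝ ∞ H) (w : PS) : ContDiff ℝ ∞ (fun p => fderiv ℝ H p w) := by
  have h1 : ContDiff ℝ ∞ (fderiv ℝ H) := hH.fderiv_right (m := ∞) (by simp)
  exact h1.clm_apply contDiff_const

theorem smooth_dxt (hH : ContDiff ℝ ∞ H) (a : ℝ) (b : R3) : ContDiff ℝ ∞ (dxt a b H) :=
  smooth_dir hH _

theorem slice_smooth (hH : ContDiff ℝ ∞ H) (s : ℝ) (v : R3) :
    ContDiff ℝ ∞ (fun z : R3 => H (s, z, v)) := by
  have : ContDiff ℝ ∞ (fun z : R3 => ((s, z, v) : PS)) := by fun_prop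
  exact hH.comp this

theorem dir_comm (hH : ContDiff ℝ ∞ H) (w z p : PS) :
    fderiv ℝ (fun q => fderiv ℝ H q w) p z = fderiv ℝ (fun q => fderiv ℝ H q z) p w :=
  Kir.symmE hH.contDiffAt w z

theorem dxt_comm (hH : ContDiff ℝ ∞ H) (a a' : ℝ) (b b' : R3) :
    dxt a b (dxt a' b' H) = dxt a' b' (dxt a b H) := by
  funext p
  exact dir_comm hH _ _ _

/-- the derivative of the transport equation -/
theorem Tr_dxt (hH : ContDiff ℝ ∞ H) (e : R3) (p : PS) :
    Tr (dxt 0 e H) p = fderiv ℝ (fun z => Tr H (p.1, z, p.2.2)) p.2.1 e := by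
  obtain ⟨s, y, v⟩ := p
  have h1 : Tr (dxt 0 e H) (s, y, v)
      = fderiv ℝ (fun q => fderiv ℝ H q (0, e, 0)) (s, y, v) (1, relVel v, 0) := rfl
  rw [h1, dir_comm hH]
  exact dxt_slice (smooth_dir hH (1, relVel v, 0)) s y v e

theorem divv_dxt {G : Fin 3 → PS → ℝ} (hG : ∀ i, ContDiff ℝ ∞ (G i)) (e : R3) (p : PS) :
    divv (fun j => dxt 0 e (G j)) p = fderiv ℝ (fun z => divv G (p.1, z, p.2.2)) p.2.1 e := by
  obtain ⟨s, y, v⟩ := p
  have h1 : divv (fun j => dxt 0 e (G j)) (s, y, v)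
      = ∑ j, fderiv ℝ (fun q => fderiv ℝ (G j) q (0, e, 0)) (s, y, v) (ev j) := rfl
  have h2 : (fun z => divv G (s, z, v)) = fun z => ∑ j, fderiv ℝ (G j) (s, z, v) (ev j) := rfl
  rw [h1]
  show _ = fderiv ℝ (fun z => divv G (s, z, v)) y e
  rw [h2, fderiv_fun_sum (fun j _ =>
    ((slice_smooth (smooth_dir (hG j) (ev j)) s v).differentiable (by simp)) y)]
  rw [FunLike.coe_sum, Finset.sum_apply]
  refine Finset.sum_congr rfl fun j _ => ?_
  rw [dir_comm (hG j)]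
  exact dxt_slice (smooth_dir (hG j) (ev j)) s y v e

/-- slice form of the iterated derivative -/
theorem iter_slice_dxt_le (hH : ContDiff ℝ ∞ H) (k : ℕ) (i : Fin 3) (s : ℝ) (y v : R3) :
    ‖iteratedFDeriv ℝ k (fun z => dxt 0 (eb i) H (s, z, v)) y‖ ≤
      ‖iteratedFDeriv ℝ (k + 1) (fun z => H (s, z, v)) y‖ := by
  have e : (fun z => dxt 0 (eb i) H (s, z, v)) = fun z => pderiv (fun z => H (s, z, v)) i z := by
    funext z
    exact dxt_slice hH s z v (eb i)
  rw [e]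
  exact Kir.iter_pderiv_le (slice_smooth hH s v) k y i

end slices

/-! ### functions on `ℝ × R3` -/

section st
variable {u : ℝ × R3 → ℝ}

theorem smooth_dd (hu : ContDiff ℝ ∞ u) (a : ℝ × R3) : ContDiff ℝ ∞ (dd a u) := by
  have h1 : ContDiff ℝ ∞ (fderiv ℝ u) := hu.fderiv_right (m := ∞) (by simp)
  exact h1.clm_apply contDiff_const

theorem ddc (hu : ContDiff ℝ ∞ u) (a b : ℝ × R3) : dd a (dd b u) = dd b (dd a u) := by
  funext q
  exact dd_comm isOpen_univ hu.contDiffOn a b (mem_univ q)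

theorem px_slice (hu : ContDiff ℝ ∞ u) (i : Fin 3) (s : ℝ) (y : R3) :
    px i u (s, y) = pderiv (fun z => u (s, z)) i y :=
  (Kir.JSOn.pderiv_eq (u := fun s y => u (s, y)) isOpen_univ (Kir.js_iff.1 hu) (mem_univ s) i y).symm

theorem box_px (hu : ContDiff ℝ ∞ u) (i : Fin 3) (q : ℝ × R3) :
    box (px i u) q = px i (box u) q := by
  have hd : ∀ {w : ℝ × R3 → ℝ}, ContDiff ℝ ∞ w → DifferentiableAt ℝ w q := fun hw =>
    (hw.differentiable (by simp)) q
  have e1 : px i (box u) q = dd (0, eb i) (dd (1, 0) (dd (1, 0) u)) q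
      - ∑ j : Fin 3, dd (0, eb i) (dd (0, eb j) (dd (0, eb j) u)) q := by
    have e2 : px i (box u) q
        = dd (0, eb i) (fun p => dd (1, 0) (dd (1, 0) u) p - ∑ j, dd (0, eb j) (dd (0, eb j) u) p) q :=
      rfl
    rw [e2, dd_sub (hd (smooth_dd (smooth_dd hu _) _)) (hd (ContDiff.sum fun j _ =>
      smooth_dd (smooth_dd hu _) _)), dd_sum _ (fun j _ => hd (smooth_dd (smooth_dd hu _) _))]
  rw [e1]
  show dd (1, 0) (dd (1, 0) (dd (0, eb i) u)) q
    - ∑ j : Fin 3, dd (0, eb j) (dd (0, eb j) (dd (0, eb i) u)) q = _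
  congr 1
  · rw [ddc hu (1, 0) (0, eb i), ddc (smooth_dd hu _) (1, 0) (0, eb i)]
  · refine Finset.sum_congr rfl fun j _ => ?_
    rw [ddc hu (0, eb j) (0, eb i), ddc (smooth_dd hu _) (0, eb j) (0, eb i)]

theorem iter_slice_px_le (hu : ContDiff ℝ ∞ u) (k : ℕ) (s : ℝ) (y : R3) :
    ‖iteratedFDeriv ℝ (k + 1) (fun z => u (s, z)) y‖ ≤
      ∑ i : Fin 3, ‖iteratedFDeriv ℝ k (fun z => px i u (s, z)) y‖ := by
  have hs : ContDiff ℝ ∞ (fun z => u (s, z)) := by
    have : ContDiff ℝ ∞ (fun z : R3 => ((s, z) : ℝ × R3)) := by fun_prop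
    exact hu.comp this
  have e : ∀ i, (fun z => px i u (s, z)) = fun z => pderiv (fun z => u (s, z)) i z := by
    intro i
    funext z
    exact px_slice hu i s z
  simp only [e]
  exact norm_iter_succ_le hs k y

end st

/-! ### the class -/

/-- scalar wave with a source made of two first derivatives of moments of a density `H` with
`T H = div_v G` -/
structure SW (R : ℝ) (m1 m2 : R3 → ℝ) (a1 a2 : ℝ) (b1 b2 : R3) (H : PS → ℝ) (G : Fin 3 → PS → ℝ)
    (u : ℝ × R3 → ℝ) (H0 : R3 → R3 → ℝ) (u0 u1 : R3 → ℝ) : Prop where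
  smH : ContDiff ℝ ∞ H
  smG : ∀ i, ContDiff ℝ ∞ (G i)
  smu : ContDiff ℝ ∞ u
  suppH : ∀ (s : ℝ) (y v : R3), R < ‖v‖ → H (s, y, v) = 0
  suppG : ∀ (s : ℝ) (y v : R3), R < ‖v‖ → ∀ i, G i (s, y, v) = 0
  cpt : ∃ X : ℝ, ∀ s : ℝ, |s| ≤ 1 → ∀ y v : R3, X < ‖y‖ → H (s, y, v) = 0
  tr : ∀ p : PS, Tr H p = divv G p
  wave : ∀ q : ℝ × R3, box u q = mom m1 (dxt a1 b1 H) q.1 q.2 + mom m2 (dxt a2 b2 H) q.1 q.2
  init0 : ∀ x : R3, u (0, x) = u0 x
  init1 : ∀ x : R3, pt u (0, x) = u1 x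
  initH : ∀ y v : R3, H (0, y, v) = H0 y v

section cls
variable {R : ℝ} {m1 m2 : R3 → ℝ} {a1 a2 : ℝ} {b1 b2 : R3} {H : PS → ℝ} {G : Fin 3 → PS → ℝ}
  {u : ℝ × R3 → ℝ} {H0 : R3 → R3 → ℝ} {u0 u1 : R3 → ℝ}

theorem dir_zero {g : PS → ℝ} (hs : ∀ (s : ℝ) (y v : R3), R < ‖v‖ → g (s, y, v) = 0) (w : PS)
    (s : ℝ) (y v : R3) (hv : R < ‖v‖) : fderiv ℝ g (s, y, v) w = 0 := by
  have hO2 : IsOpen {p : PS | R < ‖p.2.2‖} :=
    isOpen_lt continuous_const (continuous_norm.comp (continuous_snd.comp continuous_snd))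
  have he : g =ᶠ[𝓝 ((s, y, v) : PS)] fun _ => 0 := by
    filter_upwards [hO2.mem_nhds (show ((s, y, v) : PS) ∈ {p : PS | R < ‖p.2.2‖} from hv)] with p hp
    exact hs p.1 p.2.1 p.2.2 hp
  rw [he.fderiv_eq]
  simp

theorem vsupp {g : PS → ℝ} (hs : ∀ (s : ℝ) (y v : R3), R < ‖v‖ → g (s, y, v) = 0) :
    Src.VSupp (fun t x v => g (t, x, v)) univ :=
  Src.VSupp.of_bound (P := R) (fun t x v hv => hs t x v hv) univ

theorem mom_smooth {m : R3 → ℝ} (hm : ContDiff ℝ ∞ m) {g : PS → ℝ} (hg : ContDiff ℝ ∞ g)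
    (hs : ∀ (s : ℝ) (y v : R3), R < ‖v‖ → g (s, y, v) = 0) :
    ContDiff ℝ ∞ (fun q : ℝ × R3 => mom m g q.1 q.2) := by
  have := Src.contDiffOn_mom (n := ⊤) hm (g := g) (J := univ) isOpen_univ hg.contDiffOn (vsupp hs)
  rw [univ_prod_univ, contDiffOn_univ] at this
  exact this

theorem fderiv_mom_eq {m : R3 → ℝ} (hm : ContDiff ℝ ∞ m) {g : PS → ℝ} (hg : ContDiff ℝ ∞ g)
    (hs : ∀ (s : ℝ) (y v : R3), R < ‖v‖ → g (s, y, v) = 0) (q : ℝ × R3) (a : ℝ) (b : R3) :
    fderiv ℝ (fun q : ℝ × R3 => mom m g q.1 q.2) q (a, b) = mom m (dxt a b g) q.1 q.2 :=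
  Src.fderiv_mom (hm.of_le (by simp)) (J := univ) isOpen_univ
    ((hg.of_le (by simp)).contDiffOn) (vsupp hs) (mem_univ q.1) q.2 a b

theorem SW.dx (hm1 : ContDiff ℝ ∞ m1) (hm2 : ContDiff ℝ ∞ m2)
    (h : SW R m1 m2 a1 a2 b1 b2 H G u H0 u0 u1) (i : Fin 3) :
    SW R m1 m2 a1 a2 b1 b2 (dxt 0 (eb i) H) (fun j => dxt 0 (eb i) (G j)) (px i u)
      (fun y v => pderiv (fun z => H0 z v) i y) (fun x => pderiv u0 i x)
      (fun x => pderiv u1 i x) where
  smH := smooth_dxt h.smH _ _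
  smG := fun j => smooth_dxt (h.smG j) _ _
  smu := smooth_dd h.smu _
  suppH := fun s y v hv => dir_zero h.suppH _ s y v hv
  suppG := fun s y v hv j => dir_zero (fun s y v hv => h.suppG s y v hv j) _ s y v hv
  cpt := by
    obtain ⟨X, hX⟩ := h.cpt
    refine ⟨X, fun s hs y v hy => ?_⟩
    rw [dxt_slice h.smH]
    have hO : IsOpen {z : R3 | X < ‖z‖} := isOpen_lt continuous_const continuous_norm
    have he : (fun z => H (s, z, v)) =ᶠ[𝓝 y] fun _ => 0 := by
      filter_upwards [hO.mem_nhds (show y ∈ {z : R3 | X < ‖z‖} from hy)] with z hz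
      exact hX s hs z v hz
    rw [he.fderiv_eq]
    simp
  tr := fun p => by
    rw [Tr_dxt h.smH, divv_dxt h.smG]
    have : (fun z => Tr H (p.1, z, p.2.2)) = fun z => divv G (p.1, z, p.2.2) := by
      funext z
      exact h.tr _
    rw [this]
  wave := fun q => by
    rw [box_px h.smu]
    have e : box u = fun q : ℝ × R3 =>
        mom m1 (dxt a1 b1 H) q.1 q.2 + mom m2 (dxt a2 b2 H) q.1 q.2 := funext h.wave
    have s1 : ∀ (s : ℝ) (y v : R3), R < ‖v‖ → dxt a1 b1 H (s, y, v) = 0 := fun s y v hv =>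
      dir_zero h.suppH _ s y v hv
    have s2 : ∀ (s : ℝ) (y v : R3), R < ‖v‖ → dxt a2 b2 H (s, y, v) = 0 := fun s y v hv =>
      dir_zero h.suppH _ s y v hv
    rw [e]
    show dd (0, eb i) _ q = _
    rw [dd_add (((mom_smooth hm1 (smooth_dxt h.smH a1 b1) s1).differentiable (by simp)) q)
      (((mom_smooth hm2 (smooth_dxt h.smH a2 b2) s2).differentiable (by simp)) q)]
    show fderiv ℝ _ q (0, eb i) + fderiv ℝ _ q (0, eb i) = _
    rw [fderiv_mom_eq hm1 (smooth_dxt h.smH a1 b1) s1,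
      fderiv_mom_eq hm2 (smooth_dxt h.smH a2 b2) s2, dxt_comm h.smH 0 a1, dxt_comm h.smH 0 a2]
  init0 := fun x => by
    rw [px_slice h.smu]
    have : (fun z => u (0, z)) = u0 := funext h.init0
    rw [this]
  init1 := fun x => by
    have e1 : pt (px i u) (0, x) = px i (pt u) (0, x) :=
      congrFun (ddc h.smu (1, 0) (0, eb i)) (0, x)
    rw [e1, px_slice (u := pt u) (smooth_dd h.smu (1, 0))]
    have : (fun z => pt u (0, z)) = u1 := funext h.init1
    rw [this]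
  initH := fun y v => by
    rw [dxt_slice h.smH]
    have : (fun z => H (0, z, v)) = fun z => H0 z v := funext fun z => h.initH z v
    rw [this]
    rfl

/-! ### the bound of order zero -/

/-- near `t = 0` the density is close to its datum -/
theorem SW.near (h : SW R m1 m2 a1 a2 b1 b2 H G u H0 u0 u1) {c : ℝ} (hc : 0 ≤ c)
    (hH : ∀ y v : R3, |H0 y v| ≤ c) {η : ℝ} (hη : 0 < η) :
    ∃ δ : ℝ, 0 < δ ∧ ∀ s ∈ Icc 0 δ, ∀ y v : R3, |H (s, y, v)| ≤ c + η := by
  obtain ⟨X, hX⟩ := h.cpt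
  have hK : IsCompact (Metric.closedBall (0 : R3) X ×ˢ Metric.closedBall (0 : R3) R) :=
    (isCompact_closedBall _ _).prod (isCompact_closedBall _ _)
  have hev : ∀ᶠ s in 𝓝 (0 : ℝ), ∀ z ∈ Metric.closedBall (0 : R3) X ×ˢ Metric.closedBall (0 : R3) R,
      |H (s, z.1, z.2)| < c + η := by
    refine hK.eventually_forall_of_forall_eventually fun z _ => ?_
    have hcont : Continuous (fun p : ℝ × (R3 × R3) => |H (p.1, p.2.1, p.2.2)|) := by
      refine continuous_abs.comp (h.smH.continuous.comp ?_)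
      fun_prop
    have h0 : |H (0, z.1, z.2)| < c + η := by
      rw [h.initH]
      linarith [hH z.1 z.2]
    exact (hcont.tendsto (0, z)).eventually (gt_mem_nhds h0)
  obtain ⟨ε, hε, hball⟩ := Metric.eventually_nhds_iff.1 hev
  refine ⟨min (ε / 2) 1, by positivity, fun s hs y v => ?_⟩
  have hs1 : |s| ≤ 1 := by
    rw [abs_of_nonneg hs.1]
    exact hs.2.trans (min_le_right _ _)
  have hs2 : dist s 0 < ε := by
    rw [Real.dist_eq, sub_zero, abs_of_nonneg hs.1]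
    have := hs.2.trans (min_le_left _ _)
    linarith
  by_cases hy : X < ‖y‖
  · rw [hX s hs1 y v hy, abs_zero]; positivity
  · by_cases hv : R < ‖v‖
    · rw [h.suppH s y v hv, abs_zero]; positivity
    · refine (hball hs2 (y, v) ⟨?_, ?_⟩).le
      · rw [mem_closedBall_zero_iff]; exact not_lt.1 hy
      · rw [mem_closedBall_zero_iff]; exact not_lt.1 hv

/-- the retarded potentials of the moments -/
theorem Wv_le (hS : SupEst) (R : ℝ) {m : R3 → ℝ} (hm : ContDiff ℝ ∞ m) (a : ℝ) (b : R3) (T : ℝ) :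
    ∃ C : ℝ, 0 ≤ C ∧ ∀ (m1 m2 : R3 → ℝ) (a1 a2 : ℝ) (b1 b2 : R3) (H : PS → ℝ) (G : Fin 3 → PS → ℝ)
      (u : ℝ × R3 → ℝ) (H0 : R3 → R3 → ℝ) (u0 u1 : R3 → ℝ),
      SW R m1 m2 a1 a2 b1 b2 H G u H0 u0 u1 → ∀ c : ℝ, 0 ≤ c → (∀ y v, |H0 y v| ≤ c) →
      ∀ t ∈ Ioc 0 T, ∀ N : ℝ → ℝ, IntervalIntegrable N volume 0 t →
      (∀ s ∈ Icc 0 t, ∀ y v, |H (s, y, v)| ≤ N s) →
      (∀ s ∈ Icc 0 t, ∀ i, ∀ y v, |G i (s, y, v)| ≤ N s) →
      ∀ x : R3, |Wv (mom m (dxt a b H)) t x| ≤ C * (c + ∫ s in (0:ℝ)..t, N s) := by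
  obtain ⟨C, hC, HC⟩ := hS R m hm a b
  refine ⟨C * (1 + |T|), by positivity, ?_⟩
  intro m1 m2 a1 a2 b1 b2 H G u H0 u0 u1 h c hc hH0 t ht N hN hNH hNG x
  have hnn : ∀ s ∈ Icc 0 t, 0 ≤ N s := fun s hs => (abs_nonneg _).trans (hNH s hs 0 0)
  have hI : 0 ≤ ∫ s in (0:ℝ)..t, N s := intervalIntegral.integral_nonneg ht.1.le hnn
  have hT : |T| = T := abs_of_nonneg (ht.1.le.trans ht.2)
  have hw : ∫ s in (0:ℝ)..t, (t - s) * (N s + (fun _ => (0:ℝ)) s) ≤ T * ∫ s in (0:ℝ)..t, N s := by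
    rw [← intervalIntegral.integral_const_mul]
    refine intervalIntegral.integral_mono_on ht.1.le ?_ (hN.const_mul T) (fun s hs => ?_)
    · simp only [add_zero]
      exact hN.continuousOn_mul (by fun_prop)
    · simp only [add_zero]
      exact mul_le_mul_of_nonneg_right (by linarith [hs.1, ht.2]) (hnn s hs)
  refine le_of_forall_pos_le_add fun η hη => ?_
  obtain ⟨η', hη', hle⟩ : ∃ η' : ℝ, 0 < η' ∧ C * (t * η') ≤ η := by
    refine ⟨η / (C * t + 1), by have := ht.1; positivity, ?_⟩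
    have h1 : 0 ≤ C * t := mul_nonneg hC ht.1.le
    rw [← mul_assoc, mul_div_assoc']
    rw [div_le_iff₀ (by positivity)]
    nlinarith
  obtain ⟨δ, hδ, hnear⟩ := h.near hc hH0 hη'
  have key := HC univ t δ x H (fun _ => 0) G (c + η') N N (fun _ => 0) isOpen_univ (subset_univ _)
    ht.1 hδ (h.smH.of_le (by simp)).contDiffOn (fun i => ((h.smG i).of_le (by simp)).contDiffOn)
    continuousOn_const (fun s _ y v hv => ⟨h.suppH s y v hv, h.suppG s y v hv, rfl⟩)
    (fun s _ y v => by rw [h.tr]; ring)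
    (fun s hs y v => hnear s ⟨hs.1, hs.2.trans (min_le_right _ _)⟩ y v)
    hNH hNG (fun s _ y v => by simp) hN hN intervalIntegrable_const
  refine key.trans ?_
  have hTt : t ≤ T := ht.2
  calc C * (t * (c + η') + (∫ s in (0:ℝ)..t, N s)
        + ∫ s in (0:ℝ)..t, (t - s) * (N s + (fun _ => (0:ℝ)) s))
      ≤ C * (T * c + (∫ s in (0:ℝ)..t, N s) + T * ∫ s in (0:ℝ)..t, N s) + C * (t * η') := by
        have : t * c ≤ T * c := mul_le_mul_of_nonneg_right hTt hc
        nlinarith [mul_le_mul_of_nonneg_left (add_le_add this hw) hC]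
    _ ≤ C * (1 + |T|) * (c + ∫ s in (0:ℝ)..t, N s) + η := by
        rw [hT]
        have h1 : 0 ≤ C * c := mul_nonneg hC hc
        nlinarith

theorem bound0 (hS : SupEst) (R : ℝ) {m1 m2 : R3 → ℝ} (hm1 : ContDiff ℝ ∞ m1)
    (hm2 : ContDiff ℝ ∞ m2) (a1 a2 : ℝ) (b1 b2 : R3) (T : ℝ) :
    ∃ C : ℝ, 0 ≤ C ∧ ∀ (H : PS → ℝ) (G : Fin 3 → PS → ℝ)
      (u : ℝ × R3 → ℝ) (H0 : R3 → R3 → ℝ) (u0 u1 : R3 → ℝ),
      SW R m1 m2 a1 a2 b1 b2 H G u H0 u0 u1 → ∀ c : ℝ, (∀ x, |u0 x| ≤ c) →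
      (∀ x, ‖fderiv ℝ u0 x‖ ≤ c) → (∀ x, |u1 x| ≤ c) → (∀ y v, |H0 y v| ≤ c) →
      ∀ t ∈ Icc 0 T, ∀ N : ℝ → ℝ, IntervalIntegrable N volume 0 t →
      (∀ s ∈ Icc 0 t, ∀ y v, |H (s, y, v)| ≤ N s) →
      (∀ s ∈ Icc 0 t, ∀ i, ∀ y v, |G i (s, y, v)| ≤ N s) →
      ∀ x : R3, |u (t, x)| ≤ C * (c + ∫ s in (0:ℝ)..t, N s) := by
  obtain ⟨C1, hC1, H1⟩ := Wv_le hS R hm1 a1 b1 T
  obtain ⟨C2, hC2, H2⟩ := Wv_le hS R hm2 a2 b2 T
  refine ⟨C1 + C2 + (1 + 2 * |T|), by positivity, ?_⟩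
  intro H G u H0 u0 u1 h c hu0 hdu0 hu1 hH0 t ht N hN hNH hNG x
  have hc : 0 ≤ c := (abs_nonneg _).trans (hu0 0)
  have hnn : ∀ s ∈ Icc 0 t, 0 ≤ N s := fun s hs => (abs_nonneg _).trans (hNH s hs 0 0)
  have hI : 0 ≤ ∫ s in (0:ℝ)..t, N s := intervalIntegral.integral_nonneg ht.1 hnn
  have hT : |T| = T := abs_of_nonneg (ht.1.trans ht.2)
  rcases eq_or_lt_of_le ht.1 with h0 | h0
  · rw [← h0, h.init0]
    refine (hu0 x).trans ?_
    rw [intervalIntegral.integral_same, add_zero]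
    nlinarith [abs_nonneg T, mul_nonneg hC1 hc, mul_nonneg hC2 hc, mul_nonneg (abs_nonneg T) hc]
  · have s1 : ∀ (s : ℝ) (y v : R3), R < ‖v‖ → dxt a1 b1 H (s, y, v) = 0 := fun s y v hv =>
      dir_zero h.suppH _ s y v hv
    have s2 : ∀ (s : ℝ) (y v : R3), R < ‖v‖ → dxt a2 b2 H (s, y, v) = 0 := fun s y v hv =>
      dir_zero h.suppH _ s y v hv
    have j1 := mom_smooth hm1 (smooth_dxt h.smH a1 b1) s1
    have j2 := mom_smooth hm2 (smooth_dxt h.smH a2 b2) s2
    have hfd : ∀ y : R3, ‖fderiv ℝ (fun z : R3 => u (0, z)) y‖ ≤ c := by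
      intro y
      have : (fun z : R3 => u (0, z)) = u0 := funext h.init0
      rw [this]
      exact hdu0 y
    have hk := Kir.kir_bound h.smu ht.1 x (C0 := c) (C1 := c) (D := c)
      (fun y => by rw [h.init0]; exact hu0 y) (fun y => by rw [h.init1]; exact hu1 y) hfd
    have hb : Wv (fun s y => box u (s, y)) t x
        = Wv (mom m1 (dxt a1 b1 H)) t x + Wv (mom m2 (dxt a2 b2 H)) t x := by
      have e0 : (fun s y => box u (s, y))
          = fun s y => mom m1 (dxt a1 b1 H) s y + mom m2 (dxt a2 b2 H) s y := by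
        funext s y
        exact h.wave (s, y)
      rw [e0, ← Kir.W_eq_Wv ht.1 (h := fun s y => mom m1 (dxt a1 b1 H) s y
          + mom m2 (dxt a2 b2 H) s y) ((j1.add j2).continuous.continuousOn) x,
        ← Kir.W_eq_Wv ht.1 (h := mom m1 (dxt a1 b1 H)) (j1.continuous.continuousOn) x,
        ← Kir.W_eq_Wv ht.1 (h := mom m2 (dxt a2 b2 H)) (j2.continuous.continuousOn) x]
      exact Kir.W_add j1 j2 t x
    rw [hb] at hk
    have k1 := H1 m1 m2 a1 a2 b1 b2 H G u H0 u0 u1 h c hc hH0 t ⟨h0, ht.2⟩ N hN hNH hNG x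
    have k2 := H2 m1 m2 a1 a2 b1 b2 H G u H0 u0 u1 h c hc hH0 t ⟨h0, ht.2⟩ N hN hNH hNG x
    have k3 := abs_add_le (Wv (mom m1 (dxt a1 b1 H)) t x) (Wv (mom m2 (dxt a2 b2 H)) t x)
    have k4 : t * c ≤ T * c := mul_le_mul_of_nonneg_right ht.2 hc
    refine hk.trans ?_
    rw [hT]
    have k5 : 0 ≤ T := hT ▸ abs_nonneg T
    nlinarith [mul_nonneg k5 hI]

/-! ### the bound of order `k` -/

theorem boundk (hS : SupEst) (R : ℝ) {m1 m2 : R3 → ℝ} (hm1 : ContDiff ℝ ∞ m1)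
    (hm2 : ContDiff ℝ ∞ m2) (a1 a2 : ℝ) (b1 b2 : R3) (T : ℝ) (k : ℕ) :
    ∃ C : ℝ, 0 ≤ C ∧ ∀ (H : PS → ℝ) (G : Fin 3 → PS → ℝ)
      (u : ℝ × R3 → ℝ) (H0 : R3 → R3 → ℝ) (u0 u1 : R3 → ℝ),
      SW R m1 m2 a1 a2 b1 b2 H G u H0 u0 u1 → ∀ c : ℝ,
      (∀ x, ‖iteratedFDeriv ℝ k u0 x‖ ≤ c) → (∀ x, ‖iteratedFDeriv ℝ (k + 1) u0 x‖ ≤ c) →
      (∀ x, ‖iteratedFDeriv ℝ k u1 x‖ ≤ c) →
      (∀ y v, ‖iteratedFDeriv ℝ k (fun z => H0 z v) y‖ ≤ c) →
      ∀ t ∈ Icc 0 T, ∀ N : ℝ → ℝ, IntervalIntegrable N volume 0 t →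
      (∀ s ∈ Icc 0 t, ∀ y v, ‖iteratedFDeriv ℝ k (fun z => H (s, z, v)) y‖ ≤ N s) →
      (∀ s ∈ Icc 0 t, ∀ i, ∀ y v, ‖iteratedFDeriv ℝ k (fun z => G i (s, z, v)) y‖ ≤ N s) →
      ∀ x : R3, ‖iteratedFDeriv ℝ k (fun z => u (t, z)) x‖ ≤ C * (c + ∫ s in (0:ℝ)..t, N s) := by
  induction k with
  | zero =>
    obtain ⟨C, hC, HC⟩ := bound0 hS R hm1 hm2 a1 a2 b1 b2 T
    refine ⟨C, hC, ?_⟩
    intro H G u H0 u0 u1 h c hu0 hdu0 hu1 hH0 t ht N hN hNH hNG x
    simp only [norm_iteratedFDeriv_zero, Real.norm_eq_abs] at hu0 hu1 hH0 hNH hNG ⊢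
    refine HC H G u H0 u0 u1 h c hu0 (fun x => ?_) hu1 hH0 t ht N hN hNH hNG x
    have := hdu0 x
    rwa [zero_add, norm_iteratedFDeriv_one] at this
  | succ k ih =>
    obtain ⟨C, hC, HC⟩ := ih
    refine ⟨3 * C, by positivity, ?_⟩
    intro H G u H0 u0 u1 h c hu0 hdu0 hu1 hH0 t ht N hN hNH hNG x
    have smu0 : ContDiff ℝ ∞ u0 := by
      have : u0 = fun z => u (0, z) := (funext h.init0).symm
      rw [this]
      exact h.smu.comp (by fun_prop)
    have smu1 : ContDiff ℝ ∞ u1 := by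
      have : u1 = fun z => pt u (0, z) := (funext h.init1).symm
      rw [this]
      exact (smooth_dd h.smu (1, 0)).comp (by fun_prop)
    have smH0 : ∀ v, ContDiff ℝ ∞ (fun z => H0 z v) := by
      intro v
      have : (fun z => H0 z v) = fun z => H (0, z, v) := (funext fun z => h.initH z v).symm
      rw [this]
      exact slice_smooth h.smH 0 v
    have key : ∀ i : Fin 3, ‖iteratedFDeriv ℝ k (fun z => px i u (t, z)) x‖
        ≤ C * (c + ∫ s in (0:ℝ)..t, N s) := by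
      intro i
      refine HC _ _ _ _ _ _ (h.dx hm1 hm2 i) c (fun x => ?_) (fun x => ?_) (fun x => ?_)
        (fun y v => ?_) t ht N hN (fun s hs y v => ?_) (fun s hs j y v => ?_) x
      · exact (Kir.iter_pderiv_le smu0 k x i).trans (hu0 x)
      · exact (Kir.iter_pderiv_le smu0 (k + 1) x i).trans (hdu0 x)
      · exact (Kir.iter_pderiv_le smu1 k x i).trans (hu1 x)
      · exact (Kir.iter_pderiv_le (smH0 v) k y i).trans (hH0 y v)
      · exact (iter_slice_dxt_le h.smH k i s y v).trans (hNH s hs y v)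
      · exact (iter_slice_dxt_le (h.smG j) k i s y v).trans (hNG s hs j y v)
    refine (iter_slice_px_le h.smu k t x).trans ?_
    refine (Finset.sum_le_sum fun i _ => key i).trans (le_of_eq ?_)
    simp
    ring

end cls

/-! ### Maxwell -/

section maxwell
variable {h : ℝ → R3 → R3 → ℝ} {E B : ℝ → R3 → R3}

/-- components on space-time -/
def cf (E : ℝ → R3 → R3) (i : Fin 3) : ℝ × R3 → ℝ := fun q => E q.1 q.2 i

/-- uncurried density -/
abbrev uh (h : ℝ → R3 → R3 → ℝ) : PS → ℝ := fun p => h p.1 p.2.1 p.2.2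

theorem cf_smooth (hE : ContDiff ℝ ∞ (fun p : ℝ × R3 => E p.1 p.2)) (i : Fin 3) :
    ContDiff ℝ ∞ (cf E i) := (contDiff_euclidean.1 hE) i

theorem px_cf (hE : ContDiff ℝ ∞ (fun p : ℝ × R3 => E p.1 p.2)) (i j : Fin 3) (q : ℝ × R3) :
    px j (cf E i) q = pderiv (fun y => E q.1 y i) j q.2 :=
  px_slice (cf_smooth hE i) j q.1 q.2

theorem pt_cf (hE : ContDiff ℝ ∞ (fun p : ℝ × R3 => E p.1 p.2)) (i : Fin 3) (q : ℝ × R3) :
    pt (cf E i) q = deriv (fun s => E s q.2 i) q.1 :=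
  (Kir.JSOn.deriv_eq (u := fun s y => cf E i (s, y)) isOpen_univ
    (Kir.js_iff.1 (cf_smooth hE i)) (mem_univ q.1) q.2).symm

theorem mom_one (h : ℝ → R3 → R3 → ℝ) (t : ℝ) (x : R3) :
    mom (fun _ => 1) (uh h) t x = chargeDensity h t x := by
  unfold mom chargeDensity
  simp

theorem mom_rel {R : ℝ} (hh : ContDiff ℝ ∞ (fun p : ℝ × R3 × R3 => h p.1 p.2.1 p.2.2))
    (hs : ∀ (t : ℝ) (x v : R3), R < ‖v‖ → h t x v = 0) (i : Fin 3) (t : ℝ) (x : R3) :
    mom (fun v => relVel v i) (uh h) t x = currentDensity h t x i := by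
  unfold mom currentDensity
  have hc : HasCompactSupport (fun v => h t x v • relVel v) := by
    refine HasCompactSupport.of_support_subset_isCompact (isCompact_closedBall (0 : R3) R) ?_
    intro v hv
    rw [mem_closedBall_zero_iff]
    by_contra hcon
    refine hv ?_
    show h t x v • relVel v = 0
    rw [hs t x v (not_le.1 hcon), zero_smul]
  have hcont : Continuous (fun v => h t x v • relVel v) := by
    have h1 : Continuous (fun v => h t x v) := by
      have : Continuous (fun v : R3 => ((t, x, v) : ℝ × R3 × R3)) := by fun_prop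
      exact hh.continuous.comp this
    exact h1.smul (Src.contDiff_relVel (n := 0)).continuous
  have hi : Integrable (fun v => h t x v • relVel v) := hcont.integrable_of_hasCompactSupport hc
  have := (EuclideanSpace.proj i : R3 →L[ℝ] ℝ).integral_comp_comm hi
  have e : (∫ v, h t x v • relVel v) i = (EuclideanSpace.proj i : R3 →L[ℝ] ℝ)
    (∫ v, h t x v • relVel v) := rfl
  rw [e, ← this]
  refine integral_congr_ae (Eventually.of_forall fun v => ?_)
  show relVel v i * h t x v = (h t x v • relVel v) i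
  simp [mul_comm]

theorem curlc_cf (hE : ContDiff ℝ ∞ (fun p : ℝ × R3 => E p.1 p.2)) (i : Fin 3) (q : ℝ × R3) :
    Field.curlc (cf E) i q = curl3 (E q.1) q.2 i := by
  unfold Field.curlc
  rw [px_cf hE, px_cf hE]
  fin_cases i <;> rfl

variable {R : ℝ}

theorem relVel_smooth (i : Fin 3) : ContDiff ℝ ∞ (fun v : R3 => relVel v i) :=
  (contDiff_euclidean.1 (Src.contDiff_relVel (n := ∞))) i

theorem maxC (hh : ContDiff ℝ ∞ (fun p : ℝ × R3 × R3 => h p.1 p.2.1 p.2.2))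
    (hs : ∀ (t : ℝ) (x v : R3), R < ‖v‖ → h t x v = 0)
    (hE : ContDiff ℝ ∞ (fun p : ℝ × R3 => E p.1 p.2))
    (hB : ContDiff ℝ ∞ (fun p : ℝ × R3 => B p.1 p.2))
    (hM : ∀ (t : ℝ) (x : R3), Std.MaxwellAt (chargeDensity h) (currentDensity h) E B t x) :
    Field.MaxC univ (cf E) (cf B) (fun q => mom (fun _ => 1) (uh h) q.1 q.2)
      (fun i q => mom (fun v => relVel v i) (uh h) q.1 q.2) where
  isOpen := isOpen_univ
  smE := fun i => (cf_smooth hE i).contDiffOn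
  smB := fun i => (cf_smooth hB i).contDiffOn
  smρ := (mom_smooth contDiff_const hh hs).contDiffOn
  smj := fun i => (mom_smooth (relVel_smooth i) hh hs).contDiffOn
  amp := fun i q _ => by
    rw [pt_cf hE, curlc_cf hB, mom_rel hh hs]
    have := (hM q.1 q.2).1 i
    linarith
  far := fun i q _ => by
    rw [pt_cf hB, curlc_cf hE]
    have := (hM q.1 q.2).2.1 i
    linarith
  gau := fun q _ => by
    rw [mom_one, ← (hM q.1 q.2).2.2.1]
    unfold div3
    exact Finset.sum_congr rfl fun i _ => px_cf hE i i q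
  gauB := fun q _ => by
    rw [← (hM q.1 q.2).2.2.2]
    unfold div3
    exact Finset.sum_congr rfl fun i _ => px_cf hB i i q

theorem mom_neg (m : R3 → ℝ) (g : PS → ℝ) (t : ℝ) (x : R3) :
    mom (fun v => - m v) g t x = - mom m g t x := by
  unfold mom
  rw [← integral_neg]
  simp

/-- the components of `E` are in the class -/
theorem sw_E {g : Fin 3 → ℝ → R3 → R3 → ℝ} (hh : Std.PC h) (hg : ∀ i, Std.PC (g i))
    (hE : Std.SF E) (hB : Std.SF B)
    (hs : ∀ (t : ℝ) (x v : R3), R < ‖v‖ → h t x v = 0 ∧ ∀ i, g i t x v = 0)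
    (hT : ∀ (t : ℝ) (x v : R3), Std.Tfree h t x v = - ∑ i : Fin 3, pderiv (fun w => g i t x w) i v)
    (hM : ∀ (t : ℝ) (x : R3), Std.MaxwellAt (chargeDensity h) (currentDensity h) E B t x)
    (i : Fin 3) :
    SW R (fun v => - (1 : ℝ)) (fun v => - relVel v i) 0 1 (eb i) 0 (uh h)
      (fun j p => - g j p.1 p.2.1 p.2.2) (cf E i) (h 0) (fun x => E 0 x i)
      (fun x => curl3 (B 0) x i - currentDensity h 0 x i) where
  smH := hh.1
  smG := fun j => (hg j).1.neg
  smu := cf_smooth hE.1 i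
  suppH := fun s y v hv => (hs s y v hv).1
  suppG := fun s y v hv j => by simp [(hs s y v hv).2 j]
  cpt := by
    obtain ⟨X, hX⟩ := hh.2 1
    exact ⟨X, fun s hs y v hy => hX s hs y v (Or.inl hy)⟩
  tr := fun p => by
    obtain ⟨s, y, v⟩ := p
    have h1 : Tr (uh h) (s, y, v) = Std.Tfree h s y v := Std.FbRev.Tr_unc hh.1 s y v
    rw [h1, hT s y v, ← Std.FbRev.divv_unc (fun i => (hg i).1)]
  wave := fun q => by
    have hs' : ∀ (t : ℝ) (x v : R3), R < ‖v‖ → h t x v = 0 := fun t x v hv => (hs t x v hv).1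
    have hC := maxC hh.1 hs' hE.1 hB.1 hM
    rw [hC.boxE i (⟨mem_univ _, mem_univ _⟩ : q ∈ univ ×ˢ (univ : Set R3))]
    show - fderiv ℝ _ q (0, eb i) - fderiv ℝ _ q (1, 0) = _
    rw [fderiv_mom_eq contDiff_const hh.1 hs', fderiv_mom_eq (relVel_smooth i) hh.1 hs',
      mom_neg (fun _ => 1), mom_neg (fun v => relVel v i)]
    ring
  init0 := fun x => rfl
  init1 := fun x => by
    rw [pt_cf hE.1]
    have := (hM 0 x).1 i
    show deriv (fun s => E s x i) 0 = _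
    linarith
  initH := fun y v => rfl

/-- the components of `B` are in the class -/
theorem sw_B {g : Fin 3 → ℝ → R3 → R3 → ℝ} (hh : Std.PC h) (hg : ∀ i, Std.PC (g i))
    (hE : Std.SF E) (hB : Std.SF B)
    (hs : ∀ (t : ℝ) (x v : R3), R < ‖v‖ → h t x v = 0 ∧ ∀ i, g i t x v = 0)
    (hT : ∀ (t : ℝ) (x v : R3), Std.Tfree h t x v = - ∑ i : Fin 3, pderiv (fun w => g i t x w) i v)
    (hM : ∀ (t : ℝ) (x : R3), Std.MaxwellAt (chargeDensity h) (currentDensity h) E B t x)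
    (i : Fin 3) :
    SW R (fun v => relVel v (i + 2)) (fun v => - relVel v (i + 1)) 0 0 (eb (i + 1)) (eb (i + 2))
      (uh h) (fun j p => - g j p.1 p.2.1 p.2.2) (cf B i) (h 0) (fun x => B 0 x i)
      (fun x => - curl3 (E 0) x i) where
  smH := hh.1
  smG := fun j => (hg j).1.neg
  smu := cf_smooth hB.1 i
  suppH := fun s y v hv => (hs s y v hv).1
  suppG := fun s y v hv j => by simp [(hs s y v hv).2 j]
  cpt := by
    obtain ⟨X, hX⟩ := hh.2 1
    exact ⟨X, fun s hs y v hy => hX s hs y v (Or.inl hy)⟩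
  tr := fun p => by
    obtain ⟨s, y, v⟩ := p
    have h1 : Tr (uh h) (s, y, v) = Std.Tfree h s y v := Std.FbRev.Tr_unc hh.1 s y v
    rw [h1, hT s y v, ← Std.FbRev.divv_unc (fun i => (hg i).1)]
  wave := fun q => by
    have hs' : ∀ (t : ℝ) (x v : R3), R < ‖v‖ → h t x v = 0 := fun t x v hv => (hs t x v hv).1
    have hC := maxC hh.1 hs' hE.1 hB.1 hM
    rw [hC.boxB i (⟨mem_univ _, mem_univ _⟩ : q ∈ univ ×ˢ (univ : Set R3))]
    unfold Field.curlc
    show fderiv ℝ _ q (0, eb (i + 1)) - fderiv ℝ _ q (0, eb (i + 2)) = _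
    rw [fderiv_mom_eq (relVel_smooth _) hh.1 hs', fderiv_mom_eq (relVel_smooth _) hh.1 hs',
      mom_neg (fun v => relVel v (i + 1))]
    ring
  init0 := fun x => rfl
  init1 := fun x => by
    rw [pt_cf hB.1]
    have := (hM 0 x).2.1 i
    show deriv (fun s => B s x i) 0 = _
    linarith
  initH := fun y v => rfl

end maxwell

/-! ### data -/

section data

theorem bd_of_compact {F : R3 → ℝ} (hF : ContDiff ℝ ∞ F) (hc : HasCompactSupport F) : Bd F := by
  refine ⟨hF, fun k => ?_⟩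
  obtain ⟨C, hC⟩ := (hc.iteratedFDeriv (𝕜 := ℝ) k).exists_bound_of_continuous
    (hF.continuous_iteratedFDeriv inf_le)
  exact ⟨C, hC⟩

theorem slice_data {f₀ : R3 → R3 → ℝ} (hF : ContDiff ℝ ∞ (Function.uncurry f₀))
    (hc : HasCompactSupport (Function.uncurry f₀)) (k : ℕ) :
    ∃ C : ℝ, ∀ y v : R3, ‖iteratedFDeriv ℝ k (fun z => f₀ z v) y‖ ≤ C := by
  obtain ⟨C, hC⟩ := (hc.iteratedFDeriv (𝕜 := ℝ) k).exists_bound_of_continuous
    (hF.continuous_iteratedFDeriv inf_le)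
  refine ⟨C, fun y v => ?_⟩
  set F : R3 × R3 → ℝ := Function.uncurry f₀ with hFd
  set F' : R3 × R3 → ℝ := fun p => F (p + (0, v)) with hF'
  have hF's : ContDiff ℝ ∞ F' := hF.comp (contDiff_id.add contDiff_const)
  have h1 : (fun z => f₀ z v) = F' ∘ (ContinuousLinearMap.inl ℝ R3 R3) := by
    funext z; simp [hF', hFd]
  have h2 := (ContinuousLinearMap.inl ℝ R3 R3).iteratedFDeriv_comp_right (f := F') hF's y
    (i := k) inf_le
  have h3 : iteratedFDeriv ℝ k F' (y, 0) = iteratedFDeriv ℝ k F (y, v) := by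
    have := iteratedFDeriv_comp_add_right (𝕜 := ℝ) (f := F) k ((0 : R3), v) (y, 0)
    rw [hF']
    simpa using this
  rw [h1, h2]
  have h4 : (ContinuousLinearMap.inl ℝ R3 R3) y = (y, 0) := rfl
  rw [h4, h3]
  refine (ContinuousMultilinearMap.norm_compContinuousLinearMap_le _ _).trans ?_
  have h5 : ∏ _i : Fin k, ‖(ContinuousLinearMap.inl ℝ R3 R3)‖ ≤ 1 := by
    refine Finset.prod_le_one (fun _ _ => norm_nonneg _) (fun _ _ => ?_)
    exact ContinuousLinearMap.opNorm_le_bound _ zero_le_one (fun y => by simp [Prod.norm_def])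
  calc _ ≤ ‖iteratedFDeriv ℝ k F (y, v)‖ * 1 :=
        mul_le_mul_of_nonneg_left h5 (norm_nonneg _)
    _ ≤ C := by rw [mul_one]; exact hC (y, v)

theorem bd_current {f₀ : R3 → R3 → ℝ} (hF : ContDiff ℝ ∞ (Function.uncurry f₀))
    (hc : HasCompactSupport (Function.uncurry f₀)) (i : Fin 3) :
    Bd (fun x => (currentDensity (fun _ => f₀) 0 x) i) := by
  have hsupp : ∃ X : ℝ, ∀ x v : R3, (X < ‖x‖ ∨ X < ‖v‖) → f₀ x v = 0 := by
    obtain ⟨X, hX⟩ := hc.isCompact.isBounded.exists_norm_le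
    refine ⟨X, fun x v hxv => ?_⟩
    by_contra hne
    have hmem : (x, v) ∈ tsupport (Function.uncurry f₀) := subset_tsupport _ hne
    have := hX _ hmem
    rw [Prod.norm_def] at this
    rcases hxv with h | h
    · exact absurd ((le_max_left _ _).trans this) (not_le.2 h)
    · exact absurd ((le_max_right _ _).trans this) (not_le.2 h)
  obtain ⟨X, hX⟩ := hsupp
  have hsm : ContDiff ℝ ∞ (fun p : ℝ × R3 × R3 => (fun _ : ℝ => f₀) p.1 p.2.1 p.2.2) :=
    hF.comp (contDiff_snd)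
  have hJ := Src.contDiff_currentDensity (n := ⊤) hsm
    (Src.VSupp.of_bound (P := X) (fun t x v hv => hX x v (Or.inr hv)) univ)
  have hsp : ContDiff ℝ ∞ (fun x : R3 => currentDensity (fun _ => f₀) 0 x) := by
    have : ContDiff ℝ ∞ (fun x : R3 => ((0, x) : ℝ × R3)) := by fun_prop
    exact ContDiff.comp (g := fun q : ℝ × R3 => currentDensity (fun _ => f₀) q.1 q.2) hJ this
  refine bd_of_compact ((contDiff_euclidean.1 hsp) i) ?_
  refine HasCompactSupport.of_support_subset_isCompact (isCompact_closedBall (0 : R3) X) ?_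
  intro x hx
  rw [mem_closedBall_zero_iff]
  by_contra hcon
  refine hx ?_
  show (currentDensity (fun _ => f₀) 0 x) i = 0
  rw [Src.currentDensity_eq_zero (fun v => hX x v (Or.inl (not_le.1 hcon)))]
  rfl

end data

/-! ### FB and FBz -/

theorem sum_bound {K c I : ℝ} (hK : 0 ≤ K) (hI : 0 ≤ I) : K * (c + I) ≤ (K * (|c| + 1)) * (1 + I) := by
  have h1 : c ≤ |c| := le_abs_self c
  have h2 := abs_nonneg c
  have h3 : c + I ≤ (|c| + 1) * (1 + I) := by nlinarith [mul_nonneg h2 hI]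
  calc K * (c + I) ≤ K * ((|c| + 1) * (1 + I)) := mul_le_mul_of_nonneg_left h3 hK
    _ = _ := by ring

theorem norm_iter_neg_fun {k : ℕ} (g : R3 → ℝ) (y : R3) :
    ‖iteratedFDeriv ℝ k (fun z => - g z) y‖ = ‖iteratedFDeriv ℝ k g y‖ :=
  Std.FbRev.norm_iteratedFDeriv_neg_fun g y

theorem fbpos (hS : SupEst) : Std.FBpos := by
  intro f₀ E₀ B₀ had k R T
  obtain ⟨-, hf, hfc, hE₀, hB₀, hbd, -, -, -, -⟩ := had
  have hbE : ∀ n : ℕ, ∃ C : ℝ, ∀ x, ‖iteratedFDeriv ℝ n E₀ x‖ ≤ C := fun n =>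
    (hbd n).imp fun C hC x => (hC x).1
  have hbB : ∀ n : ℕ, ∃ C : ℝ, ∀ x, ‖iteratedFDeriv ℝ n B₀ x‖ ≤ C := fun n =>
    (hbd n).imp fun C hC x => (hC x).2
  obtain ⟨Cf, hCf⟩ := slice_data hf hfc k
  -- constants for the components of `E`
  have hE : ∀ i : Fin 3, ∃ c : ℝ, (∀ x, ‖iteratedFDeriv ℝ k (fun x => E₀ x i) x‖ ≤ c) ∧
      (∀ x, ‖iteratedFDeriv ℝ (k + 1) (fun x => E₀ x i) x‖ ≤ c) ∧
      (∀ x, ‖iteratedFDeriv ℝ k
        (fun x => curl3 B₀ x i - (currentDensity (fun _ => f₀) 0 x) i) x‖ ≤ c) ∧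
      (∀ y v, ‖iteratedFDeriv ℝ k (fun z => f₀ z v) y‖ ≤ c) := by
    intro i
    obtain ⟨c1, h1⟩ := (Kir.bd_coord hE₀ hbE i).2 k
    obtain ⟨c2, h2⟩ := (Kir.bd_coord hE₀ hbE i).2 (k + 1)
    obtain ⟨c3, h3⟩ := ((Kir.bd_curl hB₀ hbB i).sub (bd_current hf hfc i)).2 k
    refine ⟨max (max c1 c2) (max c3 Cf), fun x => ?_, fun x => ?_, fun x => ?_, fun y v => ?_⟩
    · exact (h1 x).trans ((le_max_left _ _).trans (le_max_left _ _))
    · exact (h2 x).trans ((le_max_right _ _).trans (le_max_left _ _))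
    · exact (h3 x).trans ((le_max_left _ _).trans (le_max_right _ _))
    · exact (hCf y v).trans ((le_max_right _ _).trans (le_max_right _ _))
  have hB : ∀ i : Fin 3, ∃ c : ℝ, (∀ x, ‖iteratedFDeriv ℝ k (fun x => B₀ x i) x‖ ≤ c) ∧
      (∀ x, ‖iteratedFDeriv ℝ (k + 1) (fun x => B₀ x i) x‖ ≤ c) ∧
      (∀ x, ‖iteratedFDeriv ℝ k (fun x => - curl3 E₀ x i) x‖ ≤ c) ∧
      (∀ y v, ‖iteratedFDeriv ℝ k (fun z => f₀ z v) y‖ ≤ c) := by
    intro i
    obtain ⟨c1, h1⟩ := (Kir.bd_coord hB₀ hbB i).2 k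
    obtain ⟨c2, h2⟩ := (Kir.bd_coord hB₀ hbB i).2 (k + 1)
    obtain ⟨c3, h3⟩ := ((Kir.bd_curl hE₀ hbE i).neg).2 k
    refine ⟨max (max c1 c2) (max c3 Cf), fun x => ?_, fun x => ?_, fun x => ?_, fun y v => ?_⟩
    · exact (h1 x).trans ((le_max_left _ _).trans (le_max_left _ _))
    · exact (h2 x).trans ((le_max_right _ _).trans (le_max_left _ _))
    · exact (h3 x).trans ((le_max_left _ _).trans (le_max_right _ _))
    · exact (hCf y v).trans ((le_max_right _ _).trans (le_max_right _ _))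
  choose cE hcE using hE
  choose cB hcB using hB
  choose KE hKE HE using fun i : Fin 3 => boundk hS R (m1 := fun _ => - (1 : ℝ))
    (m2 := fun v => - relVel v i) contDiff_const (relVel_smooth i).neg 0 1 (eb i) 0 T k
  choose KB hKB HB using fun i : Fin 3 => boundk hS R (m1 := fun v => relVel v (i + 2))
    (m2 := fun v => - relVel v (i + 1)) (relVel_smooth (i + 2)) (relVel_smooth (i + 1)).neg 0 0
    (eb (i + 1)) (eb (i + 2)) T k
  have hC1 : 0 ≤ ∑ i : Fin 3, KE i * (|cE i| + 1) :=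
    Finset.sum_nonneg fun i _ => mul_nonneg (hKE i) (by positivity)
  have hC2 : 0 ≤ ∑ i : Fin 3, KB i * (|cB i| + 1) :=
    Finset.sum_nonneg fun i _ => mul_nonneg (hKB i) (by positivity)
  refine ⟨(∑ i : Fin 3, KE i * (|cE i| + 1)) + ∑ i : Fin 3, KB i * (|cB i| + 1), by positivity, ?_⟩
  intro h g E B φ hh hg hE hB hs hT hM h0 hE0 hB0 hφ hb t ht0 htT
  have hab : ∀ s ∈ Icc 0 t, |s| ≤ T := fun s hs' => by
    rw [abs_of_nonneg hs'.1]; exact hs'.2.trans htT
  have hN : ∀ s ∈ Icc 0 t, ∀ y v, ‖iteratedFDeriv ℝ k (fun z => uh h (s, z, v)) y‖ ≤ φ s :=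
    fun s hs' y v => (hb s (hab s hs') y v).1
  have hNG : ∀ s ∈ Icc 0 t, ∀ i, ∀ y v,
      ‖iteratedFDeriv ℝ k (fun z => (fun (j : Fin 3) (p : PS) => - g j p.1 p.2.1 p.2.2) i (s, z, v)) y‖
        ≤ φ s := fun s hs' i y v => by
    rw [norm_iter_neg_fun (fun z => g i s z v) y]
    exact (hb s (hab s hs') y v).2 i
  have hnn : ∀ s ∈ Icc 0 t, 0 ≤ φ s := fun s hs' => (norm_nonneg _).trans (hN s hs' 0 0)
  have hI : 0 ≤ ∫ s in (0:ℝ)..t, φ s := intervalIntegral.integral_nonneg ht0 hnn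
  rw [abs_of_nonneg hI]
  subst h0 hE0 hB0
  intro x
  refine ⟨?_, ?_⟩
  · have hEt : ContDiff ℝ ∞ (E t) :=
      hE.1.comp (by fun_prop : ContDiff ℝ ∞ fun y : R3 => ((t, y) : ℝ × R3))
    refine (Kir.iter_le_sum hEt k x).trans ?_
    have key : ∀ i : Fin 3, ‖iteratedFDeriv ℝ k (fun y => E t y i) x‖
        ≤ (KE i * (|cE i| + 1)) * (1 + ∫ s in (0:ℝ)..t, φ s) := by
      intro i
      refine le_trans ?_ (sum_bound (c := cE i) (hKE i) hI)
      exact HE i _ _ _ _ _ _ (sw_E hh hg hE hB hs hT hM i) (cE i) (hcE i).1 (hcE i).2.1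
        (hcE i).2.2.1 (hcE i).2.2.2 t ⟨ht0, htT⟩ φ (hφ.intervalIntegrable _ _) hN hNG x
    refine (Finset.sum_le_sum fun i _ => key i).trans ?_
    rw [← Finset.sum_mul]
    exact mul_le_mul_of_nonneg_right (by linarith) (by positivity)
  · have hBt : ContDiff ℝ ∞ (B t) :=
      hB.1.comp (by fun_prop : ContDiff ℝ ∞ fun y : R3 => ((t, y) : ℝ × R3))
    refine (Kir.iter_le_sum hBt k x).trans ?_
    have key : ∀ i : Fin 3, ‖iteratedFDeriv ℝ k (fun y => B t y i) x‖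
        ≤ (KB i * (|cB i| + 1)) * (1 + ∫ s in (0:ℝ)..t, φ s) := by
      intro i
      refine le_trans ?_ (sum_bound (c := cB i) (hKB i) hI)
      exact HB i _ _ _ _ _ _ (sw_B hh hg hE hB hs hT hM i) (cB i) (hcB i).1 (hcB i).2.1
        (hcB i).2.2.1 (hcB i).2.2.2 t ⟨ht0, htT⟩ φ (hφ.intervalIntegrable _ _) hN hNG x
    refine (Finset.sum_le_sum fun i _ => key i).trans ?_
    rw [← Finset.sum_mul]
    exact mul_le_mul_of_nonneg_right (by linarith) (by positivity)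

theorem norm_iter_zero {k : ℕ} {g : R3 → ℝ} (hg : ∀ z, g z = 0) (y : R3) :
    ‖iteratedFDeriv ℝ k g y‖ ≤ 0 := by
  have : g = fun _ => (0 : ℝ) := funext hg
  rw [this, iteratedFDeriv_fun_zero]
  simp

theorem fbzpos (hS : SupEst) : Std.FBzpos := by
  intro k R T
  choose KE hKE HE using fun i : Fin 3 => boundk hS R (m1 := fun _ => - (1 : ℝ))
    (m2 := fun v => - relVel v i) contDiff_const (relVel_smooth i).neg 0 1 (eb i) 0 T k
  choose KB hKB HB using fun i : Fin 3 => boundk hS R (m1 := fun v => relVel v (i + 2))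
    (m2 := fun v => - relVel v (i + 1)) (relVel_smooth (i + 2)) (relVel_smooth (i + 1)).neg 0 0
    (eb (i + 1)) (eb (i + 2)) T k
  have hC1 : 0 ≤ ∑ i : Fin 3, KE i := Finset.sum_nonneg fun i _ => hKE i
  have hC2 : 0 ≤ ∑ i : Fin 3, KB i := Finset.sum_nonneg fun i _ => hKB i
  refine ⟨(∑ i : Fin 3, KE i) + ∑ i : Fin 3, KB i, by positivity, ?_⟩
  intro h g E B φ hh hg hE hB hs hT hM h0 hE0 hB0 hφ hb t ht0 htT
  have hab : ∀ s ∈ Icc 0 t, |s| ≤ T := fun s hs' => by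
    rw [abs_of_nonneg hs'.1]; exact hs'.2.trans htT
  have hN : ∀ s ∈ Icc 0 t, ∀ y v, ‖iteratedFDeriv ℝ k (fun z => uh h (s, z, v)) y‖ ≤ φ s :=
    fun s hs' y v => (hb s (hab s hs') y v).1
  have hNG : ∀ s ∈ Icc 0 t, ∀ i, ∀ y v,
      ‖iteratedFDeriv ℝ k (fun z => (fun (j : Fin 3) (p : PS) => - g j p.1 p.2.1 p.2.2) i (s, z, v)) y‖
        ≤ φ s := fun s hs' i y v => by
    rw [norm_iter_neg_fun (fun z => g i s z v) y]
    exact (hb s (hab s hs') y v).2 i
  have hnn : ∀ s ∈ Icc 0 t, 0 ≤ φ s := fun s hs' => (norm_nonneg _).trans (hN s hs' 0 0)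
  have hI : 0 ≤ ∫ s in (0:ℝ)..t, φ s := intervalIntegral.integral_nonneg ht0 hnn
  rw [abs_of_nonneg hI]
  have hEz : ∀ (i : Fin 3) (x : R3), (fun x => E 0 x i) x = 0 := fun i x => by
    show E 0 x i = 0
    rw [hE0]; rfl
  have hBz : ∀ (i : Fin 3) (x : R3), (fun x => B 0 x i) x = 0 := fun i x => by
    show B 0 x i = 0
    rw [hB0]; rfl
  have hpz : ∀ (F : R3 → ℝ) (i : Fin 3) (x : R3), (∀ z, F z = 0) → pderiv F i x = 0 := by
    intro F i x hF
    have : F = fun _ => (0 : ℝ) := funext hF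
    rw [this]
    simp [pderiv]
  have hcurlB : ∀ (i : Fin 3) (x : R3), curl3 (B 0) x i = 0 := by
    intro i x
    unfold curl3
    rw [hpz _ _ _ (hBz 2), hpz _ _ _ (hBz 1), hpz _ _ _ (hBz 0), hpz _ _ _ (hBz 2),
      hpz _ _ _ (hBz 1), hpz _ _ _ (hBz 0)]
    fin_cases i <;> simp
  have hcurlE : ∀ (i : Fin 3) (x : R3), curl3 (E 0) x i = 0 := by
    intro i x
    unfold curl3
    rw [hpz _ _ _ (hEz 2), hpz _ _ _ (hEz 1), hpz _ _ _ (hEz 0), hpz _ _ _ (hEz 2),
      hpz _ _ _ (hEz 1), hpz _ _ _ (hEz 0)]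
    fin_cases i <;> simp
  have hcur : ∀ (i : Fin 3) (x : R3), currentDensity h 0 x i = 0 := by
    intro i x
    rw [Src.currentDensity_eq_zero (fun v => h0 x v)]
    rfl
  intro x
  refine ⟨?_, ?_⟩
  · have hEt : ContDiff ℝ ∞ (E t) :=
      hE.1.comp (by fun_prop : ContDiff ℝ ∞ fun y : R3 => ((t, y) : ℝ × R3))
    refine (Kir.iter_le_sum hEt k x).trans ?_
    have key : ∀ i : Fin 3, ‖iteratedFDeriv ℝ k (fun y => E t y i) x‖
        ≤ KE i * ∫ s in (0:ℝ)..t, φ s := by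
      intro i
      have := HE i _ _ _ _ _ _ (sw_E hh hg hE hB hs hT hM i) 0
        (fun x => norm_iter_zero (hEz i) x) (fun x => norm_iter_zero (hEz i) x)
        (fun x => norm_iter_zero (fun z => by rw [hcurlB, hcur, sub_zero]) x)
        (fun y v => norm_iter_zero (fun z => h0 z v) y) t ⟨ht0, htT⟩ φ
        (hφ.intervalIntegrable _ _) hN hNG x
      rwa [zero_add] at this
    refine (Finset.sum_le_sum fun i _ => key i).trans ?_
    rw [← Finset.sum_mul]
    exact mul_le_mul_of_nonneg_right (by linarith) hI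
  · have hBt : ContDiff ℝ ∞ (B t) :=
      hB.1.comp (by fun_prop : ContDiff ℝ ∞ fun y : R3 => ((t, y) : ℝ × R3))
    refine (Kir.iter_le_sum hBt k x).trans ?_
    have key : ∀ i : Fin 3, ‖iteratedFDeriv ℝ k (fun y => B t y i) x‖
        ≤ KB i * ∫ s in (0:ℝ)..t, φ s := by
      intro i
      have := HB i _ _ _ _ _ _ (sw_B hh hg hE hB hs hT hM i) 0
        (fun x => norm_iter_zero (hBz i) x) (fun x => norm_iter_zero (hBz i) x)
        (fun x => norm_iter_zero (fun z => by rw [hcurlE, neg_zero]) x)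
        (fun y v => norm_iter_zero (fun z => h0 z v) y) t ⟨ht0, htT⟩ φ
        (hφ.intervalIntegrable _ _) hN hNG x
      rwa [zero_add] at this
    refine (Finset.sum_le_sum fun i _ => key i).trans ?_
    rw [← Finset.sum_mul]
    exact mul_le_mul_of_nonneg_right (by linarith) hI

/-- **FB** -/
theorem fb (hS : SupEst) : Std.FB := Std.fb_of_pos (fbpos hS)

/-- **FBz** -/
theorem fbz (hS : SupEst) : Std.FBz := Std.fbz_of_pos (fbzpos hS)

end Crest.Agent.R106.FBDir
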