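import Crest.Agent.R106.FieldWave
import Crest.Agent.R106.FieldIfaceU
import Crest.Agent.R106.Src2
import Crest.Agent.R106.KirSm_Mg

-- ▼ part R106/FieldLin
section

/-!
# Row 106 (helper835): from `LinSol` to wave equations for the components and their derivatives.
-/

set_option autoImplicit false
open MeasureTheory Set Filter Topology
open scoped ContDiff InnerProductSpace
open Crest.AnalysisR.VecCalc3 Crest.AnalysisR.PDE.RVM

noncomputable section

namespace Crest.Agent.R106.Field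

open Crest.Agent.R106.GSR (pt px box cmp unc)
open Crest.Agent.R106.Gs2 (PS Tr divv dxt mom Wv ev)

/-! ### components -/

section comp

variable {U : ℝ → R3 → R3} {J : Set ℝ}

theorem sm_cmp (hU : ContDiffOn ℝ ∞ (fun p : ℝ × R3 => U p.1 p.2) (J ×ˢ univ)) (i : Fin 3) :
    ContDiffOn ℝ ∞ (cmp U i) (J ×ˢ univ) :=
  (EuclideanSpace.proj i : R3 →L[ℝ] ℝ).contDiff.comp_contDiffOn hU

theorem deriv_eq_pt {u : ℝ × R3 → ℝ} {s : ℝ} {x : R3} (hu : DifferentiableAt ℝ u (s, x)) :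
    deriv (fun r => u (r, x)) s = pt u (s, x) := by
  have hc : HasDerivAt (fun r : ℝ => ((r, x) : ℝ × R3)) (1, 0) s :=
    (hasDerivAt_id s).prodMk (hasDerivAt_const s x)
  have := hu.hasFDerivAt.comp_hasDerivAt s hc
  exact this.deriv

theorem fderiv_slice {u : ℝ × R3 → ℝ} {s : ℝ} {x : R3} (hu : DifferentiableAt ℝ u (s, x)) (b : R3) :
    fderiv ℝ (fun y => u (s, y)) x b = fderiv ℝ u (s, x) (0, b) := by
  have hc : HasFDerivAt (fun y : R3 => ((s, y) : ℝ × R3)) (ContinuousLinearMap.inr ℝ ℝ R3) x :=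
    (hasFDerivAt_const s x).prodMk (hasFDerivAt_id x)
  have := hu.hasFDerivAt.comp x hc
  rw [show (fun y => u (s, y)) = u ∘ (fun y : R3 => ((s, y) : ℝ × R3)) from rfl, this.fderiv]
  simp

theorem pderiv_eq_px {u : ℝ × R3 → ℝ} {s : ℝ} {x : R3} (hu : DifferentiableAt ℝ u (s, x))
    (k : Fin 3) : pderiv (fun y => u (s, y)) k x = px k u (s, x) :=
  fderiv_slice hu _

theorem curl3_apply (F : R3 → R3) (x : R3) (i : Fin 3) :
    curl3 F x i = pderiv (fun y => F y (i + 2)) (i + 1) x - pderiv (fun y => F y (i + 1)) (i + 2) x := by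
  fin_cases i <;> simp [curl3]

theorem curl3_eq (hJ : IsOpen J)
    (hU : ContDiffOn ℝ ∞ (fun p : ℝ × R3 => U p.1 p.2) (J ×ˢ univ)) {q : ℝ × R3}
    (hq : q ∈ J ×ˢ (univ : Set R3)) (i : Fin 3) : curl3 (U q.1) q.2 i = curlc (cmp U) i q := by
  have hd : ∀ k, DifferentiableAt ℝ (cmp U k) (q.1, q.2) := fun k =>
    diffAt (hJ.prod isOpen_univ) (sm_cmp hU k) hq
  rw [curl3_apply]
  unfold curlc
  rw [← pderiv_eq_px (hd (i + 2)) (i + 1), ← pderiv_eq_px (hd (i + 1)) (i + 2)]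
  rfl

end comp

/-! ### phase space functions and moments -/

/-- smooth phase space function with momentum support in the ball of radius `P` -/
structure SmV (P : ℝ) (J : Set ℝ) (g : PS → ℝ) : Prop where
  isOpen : IsOpen J
  sm : ContDiffOn ℝ ∞ g (J ×ˢ univ)
  supp : ∀ s ∈ J, ∀ y v : R3, P < ‖v‖ → g (s, y, v) = 0

/-- moment as a function on space-time -/
def momq (m : R3 → ℝ) (g : PS → ℝ) (q : ℝ × R3) : ℝ := mom m g q.1 q.2

section moments

variable {P : ℝ} {J : Set ℝ} {g : PS → ℝ} {m : R3 → ℝ}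

theorem SmV.vsupp (h : SmV P J g) : Src.VSupp (fun t x v => g (t, x, v)) J :=
  fun t ht => ⟨J, h.isOpen.mem_nhds ht, P, fun t' ht' x v hv => h.supp t' ht' x v hv⟩

theorem SmV.dir (h : SmV P J g) (a : PS) : SmV P J (dd a g) := by
  refine ⟨h.isOpen, contDiffOn_dd (h.isOpen.prod isOpen_univ) h.sm a, ?_⟩
  intro s hs y v hv
  have hU : {p : PS | p.1 ∈ J ∧ P < ‖p.2.2‖} ∈ 𝓝 ((s, y, v) : PS) := by
    refine IsOpen.mem_nhds ?_ ⟨hs, hv⟩
    exact (h.isOpen.preimage continuous_fst).inter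
      (isOpen_lt continuous_const (continuous_norm.comp (continuous_snd.comp continuous_snd)))
  have h0 : g =ᶠ[𝓝 ((s, y, v) : PS)] fun _ => (0 : ℝ) := by
    filter_upwards [hU] with p hp
    exact h.supp p.1 hp.1 p.2.1 p.2.2 hp.2
  show fderiv ℝ g _ a = 0
  rw [h0.fderiv_eq]
  simp

theorem SmV.dx (h : SmV P J g) (a : ℝ) (b : R3) : SmV P J (Gs2.dxt a b g) := h.dir (a, b, 0)

theorem SmV.sm_mom (h : SmV P J g) (hm : ContDiff ℝ ∞ m) :
    ContDiffOn ℝ ∞ (momq m g) (J ×ˢ univ) :=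
  Src.contDiffOn_mom hm h.isOpen h.sm h.vsupp

theorem SmV.dd_mom (h : SmV P J g) (hm : ContDiff ℝ ∞ m) (a : ℝ) (b : R3) {q : ℝ × R3}
    (hq : q ∈ J ×ˢ (univ : Set R3)) : dd (a, b) (momq m g) q = momq m (dxt a b g) q :=
  Src.fderiv_mom (hm.of_le (by simp)) h.isOpen (h.sm.of_le (by simp)) h.vsupp hq.1 q.2 a b

end moments

/-- weight of the current density -/
def wj (i : Fin 3) (v : R3) : ℝ := relVel v i

theorem contDiff_wj (i : Fin 3) : ContDiff ℝ ∞ (wj i) :=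
  (EuclideanSpace.proj i : R3 →L[ℝ] ℝ).contDiff.comp Src.contDiff_relVel

/-- weight of the charge density -/
def w1 (_ : R3) : ℝ := 1

theorem contDiff_w1 : ContDiff ℝ ∞ w1 := contDiff_const

/-! ### commutation of `box` -/

section box

variable {J : Set ℝ} {u w : ℝ × R3 → ℝ}

theorem box_dd (hJ : IsOpen J) (hu : ContDiffOn ℝ ∞ u (J ×ˢ univ)) (a : ℝ × R3) {q : ℝ × R3}
    (hq : q ∈ J ×ˢ (univ : Set R3)) : box (dd a u) q = dd a (box u) q := by
  have hΩ := hJ.prod (isOpen_univ (X := R3))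
  have key : ∀ b : ℝ × R3, dd b (dd b (dd a u)) q = dd a (dd b (dd b u)) q := by
    intro b
    have e1 : dd b (dd b (dd a u)) q = dd b (dd a (dd b u)) q :=
      dd_congr hΩ (fun p hp => dd_comm hΩ hu b a hp) b hq
    rw [e1, dd_comm hΩ (contDiffOn_dd hΩ hu b) b a hq]
  have hs : ∀ b : ℝ × R3, ContDiffOn ℝ ∞ (dd b (dd b u)) (J ×ˢ univ) := fun b =>
    contDiffOn_dd hΩ (contDiffOn_dd hΩ hu b) b
  have h2 : dd a (box u) q = dd a (pt (pt u)) q - ∑ j, dd a (px j (px j u)) q := by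
    have : dd a (box u) q = dd a (fun p => pt (pt u) p - ∑ j, px j (px j u) p) q := rfl
    have d1 : DifferentiableAt ℝ (pt (pt u)) q := diffAt hΩ (hs (1, 0)) hq
    have d2 : ∀ j, DifferentiableAt ℝ (px j (px j u)) q := fun j =>
      diffAt hΩ (hs (0, EuclideanSpace.single j 1)) hq
    have d3 : DifferentiableAt ℝ (fun p => ∑ j, px j (px j u) p) q :=
      DifferentiableAt.fun_sum fun j _ => d2 j
    rw [this, dd_sub d1 d3, dd_sum _ (fun j _ => d2 j)]
  rw [h2]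
  unfold box
  congr 1
  · exact key (1, 0)
  · exact Finset.sum_congr rfl fun j _ => key (0, EuclideanSpace.single j 1)

end box

namespace LinSol

variable {P T : ℝ} {f₀ : R3 → R3 → ℝ} {E₀ B₀ : R3 → R3} {J : Set ℝ}
  {f : ℝ → R3 → R3 → ℝ} {G : Fin 3 → PS → ℝ} {E B : ℝ → R3 → R3}

theorem smV (h : LinSol P T f₀ E₀ B₀ J f G E B) : SmV P J (unc f) := ⟨h.isOpen, h.smf, h.suppf⟩


theorem charge_eq (f : ℝ → R3 → R3 → ℝ) (t : ℝ) (x : R3) :
    chargeDensity f t x = momq w1 (unc f) (t, x) := by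
  simp [chargeDensity, momq, mom, w1, unc]

theorem continuous_slice (h : SmV P J (unc f)) {t : ℝ} (ht : t ∈ J) (x : R3) :
    Continuous (fun v => f t x v) := by
  have h1 := h.sm.continuousOn
  have : ContinuousOn (fun v : R3 => unc f (t, x, v)) univ :=
    h1.comp (by fun_prop) (fun v _ => ⟨ht, trivial⟩)
  exact continuousOn_univ.1 this

theorem hasCompactSupport_slice (h : SmV P J (unc f)) {t : ℝ} (ht : t ∈ J) (x : R3) :
    HasCompactSupport (fun v => f t x v) := by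
  refine HasCompactSupport.intro (isCompact_closedBall (0 : R3) P) ?_
  intro v hv
  rw [mem_closedBall_zero_iff, not_le] at hv
  exact h.supp t ht x v hv

theorem current_eq (h : SmV P J (unc f)) {t : ℝ} (ht : t ∈ J) (x : R3) (i : Fin 3) :
    currentDensity f t x i = momq (wj i) (unc f) (t, x) := by
  have hint : Integrable (fun v => f t x v • relVel v) :=
    Continuous.integrable_of_hasCompactSupport
      ((continuous_slice h ht x).smul (Src.contDiff_relVel (n := 0)).continuous)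
      ((hasCompactSupport_slice h ht x).smul_right)
  have h1 : (EuclideanSpace.proj i : R3 →L[ℝ] ℝ) (∫ v, f t x v • relVel v) =
      ∫ v, (EuclideanSpace.proj i : R3 →L[ℝ] ℝ) (f t x v • relVel v) :=
    (ContinuousLinearMap.integral_comp_comm _ hint).symm
  show (EuclideanSpace.proj i : R3 →L[ℝ] ℝ) (∫ v, f t x v • relVel v) = _
  rw [h1]
  simp [momq, mom, wj, unc, mul_comm]

theorem maxC (h : LinSol P T f₀ E₀ B₀ J f G E B) :
    MaxC J (cmp E) (cmp B) (momq w1 (unc f)) (fun i => momq (wj i) (unc f)) where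
  isOpen := h.isOpen
  smE := sm_cmp h.smE
  smB := sm_cmp h.smB
  smρ := h.smV.sm_mom contDiff_w1
  smj := fun i => h.smV.sm_mom (contDiff_wj i)
  amp := by
    intro i q hq
    have hΩ := h.isOpen.prod (isOpen_univ (X := R3))
    have h1 := h.ampere q.1 hq.1 q.2 i
    rw [curl3_eq h.isOpen h.smB hq, current_eq h.smV hq.1] at h1
    have h2 : deriv (fun r => E r q.2 i) q.1 = pt (cmp E i) q :=
      deriv_eq_pt (u := cmp E i) (diffAt hΩ (sm_cmp h.smE i) hq)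
    rw [h2] at h1
    linarith
  far := by
    intro i q hq
    have hΩ := h.isOpen.prod (isOpen_univ (X := R3))
    have h1 := h.faraday q.1 hq.1 q.2 i
    rw [curl3_eq h.isOpen h.smE hq] at h1
    have h2 : deriv (fun r => B r q.2 i) q.1 = pt (cmp B i) q :=
      deriv_eq_pt (u := cmp B i) (diffAt hΩ (sm_cmp h.smB i) hq)
    rw [h2] at h1
    linarith
  gau := by
    intro q hq
    have hΩ := h.isOpen.prod (isOpen_univ (X := R3))
    have h1 := h.gauss q.1 hq.1 q.2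
    rw [charge_eq] at h1
    rw [← h1]
    exact Finset.sum_congr rfl fun i _ =>
      (pderiv_eq_px (u := cmp E i) (diffAt hΩ (sm_cmp h.smE i) hq) i).symm
  gauB := by
    intro q hq
    have hΩ := h.isOpen.prod (isOpen_univ (X := R3))
    have h1 := h.gaussB q.1 hq.1 q.2
    rw [← h1]
    exact Finset.sum_congr rfl fun i _ =>
      (pderiv_eq_px (u := cmp B i) (diffAt hΩ (sm_cmp h.smB i) hq) i).symm

end LinSol

/-- the `i`-th basis vector -/
abbrev eb (i : Fin 3) : R3 := EuclideanSpace.single i (1 : ℝ)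

section wave

variable {P : ℝ} {J : Set ℝ} {F : PS → ℝ} {E B : Fin 3 → ℝ × R3 → ℝ}

/-- wave equation for the derivative of `E_i` in the space direction `e` -/
theorem box_ddE (hF : SmV P J F) (h : MaxC J E B (momq w1 F) (fun i => momq (wj i) F)) (e : R3)
    (i : Fin 3) {q : ℝ × R3} (hq : q ∈ J ×ˢ (univ : Set R3)) :
    box (dd (0, e) (E i)) q =
      - momq w1 (dxt 0 (eb i) (dxt 0 e F)) q - momq (wj i) (dxt 1 0 (dxt 0 e F)) q := by
  have hJ := h.isOpen
  have hΩ := hJ.prod (isOpen_univ (X := R3))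
  rw [box_dd hJ (h.smE i) _ hq]
  have h1 : dd (0, e) (box (E i)) q =
      dd (0, e) (fun p => - px i (momq w1 F) p - pt (momq (wj i) F) p) q :=
    dd_congr hΩ (fun p hp => h.boxE i hp) _ hq
  have d1 : DifferentiableAt ℝ (px i (momq w1 F)) q := diffAt hΩ (sm_px hJ h.smρ i) hq
  have d2 : DifferentiableAt ℝ (pt (momq (wj i) F)) q := diffAt hΩ (sm_pt hJ (h.smj i)) hq
  have h2 : dd (0, e) (px i (momq w1 F)) q = momq w1 (dxt 0 (eb i) (dxt 0 e F)) q := by
    have e1 : dd (0, e) (px i (momq w1 F)) q = px i (dd (0, e) (momq w1 F)) q :=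
      dd_comm hΩ h.smρ _ _ hq
    have e2 : px i (dd (0, e) (momq w1 F)) q = px i (momq w1 (dxt 0 e F)) q :=
      dd_congr hΩ (fun p hp => hF.dd_mom contDiff_w1 0 e hp) _ hq
    rw [e1, e2]
    exact (hF.dx 0 e).dd_mom contDiff_w1 0 (eb i) hq
  have h3 : dd (0, e) (pt (momq (wj i) F)) q = momq (wj i) (dxt 1 0 (dxt 0 e F)) q := by
    have e1 : dd (0, e) (pt (momq (wj i) F)) q = pt (dd (0, e) (momq (wj i) F)) q :=
      dd_comm hΩ (h.smj i) _ _ hq
    have e2 : pt (dd (0, e) (momq (wj i) F)) q = pt (momq (wj i) (dxt 0 e F)) q :=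
      dd_congr hΩ (fun p hp => hF.dd_mom (contDiff_wj i) 0 e hp) _ hq
    rw [e1, e2]
    exact (hF.dx 0 e).dd_mom (contDiff_wj i) 1 0 hq
  rw [h1, dd_sub (u := fun p => - px i (momq w1 F) p) d1.neg d2, dd_neg, h2, h3]

/-- wave equation for the derivative of `B_i` in the space direction `e` -/
theorem box_ddB (hF : SmV P J F) (h : MaxC J E B (momq w1 F) (fun i => momq (wj i) F)) (e : R3)
    (i : Fin 3) {q : ℝ × R3} (hq : q ∈ J ×ˢ (univ : Set R3)) :
    box (dd (0, e) (B i)) q =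
      momq (wj (i + 2)) (dxt 0 (eb (i + 1)) (dxt 0 e F)) q
        - momq (wj (i + 1)) (dxt 0 (eb (i + 2)) (dxt 0 e F)) q := by
  have hJ := h.isOpen
  have hΩ := hJ.prod (isOpen_univ (X := R3))
  rw [box_dd hJ (h.smB i) _ hq]
  have h1 : dd (0, e) (box (B i)) q = dd (0, e) (curlc (fun i => momq (wj i) F) i) q :=
    dd_congr hΩ (fun p hp => h.boxB i hp) _ hq
  rw [h1, dd_curlc hJ h.smj i _ hq]
  have h2 : ∀ k l : Fin 3, px l (dd (0, e) (momq (wj k) F)) q =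
      momq (wj k) (dxt 0 (eb l) (dxt 0 e F)) q := by
    intro k l
    have e2 : px l (dd (0, e) (momq (wj k) F)) q = px l (momq (wj k) (dxt 0 e F)) q :=
      dd_congr hΩ (fun p hp => hF.dd_mom (contDiff_wj k) 0 e hp) _ hq
    rw [e2]
    exact (hF.dx 0 e).dd_mom (contDiff_wj k) 0 (eb l) hq
  unfold curlc
  rw [h2, h2]

end wave

end Crest.Agent.R106.Field
end
end

-- ▼ part R106/FieldLog
section

/-!
# Row 106 (helper835): `GSLogU` from `Gs2.GradEst` and Kirchhoff's formula.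
-/

set_option autoImplicit false
open MeasureTheory Set Filter Topology
open scoped ContDiff InnerProductSpace
open Crest.AnalysisR.VecCalc3 Crest.AnalysisR.PDE.RVM

noncomputable section

namespace Crest.Agent.R106.Field

open Crest.Agent.R106.GSR (pt px box cmp unc)
open Crest.Agent.R106.Gs2 (PS Tr divv dxt mom Wv ev)

/-- A continuous function on phase space-time, with bounded support on `[0,T]`, which is bounded by
`c` at time `0`, is bounded by `c + 1` for a short time. -/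
theorem short_time {h : PS → ℝ} (hh : Continuous h) {T R P c : ℝ} (hc : 0 ≤ c)
    (hs : ∀ s ∈ Icc 0 T, ∀ y v : R3, R < ‖y‖ ∨ P < ‖v‖ → h (s, y, v) = 0)
    (h0 : ∀ y v : R3, |h (0, y, v)| ≤ c) :
    ∃ δ : ℝ, 0 < δ ∧ ∀ s ∈ Icc 0 (min T δ), ∀ y v : R3, |h (s, y, v)| ≤ c + 1 := by
  set n : Set (ℝ × (R3 × R3)) := {p | |h p| < c + 1} with hn
  have hno : IsOpen n := isOpen_lt (hh.abs) continuous_const
  have hsub : ({0} : Set ℝ) ×ˢ (Metric.closedBall (0 : R3) R ×ˢ Metric.closedBall (0 : R3) P) ⊆ n := by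
    rintro ⟨s, y, v⟩ ⟨hs0, -⟩
    have : s = 0 := hs0
    subst this
    exact (h0 y v).trans_lt (by linarith)
  obtain ⟨u, w, hu, -, h0u, hKw, huw⟩ := generalized_tube_lemma isCompact_singleton
    ((isCompact_closedBall (0 : R3) R).prod (isCompact_closedBall (0 : R3) P)) hno hsub
  have h0u' : (0 : ℝ) ∈ u := h0u rfl
  obtain ⟨δ, hδ, hδu⟩ := Metric.isOpen_iff.1 hu 0 h0u'
  refine ⟨δ / 2, by positivity, ?_⟩
  intro s hs' y v
  have hs1 : s ∈ Icc 0 T := ⟨hs'.1, hs'.2.trans (min_le_left _ _)⟩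
  have hs2 : s ≤ δ / 2 := hs'.2.trans (min_le_right _ _)
  by_cases hyv : R < ‖y‖ ∨ P < ‖v‖
  · rw [hs s hs1 y v hyv, abs_zero]; linarith
  · push Not at hyv
    have hsu : s ∈ u := hδu (by
      rw [Metric.mem_ball, Real.dist_eq, sub_zero, abs_of_nonneg hs'.1]; linarith)
    have : (s, y, v) ∈ n := huw ⟨hsu, hKw ⟨by simpa using hyv.1, by simpa using hyv.2⟩⟩
    exact le_of_lt this

/-- All hypotheses on the densities in `GSLogU`, with bounds at time `0`. -/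
structure LogHyp (P T A0 A1 : ℝ) (F : PS → ℝ) (G H : Fin 3 → PS → ℝ)
    (K : Fin 3 → Fin 3 → PS → ℝ) (t b0 n0 n1 : ℝ) (NG NH : ℝ → ℝ) : Prop where
  smF : ContDiff ℝ ∞ F
  smG : ∀ i, ContDiff ℝ ∞ (G i)
  cH : ∀ i, Continuous (H i)
  smK : ∀ i j, ContDiff ℝ 1 (K i j)
  supp : ∀ s : ℝ, ∀ y v : R3, P < ‖v‖ → F (s, y, v) = 0 ∧
    ∀ i, G i (s, y, v) = 0 ∧ H i (s, y, v) = 0 ∧ ∀ j, K i j (s, y, v) = 0
  cpt : ∃ R : ℝ, ∀ s ∈ Icc 0 T, ∀ y v : R3, R < ‖y‖ → F (s, y, v) = 0 ∧ ∀ i, G i (s, y, v) = 0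
  tr : ∀ s : ℝ, ∀ y v : R3, Tr F (s, y, v) = divv G (s, y, v)
  trG : ∀ s : ℝ, ∀ i, ∀ y v : R3, Tr (G i) (s, y, v) = H i (s, y, v) + divv (K i) (s, y, v)
  A0 : ∀ y v : R3, |F (0, y, v)| ≤ A0
  A1 : ∀ y v : R3, ‖fderiv ℝ (fun z => F (0, z, v)) y‖ ≤ A1
  mem : t ∈ Icc 0 T
  b0 : ∀ i, ∀ y v : R3, |G i (0, y, v)| ≤ b0
  n0 : ∀ s ∈ Icc 0 t, ∀ y v : R3, |F (s, y, v)| ≤ n0 ∧ ‖fderiv ℝ (fun z => F (s, z, v)) y‖ ≤ n1
  nG : ∀ s ∈ Icc 0 t, ∀ i, ∀ y v : R3, |G i (s, y, v)| ≤ NG s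
  nH : ∀ s ∈ Icc 0 t, ∀ i, ∀ y v : R3, |H i (s, y, v)| ≤ NH s ∧ ∀ j, |K i j (s, y, v)| ≤ NH s
  iG : IntervalIntegrable NG volume 0 t
  iH : IntervalIntegrable NH volume 0 t

/-- the right-hand side -/
def SR (t b0 n0 n1 : ℝ) (NG NH : ℝ → ℝ) : ℝ :=
  1 + b0 + n0 * Real.log (2 + n1) + (∫ s in (0:ℝ)..t, NG s) + ∫ s in (0:ℝ)..t, (t - s) * NH s

namespace LogHyp

variable {P T A0 A1 : ℝ} {F : PS → ℝ} {G H : Fin 3 → PS → ℝ}
    {K : Fin 3 → Fin 3 → PS → ℝ} {t b0 n0 n1 : ℝ} {NG NH : ℝ → ℝ}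

theorem b0_nonneg (h : LogHyp P T A0 A1 F G H K t b0 n0 n1 NG NH) : 0 ≤ b0 :=
  (abs_nonneg _).trans (h.b0 0 0 0)

theorem A0_nonneg (h : LogHyp P T A0 A1 F G H K t b0 n0 n1 NG NH) : 0 ≤ A0 :=
  (abs_nonneg _).trans (h.A0 0 0)

theorem A1_nonneg (h : LogHyp P T A0 A1 F G H K t b0 n0 n1 NG NH) : 0 ≤ A1 :=
  (norm_nonneg _).trans (h.A1 0 0)

theorem n0_nonneg (h : LogHyp P T A0 A1 F G H K t b0 n0 n1 NG NH) : 0 ≤ n0 :=
  (abs_nonneg _).trans (h.n0 0 ⟨le_rfl, h.mem.1⟩ 0 0).1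

theorem n1_nonneg (h : LogHyp P T A0 A1 F G H K t b0 n0 n1 NG NH) : 0 ≤ n1 :=
  (norm_nonneg _).trans (h.n0 0 ⟨le_rfl, h.mem.1⟩ 0 0).2

theorem intG_nonneg (h : LogHyp P T A0 A1 F G H K t b0 n0 n1 NG NH) :
    0 ≤ ∫ s in (0:ℝ)..t, NG s :=
  intervalIntegral.integral_nonneg h.mem.1 fun s hs => (abs_nonneg _).trans (h.nG s hs 0 0 0)

theorem intH_nonneg (h : LogHyp P T A0 A1 F G H K t b0 n0 n1 NG NH) :
    0 ≤ ∫ s in (0:ℝ)..t, (t - s) * NH s :=
  intervalIntegral.integral_nonneg h.mem.1 fun s hs =>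
    mul_nonneg (by linarith [hs.2]) ((abs_nonneg _).trans (h.nH s hs 0 0 0).1)

theorem log_pos' (h : LogHyp P T A0 A1 F G H K t b0 n0 n1 NG NH) :
    Real.log 2 ≤ Real.log (2 + n1) :=
  Real.log_le_log (by norm_num) (by linarith [h.n1_nonneg])

theorem SR_ge_one (h : LogHyp P T A0 A1 F G H K t b0 n0 n1 NG NH) :
    1 ≤ SR t b0 n0 n1 NG NH := by
  have h1 := h.b0_nonneg
  have h2 : 0 ≤ n0 * Real.log (2 + n1) :=
    mul_nonneg h.n0_nonneg ((Real.log_nonneg (by norm_num)).trans h.log_pos')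
  have h3 := h.intG_nonneg
  have h4 := h.intH_nonneg
  unfold SR
  linarith

theorem dxt_slice (h : LogHyp P T A0 A1 F G H K t b0 n0 n1 NG NH) (e : R3) (s : ℝ) (y v : R3) :
    dxt 0 e F (s, y, v) = fderiv ℝ (fun z => F (s, z, v)) y e := by
  have hF : DifferentiableAt ℝ F (s, y, v) := (h.smF.differentiable (by simp)) _
  have hc : HasFDerivAt (fun z : R3 => ((s, z, v) : PS))
      ((0 : R3 →L[ℝ] ℝ).prod ((ContinuousLinearMap.id ℝ R3).prod (0 : R3 →L[ℝ] R3))) y :=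
    (hasFDerivAt_const s y).prodMk ((hasFDerivAt_id y).prodMk (hasFDerivAt_const v y))
  have := hF.hasFDerivAt.comp y hc
  rw [show (fun z => F (s, z, v)) = F ∘ (fun z : R3 => ((s, z, v) : PS)) from rfl, this.fderiv]
  simp [dxt]

theorem norm_dxt_le (h : LogHyp P T A0 A1 F G H K t b0 n0 n1 NG NH) {e : R3} (he : ‖e‖ ≤ 1)
    (s : ℝ) (y v : R3) {c : ℝ} (hc : ‖fderiv ℝ (fun z => F (s, z, v)) y‖ ≤ c) :
    |dxt 0 e F (s, y, v)| ≤ c := by
  rw [h.dxt_slice e s y v, ← Real.norm_eq_abs]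
  refine ((fderiv ℝ (fun z => F (s, z, v)) y).le_opNorm e).trans ?_
  refine (mul_le_mul_of_nonneg_left he (norm_nonneg _)).trans ?_
  rwa [mul_one]

theorem dxt_zero (h : LogHyp P T A0 A1 F G H K t b0 n0 n1 NG NH) (e : R3) {R : ℝ}
    (hR : ∀ s ∈ Icc 0 T, ∀ y v : R3, R < ‖y‖ → F (s, y, v) = 0) :
    ∀ s ∈ Icc 0 T, ∀ y v : R3, R < ‖y‖ ∨ P < ‖v‖ → dxt 0 e F (s, y, v) = 0 := by
  intro s hs y v hyv
  rw [h.dxt_slice e s y v]
  have h0 : (fun z => F (s, z, v)) =ᶠ[𝓝 y] fun _ => (0 : ℝ) := by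
    rcases hyv with hy | hv
    · have : {z : R3 | R < ‖z‖} ∈ 𝓝 y :=
        (isOpen_lt continuous_const continuous_norm).mem_nhds hy
      filter_upwards [this] with z hz
      exact hR s hs z v hz
    · exact Eventually.of_forall fun z => (h.supp s z v hv).1
  rw [h0.fderiv_eq]
  simp

end LogHyp

theorem wv_core (hGE : Gs2.GradEst) (P T A0 A1 : ℝ) (m : R3 → ℝ) (hm : ContDiff ℝ ∞ m) (a : ℝ)
    (b e : R3) (he : ‖e‖ ≤ 1) : ∃ C : ℝ, 0 ≤ C ∧
      ∀ (F : PS → ℝ) (G H : Fin 3 → PS → ℝ) (K : Fin 3 → Fin 3 → PS → ℝ) (t b0 n0 n1 : ℝ)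
        (NG NH : ℝ → ℝ), LogHyp P T A0 A1 F G H K t b0 n0 n1 NG NH → ∀ x : R3,
        |Wv (mom m (dxt a b (dxt 0 e F))) t x| ≤ C * SR t b0 n0 n1 NG NH := by
  obtain ⟨C, hC, hmain⟩ := hGE P m hm a b e
  have hlog2 : 0 < Real.log 2 := Real.log_pos (by norm_num)
  have hlT : 0 ≤ Real.log (1 + |T|) := Real.log_nonneg (by linarith [abs_nonneg T])
  set M : ℝ := |T| * (|A1| + 1) + (|A0| + 1) + |T| + (1 + Real.log (1 + |T|)) / Real.log 2 + 2
    with hM
  have hq : 0 ≤ (1 + Real.log (1 + |T|)) / Real.log 2 := by positivity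
  have hM0 : 0 ≤ M := by positivity
  refine ⟨C * M, by positivity, ?_⟩
  intro F G H K t b0 n0 n1 NG NH h x
  have hSR := h.SR_ge_one
  rcases eq_or_lt_of_le h.mem.1 with ht | ht
  · have : Wv (mom m (dxt a b (dxt 0 e F))) t x = 0 := by
      unfold Wv
      rw [← ht, Metric.ball_zero]
      simp
    rw [this, abs_zero]
    positivity
  -- short time bounds
  obtain ⟨R, hR⟩ := h.cpt
  obtain ⟨δ0, hδ0, hb0⟩ := short_time (h := F) (T := T) (R := R) (P := P) h.smF.continuous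
    h.A0_nonneg (fun s hs y v hyv => hyv.elim (fun hy => (hR s hs y v hy).1)
      (fun hv => (h.supp s y v hv).1)) h.A0
  have hcd : Continuous (dxt 0 e F) := (h.smF.continuous_fderiv (by simp)).clm_apply continuous_const
  obtain ⟨δ1, hδ1, hb1⟩ := short_time (h := dxt 0 e F) (T := T) (R := R) (P := P) hcd
    h.A1_nonneg (h.dxt_zero e (fun s hs y v hy => (hR s hs y v hy).1))
    (fun y v => h.norm_dxt_le he 0 y v (h.A1 y v))
  have hbG : ∀ i, ∃ δ : ℝ, 0 < δ ∧ ∀ s ∈ Icc 0 (min T δ), ∀ y v : R3, |G i (s, y, v)| ≤ b0 + 1 :=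
    fun i => short_time (h := G i) (T := T) (R := R) (P := P) (h.smG i).continuous
      h.b0_nonneg (fun s hs y v hyv => hyv.elim (fun hy => (hR s hs y v hy).2 i)
      (fun hv => ((h.supp s y v hv).2 i).1)) (h.b0 i)
  choose δG hδG hbG using hbG
  set δ : ℝ := min (min δ0 δ1) (min (δG 0) (min (δG 1) (δG 2))) with hδ
  have hδp : 0 < δ := by
    simp only [hδ, lt_min_iff]
    exact ⟨⟨hδ0, hδ1⟩, hδG 0, hδG 1, hδG 2⟩
  have hd0 : δ ≤ δ0 := (min_le_left _ _).trans (min_le_left _ _)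
  have hd1 : δ ≤ δ1 := (min_le_left _ _).trans (min_le_right _ _)
  have hdG : ∀ i, δ ≤ δG i := by
    intro i
    fin_cases i
    · exact (min_le_right _ _).trans (min_le_left _ _)
    · exact (min_le_right _ _).trans ((min_le_right _ _).trans (min_le_left _ _))
    · exact (min_le_right _ _).trans ((min_le_right _ _).trans (min_le_right _ _))
  have hn1 := h.n1_nonneg
  have hn0 := h.n0_nonneg
  have hb0n := h.b0_nonneg
  set ε : ℝ := min t (1 / (1 + n1)) with hε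
  have hεp : 0 < ε := lt_min ht (by positivity)
  have hεt : ε ≤ t := min_le_left _ _
  have hTt : t ≤ |T| := h.mem.2.trans (le_abs_self T)
  have key := hmain univ t δ ε x F G H K (A0 + 1) (A1 + 1) (b0 + 1) n0 n1 NG NH isOpen_univ
    (subset_univ _) ht hδp hεp hεt (h.smF.of_le two_le_inf).contDiffOn
    (fun i => ((h.smG i).of_le two_le_inf).contDiffOn)
    (fun i => (h.cH i).continuousOn) (fun i j => (h.smK i j).contDiffOn)
    (fun s _ y v hv => h.supp s y v hv) (fun s _ y v => h.tr s y v)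
    (fun s _ i y v => h.trG s i y v) ?_ ?_ h.nG h.nH h.iG h.iH
  · -- numerics
    refine key.trans ?_
    rw [mul_assoc]
    refine mul_le_mul_of_nonneg_left ?_ hC
    have hεn : ε * n1 ≤ 1 := by
      have h1 : ε * n1 ≤ 1 / (1 + n1) * n1 := mul_le_mul_of_nonneg_right (min_le_right _ _) hn1
      have h2 : 1 / (1 + n1) * n1 ≤ 1 := by
        rw [one_div, inv_mul_le_iff₀ (by positivity)]; linarith
      exact h1.trans h2
    have htε : t / ε ≤ (1 + |T|) * (2 + n1) := by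
      rw [div_le_iff₀ hεp]
      rcases min_choice t (1 / (1 + n1)) with h1 | h1
      · rw [hε, h1]
        nlinarith [abs_nonneg T, mul_nonneg (abs_nonneg T) hn1]
      · rw [hε, h1]
        have : (1 + |T|) * (2 + n1) * (1 / (1 + n1)) ≥ (1 + |T|) := by
          rw [mul_one_div, ge_iff_le, le_div_iff₀ (by positivity)]
          nlinarith [abs_nonneg T]
        linarith
    have hlog : Real.log (t / ε) ≤ Real.log (1 + |T|) + Real.log (2 + n1) := by
      rw [← Real.log_mul (by positivity) (by positivity)]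
      exact Real.log_le_log (by positivity) htε
    have hL := h.log_pos'
    have h4 : n0 * (1 + Real.log (t / ε)) ≤
        ((1 + Real.log (1 + |T|)) / Real.log 2 + 1) * (n0 * Real.log (2 + n1)) := by
      have e1 : 1 + Real.log (1 + |T|) ≤
          (1 + Real.log (1 + |T|)) / Real.log 2 * Real.log (2 + n1) := by
        rw [div_mul_eq_mul_div, le_div_iff₀ hlog2]
        exact mul_le_mul_of_nonneg_left hL (by positivity)
      have e2 : 1 + Real.log (t / ε) ≤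
          ((1 + Real.log (1 + |T|)) / Real.log 2 + 1) * Real.log (2 + n1) := by
        rw [add_mul, one_mul]; linarith
      calc n0 * (1 + Real.log (t / ε)) ≤
          n0 * (((1 + Real.log (1 + |T|)) / Real.log 2 + 1) * Real.log (2 + n1)) :=
            mul_le_mul_of_nonneg_left e2 hn0
        _ = _ := by ring
    have hX : 0 ≤ n0 * Real.log (2 + n1) := mul_nonneg hn0 (hlog2.le.trans hL)
    have hIG := h.intG_nonneg
    have hIH := h.intH_nonneg
    have hA0 : A0 ≤ |A0| := le_abs_self _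
    have hA1 : A1 ≤ |A1| := le_abs_self _
    have h1 : t * (A1 + 1) ≤ |T| * (|A1| + 1) :=
      mul_le_mul hTt (by linarith) (by linarith [h.A1_nonneg]) (abs_nonneg _)
    have h3 : t * (b0 + 1) ≤ |T| * (b0 + 1) := mul_le_mul_of_nonneg_right hTt (by linarith)
    have hq1 : 0 ≤ |T| * (|A1| + 1) := by positivity
    have hq2 : 0 ≤ |A0| := abs_nonneg _
    have hq3 : 0 ≤ |T| := abs_nonneg _
    unfold SR
    set X := n0 * Real.log (2 + n1)
    set Y := ∫ s in (0:ℝ)..t, NG s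
    set Z := ∫ s in (0:ℝ)..t, (t - s) * NH s
    set Q := (1 + Real.log (1 + |T|)) / Real.log 2
    set q1 := |T| * (|A1| + 1)
    have m1 : (q1 + (|A0| + 1) + |T| + 1) * 1 ≤ M * 1 := by rw [hM]; linarith
    have m2 : |T| * b0 ≤ M * b0 := mul_le_mul_of_nonneg_right (by rw [hM]; linarith) hb0n
    have m3 : (Q + 1) * X ≤ M * X := mul_le_mul_of_nonneg_right (by rw [hM]; linarith) hX
    have m4 : 1 * Y ≤ M * Y := mul_le_mul_of_nonneg_right (by rw [hM]; linarith) hIG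
    have m5 : 1 * Z ≤ M * Z := mul_le_mul_of_nonneg_right (by rw [hM]; linarith) hIH
    have : M * (1 + b0 + X + Y + Z) = M * 1 + M * b0 + M * X + M * Y + M * Z := by ring
    rw [this]
    linarith
  · intro s hs y v
    have hs0 : ∀ d, δ ≤ d → s ∈ Icc 0 (min T d) := fun d hd =>
      ⟨hs.1, le_min (hs.2.trans ((min_le_left _ _).trans h.mem.2))
        (hs.2.trans ((min_le_right _ _).trans hd))⟩
    exact ⟨hb0 s (hs0 _ hd0) y v, hb1 s (hs0 _ hd1) y v, fun i => hbG i s (hs0 _ (hdG i)) y v⟩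
  · intro s hs y v
    exact ⟨(h.n0 s hs y v).1, h.norm_dxt_le he s y v (h.n0 s hs y v).2⟩

/-! ### linearity of `Wv` -/

theorem integrableOn_Wv {h : ℝ → R3 → ℝ} (hc : Continuous (fun p : ℝ × R3 => h p.1 p.2)) (t : ℝ)
    (x : R3) : IntegrableOn (fun z : R3 => h (t - ‖z‖) (x + z) / (4 * Real.pi * ‖z‖))
      (Metric.ball (0 : R3) t) := by
  have h1 := (Kir.integrableOn_vol (h := h) (t := t) hc.continuousOn x).const_mul (4 * Real.pi)⁻¹
  refine IntegrableOn.congr_fun h1 (fun z _ => ?_) measurableSet_ball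
  simp only [div_eq_mul_inv, mul_inv]
  ring

theorem Wv_lin {h1 h2 : ℝ → R3 → ℝ} (hc1 : Continuous (fun p : ℝ × R3 => h1 p.1 p.2))
    (hc2 : Continuous (fun p : ℝ × R3 => h2 p.1 p.2)) (c1 c2 t : ℝ) (x : R3) :
    Wv (fun s y => c1 * h1 s y + c2 * h2 s y) t x = c1 * Wv h1 t x + c2 * Wv h2 t x := by
  unfold Wv
  rw [← integral_const_mul, ← integral_const_mul, ← integral_add
    ((integrableOn_Wv hc1 t x).const_mul c1) ((integrableOn_Wv hc2 t x).const_mul c2)]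
  refine integral_congr_ae (Eventually.of_forall fun z => ?_)
  simp only []
  ring

theorem abs_Wv_lin_le {h1 h2 : ℝ → R3 → ℝ} (hc1 : Continuous (fun p : ℝ × R3 => h1 p.1 p.2))
    (hc2 : Continuous (fun p : ℝ × R3 => h2 p.1 p.2)) {c1 c2 t : ℝ} (e1 : |c1| ≤ 1) (e2 : |c2| ≤ 1)
    (x : R3) : |Wv (fun s y => c1 * h1 s y + c2 * h2 s y) t x| ≤ |Wv h1 t x| + |Wv h2 t x| := by
  rw [Wv_lin hc1 hc2]
  refine (abs_add_le _ _).trans (add_le_add ?_ ?_)
  · rw [abs_mul]; exact mul_le_of_le_one_left (abs_nonneg _) e1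
  · rw [abs_mul]; exact mul_le_of_le_one_left (abs_nonneg _) e2

/-! ### the datum -/

theorem bd_of_compact {φ : R3 → ℝ} (h : ContDiff ℝ ∞ φ) (hc : HasCompactSupport φ) : Kir.Bd φ := by
  refine ⟨h, fun k => ?_⟩
  obtain ⟨C, hC⟩ := (hc.iteratedFDeriv (𝕜 := ℝ) k).exists_bound_of_continuous
    (h.continuous_iteratedFDeriv (m := k) (by exact_mod_cast le_top))
  exact ⟨C, hC⟩

section datum

variable {f₀ : R3 → R3 → ℝ}

/-- time-independent extension of the initial density -/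
def f0q (f₀ : R3 → R3 → ℝ) : PS → ℝ := fun p => f₀ p.2.1 p.2.2

theorem exists_radius (hc : HasCompactSupport (Function.uncurry f₀)) :
    ∃ R : ℝ, ∀ y v : R3, R < ‖y‖ ∨ R < ‖v‖ → f₀ y v = 0 := by
  obtain ⟨R, hR⟩ := hc.isCompact.isBounded.exists_norm_le
  refine ⟨R, fun y v hyv => ?_⟩
  by_contra hne
  have h1 : ((y, v) : R3 × R3) ∈ tsupport (Function.uncurry f₀) :=
    subset_tsupport _ (by simpa [Function.mem_support, Function.uncurry] using hne)
  have h2 := hR _ h1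
  rw [Prod.norm_mk] at h2
  rcases hyv with h | h
  · exact absurd ((le_max_left _ _).trans h2) (not_le.2 h)
  · exact absurd ((le_max_right _ _).trans h2) (not_le.2 h)

/-- the moment of the initial density -/
def mom0 (m : R3 → ℝ) (f₀ : R3 → R3 → ℝ) (y : R3) : ℝ := ∫ v, m v * f₀ y v

theorem bd_mom0 (hs : ContDiff ℝ ∞ (Function.uncurry f₀))
    (hc : HasCompactSupport (Function.uncurry f₀)) {m : R3 → ℝ} (hm : ContDiff ℝ ∞ m) :
    Kir.Bd (mom0 m f₀) := by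
  obtain ⟨R, hR⟩ := exists_radius hc
  have hV : SmV R univ (f0q f₀) := by
    refine ⟨isOpen_univ, ?_, fun s _ y v hv => hR y v (Or.inr hv)⟩
    exact (hs.comp (contDiff_fst.comp contDiff_snd |>.prodMk (contDiff_snd.comp contDiff_snd))).contDiffOn
  have h1 := hV.sm_mom hm
  rw [univ_prod_univ, contDiffOn_univ] at h1
  have h2 : ContDiff ℝ ∞ (mom0 m f₀) := by
    have : mom0 m f₀ = (momq m (f0q f₀)) ∘ (fun y : R3 => ((0 : ℝ), y)) := by
      funext y; rfl
    rw [this]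
    exact h1.comp (by fun_prop)
  refine bd_of_compact h2 (HasCompactSupport.intro (isCompact_closedBall (0 : R3) R) ?_)
  intro y hy
  rw [mem_closedBall_zero_iff, not_le] at hy
  unfold mom0
  have : ∀ v, m v * f₀ y v = 0 := fun v => by rw [hR y v (Or.inl hy), mul_zero]
  simp [this]

theorem datum_f0 (hs : ContDiff ℝ ∞ (Function.uncurry f₀))
    (hc : HasCompactSupport (Function.uncurry f₀)) :
    ∃ A0 A1 : ℝ, ∀ y v : R3, |f₀ y v| ≤ A0 ∧ ‖fderiv ℝ (fun z => f₀ z v) y‖ ≤ A1 := by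
  obtain ⟨A0, hA0⟩ := hc.exists_bound_of_continuous hs.continuous
  obtain ⟨A1, hA1⟩ := (hc.fderiv (𝕜 := ℝ)).exists_bound_of_continuous
    (hs.continuous_fderiv (by simp))
  refine ⟨A0, A1, fun y v => ⟨hA0 (y, v), ?_⟩⟩
  have hF : DifferentiableAt ℝ (Function.uncurry f₀) (y, v) := (hs.differentiable (by simp)) _
  have hcc : HasFDerivAt (fun z : R3 => ((z, v) : R3 × R3)) (ContinuousLinearMap.inl ℝ R3 R3) y :=
    (hasFDerivAt_id y).prodMk (hasFDerivAt_const v y)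
  have h1 := hF.hasFDerivAt.comp y hcc
  rw [show (fun z => f₀ z v) = Function.uncurry f₀ ∘ (fun z : R3 => ((z, v) : R3 × R3)) from rfl,
    h1.fderiv]
  refine (ContinuousLinearMap.opNorm_comp_le _ _).trans ?_
  refine (mul_le_mul (hA1 (y, v)) ?_ (norm_nonneg _) ((norm_nonneg _).trans (hA1 (y, v)))).trans
    (mul_one _).le
  exact ContinuousLinearMap.norm_inl_le_one ℝ R3 R3

end datum

end Crest.Agent.R106.Field
end
end

-- ▼ part R106/FieldLogU

/-!
# Row 106 (helper835): `gslogU : Gs2.GradEst → GSLogU`.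
-/

set_option autoImplicit false
open MeasureTheory Set Filter Topology
open scoped ContDiff InnerProductSpace
open Crest.AnalysisR.VecCalc3 Crest.AnalysisR.PDE.RVM

noncomputable section

namespace Crest.Agent.R106.Field

open Crest.Agent.R106.GSR (pt px box cmp unc)
open Crest.Agent.R106.Gs2 (PS Tr divv dxt mom Wv ev)

variable {P T : ℝ} {f₀ : R3 → R3 → ℝ} {E₀ B₀ : R3 → R3}
  {f : ℝ → R3 → R3 → ℝ} {G H : Fin 3 → PS → ℝ} {K : Fin 3 → Fin 3 → PS → ℝ} {E B : ℝ → R3 → R3}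

theorem glob {X Y : Type*} [NormedAddCommGroup X] [NormedSpace ℝ X] [NormedAddCommGroup Y]
    [NormedSpace ℝ Y] {u : ℝ × X → Y} (h : ContDiffOn ℝ ∞ u (univ ×ˢ univ)) : ContDiff ℝ ∞ u := by
  rwa [univ_prod_univ, contDiffOn_univ] at h

theorem memU (q : ℝ × R3) : q ∈ (univ : Set ℝ) ×ˢ (univ : Set R3) := ⟨trivial, trivial⟩

/-- time derivative at `0` of `D_j E_i` -/
theorem pt_ddE (h : LinSol P T f₀ E₀ B₀ univ f G E B) (i j : Fin 3) (y : R3) :
    pt (dd (0, eb j) (cmp E i)) (0, y) =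
      pderiv (fun z => curl3 B₀ z i - mom0 (wj i) f₀ z) j y := by
  have hm := h.maxC
  have hΩ := (isOpen_univ (X := ℝ)).prod (isOpen_univ (X := R3))
  have e1 : pt (dd (0, eb j) (cmp E i)) (0, y) = dd (0, eb j) (pt (cmp E i)) (0, y) :=
    dd_comm hΩ (hm.smE i) _ _ (memU _)
  have e2 : dd (0, eb j) (pt (cmp E i)) (0, y) =
      dd (0, eb j) (fun p => curlc (cmp B) i p - momq (wj i) (unc f) p) (0, y) :=
    dd_congr hΩ (hm.amp i) _ (memU _)
  have hd : DifferentiableAt ℝ (fun p => curlc (cmp B) i p - momq (wj i) (unc f) p) (0, y) :=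
    diffAt hΩ ((sm_curlc isOpen_univ hm.smB i).sub (hm.smj i)) (memU _)
  have e3 := pderiv_eq_px hd j
  have e4 : (fun z : R3 => curlc (cmp B) i (0, z) - momq (wj i) (unc f) (0, z)) =
      fun z => curl3 B₀ z i - mom0 (wj i) f₀ z := by
    funext z
    rw [← curl3_eq isOpen_univ h.smB (memU (0, z)) i]
    simp only [h.B0]
    congr 1
    unfold momq mom mom0 unc
    simp only [h.f0]
  rw [e1, e2, ← e4]
  exact e3.symm

/-- time derivative at `0` of `D_j B_i` -/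
theorem pt_ddB (h : LinSol P T f₀ E₀ B₀ univ f G E B) (i j : Fin 3) (y : R3) :
    pt (dd (0, eb j) (cmp B i)) (0, y) = pderiv (fun z => - curl3 E₀ z i) j y := by
  have hm := h.maxC
  have hΩ := (isOpen_univ (X := ℝ)).prod (isOpen_univ (X := R3))
  have e1 : pt (dd (0, eb j) (cmp B i)) (0, y) = dd (0, eb j) (pt (cmp B i)) (0, y) :=
    dd_comm hΩ (hm.smB i) _ _ (memU _)
  have e2 : dd (0, eb j) (pt (cmp B i)) (0, y) =
      dd (0, eb j) (fun p => - curlc (cmp E) i p) (0, y) :=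
    dd_congr hΩ (hm.far i) _ (memU _)
  have hd : DifferentiableAt ℝ (fun p => - curlc (cmp E) i p) (0, y) :=
    diffAt hΩ (sm_curlc isOpen_univ hm.smE i).neg (memU _)
  have e3 := pderiv_eq_px hd j
  have e4 : (fun z : R3 => - curlc (cmp E) i (0, z)) = fun z => - curl3 E₀ z i := by
    funext z
    rw [← curl3_eq isOpen_univ h.smE (memU (0, z)) i]
    simp only [h.E0]
  rw [e1, e2, ← e4]
  exact e3.symm

/-- value at `0` of `D_j U_i` -/
theorem dd_slice0 {U : ℝ → R3 → R3} {U₀ : R3 → R3}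
    (hU : ContDiffOn ℝ ∞ (fun p : ℝ × R3 => U p.1 p.2) (univ ×ˢ univ)) (h0 : U 0 = U₀)
    (i j : Fin 3) (y : R3) :
    dd (0, eb j) (cmp U i) (0, y) = pderiv (fun z => U₀ z i) j y := by
  have hΩ := (isOpen_univ (X := ℝ)).prod (isOpen_univ (X := R3))
  have e := pderiv_eq_px (diffAt hΩ (sm_cmp hU i) (memU (0, y))) j
  have e4 : (fun z : R3 => cmp U i (0, z)) = fun z => U₀ z i := by
    funext z; simp [GSR.cmp, h0]
  rw [← e4]
  exact e.symm

/-- generic bound of `D_j` of a component from Kirchhoff's formula; all constants from `Bd` -/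
theorem comp_bound {u : ℝ × R3 → ℝ} (hu : ContDiff ℝ ∞ u) {φ ψ : R3 → ℝ} {C0 C1 D : ℝ}
    (h0 : ∀ y, u (0, y) = φ y) (h1 : ∀ y, pt u (0, y) = ψ y) (b0 : ∀ y, |φ y| ≤ C0)
    (bD : ∀ y, ‖fderiv ℝ φ y‖ ≤ D) (b1 : ∀ y, |ψ y| ≤ C1) {t T : ℝ} (ht : t ∈ Icc 0 T) (x : R3) :
    |u (t, x)| ≤ |Wv (fun s y => box u (s, y)) t x| + (T * C1 + (C0 + T * D)) := by
  have h := Kir.kir_bound hu ht.1 x (C0 := C0) (C1 := C1) (D := D)
    (fun y => by rw [h0]; exact b0 y) (fun y => by rw [h1]; exact b1 y)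
    (fun y => by
      have : (fun z : R3 => u (0, z)) = φ := funext h0
      rw [this]; exact bD y)
  have hC1 : 0 ≤ C1 := (abs_nonneg _).trans (b1 0)
  have hD : 0 ≤ D := (norm_nonneg _).trans (bD 0)
  have k1 := mul_le_mul_of_nonneg_right ht.2 hC1
  have k2 := mul_le_mul_of_nonneg_right ht.2 hD
  linarith

theorem Bd.consts {φ : R3 → ℝ} (h : Kir.Bd φ) :
    ∃ C0 D : ℝ, (∀ y, |φ y| ≤ C0) ∧ ∀ y, ‖fderiv ℝ φ y‖ ≤ D := by
  obtain ⟨C0, h0⟩ := h.2 0
  obtain ⟨D, hD⟩ := h.2 1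
  refine ⟨C0, D, fun y => ?_, fun y => ?_⟩
  · have := h0 y; rwa [norm_iteratedFDeriv_zero] at this
  · have := hD y; rwa [norm_iteratedFDeriv_one] at this

/-- the norm of a linear map into `ℝ³` from its matrix -/
theorem norm_le_matrix (L : R3 →L[ℝ] R3) : ‖L‖ ≤ ∑ j : Fin 3, ∑ i : Fin 3, |L (eb j) i| := by
  refine L.opNorm_le_bound (Finset.sum_nonneg fun _ _ => Finset.sum_nonneg fun _ _ => abs_nonneg _) ?_
  intro v
  have hv : v = ∑ j : Fin 3, v j • eb j := by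
    ext i
    fin_cases i <;> simp [Fin.sum_univ_three, eb]
  have hn : ∀ w : R3, ‖w‖ ≤ ∑ i : Fin 3, |w i| := by
    intro w
    have hw : w = ∑ j : Fin 3, w j • eb j := by
      ext i
      fin_cases i <;> simp [Fin.sum_univ_three, eb]
    calc ‖w‖ = ‖∑ j : Fin 3, w j • eb j‖ := by rw [← hw]
      _ ≤ ∑ j : Fin 3, ‖w j • eb j‖ := norm_sum_le _ _
      _ = ∑ j : Fin 3, |w j| := by
        refine Finset.sum_congr rfl fun j _ => ?_
        rw [norm_smul, Real.norm_eq_abs]; simp [eb]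
  have hj : ∀ j : Fin 3, |v j| ≤ ‖v‖ := fun j => PiLp.norm_apply_le v j
  calc ‖L v‖ = ‖∑ j : Fin 3, v j • L (eb j)‖ := by
        conv_lhs => rw [hv]
        rw [map_sum]; simp
    _ ≤ ∑ j : Fin 3, ‖v j • L (eb j)‖ := norm_sum_le _ _
    _ ≤ ∑ j : Fin 3, ‖v‖ * ∑ i : Fin 3, |L (eb j) i| := by
        refine Finset.sum_le_sum fun j _ => ?_
        rw [norm_smul, Real.norm_eq_abs]
        exact mul_le_mul (hj j) (hn _) (norm_nonneg _) (norm_nonneg _)
    _ = (∑ j : Fin 3, ∑ i : Fin 3, |L (eb j) i|) * ‖v‖ := by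
        rw [← Finset.mul_sum, mul_comm]

theorem fderiv_field {U : ℝ → R3 → R3}
    (hU : ContDiffOn ℝ ∞ (fun p : ℝ × R3 => U p.1 p.2) (univ ×ˢ univ)) (t : ℝ) (x : R3)
    (i j : Fin 3) : fderiv ℝ (U t) x (eb j) i = dd (0, eb j) (cmp U i) (t, x) := by
  have hΩ := (isOpen_univ (X := ℝ)).prod (isOpen_univ (X := R3))
  have e := fderiv_slice (diffAt hΩ (sm_cmp hU i) (memU (t, x))) (eb j)
  have hd : DifferentiableAt ℝ (U t) x := by
    have h1 : Differentiable ℝ (fun p : ℝ × R3 => U p.1 p.2) := (glob hU).differentiable (by simp)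
    exact (h1.comp (f := fun y : R3 => ((t, y) : ℝ × R3)) (by fun_prop)) x
  have h2 : HasFDerivAt (fun y => cmp U i (t, y))
      ((EuclideanSpace.proj i : R3 →L[ℝ] ℝ).comp (fderiv ℝ (U t) x)) x :=
    (EuclideanSpace.proj i : R3 →L[ℝ] ℝ).hasFDerivAt.comp x hd.hasFDerivAt
  rw [h2.fderiv] at e
  exact e

theorem cont_momq {F : PS → ℝ} (hF : SmV P univ F) {m : R3 → ℝ} (hm : ContDiff ℝ ∞ m) :
    Continuous (fun p : ℝ × R3 => mom m F p.1 p.2) :=
  (glob (hF.sm_mom hm)).continuous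

theorem norm_eb (j : Fin 3) : ‖eb j‖ ≤ 1 := by simp [eb]

theorem logHyp_of (h : LinSol P T f₀ E₀ B₀ univ f G E B) {A0 A1 : ℝ}
    (hA : ∀ y v : R3, |f₀ y v| ≤ A0 ∧ ‖fderiv ℝ (fun z => f₀ z v) y‖ ≤ A1)
    (hH : ∀ i, Continuous (H i)) (hK : ∀ i j, ContDiff ℝ 1 (K i j))
    (hs : ∀ s : ℝ, ∀ y v : R3, P < ‖v‖ → ∀ i, H i (s, y, v) = 0 ∧ ∀ j, K i j (s, y, v) = 0)
    (hT : ∀ s : ℝ, ∀ i, ∀ y v : R3, Tr (G i) (s, y, v) = H i (s, y, v) + divv (K i) (s, y, v))
    {t : ℝ} (ht : t ∈ Icc 0 T) {b0 n0 n1 : ℝ} {NG NH : ℝ → ℝ}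
    (hb0 : ∀ i, ∀ y v : R3, |G i (0, y, v)| ≤ b0)
    (hn : ∀ s ∈ Icc 0 t, ∀ y v : R3, |f s y v| ≤ n0 ∧ ‖fderiv ℝ (fun z => f s z v) y‖ ≤ n1)
    (hG : ∀ s ∈ Icc 0 t, ∀ i, ∀ y v : R3, |G i (s, y, v)| ≤ NG s)
    (hHK : ∀ s ∈ Icc 0 t, ∀ i, ∀ y v : R3, |H i (s, y, v)| ≤ NH s ∧ ∀ j, |K i j (s, y, v)| ≤ NH s)
    (iG : IntervalIntegrable NG volume 0 t) (iH : IntervalIntegrable NH volume 0 t) :
    LogHyp P T A0 A1 (unc f) G H K t b0 n0 n1 NG NH where
  smF := glob h.smf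
  smG := fun i => glob (h.smG i)
  cH := hH
  smK := hK
  supp := fun s y v hv => ⟨h.suppf s trivial y v hv, fun i => ⟨h.suppG s trivial y v hv i,
    (hs s y v hv i).1, (hs s y v hv i).2⟩⟩
  cpt := h.cpt
  tr := fun s y v => h.tr s trivial y v
  trG := hT
  A0 := fun y v => by
    show |f 0 y v| ≤ A0
    rw [h.f0]; exact (hA y v).1
  A1 := fun y v => by
    show ‖fderiv ℝ (fun z => f 0 z v) y‖ ≤ A1
    rw [h.f0]; exact (hA y v).2
  mem := ht
  b0 := hb0
  n0 := hn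
  nG := hG
  nH := hHK
  iG := iG
  iH := iH

theorem gslogU (hGE : Gs2.GradEst) : GSLogU := by
  intro P T hT f₀ E₀ B₀
  by_cases hadm : IsAdmissibleDatum f₀ E₀ B₀
  swap
  · exact ⟨0, le_rfl, fun f G H K E B h => absurd h.adm hadm⟩
  obtain ⟨-, hs0, hc0, hE0, hB0, hEB, -, -, -, -⟩ := hadm
  obtain ⟨A0, A1, hA⟩ := datum_f0 hs0 hc0
  have hEb : ∀ n : ℕ, ∃ C : ℝ, ∀ x, ‖iteratedFDeriv ℝ n E₀ x‖ ≤ C := fun n => by
    obtain ⟨C, hC⟩ := hEB n; exact ⟨C, fun x => (hC x).1⟩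
  have hBb : ∀ n : ℕ, ∃ C : ℝ, ∀ x, ‖iteratedFDeriv ℝ n B₀ x‖ ≤ C := fun n => by
    obtain ⟨C, hC⟩ := hEB n; exact ⟨C, fun x => (hC x).2⟩
  -- datum functions
  have dE := fun i j : Fin 3 => Bd.consts ((Kir.bd_coord hE0 hEb i).pderiv j)
  have dB := fun i j : Fin 3 => Bd.consts ((Kir.bd_coord hB0 hBb i).pderiv j)
  have dE' := fun i j : Fin 3 => Bd.consts
    (((Kir.bd_curl hB0 hBb i).sub (bd_mom0 hs0 hc0 (contDiff_wj i))).pderiv j)
  have dB' := fun i j : Fin 3 => Bd.consts ((Kir.bd_curl hE0 hEb i).neg.pderiv j)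
  choose CE DE hCE hDE using dE
  choose CB DB hCB hDB using dB
  choose CE' DE' hCE' hDE' using dE'
  choose CB' DB' hCB' hDB' using dB'
  -- Wv constants
  have w1c := fun i j : Fin 3 => wv_core hGE P T A0 A1 w1 contDiff_w1 0 (eb i) (eb j) (norm_eb j)
  have w2c := fun i j : Fin 3 => wv_core hGE P T A0 A1 (wj i) (contDiff_wj i) 1 0 (eb j) (norm_eb j)
  have w3c := fun k l j : Fin 3 =>
    wv_core hGE P T A0 A1 (wj k) (contDiff_wj k) 0 (eb l) (eb j) (norm_eb j)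
  choose a1 ha1 hw1 using w1c
  choose a2 ha2 hw2 using w2c
  choose a3 ha3 hw3 using w3c
  have hCE0 : ∀ i j, 0 ≤ CE i j := fun i j => (abs_nonneg _).trans (hCE i j 0)
  have hDE0 : ∀ i j, 0 ≤ DE i j := fun i j => (norm_nonneg _).trans (hDE i j 0)
  have hCE0' : ∀ i j, 0 ≤ CE' i j := fun i j => (abs_nonneg _).trans (hCE' i j 0)
  have hCB0 : ∀ i j, 0 ≤ CB i j := fun i j => (abs_nonneg _).trans (hCB i j 0)
  have hDB0 : ∀ i j, 0 ≤ DB i j := fun i j => (norm_nonneg _).trans (hDB i j 0)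
  have hCB0' : ∀ i j, 0 ≤ CB' i j := fun i j => (abs_nonneg _).trans (hCB' i j 0)
  set ME : Fin 3 → Fin 3 → ℝ := fun j i =>
    a1 i j + a2 i j + (T * CE' i j + (CE i j + T * DE i j)) with hME
  set MB : Fin 3 → Fin 3 → ℝ := fun j i =>
    a3 (i + 2) (i + 1) j + a3 (i + 1) (i + 2) j + (T * CB' i j + (CB i j + T * DB i j)) with hMB
  have hME0 : ∀ j i, 0 ≤ ME j i := fun j i => by
    have := ha1 i j; have := ha2 i j; have := hCE0 i j
    have := mul_nonneg hT.le (hCE0' i j); have := mul_nonneg hT.le (hDE0 i j)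
    rw [hME]; simp only []; linarith
  have hMB0 : ∀ j i, 0 ≤ MB j i := fun j i => by
    have := ha3 (i + 2) (i + 1) j; have := ha3 (i + 1) (i + 2) j; have := hCB0 i j
    have := mul_nonneg hT.le (hCB0' i j); have := mul_nonneg hT.le (hDB0 i j)
    rw [hMB]; simp only []; linarith
  refine ⟨(∑ j, ∑ i, ME j i) + ∑ j, ∑ i, MB j i, add_nonneg
    (Finset.sum_nonneg fun j _ => Finset.sum_nonneg fun i _ => hME0 j i)
    (Finset.sum_nonneg fun j _ => Finset.sum_nonneg fun i _ => hMB0 j i), ?_⟩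
  intro f G H K E B h hH hK hsup hTr t ht b0 n0 n1 NG NH hb0 hn hNG hNH iG iH x
  have hL := logHyp_of h hA hH hK hsup hTr ht hb0 hn hNG hNH iG iH
  have hSR := hL.SR_ge_one
  have hV := h.smV
  have hm := h.maxC
  set S := SR t b0 n0 n1 NG NH with hSdef
  have hΩ := (isOpen_univ (X := ℝ)).prod (isOpen_univ (X := R3))
  -- component bounds
  have hE : ∀ j i : Fin 3, |fderiv ℝ (E t) x (eb j) i| ≤ ME j i * S := by
    intro j i
    rw [fderiv_field h.smE]
    have hu : ContDiff ℝ ∞ (dd (0, eb j) (cmp E i)) := glob (contDiffOn_dd hΩ (hm.smE i) _)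
    have k1 := comp_bound hu (fun y => dd_slice0 h.smE h.E0 i j y) (fun y => pt_ddE h i j y)
      (hCE i j) (hDE i j) (hCE' i j) ht x
    have k2 : (fun (s : ℝ) (y : R3) => box (dd (0, eb j) (cmp E i)) (s, y)) =
        fun s y => (-1) * mom w1 (dxt 0 (eb i) (dxt 0 (eb j) (unc f))) s y +
          (-1) * mom (wj i) (dxt 1 0 (dxt 0 (eb j) (unc f))) s y := by
      funext s y
      rw [box_ddE hV hm (eb j) i (memU (s, y))]
      simp only [momq]
      ring
    have k3 := abs_Wv_lin_le (c1 := -1) (c2 := -1) (t := t)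
      (cont_momq ((hV.dx 0 (eb j)).dx 0 (eb i)) contDiff_w1)
      (cont_momq ((hV.dx 0 (eb j)).dx 1 0) (contDiff_wj i)) (by norm_num) (by norm_num) x
    rw [k2] at k1
    have k4 := hw1 i j (unc f) G H K t b0 n0 n1 NG NH hL x
    have k5 := hw2 i j (unc f) G H K t b0 n0 n1 NG NH hL x
    have k6 : (T * CE' i j + (CE i j + T * DE i j)) * 1 ≤
        (T * CE' i j + (CE i j + T * DE i j)) * S := by
      refine mul_le_mul_of_nonneg_left hSR ?_
      have := hCE0 i j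
      have := mul_nonneg hT.le (hCE0' i j); have := mul_nonneg hT.le (hDE0 i j)
      linarith
    rw [hME]
    simp only []
    rw [add_mul, add_mul]
    linarith
  have hB : ∀ j i : Fin 3, |fderiv ℝ (B t) x (eb j) i| ≤ MB j i * S := by
    intro j i
    rw [fderiv_field h.smB]
    have hu : ContDiff ℝ ∞ (dd (0, eb j) (cmp B i)) := glob (contDiffOn_dd hΩ (hm.smB i) _)
    have k1 := comp_bound hu (fun y => dd_slice0 h.smB h.B0 i j y) (fun y => pt_ddB h i j y)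
      (hCB i j) (hDB i j) (hCB' i j) ht x
    have k2 : (fun (s : ℝ) (y : R3) => box (dd (0, eb j) (cmp B i)) (s, y)) =
        fun s y => 1 * mom (wj (i + 2)) (dxt 0 (eb (i + 1)) (dxt 0 (eb j) (unc f))) s y +
          (-1) * mom (wj (i + 1)) (dxt 0 (eb (i + 2)) (dxt 0 (eb j) (unc f))) s y := by
      funext s y
      rw [box_ddB hV hm (eb j) i (memU (s, y))]
      simp only [momq]
      ring
    have k3 := abs_Wv_lin_le (c1 := 1) (c2 := -1) (t := t)
      (cont_momq ((hV.dx 0 (eb j)).dx 0 (eb (i + 1))) (contDiff_wj (i + 2)))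
      (cont_momq ((hV.dx 0 (eb j)).dx 0 (eb (i + 2))) (contDiff_wj (i + 1)))
      (by norm_num) (by norm_num) x
    rw [k2] at k1
    have k4 := hw3 (i + 2) (i + 1) j (unc f) G H K t b0 n0 n1 NG NH hL x
    have k5 := hw3 (i + 1) (i + 2) j (unc f) G H K t b0 n0 n1 NG NH hL x
    have k6 : (T * CB' i j + (CB i j + T * DB i j)) * 1 ≤
        (T * CB' i j + (CB i j + T * DB i j)) * S := by
      refine mul_le_mul_of_nonneg_left hSR ?_
      have := hCB0 i j
      have := mul_nonneg hT.le (hCB0' i j); have := mul_nonneg hT.le (hDB0 i j)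
      linarith
    rw [hMB]
    simp only []
    rw [add_mul, add_mul]
    linarith
  have sE : ‖fderiv ℝ (E t) x‖ ≤ (∑ j, ∑ i, ME j i) * S := by
    refine (norm_le_matrix _).trans ?_
    rw [Finset.sum_mul]
    refine Finset.sum_le_sum fun j _ => ?_
    rw [Finset.sum_mul]
    exact Finset.sum_le_sum fun i _ => hE j i
  have sB : ‖fderiv ℝ (B t) x‖ ≤ (∑ j, ∑ i, MB j i) * S := by
    refine (norm_le_matrix _).trans ?_
    rw [Finset.sum_mul]
    refine Finset.sum_le_sum fun j _ => ?_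
    rw [Finset.sum_mul]
    exact Finset.sum_le_sum fun i _ => hB j i
  have hS0 : 0 ≤ S := zero_le_one.trans hSR
  have pE : 0 ≤ (∑ j, ∑ i, ME j i) * S := mul_nonneg
    (Finset.sum_nonneg fun j _ => Finset.sum_nonneg fun i _ => hME0 j i) hS0
  have pB : 0 ≤ (∑ j, ∑ i, MB j i) * S := mul_nonneg
    (Finset.sum_nonneg fun j _ => Finset.sum_nonneg fun i _ => hMB0 j i) hS0
  have hfin : ((∑ j, ∑ i, ME j i) + ∑ j, ∑ i, MB j i) * S =
      (∑ j, ∑ i, ME j i) * S + (∑ j, ∑ i, MB j i) * S := add_mul _ _ _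
  constructor
  · show ‖fderiv ℝ (E t) x‖ ≤ ((∑ j, ∑ i, ME j i) + ∑ j, ∑ i, MB j i) * S
    rw [hfin]; linarith
  · show ‖fderiv ℝ (B t) x‖ ≤ ((∑ j, ∑ i, ME j i) + ∑ j, ∑ i, MB j i) * S
    rw [hfin]; linarith

end Crest.Agent.R106.Field
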