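import Crest.Agent.R106.Gs2Int
import Crest.Agent.R106.Gs2Core
import Crest.Agent.R106.Gs2DivInt

-- ▼ part R106/Gs2Prof
section

set_option autoImplicit false
open MeasureTheory Set Filter Topology
open scoped ContDiff RealInnerProductSpace
open Crest.AnalysisR.VecCalc3 Crest.AnalysisR.PDE.RVM

namespace Crest.Agent.R106.Gs2

/-! ### radial profiles -/

theorem cone_int_le {k : ℕ} (hk : k ≤ 2) {P C t : ℝ} (ht : 0 ≤ t) {M : ℝ → ℝ} {Φ : ZV → ℝ}
    (hM : IntervalIntegrable (fun s => (t - s) ^ (2 - k) * M s) volume 0 t)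
    (h0 : ∀ z v : R3, z ≠ 0 → (t ≤ ‖z‖ ∨ P < ‖v‖) → Φ (z, v) = 0)
    (h1 : ∀ z v : R3, z ≠ 0 → ‖z‖ < t → ‖v‖ ≤ P →
      |Φ (z, v)| ≤ C * (‖z‖ ^ k)⁻¹ * M (t - ‖z‖)) :
    |∫ p, Φ p| ≤ cB P * C * ∫ s in (0:ℝ)..t, (t - s) ^ (2 - k) * M s := by
  set φ : ℝ → ℝ := (Iio t).indicator (fun r => C * (r ^ k)⁻¹ * M (t - r)) with hφ
  set ψ : ℝ → ℝ := fun r => C * (r ^ (2 - k) * M (t - r)) with hψ
  have hint1 : IntervalIntegrable (fun r => r ^ (2 - k) * M (t - r)) volume 0 t := by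
    have h := hM.comp_sub_left t
    simp only [sub_zero, sub_self, sub_sub_cancel] at h
    exact h.symm
  have hψi : IntegrableOn ψ (Ioo 0 t) := by
    have h := hint1.const_mul C
    rw [intervalIntegrable_iff_integrableOn_Ioc_of_le ht] at h
    exact h.mono_set Ioo_subset_Ioc_self
  have hcongr : ∀ r ∈ Ioi (0:ℝ), r ^ 2 * φ r = (Ioo 0 t).indicator ψ r := by
    intro r hr
    have hr' : (0:ℝ) < r := hr
    by_cases h : r < t
    · have e1 : r ∈ Ioo 0 t := ⟨hr', h⟩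
      have e2 : r ∈ Iio t := h
      simp only [hφ, hψ, indicator_of_mem e1, indicator_of_mem e2]
      have : r ^ 2 = r ^ (2 - k) * r ^ k := by rw [← pow_add, Nat.sub_add_cancel hk]
      rw [this]
      field_simp
    · have e1 : r ∉ Ioo 0 t := fun h' => h h'.2
      have e2 : r ∉ Iio t := h
      simp only [hφ, indicator_of_notMem e1, indicator_of_notMem e2, mul_zero]
  have hφi : IntegrableOn (fun r => r ^ 2 * φ r) (Ioi 0) := by
    have h2 : IntegrableOn ((Ioo 0 t).indicator ψ) (Ioi 0) :=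
      (hψi.integrable_indicator measurableSet_Ioo).integrableOn
    exact h2.congr_fun (fun r hr => (hcongr r hr).symm) measurableSet_Ioi
  have hval : ∫ r in Ioi (0:ℝ), r ^ 2 * φ r = C * ∫ s in (0:ℝ)..t, (t - s) ^ (2 - k) * M s := by
    rw [setIntegral_congr_fun measurableSet_Ioi hcongr, setIntegral_indicator measurableSet_Ioo]
    have e1 : Ioi (0:ℝ) ∩ Ioo 0 t = Ioo 0 t := by
      ext r; simp only [mem_inter_iff, mem_Ioi, mem_Ioo]; tauto
    rw [e1, ← integral_Ioc_eq_integral_Ioo, ← intervalIntegral.integral_of_le ht]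
    simp only [hψ]
    rw [intervalIntegral.integral_const_mul]
    congr 1
    have h := intervalIntegral.integral_comp_sub_left (a := 0) (b := t)
      (fun s => (t - s) ^ (2 - k) * M s) t
    simp only [sub_sub_cancel, sub_self, sub_zero] at h
    exact h
  have hb : ∀ z v : R3, z ≠ 0 → |Φ (z, v)| ≤ φ ‖z‖ * indP P v := by
    intro z v hz
    by_cases hout : t ≤ ‖z‖ ∨ P < ‖v‖
    · rw [h0 z v hz hout, abs_zero]
      rcases hout with h | h
      · have e2 : ‖z‖ ∉ Iio t := by simpa using h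
        simp only [hφ, indicator_of_notMem e2, zero_mul, le_refl]
      · rw [indP_of_lt h, mul_zero]
    · simp only [not_or, not_le, not_lt] at hout
      rw [indP_of_le hout.2, mul_one]
      have e2 : ‖z‖ ∈ Iio t := hout.1
      simp only [hφ, indicator_of_mem e2]
      exact h1 z v hz hout.1 hout.2
  refine (abs_integral_le hφi hb).trans ?_
  rw [hval, mul_assoc]

theorem near_int_le {P C ε : ℝ} (hC : 0 ≤ C) (hε : 0 < ε) {Φ : ZV → ℝ}
    (h0 : ∀ z v : R3, z ≠ 0 → (ε < ‖z‖ ∨ P < ‖v‖) → Φ (z, v) = 0)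
    (h1 : ∀ z v : R3, z ≠ 0 → ‖v‖ ≤ P → |Φ (z, v)| ≤ C * (‖z‖ ^ 2)⁻¹) :
    |∫ p, Φ p| ≤ cB P * C * ε := by
  set φ : ℝ → ℝ := (Iic ε).indicator (fun r => C * (r ^ 2)⁻¹) with hφ
  have hval : ∫ r in Ioi (0:ℝ), r ^ 2 * φ r = C * ε := by
    have hcongr : ∀ r ∈ Ioi (0:ℝ), r ^ 2 * φ r = (Ioc 0 ε).indicator (fun _ => C) r := by
      intro r hr
      have hr' : (0:ℝ) < r := hr
      by_cases h : r ≤ ε
      · have e1 : r ∈ Ioc 0 ε := ⟨hr', h⟩
        have e2 : r ∈ Iic ε := h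
        simp only [hφ, indicator_of_mem e1, indicator_of_mem e2]
        field_simp
      · have e1 : r ∉ Ioc 0 ε := fun h' => h h'.2
        have e2 : r ∉ Iic ε := h
        simp only [hφ, indicator_of_notMem e1, indicator_of_notMem e2, mul_zero]
    rw [setIntegral_congr_fun measurableSet_Ioi hcongr, setIntegral_indicator measurableSet_Ioc]
    have e1 : Ioi (0:ℝ) ∩ Ioc 0 ε = Ioc 0 ε := by
      ext r; simp only [mem_inter_iff, mem_Ioi, mem_Ioc]; tauto
    rw [e1, setIntegral_const]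
    simp [Measure.real, hε.le, mul_comm]
  have hb : ∀ z v : R3, z ≠ 0 → |Φ (z, v)| ≤ φ ‖z‖ * indP P v := by
    intro z v hz
    by_cases hout : ε < ‖z‖ ∨ P < ‖v‖
    · rw [h0 z v hz hout, abs_zero]
      exact mul_nonneg (indicator_nonneg (fun r _ => by positivity) _) (indP_nonneg _ _)
    · simp only [not_or, not_lt] at hout
      rw [indP_of_le hout.2, mul_one]
      have e2 : ‖z‖ ∈ Iic ε := hout.1
      simp only [hφ, indicator_of_mem e2]
      exact h1 z v hz hout.2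
  refine (abs_integral_le (integrableOn_profile le_rfl C ε) hb).trans ?_
  rw [← hφ, hval, mul_assoc]

theorem log_int_le {P C ε t : ℝ} (hC : 0 ≤ C) (hε : 0 < ε) (ht : ε ≤ t) {Φ : ZV → ℝ}
    (h0 : ∀ z v : R3, z ≠ 0 → (‖z‖ < ε / 2 ∨ t < ‖z‖ ∨ P < ‖v‖) → Φ (z, v) = 0)
    (h1 : ∀ z v : R3, z ≠ 0 → ‖v‖ ≤ P → |Φ (z, v)| ≤ C * (‖z‖ ^ 3)⁻¹) :
    |∫ p, Φ p| ≤ cB P * C * (Real.log 2 + Real.log (t / ε)) := by
  have ht0 : 0 < t := hε.trans_le ht
  have h2t : ε / 2 ≤ t := by linarith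
  set φ : ℝ → ℝ := (Icc (ε / 2) t).indicator (fun r => C * (r ^ 3)⁻¹) with hφ
  have hcongr : ∀ r ∈ Ioi (0:ℝ), r ^ 2 * φ r = (Icc (ε / 2) t).indicator (fun r => C * r⁻¹) r := by
    intro r hr
    have hr' : (0:ℝ) < r := hr
    by_cases h : r ∈ Icc (ε / 2) t
    · simp only [hφ, indicator_of_mem h]
      field_simp
    · simp only [hφ, indicator_of_notMem h, mul_zero]
  have hsub : Ioi (0:ℝ) ∩ Icc (ε / 2) t = Icc (ε / 2) t := by
    ext r; simp only [mem_inter_iff, mem_Ioi, mem_Icc]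
    constructor
    · rintro ⟨-, h⟩; exact h
    · rintro h; exact ⟨by linarith [h.1], h⟩
  have hcont : ContinuousOn (fun r : ℝ => C * r⁻¹) (Icc (ε / 2) t) := by
    refine continuousOn_const.mul (continuousOn_inv₀.mono ?_)
    intro r hr
    have : 0 < r := by linarith [hr.1]
    exact this.ne'
  have hint : IntegrableOn (fun r : ℝ => C * r⁻¹) (Icc (ε / 2) t) := hcont.integrableOn_Icc
  have hφi : IntegrableOn (fun r => r ^ 2 * φ r) (Ioi 0) := by
    have h2 : IntegrableOn ((Icc (ε / 2) t).indicator fun r : ℝ => C * r⁻¹) (Ioi 0) :=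
      (hint.integrable_indicator measurableSet_Icc).integrableOn
    exact h2.congr_fun (fun r hr => (hcongr r hr).symm) measurableSet_Ioi
  have hval : ∫ r in Ioi (0:ℝ), r ^ 2 * φ r = C * (Real.log 2 + Real.log (t / ε)) := by
    rw [setIntegral_congr_fun measurableSet_Ioi hcongr, setIntegral_indicator measurableSet_Icc,
      hsub, integral_Icc_eq_integral_Ioc, ← intervalIntegral.integral_of_le h2t,
      intervalIntegral.integral_const_mul, integral_inv_of_pos (by positivity) ht0]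
    congr 1
    rw [← Real.log_mul (by norm_num) (by positivity)]
    congr 1
    field_simp
  have hb : ∀ z v : R3, z ≠ 0 → |Φ (z, v)| ≤ φ ‖z‖ * indP P v := by
    intro z v hz
    by_cases hout : ‖z‖ < ε / 2 ∨ t < ‖z‖ ∨ P < ‖v‖
    · rw [h0 z v hz hout, abs_zero]
      exact mul_nonneg (indicator_nonneg (fun r _ => by
        have : 0 < r := by have := ‹r ∈ Icc (ε / 2) t›.1; linarith
        positivity) _) (indP_nonneg _ _)
    · simp only [not_or, not_lt] at hout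
      rw [indP_of_le hout.2.2, mul_one]
      have e2 : ‖z‖ ∈ Icc (ε / 2) t := ⟨hout.1, hout.2.1⟩
      simp only [hφ, indicator_of_mem e2]
      exact h1 z v hz hout.2.2
  refine (abs_integral_le hφi hb).trans ?_
  rw [hval, mul_assoc]

/-! ### the time cut-off -/

theorem th_smooth (d : ℝ) : ContDiff ℝ ∞ (th d) :=
  Real.smoothTransition.contDiff.comp (contDiff_id.div_const d)

theorem th_zero {d s : ℝ} (hd : 0 < d) (hs : s ≤ 0) : th d s = 0 :=
  Real.smoothTransition.zero_of_nonpos (div_nonpos_of_nonpos_of_nonneg hs hd.le)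

theorem th_one {d s : ℝ} (hd : 0 < d) (hs : d ≤ s) : th d s = 1 :=
  Real.smoothTransition.one_of_one_le (by rwa [le_div_iff₀ hd, one_mul])

theorem th_mem (d s : ℝ) : 0 ≤ th d s ∧ th d s ≤ 1 :=
  ⟨Real.smoothTransition.nonneg _, Real.smoothTransition.le_one _⟩

theorem th_mono {d : ℝ} (hd : 0 < d) : Monotone (th d) := fun _ _ h =>
  Real.smoothTransition.monotone (by gcongr)

theorem th_deriv_nonneg {d : ℝ} (hd : 0 < d) (s : ℝ) : 0 ≤ deriv (th d) s :=
  (th_mono hd).deriv_nonneg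

theorem th_deriv_zero {d s : ℝ} (hd : 0 < d) (hs : s ≤ 0 ∨ d ≤ s) : deriv (th d) s = 0 := by
  rcases hs with h | h
  · apply IsLocalMin.deriv_eq_zero
    refine Eventually.of_forall fun y => ?_
    rw [th_zero hd h]
    exact (th_mem d y).1
  · apply IsLocalMax.deriv_eq_zero
    refine Eventually.of_forall fun y => ?_
    rw [th_one hd h]
    exact (th_mem d y).2

theorem int_th_deriv {d t : ℝ} (hd : 0 < d) (hdt : d ≤ t) :
    ∫ s in (0:ℝ)..t, deriv (th d) s = 1 := by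
  have h1 : Differentiable ℝ (th d) := (th_smooth d).differentiable (by simp)
  have h2 : Continuous (deriv (th d)) := (th_smooth d).continuous_deriv (by simp)
  rw [intervalIntegral.integral_deriv_eq_sub (fun x _ => h1 x) (h2.intervalIntegrable _ _),
    th_one hd hdt, th_zero hd le_rfl, sub_zero]

end Crest.Agent.R106.Gs2
end

-- ▼ part R106/Gs2Sup

set_option autoImplicit false
open MeasureTheory Set Filter Topology
open scoped ContDiff RealInnerProductSpace
open Crest.AnalysisR.VecCalc3 Crest.AnalysisR.PDE.RVM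

namespace Crest.Agent.R106.Gs2

theorem thr_smooth (d t : ℝ) : ContDiff ℝ 1 (fun r => th d (t - r)) :=
  ((th_smooth d).of_le (by simp)).comp (contDiff_const.sub contDiff_id)

theorem thr_deriv (d t r : ℝ) : deriv (fun r => th d (t - r)) r = - deriv (th d) (t - r) := by
  rw [deriv_comp_const_sub]

theorem thr_zero {d t r : ℝ} (hd : 0 < d) (hr : t ≤ r) : th d (t - r) = 0 :=
  th_zero hd (by linarith)

theorem th_deriv_cont (d : ℝ) : Continuous (deriv (th d)) :=
  ((th_smooth d).of_le (by simp : (1 : WithTop ℕ∞) ≤ ∞)).continuous_deriv (by simp)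

/-- weighted interval integrability -/
theorem ii_weight {t : ℝ} {N : ℝ → ℝ} (h : IntervalIntegrable N volume 0 t) (j : ℕ) :
    IntervalIntegrable (fun s => (t - s) ^ j * N s) volume 0 t :=
  h.continuousOn_mul (by fun_prop)

/-- bound of the main terms -/
theorem main_term {k : ℕ} (hk : k ≤ 2) (P : ℝ) {κ : ZV → ℝ} (hκ : Hk k κ) :
    ∃ C : ℝ, 0 ≤ C ∧ ∀ (t : ℝ) (x : R3) (ϑ : ℝ → ℝ) (F : PS → ℝ) (N : ℝ → ℝ), 0 < t →
      (∀ r, t ≤ r → ϑ r = 0) → (∀ r, |ϑ r| ≤ 1) →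
      (∀ (s : ℝ) (y v : R3), P < ‖v‖ → F (s, y, v) = 0) →
      (∀ s ∈ Icc 0 t, ∀ y v : R3, |F (s, y, v)| ≤ N s) →
      IntervalIntegrable N volume 0 t →
      |∫ p, ϑ ‖p.1‖ * κ p * F (cone t x p)| ≤ C * ∫ s in (0:ℝ)..t, (t - s) ^ (2 - k) * N s := by
  obtain ⟨C, hC, hb⟩ := hκ.bound P
  refine ⟨cB P * C, mul_nonneg (cB_nonneg P) hC, ?_⟩
  intro t x ϑ F N ht h0 h1 hP hN hi
  refine cone_int_le hk ht.le (ii_weight hi _) ?_ ?_
  · rintro z v hz (h | h)
    · simp only [h0 _ h, zero_mul]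
    · have : F (cone t x (z, v)) = 0 := hP _ _ _ h
      simp only [this, mul_zero]
  · intro z v hz hzt hv
    have hz' : 0 < ‖z‖ := norm_pos_iff.2 hz
    have hF : |F (cone t x (z, v))| ≤ N (t - ‖z‖) :=
      hN _ ⟨by linarith, by linarith⟩ _ _
    rw [abs_mul, abs_mul]
    have hκb := hb z v hz hv
    calc |ϑ ‖z‖| * |κ (z, v)| * |F (cone t x (z, v))|
        ≤ 1 * (C * (‖z‖ ^ k)⁻¹) * N (t - ‖z‖) := by
          gcongr
          exact h1 _
      _ = C * (‖z‖ ^ k)⁻¹ * N (t - ‖z‖) := by ring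

/-- bound of the terms with the derivative of the time cut-off -/
theorem radial_term {k : ℕ} (hk : k ≤ 2) (P : ℝ) {κ : ZV → ℝ} (hκ : Hk k κ) :
    ∃ C : ℝ, 0 ≤ C ∧ ∀ (t d : ℝ) (x : R3) (χ : ℝ → ℝ) (F : PS → ℝ) (a0 : ℝ), 0 < t → 0 < d → d ≤ t →
      (∀ r, |χ r| ≤ 1) →
      (∀ (s : ℝ) (y v : R3), P < ‖v‖ → F (s, y, v) = 0) →
      (∀ s ∈ Icc 0 d, ∀ y v : R3, |F (s, y, v)| ≤ a0) →
      |∫ p, (deriv (th d) (t - ‖p.1‖) * χ ‖p.1‖) * κ p * F (cone t x p)|
        ≤ C * (t ^ (2 - k) * a0) := by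
  obtain ⟨C, hC, hb⟩ := hκ.bound P
  refine ⟨cB P * C, mul_nonneg (cB_nonneg P) hC, ?_⟩
  intro t d x χ F a0 ht hd hdt hχ hP hF0
  have ha0 : 0 ≤ a0 := (abs_nonneg _).trans (hF0 0 ⟨le_rfl, hd.le⟩ 0 0)
  have hcont : Continuous fun s => (t - s) ^ (2 - k) * (deriv (th d) s * a0) := by
    have := th_deriv_cont d
    fun_prop
  have h1 : |∫ p, (deriv (th d) (t - ‖p.1‖) * χ ‖p.1‖) * κ p * F (cone t x p)|
      ≤ cB P * C * ∫ s in (0:ℝ)..t, (t - s) ^ (2 - k) * (deriv (th d) s * a0) := by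
    refine cone_int_le (M := fun s => deriv (th d) s * a0) hk ht.le
      (hcont.intervalIntegrable _ _) ?_ ?_
    · rintro z v hz (h | h)
      · have : deriv (th d) (t - ‖z‖) = 0 := th_deriv_zero hd (Or.inl (by linarith))
        simp only [this, zero_mul]
      · have : F (cone t x (z, v)) = 0 := hP _ _ _ h
        simp only [this, mul_zero]
    · intro z v hz hzt hv
      have hz' : 0 < ‖z‖ := norm_pos_iff.2 hz
      have hκb := hb z v hz hv
      by_cases hs : d ≤ t - ‖z‖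
      · have : deriv (th d) (t - ‖z‖) = 0 := th_deriv_zero hd (Or.inr hs)
        simp only [this, zero_mul, abs_zero, mul_zero, le_refl]
      · rw [not_le] at hs
        have hF : |F (cone t x (z, v))| ≤ a0 := hF0 _ ⟨by linarith, hs.le⟩ _ _
        have hdn := th_deriv_nonneg hd (t - ‖z‖)
        rw [abs_mul, abs_mul, abs_mul, abs_of_nonneg hdn]
        calc deriv (th d) (t - ‖z‖) * |χ ‖z‖| * |κ (z, v)| * |F (cone t x (z, v))|
            ≤ deriv (th d) (t - ‖z‖) * 1 * (C * (‖z‖ ^ k)⁻¹) * a0 := by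
              gcongr
              · exact hχ _
          _ = C * (‖z‖ ^ k)⁻¹ * (deriv (th d) (t - ‖z‖) * a0) := by ring
  refine h1.trans ?_
  refine mul_le_mul_of_nonneg_left ?_ (mul_nonneg (cB_nonneg P) hC)
  have hc2 : Continuous fun s => t ^ (2 - k) * (deriv (th d) s * a0) := by
    have := th_deriv_cont d
    fun_prop
  calc ∫ s in (0:ℝ)..t, (t - s) ^ (2 - k) * (deriv (th d) s * a0)
      ≤ ∫ s in (0:ℝ)..t, t ^ (2 - k) * (deriv (th d) s * a0) := by
        refine intervalIntegral.integral_mono_on ht.le (hcont.intervalIntegrable _ _)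
          (hc2.intervalIntegrable _ _) ?_
        intro s hs
        have hdn := th_deriv_nonneg hd s
        refine mul_le_mul_of_nonneg_right ?_ (by positivity)
        exact pow_le_pow_left₀ (by linarith [hs.2]) (by linarith [hs.1]) _
    _ = t ^ (2 - k) * a0 := by
        rw [intervalIntegral.integral_const_mul, intervalIntegral.integral_mul_const,
          int_th_deriv hd hdt, one_mul]

/-- integrability of the terms -/
theorem integrable_hk {k : ℕ} (hk : k ≤ 2) {κ : ZV → ℝ} (hκ : Hk k κ) {ϑ : ℝ → ℝ}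
    (hϑ : Continuous ϑ) {R P t : ℝ} {x : R3} (h0 : ∀ r, R ≤ r → ϑ r = 0) {F : PS → ℝ}
    (hF : Continuous F) (hP : ∀ (s : ℝ) (y v : R3), P < ‖v‖ → F (s, y, v) = 0) :
    Integrable (fun p => ϑ ‖p.1‖ * κ p * F (cone t x p)) := by
  obtain ⟨C, hC, hb⟩ := hκ.bound P
  obtain ⟨C1, hC1⟩ := (isCompact_Icc (a := (0:ℝ)) (b := R)).exists_bound_of_continuousOn
    hϑ.continuousOn
  have hc : IsCompact (Metric.closedBall t R ×ˢ
      (Metric.closedBall x R ×ˢ Metric.closedBall (0 : R3) P)) :=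
    (isCompact_closedBall _ _).prod ((isCompact_closedBall _ _).prod (isCompact_closedBall _ _))
  obtain ⟨C2, hC2⟩ := hc.exists_bound_of_continuousOn hF.continuousOn
  refine integrable_of_bound (P := P) (φ := (Iic R).indicator fun r => (|C1| * C * |C2|) * (r ^ k)⁻¹)
    ?_ (integrableOn_profile hk _ R) ?_
  · exact ((hϑ.comp_continuousOn Hk.nrm_smooth.continuousOn).mul hκ.smooth.continuousOn).mul
      (hF.comp_continuousOn (cone_contOn t x))
  · intro z v hz
    have hz' : 0 < ‖z‖ := norm_pos_iff.2 hz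
    have hnn : 0 ≤ (Iic R).indicator (fun r => (|C1| * C * |C2|) * (r ^ k)⁻¹) ‖z‖ * indP P v := by
      refine mul_nonneg ?_ (indP_nonneg _ _)
      by_cases hR : ‖z‖ ≤ R
      · rw [indicator_of_mem (show ‖z‖ ∈ Iic R from hR)]; positivity
      · rw [indicator_of_notMem (show ‖z‖ ∉ Iic R from hR)]
    · by_cases hout1 : R < ‖z‖
      · simpa only [h0 _ hout1.le, zero_mul, abs_zero] using hnn
      by_cases hout2 : P < ‖v‖
      · have : F (cone t x (z, v)) = 0 := hP _ _ _ hout2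
        simpa only [this, mul_zero, abs_zero] using hnn
      rw [not_lt] at hout1 hout2
      rw [indP_of_le hout2, mul_one, indicator_of_mem (show ‖z‖ ∈ Iic R from hout1)]
      have hmem : cone t x (z, v) ∈ Metric.closedBall t R ×ˢ
          (Metric.closedBall x R ×ˢ Metric.closedBall (0 : R3) P) := by
        simp [cone, hout1, hout2]
      have b2 := hC2 _ hmem
      have b1 := hC1 ‖z‖ ⟨hz'.le, hout1⟩
      rw [Real.norm_eq_abs] at b1 b2
      rw [abs_mul, abs_mul]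
      calc |ϑ ‖z‖| * |κ (z, v)| * |F (cone t x (z, v))|
          ≤ |C1| * (C * (‖z‖ ^ k)⁻¹) * |C2| :=
            mul_le_mul (mul_le_mul (b1.trans (le_abs_self _)) (hb z v hz hout2) (abs_nonneg _)
              (abs_nonneg _)) (b2.trans (le_abs_self _)) (abs_nonneg _) (by positivity)
        _ = |C1| * C * |C2| * (‖z‖ ^ k)⁻¹ := by ring

theorem supK (P : ℝ) {κ : ZV → ℝ} (hκ : Hk 1 κ) (a : ℝ) (b : R3) : ∃ C : ℝ, 0 ≤ C ∧
    ∀ (t d : ℝ) (x : R3) (g h : PS → ℝ) (G : Fin 3 → PS → ℝ) (a0 : ℝ) (N NG Nh : ℝ → ℝ),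
      0 < t → 0 < d → d ≤ t →
      ContDiff ℝ 1 g → (∀ i, ContDiff ℝ 1 (G i)) → Continuous h →
      (∀ (s : ℝ) (y v : R3), P < ‖v‖ → g (s, y, v) = 0 ∧ (∀ i, G i (s, y, v) = 0) ∧ h (s, y, v) = 0) →
      (∀ s ∈ Icc 0 t, ∀ y v : R3, Tr g (s, y, v) = h (s, y, v) + divv G (s, y, v)) →
      (∀ s ∈ Icc 0 d, ∀ y v : R3, |g (s, y, v)| ≤ a0) →
      (∀ s ∈ Icc 0 t, ∀ y v : R3, |g (s, y, v)| ≤ N s) →
      (∀ s ∈ Icc 0 t, ∀ i, ∀ y v : R3, |G i (s, y, v)| ≤ NG s) →
      (∀ s ∈ Icc 0 t, ∀ y v : R3, |h (s, y, v)| ≤ Nh s) →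
      IntervalIntegrable N volume 0 t → IntervalIntegrable NG volume 0 t →
      IntervalIntegrable Nh volume 0 t →
      |∫ p, th d (t - ‖p.1‖) * κ p * dxt a b g (cone t x p)| ≤
        C * (t * a0 + (∫ s in (0:ℝ)..t, N s) + (∫ s in (0:ℝ)..t, (t - s) * (NG s + Nh s))) := by
  obtain ⟨C1, hC1, B1⟩ := main_term (by norm_num) P (hκ.mul0 (kA_Hk a b))
  choose C2 hC2 B2 using fun i => main_term (by norm_num) P (kV_Hk hκ a b i)
  obtain ⟨C3, hC3, B3⟩ := main_term (by norm_num) P (kZ_Hk hκ a b)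
  obtain ⟨C4, hC4, B4⟩ := radial_term (by norm_num) P (kR_Hk hκ a b)
  have hS2 : 0 ≤ ∑ i, C2 i := Finset.sum_nonneg fun i _ => hC2 i
  refine ⟨C1 + (∑ i, C2 i) + C3 + C4, by positivity, ?_⟩
  intro t d x g h G a0 N NG Nh ht hd hdt hg hG hh hP hT hg0 hgN hGN hhN iN iNG iNh
  have hr0 : ∀ r, t ≤ r → (fun r => th d (t - r)) r = 0 := fun r hr => thr_zero hd hr
  have hKB : KB 1 (fun p : ZV => (fun r => th d (t - r)) ‖p.1‖ * κ p) := by
    simpa using (rad_KB (thr_smooth d t)).mul hκ.toKB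
  have hmain := division_rad (t := t) (x := x) hκ (thr_smooth d t) hKB hr0 hg hG hh hP ?_ a b
    (integrable_hk (by norm_num) (kZ_Hk hκ a b) (thr_smooth d t).continuous hr0 hg.continuous
      fun s y v hv => (hP s y v hv).1)
  · have t1 := B1 t x (fun r => th d (t - r)) h Nh ht hr0
      (fun r => by rw [abs_of_nonneg (th_mem _ _).1]; exact (th_mem _ _).2)
      (fun s y v hv => (hP s y v hv).2.2) hhN iNh
    have t2 := fun i => B2 i t x (fun r => th d (t - r)) (G i) NG ht hr0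
      (fun r => by rw [abs_of_nonneg (th_mem _ _).1]; exact (th_mem _ _).2)
      (fun s y v hv => (hP s y v hv).2.1 i) (fun s hs => hGN s hs i) iNG
    have t3 := B3 t x (fun r => th d (t - r)) g N ht hr0
      (fun r => by rw [abs_of_nonneg (th_mem _ _).1]; exact (th_mem _ _).2)
      (fun s y v hv => (hP s y v hv).1) hgN iN
    have t4 := B4 t d x (fun _ => -1) g a0 ht hd hdt (fun r => by simp)
      (fun s y v hv => (hP s y v hv).1) hg0
    have e4 : (∫ p, deriv (fun r => th d (t - r)) ‖p.1‖ * kR κ a b p * g (cone t x p))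
        = ∫ p, (deriv (th d) (t - ‖p.1‖) * (fun _ => (-1:ℝ)) ‖p.1‖) * kR κ a b p *
          g (cone t x p) := by
      refine integral_congr_ae (Eventually.of_forall fun p => ?_)
      simp only [thr_deriv]; ring
    rw [e4] at hmain
    simp only at hmain
    rw [hmain]
    norm_num at t1 t2 t3
    rw [show 2 - 1 = 1 from rfl, pow_one] at t4
    have hNG0 : ∀ s ∈ Icc 0 t, 0 ≤ NG s := fun s hs => (abs_nonneg _).trans (hGN s hs 0 0 0)
    have hNh0 : ∀ s ∈ Icc 0 t, 0 ≤ Nh s := fun s hs => (abs_nonneg _).trans (hhN s hs 0 0)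
    have hN0 : ∀ s ∈ Icc 0 t, 0 ≤ N s := fun s hs => (abs_nonneg _).trans (hgN s hs 0 0)
    have ha0 : 0 ≤ a0 := (abs_nonneg _).trans (hg0 0 ⟨le_rfl, hd.le⟩ 0 0)
    have w1 : IntervalIntegrable (fun s => (t - s) * NG s) volume 0 t := by
      simpa using ii_weight iNG 1
    have w2 : IntervalIntegrable (fun s => (t - s) * Nh s) volume 0 t := by
      simpa using ii_weight iNh 1
    have eS : (∫ s in (0:ℝ)..t, (t - s) * (NG s + Nh s))
        = (∫ s in (0:ℝ)..t, (t - s) * NG s) + ∫ s in (0:ℝ)..t, (t - s) * Nh s := by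
      rw [← intervalIntegral.integral_add w1 w2]
      congr 1; ext s; ring
    have q1 : 0 ≤ ∫ s in (0:ℝ)..t, (t - s) * NG s :=
      intervalIntegral.integral_nonneg ht.le fun s hs =>
        mul_nonneg (by linarith [hs.2]) (hNG0 s hs)
    have q2 : 0 ≤ ∫ s in (0:ℝ)..t, (t - s) * Nh s :=
      intervalIntegral.integral_nonneg ht.le fun s hs =>
        mul_nonneg (by linarith [hs.2]) (hNh0 s hs)
    have q3 : 0 ≤ ∫ s in (0:ℝ)..t, N s :=
      intervalIntegral.integral_nonneg ht.le fun s hs => hN0 s hs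
    have q4 : 0 ≤ t * a0 := by positivity
    rw [eS]
    set I1 := ∫ s in (0:ℝ)..t, (t - s) * NG s
    set I2 := ∫ s in (0:ℝ)..t, (t - s) * Nh s
    set I3 := ∫ s in (0:ℝ)..t, N s
    have t2' : |∑ i, ∫ p, th d (t - ‖p.1‖) * kV κ a b i p * G i (cone t x p)|
        ≤ (∑ i, C2 i) * I1 := by
      rw [Finset.sum_mul]
      exact (Finset.abs_sum_le_sum_abs _ _).trans (Finset.sum_le_sum fun i _ => t2 i)
    set A1 := ∫ p, th d (t - ‖p.1‖) * (κ p * kA a b p) * h (cone t x p)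
    set A2 := ∑ i, ∫ p, th d (t - ‖p.1‖) * kV κ a b i p * G i (cone t x p)
    set A3 := ∫ p, th d (t - ‖p.1‖) * kZ κ a b p * g (cone t x p)
    set A4 := ∫ p, deriv (th d) (t - ‖p.1‖) * -1 * kR κ a b p * g (cone t x p)
    have tri : |A1 - A2 - A3 - A4| ≤ |A1| + |A2| + |A3| + |A4| := by
      refine (abs_sub _ _).trans (add_le_add_left ?_ _)
      refine (abs_sub _ _).trans (add_le_add_left ?_ _)
      exact abs_sub _ _
    refine tri.trans ?_
    set S2 := ∑ i, C2 i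
    nlinarith [mul_nonneg hC1 q1, mul_nonneg hC1 q3, mul_nonneg hC1 q4, mul_nonneg hS2 q2,
      mul_nonneg hS2 q3, mul_nonneg hS2 q4, mul_nonneg hC3 q1, mul_nonneg hC3 q2,
      mul_nonneg hC3 q4, mul_nonneg hC4 q1, mul_nonneg hC4 q2, mul_nonneg hC4 q3]
  · intro p hp hne
    have hp' : 0 < ‖p.1‖ := norm_pos_iff.2 hp
    have hlt : ‖p.1‖ < t := by
      by_contra hcon
      exact hne (thr_zero hd (not_lt.1 hcon))
    exact hT (t - ‖p.1‖) ⟨by linarith, by linarith⟩ _ _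

theorem coreSup : CoreSup := by
  intro P m hm a b
  have hk : Hk 1 (fun p : ZV => (m p.2 * (4 * Real.pi)⁻¹) * ‖p.1‖⁻¹) := by
    have := (((Hk.ofV hm).mul0 (Hk.const ((4 * Real.pi)⁻¹))).mul Hk.nrmInv)
    simpa using this
  obtain ⟨C, hC, hmain⟩ := supK P hk a b
  refine ⟨C, hC, ?_⟩
  intro t d x g h G a0 N NG Nh ht hd hdt hg hG hh hP hT hg0 hgN hGN hhN iN iNG iNh
  have := hmain t d x g h G a0 N NG Nh ht hd hdt hg hG hh hP hT hg0 hgN hGN hhN iN iNG iNh
  unfold Wth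
  have e : (∫ p : R3 × R3, th d (t - ‖p.1‖) * (m p.2 * (4 * Real.pi * ‖p.1‖)⁻¹) *
      dxt a b g (t - ‖p.1‖, x + p.1, p.2))
      = ∫ p : ZV, th d (t - ‖p.1‖) * (m p.2 * (4 * Real.pi)⁻¹ * ‖p.1‖⁻¹) *
        dxt a b g (cone t x p) := by
    refine integral_congr_ae (Eventually.of_forall fun p => ?_)
    simp only [cone, mul_inv]
    ring
  rw [e]
  exact this

end Crest.Agent.R106.Gs2
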