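/-
Row 106, node ITER-C (helper312), part 1: pure real analysis of the Picard iteration.
If `D (n+1) t ≤ C |∫_0^t D n|` (stated with continuous majorants) then `D n t ≤ A (C|t|)^n / n!`,
and the iterates converge uniformly.
-/
import Mathlib

set_option autoImplicit false
open MeasureTheory Set Filter Topology
open scoped Nat

namespace Crest.Agent.R106.IterC

/-- `|∫_0^t |s|^n ds| = |t|^(n+1)/(n+1)`. -/
lemma abs_integral_abs_pow (n : ℕ) (t : ℝ) :
    |∫ s in (0:ℝ)..t, |s| ^ n| = |t| ^ (n + 1) / (n + 1) := by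
  rcases le_total 0 t with ht | ht
  · have h : (∫ s in (0:ℝ)..t, |s| ^ n) = ∫ s in (0:ℝ)..t, s ^ n := by
      apply intervalIntegral.integral_congr
      intro s hs
      rw [uIcc_of_le ht] at hs
      simp only
      rw [abs_of_nonneg hs.1]
    rw [h, integral_pow]
    have : (0:ℝ) ^ (n + 1) = 0 := by simp
    rw [this, sub_zero, abs_div, abs_pow]
    congr 1
    exact abs_of_nonneg (by positivity)
  · have h : (∫ s in (0:ℝ)..t, |s| ^ n) = ∫ s in (0:ℝ)..t, (-s) ^ n := by
      apply intervalIntegral.integral_congr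
      intro s hs
      rw [uIcc_of_ge ht] at hs
      simp only
      rw [abs_of_nonpos hs.2]
    have h2 : (∫ s in (0:ℝ)..t, (-s) ^ n) = - ∫ s in (0:ℝ)..(-t), s ^ n := by
      rw [intervalIntegral.integral_comp_neg (fun s => s ^ n), intervalIntegral.integral_symm]
      simp
    rw [h, h2, integral_pow, abs_neg]
    have : (0:ℝ) ^ (n + 1) = 0 := by simp
    rw [this, sub_zero, abs_div, abs_pow, abs_neg]
    congr 1
    exact abs_of_nonneg (by positivity)

/-- Factorial bound for a Picard iteration given through continuous majorants. -/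
theorem fact_bound {ι : Type*} {D : ℕ → ℝ → ι → ℝ} {T A C : ℝ} (hC : 0 ≤ C) (hA : 0 ≤ A)
    (h0 : ∀ t, |t| ≤ T → ∀ i, D 0 t i ≤ A)
    (hstep : ∀ (n : ℕ) (w : ℝ → ℝ), Continuous w → (∀ s, 0 ≤ w s) →
      (∀ s, |s| ≤ T → ∀ i, D n s i ≤ w s) →
      ∀ t, |t| ≤ T → ∀ i, D (n + 1) t i ≤ C * |∫ s in (0:ℝ)..t, w s|) :
    ∀ (n : ℕ) (t : ℝ), |t| ≤ T → ∀ i, D n t i ≤ A * (C * |t|) ^ n / n ! := by
  intro n
  induction n with
  | zero => intro t ht i; simpa using h0 t ht i
  | succ n ih =>
    intro t ht i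
    have h1 := hstep n (fun s => A * (C * |s|) ^ n / n !) (by fun_prop)
      (fun s => by positivity) ih t ht i
    refine h1.trans (le_of_eq ?_)
    have h2 : (∫ s in (0:ℝ)..t, A * (C * |s|) ^ n / n !)
        = (A * C ^ n / n !) * ∫ s in (0:ℝ)..t, |s| ^ n := by
      rw [← intervalIntegral.integral_const_mul]
      apply intervalIntegral.integral_congr
      intro s _
      simp only
      rw [mul_pow]
      ring
    rw [h2, abs_mul, abs_integral_abs_pow, abs_of_nonneg (by positivity : 0 ≤ A * C ^ n / n !),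
      Nat.factorial_succ]
    push_cast
    have hn : ((n:ℝ) + 1) ≠ 0 := by positivity
    have hf : ((n ! : ℕ) : ℝ) ≠ 0 := by positivity
    rw [mul_pow]
    field_simp
    ring



/-- monotonicity of `|∫_0^t w|` in `|t|` for `w ≥ 0`. -/
lemma abs_integral_mono {w : ℝ → ℝ} (hw : Continuous w) (h0 : ∀ s, 0 ≤ w s) {s t : ℝ}
    (hs : s ∈ uIcc 0 t) : |∫ r in (0:ℝ)..s, w r| ≤ |∫ r in (0:ℝ)..t, w r| := by
  have hi : ∀ a b, IntervalIntegrable w volume a b := fun a b => hw.intervalIntegrable a b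
  rcases le_total 0 t with ht | ht
  · rw [uIcc_of_le ht] at hs
    have h1 : 0 ≤ ∫ r in (0:ℝ)..s, w r := intervalIntegral.integral_nonneg hs.1 fun r _ => h0 r
    have h2 : 0 ≤ ∫ r in s..t, w r := intervalIntegral.integral_nonneg hs.2 fun r _ => h0 r
    have h3 := intervalIntegral.integral_add_adjacent_intervals (hi 0 s) (hi s t)
    rw [abs_of_nonneg h1, abs_of_nonneg (by linarith)]
    linarith
  · rw [uIcc_of_ge ht] at hs
    have h1 : 0 ≤ ∫ r in s..(0:ℝ), w r := intervalIntegral.integral_nonneg hs.2 fun r _ => h0 r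
    have h2 : 0 ≤ ∫ r in t..s, w r := intervalIntegral.integral_nonneg hs.1 fun r _ => h0 r
    have h3 := intervalIntegral.integral_add_adjacent_intervals (hi t s) (hi s 0)
    rw [intervalIntegral.integral_symm s 0, intervalIntegral.integral_symm t 0, abs_neg, abs_neg,
      abs_of_nonneg h1, abs_of_nonneg (by linarith)]
    linarith

end Crest.Agent.R106.IterC
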