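import Crest.Agent.R106.StdIface
import Mathlib
import Crest.Agent.R106.IterCStep_Mg
import Crest.Agent.R106.Src
import Crest.Agent.R106.Src2

-- ▼ part R106/StepEx
section

/-!
Row 106, node ITER-A (helper201): existence of a Picard step.
-/

set_option autoImplicit false

open Set Filter Topology MeasureTheory
open scoped ContDiff
open Crest.AnalysisR.VecCalc3 Crest.AnalysisR.PDE.RVM

namespace Crest.Agent.R106.Std

theorem stepEx (hF : Flow) (hS : Src) (hM : Max) : StepEx := by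
  intro P G hG f₀ E₀ B₀ hD E B hE hB
  obtain ⟨-, hf, hc, hE₀, hB₀, hbd, -, -, hdE, hdB⟩ := hD
  obtain ⟨f, hPC, h0, htr, hval, hsv, hsx⟩ := hF P G hG f₀ hf hc E B hE hB
  obtain ⟨hρ, hj, hsupp, hcont⟩ := hS P G hG E B hE hB f hPC htr
  obtain ⟨E', B', hE', hB', hE0, hB0, hmax⟩ := hM (chargeDensity f) (currentDensity f) E₀ B₀ hρ hj
    hsupp hcont hE₀ hB₀ hbd (fun x => by rw [hdE x, chargeDensity, h0]) hdB
  exact ⟨f, E', B', ⟨hE, hB, hPC, h0, htr, hval, hsv, hsx, hE', hB', hE0, hB0, hmax⟩⟩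

end Crest.Agent.R106.Std
end

-- ▼ part R106/IterC
section

set_option autoImplicit false
open MeasureTheory Set Filter Topology
open scoped ContDiff InnerProductSpace
open Crest.AnalysisR.VecCalc3 Crest.AnalysisR.PDE.RVM
open Crest.Agent.R106.Std

namespace Crest.Agent.R106.IterC

/-- momentum derivative from the phase space derivative -/
lemma norm_fderiv_v_le {h : R3 × R3 → ℝ} (hh : ContDiff ℝ ∞ h) (x v : R3) :
    ‖fderiv ℝ (fun w => h (x, w)) v‖ ≤ ‖fderiv ℝ h (x, v)‖ := by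
  have h1 : HasFDerivAt (fun w : R3 => ((x, w) : R3 × R3)) (ContinuousLinearMap.inr ℝ R3 R3) v :=
    hasFDerivAt_prodMk_right x v
  have h2 := ((diff_of hh (x, v)).hasFDerivAt.comp v h1).fderiv
  have h3 : (fun w => h (x, w)) = h ∘ (fun w : R3 => ((x, w) : R3 × R3)) := rfl
  rw [h3, h2]
  refine (ContinuousLinearMap.opNorm_comp_le _ _).trans ?_
  have h4 : ‖ContinuousLinearMap.inr ℝ R3 R3‖ ≤ 1 := ContinuousLinearMap.norm_inr_le_one ℝ R3 R3
  calc _ ≤ ‖fderiv ℝ h (x, v)‖ * 1 := mul_le_mul_of_nonneg_left h4 (norm_nonneg _)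
    _ = _ := mul_one _

lemma sum_coord_pderiv (h : R3 → ℝ) (v d : R3) :
    ∑ i : Fin 3, d i * pderiv h i v = fderiv ℝ h v d := by
  have hd : d = ∑ i : Fin 3, d i • (EuclideanSpace.single i (1:ℝ) : R3) := by
    ext j
    simp [Fin.sum_univ_three]
    fin_cases j <;> simp
  conv_rhs => rw [hd, map_sum]
  simp only [map_smul, smul_eq_mul, pderiv]

/-- a smooth function with compact support is bounded -/
lemma f0_bdd {f₀ : R3 → R3 → ℝ} (h : ContDiff ℝ ∞ (Function.uncurry f₀))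
    (hc : HasCompactSupport (Function.uncurry f₀)) : ∃ F : ℝ, 0 ≤ F ∧ ∀ x v, |f₀ x v| ≤ F := by
  obtain ⟨C, hC⟩ := h.continuous.bounded_above_of_compact_support hc
  exact ⟨max C 0, le_max_right _ _, fun x v => (hC (x, v)).trans (le_max_left _ _)⟩

lemma f0_supp {f₀ : R3 → R3 → ℝ} (hc : HasCompactSupport (Function.uncurry f₀)) :
    ∃ R : ℝ, ∀ x v, R < ‖v‖ → f₀ x v = 0 := by
  obtain ⟨R, hR⟩ := hc.isCompact.isBounded.subset_closedBall (0 : R3 × R3)
  refine ⟨R, fun x v hv => ?_⟩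
  by_contra hne
  have h1 : ((x, v) : R3 × R3) ∈ Metric.closedBall (0 : R3 × R3) R :=
    hR (subset_tsupport _ hne)
  rw [mem_closedBall_zero_iff] at h1
  have h2 : ‖v‖ ≤ ‖((x, v) : R3 × R3)‖ := norm_snd_le (x, v)
  linarith

theorem cdiff : FBz → Tr0 → Cdiff := by
  intro hFBz hTr0 P G hT f₀ E₀ B₀ hadm T A
  obtain ⟨CG, hCG0, hCG⟩ := G_bdd hT
  obtain ⟨F0, hF00, hF0⟩ := f0_bdd hadm.2.1 hadm.2.2.1
  obtain ⟨R0, hR0⟩ := f0_supp hadm.2.2.1
  obtain ⟨CF, hCF0, hCF⟩ := hFBz 0 (max (2 * P) R0) T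
  rcases lt_or_ge T 0 with hTneg | hTpos
  · refine ⟨0, le_rfl, ?_⟩
    intro _ _ _ _ _ _ _ _ _ _ _ _ _ _ _ _ t ht
    exact absurd ((abs_nonneg t).trans ht) (not_le.2 hTneg)
  set c₁ : ℝ := CG * |A| with hc₁
  have hc₁0 : 0 ≤ c₁ := by positivity
  set c₂ : ℝ := CG * (F0 + |A|) with hc₂
  have hc₂0 : 0 ≤ c₂ := by positivity
  refine ⟨max c₁ (CF * (c₁ * T + c₂ * (1 + c₁ * T))), hc₁0.trans (le_max_left _ _), ?_⟩
  intro E₁ B₁ f₁ E₁' B₁' E₂ B₂ f₂ E₂' B₂' φ s₁ s₂ hφ hA hd t ht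
  -- nonnegative version of the majorant
  set w : ℝ → ℝ := fun s => |φ s| with hw
  have hwc : Continuous w := hφ.abs
  have hw0 : ∀ s, 0 ≤ w s := fun s => abs_nonneg _
  have hφ0 : ∀ s, |s| ≤ T → 0 ≤ φ s := fun s hs => (norm_nonneg _).trans (hd s hs 0).1
  have hwφ : ∀ s, |s| ≤ T → w s = φ s := fun s hs => abs_of_nonneg (hφ0 s hs)
  have hint : ∀ s, |s| ≤ T → (∫ r in (0:ℝ)..s, w r) = ∫ r in (0:ℝ)..s, φ r := by
    intro s hs
    apply intervalIntegral.integral_congr
    intro r hr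
    apply hwφ
    rw [abs_le] at hs ⊢
    rw [mem_uIcc] at hr
    rcases hr with hr | hr
    · exact ⟨by linarith [hs.1, hr.1], by linarith [hs.2, hr.2]⟩
    · exact ⟨by linarith [hs.1, hr.1], by linarith [hs.2, hr.2]⟩
  have hFd : ∀ s, |s| ≤ T → ∀ x, ‖((E₁ s x - E₂ s x, B₁ s x - B₂ s x) : R3 × R3)‖ ≤ w s := by
    intro s hs x
    rw [hwφ s hs]
    exact max_le (hd s hs x).1 (hd s hs x).2
  -- the difference of the densities
  set r : ℝ → R3 → R3 → ℝ := fun t x v => f₁ t x v - f₂ t x v with hr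
  have hrPC : PC r := PC_sub s₁.pc s₂.pc
  have hr0 : ∀ x v, r 0 x v = 0 := by
    intro x v
    simp only [hr]
    rw [s₁.init, s₂.init, sub_self]
  have hfirst : ∀ s, |s| ≤ T → ∀ x v, |r s x v| ≤ c₁ * |∫ q in (0:ℝ)..s, w q| := by
    intro s hs x v
    have h1 := hTr0 P G hT E₁ B₁ s₁.inE s₁.inB r T 0 (fun q => c₁ * w q) hrPC
      (hwc.const_mul _) (fun x v => by rw [hr0 x v]; simp) (fun q hq x v => ?_) s hs x v
    · rw [zero_add, intervalIntegral.integral_const_mul, abs_mul, abs_of_nonneg hc₁0] at h1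
      exact h1
    · -- the equation of the difference
      have e1 : Tfree r q x v + Gv G E₁ B₁ r q x v
          = -(∑ i : Fin 3, (G v (E₁ q x - E₂ q x, B₁ q x - B₂ q x)) i
              * pderiv (fun w => f₂ q x w) i v) := by
        have h2 := Tfree_sub s₁.pc.1 s₂.pc.1 q x v
        have h3 := Gv_sub (G := G) (E := E₁) (B := B₁) s₁.pc.1 s₂.pc.1 q x v
        have h4 := s₁.trans q x v
        have h5 := s₂.trans q x v
        unfold TransEq at h4 h5
        have h6 : Gv G E₁ B₁ f₂ q x v - Gv G E₂ B₂ f₂ q x v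
            = ∑ i : Fin 3, (G v (E₁ q x - E₂ q x, B₁ q x - B₂ q x)) i
              * pderiv (fun w => f₂ q x w) i v := by
          unfold Gv
          rw [← Finset.sum_sub_distrib]
          apply Finset.sum_congr rfl
          intro i _
          have h7 : ((E₁ q x - E₂ q x, B₁ q x - B₂ q x) : R3 × R3)
              = (E₁ q x, B₁ q x) - (E₂ q x, B₂ q x) := rfl
          rw [h7, map_sub, PiLp.sub_apply]
          ring
        rw [h2, h3, ← h6]
        linarith
      rw [e1, abs_neg, sum_coord_pderiv]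
      have h2 : ‖fderiv ℝ (fun w => f₂ q x w) v‖ ≤ |A| := by
        have h3 := norm_fderiv_v_le (pc_z s₂.pc.1 q) x v
        have h4 := (hA q hq).2.2 (x, v)
        rw [norm_iteratedFDeriv_one] at h4
        exact h3.trans (h4.trans (le_abs_self A))
      have h3 : ‖G v (E₁ q x - E₂ q x, B₁ q x - B₂ q x)‖ ≤ CG * w q := by
        refine ((G v).le_opNorm _).trans ?_
        exact mul_le_mul (hCG v) (hFd q hq x) (norm_nonneg _) hCG0
      rw [← Real.norm_eq_abs]
      refine ((fderiv ℝ (fun w => f₂ q x w) v).le_opNorm _).trans ?_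
      calc ‖fderiv ℝ (fun w => f₂ q x w) v‖ * ‖G v (E₁ q x - E₂ q x, B₁ q x - B₂ q x)‖
          ≤ |A| * (CG * w q) := mul_le_mul h2 h3 (norm_nonneg _) (abs_nonneg _)
        _ = c₁ * w q := by rw [hc₁]; ring
  -- the source of the difference
  set g : Fin 3 → ℝ → R3 → R3 → ℝ := fun i t x v =>
    (G v (E₁ t x, B₁ t x)) i * f₁ t x v - (G v (E₂ t x, B₂ t x)) i * f₂ t x v with hg
  have hgPC : ∀ i, PC (g i) := fun i =>
    PC_sub (PC_G_mul hT.smooth s₁.inE s₁.inB s₁.pc i) (PC_G_mul hT.smooth s₂.inE s₂.inB s₂.pc i)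
  set ψ : ℝ → ℝ := fun s => c₁ * |∫ q in (0:ℝ)..s, w q| + c₂ * (w s + c₁ * |∫ q in (0:ℝ)..s, w q|)
    with hψ
  have hψc : Continuous ψ := by
    have := continuous_abs_integral hwc
    exact (this.const_mul _).add ((hwc.add (this.const_mul _)).const_mul _)
  have hsupp : ∀ (s : ℝ) (x v : R3), max (2 * P) R0 < ‖v‖ → f₁ s x v = 0 ∧ f₂ s x v = 0 := by
    intro s x v hv
    have h1 : ∀ x v : R3, max (2 * P) R0 < ‖v‖ → f₀ x v = 0 := fun x v hv =>
      hR0 x v ((le_max_right _ _).trans_lt hv)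
    exact ⟨s₁.suppv _ (le_max_left _ _) h1 s x v hv, s₂.suppv _ (le_max_left _ _) h1 s x v hv⟩
  have hG1 : ∀ (s : ℝ) (x v : R3) (i : Fin 3) (F : R3 × R3) (h : ℝ),
      |(G v F) i * h| ≤ CG * ‖F‖ * |h| := by
    intro s x v i F h
    rw [abs_mul]
    apply mul_le_mul_of_nonneg_right _ (abs_nonneg _)
    have h1 : ‖(G v F) i‖ ≤ ‖G v F‖ := PiLp.norm_apply_le (G v F) i
    rw [Real.norm_eq_abs] at h1
    exact h1.trans (((G v).le_opNorm F).trans (mul_le_mul_of_nonneg_right (hCG v) (norm_nonneg _)))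
  have hgb : ∀ s, |s| ≤ T → ∀ x v, |r s x v| ≤ ψ s ∧ ∀ i, |g i s x v| ≤ ψ s := by
    intro s hs x v
    have hI : 0 ≤ c₁ * |∫ q in (0:ℝ)..s, w q| := mul_nonneg hc₁0 (abs_nonneg _)
    have hws := hw0 s
    refine ⟨(hfirst s hs x v).trans ?_, fun i => ?_⟩
    · simp only [hψ]
      have : 0 ≤ c₂ * (w s + c₁ * |∫ q in (0:ℝ)..s, w q|) := mul_nonneg hc₂0 (add_nonneg hws hI)
      linarith
    · have e1 : g i s x v = (G v (E₁ s x - E₂ s x, B₁ s x - B₂ s x)) i * f₁ s x v
          + (G v (E₂ s x, B₂ s x)) i * r s x v := by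
        have h7 : ((E₁ s x - E₂ s x, B₁ s x - B₂ s x) : R3 × R3)
            = (E₁ s x, B₁ s x) - (E₂ s x, B₂ s x) := rfl
        simp only [hg, hr, h7, map_sub, PiLp.sub_apply]
        ring
      rw [e1]
      have h1 := hG1 s x v i (E₁ s x - E₂ s x, B₁ s x - B₂ s x) (f₁ s x v)
      have h2 := hG1 s x v i (E₂ s x, B₂ s x) (r s x v)
      have h3 : |f₁ s x v| ≤ F0 := by
        obtain ⟨y, z, hyz⟩ := s₁.values s x v
        rw [hyz]; exact hF0 y z
      have h4 : ‖((E₂ s x, B₂ s x) : R3 × R3)‖ ≤ |A| := by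
        have h5 := (hA s hs).2.1 x
        rw [norm_iteratedFDeriv_zero, norm_iteratedFDeriv_zero] at h5
        exact max_le (h5.1.trans (le_abs_self A)) (h5.2.trans (le_abs_self A))
      have h5 := hFd s hs x
      have h6 := hfirst s hs x v
      calc |(G v (E₁ s x - E₂ s x, B₁ s x - B₂ s x)) i * f₁ s x v
            + (G v (E₂ s x, B₂ s x)) i * r s x v|
          ≤ CG * w s * F0 + CG * |A| * (c₁ * |∫ q in (0:ℝ)..s, w q|) := by
            refine (abs_add_le _ _).trans (add_le_add (h1.trans ?_) (h2.trans ?_))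
            · gcongr
            · gcongr
        _ ≤ ψ s := by
            simp only [hψ, hc₂]
            have e2 : 0 ≤ CG * |A| * w s := by positivity
            have e3 : 0 ≤ CG * F0 * (c₁ * |∫ q in (0:ℝ)..s, w q|) := by positivity
            nlinarith
  have hFB := hCF r g (fun t x => E₁' t x - E₂' t x) (fun t x => B₁' t x - B₂' t x) ψ hrPC hgPC
    (SF_sub s₁.outE s₂.outE) (SF_sub s₁.outB s₂.outB)
    (fun s x v hv => by
      obtain ⟨a1, a2⟩ := hsupp s x v hv
      simp [hr, hg, a1, a2])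
    (fun s x v => by
      have h2 := Tfree_sub s₁.pc.1 s₂.pc.1 s x v
      have h4 := s₁.trans s x v
      have h5 := s₂.trans s x v
      unfold TransEq at h4 h5
      have h6 : ∀ i, pderiv (fun w => g i s x w) i v
          = pderiv (fun w => (G w (E₁ s x, B₁ s x)) i * f₁ s x w) i v
            - pderiv (fun w => (G w (E₂ s x, B₂ s x)) i * f₂ s x w) i v := by
        intro i
        apply pderiv_sub
        · exact diff_of (pc_v (g := fun t x v => (G v (E₁ t x, B₁ t x)) i * f₁ t x v)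
            (PC_G_mul hT.smooth s₁.inE s₁.inB s₁.pc i).1 s x) v
        · exact diff_of (pc_v (g := fun t x v => (G v (E₂ t x, B₂ t x)) i * f₂ t x v)
            (PC_G_mul hT.smooth s₂.inE s₂.inB s₂.pc i).1 s x) v
      rw [h2]
      simp only [h6, Finset.sum_sub_distrib]
      rw [div_G_mul hT.smooth hT (E₁ s x, B₁ s x) (pc_v s₁.pc.1 s x) v,
        div_G_mul hT.smooth hT (E₂ s x, B₂ s x) (pc_v s₂.pc.1 s x) v]
      unfold Gv at h4 h5
      linarith)
    (fun s x => Maxwell_sub s₁.pc s₂.pc s₁.outE s₁.outB s₂.outE s₂.outB (s₁.maxwell s x)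
      (s₂.maxwell s x))
    hr0
    (fun x => by rw [s₁.initE, s₂.initE, sub_self])
    (fun x => by rw [s₁.initB, s₂.initB, sub_self])
    hψc
    (fun s hs x v => by
      obtain ⟨a1, a2⟩ := hgb s hs x v
      refine ⟨?_, fun i => ?_⟩
      · rw [norm_iteratedFDeriv_zero]; exact a1
      · rw [norm_iteratedFDeriv_zero]; exact a2 i)
    t ht
  have hmaj := abs_integral_majorant_le hwc hw0 hc₁0 hc₂0 ht
  have hI0 : 0 ≤ |∫ s in (0:ℝ)..t, w s| := abs_nonneg _
  have hψint : CF * |∫ s in (0:ℝ)..t, ψ s|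
      ≤ max c₁ (CF * (c₁ * T + c₂ * (1 + c₁ * T))) * |∫ s in (0:ℝ)..t, w s| := by
    calc CF * |∫ s in (0:ℝ)..t, ψ s|
        ≤ CF * ((c₁ * T + c₂ * (1 + c₁ * T)) * |∫ s in (0:ℝ)..t, w s|) :=
          mul_le_mul_of_nonneg_left hmaj hCF0
      _ = (CF * (c₁ * T + c₂ * (1 + c₁ * T))) * |∫ s in (0:ℝ)..t, w s| := by ring
      _ ≤ _ := mul_le_mul_of_nonneg_right (le_max_right _ _) hI0
  rw [← hint t ht]
  refine ⟨fun x v => ?_, fun x => ?_⟩
  · exact (hfirst t ht x v).trans (mul_le_mul_of_nonneg_right (le_max_left _ _) hI0)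
  · have h1 := hFB x
    rw [norm_iteratedFDeriv_zero, norm_iteratedFDeriv_zero] at h1
    exact ⟨h1.1.trans hψint, h1.2.trans hψint⟩

end Crest.Agent.R106.IterC
end

-- ▼ part R106/TB
section

/-!
# Row 106, node TB: time-derivative bootstrap

Families `F : ι → ℝ × Y → W` of smooth functions of `(t, y)`.
* `SpB S F` : all spatial derivatives are bounded, uniformly in `i`, `t ∈ S`, `y`.
* `UB S F`  : all (mixed) derivatives are bounded, uniformly in `i`, `t ∈ S`, `y`.
* `MB j S F`: `SpB` for the first `j` time derivatives.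
-/

set_option autoImplicit false
open MeasureTheory Set
open scoped ContDiff

namespace Crest.Agent.R106.TB

variable {ι : Type*} {Y W W₁ W₂ W₃ : Type}
  [NormedAddCommGroup Y] [NormedSpace ℝ Y] [NormedAddCommGroup W] [NormedSpace ℝ W]
  [NormedAddCommGroup W₁] [NormedSpace ℝ W₁] [NormedAddCommGroup W₂] [NormedSpace ℝ W₂]
  [NormedAddCommGroup W₃] [NormedSpace ℝ W₃]

/-- All spatial derivatives bounded, uniformly. -/
def SpB (S : Set ℝ) (F : ι → ℝ × Y → W) : Prop :=
  ∀ k : ℕ, ∃ C : ℝ, ∀ i, ∀ t ∈ S, ∀ y, ‖iteratedFDeriv ℝ k (fun y => F i (t, y)) y‖ ≤ C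

/-- All derivatives bounded, uniformly. -/
def UB (S : Set ℝ) (F : ι → ℝ × Y → W) : Prop :=
  ∀ m : ℕ, ∃ C : ℝ, ∀ i, ∀ t ∈ S, ∀ y, ‖iteratedFDeriv ℝ m (F i) (t, y)‖ ≤ C

/-- Time derivative. -/
noncomputable def dt (F : ℝ × Y → W) : ℝ × Y → W := fun p => fderiv ℝ F p (1, 0)

/-- Spatial derivative. -/
noncomputable def dy (F : ℝ × Y → W) : ℝ × Y → (Y →L[ℝ] W) :=
  fun p => (fderiv ℝ F p).comp (ContinuousLinearMap.inr ℝ ℝ Y)

/-- `SpB` for the first `j` time derivatives. -/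
def MB : ℕ → (S : Set ℝ) → (F : ι → ℝ × Y → W) → Prop
  | 0, S, F => SpB S F
  | (j + 1), S, F => SpB S F ∧ MB j S (fun i => dt (F i))


theorem MB.mono_succ {j : ℕ} : ∀ {S : Set ℝ} {F : ι → ℝ × Y → W}, MB (j + 1) S F → MB j S F := by
  induction j with
  | zero => intro S F h; exact h.1
  | succ j ih => intro S F h; exact ⟨h.1, ih h.2⟩

theorem contDiff_dt {F : ℝ × Y → W} (hF : ContDiff ℝ ∞ F) : ContDiff ℝ ∞ (dt F) :=
  (hF.fderiv_right (m := ∞) (by simp)).clm_apply contDiff_const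

theorem contDiff_dy {F : ℝ × Y → W} (hF : ContDiff ℝ ∞ F) : ContDiff ℝ ∞ (dy F) :=
  (hF.fderiv_right (m := ∞) (by simp)).clm_comp contDiff_const

theorem differentiable_of {F : ℝ × Y → W} (hF : ContDiff ℝ ∞ F) : Differentiable ℝ F :=
  hF.differentiable (by simp)

theorem dt_dy {F : ℝ × Y → W} (hF : ContDiff ℝ ∞ F) : dt (dy F) = dy (dt F) := by
  funext p
  have hd : Differentiable ℝ (fderiv ℝ F) :=
    (hF.fderiv_right (m := ∞) (by simp)).differentiable (by simp)
  have hsym : IsSymmSndFDerivAt ℝ F p :=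
    (hF.contDiffAt).isSymmSndFDerivAt (by simp only [minSmoothness_of_isRCLikeNormedField]; exact WithTop.coe_le_coe.2 le_top)
  ext y
  have h1 : dt (dy F) p y = fderiv ℝ (fderiv ℝ F) p (1, 0) (0, y) := by
    unfold dt dy
    have : HasFDerivAt (fun p => (fderiv ℝ F p).comp (ContinuousLinearMap.inr ℝ ℝ Y))
        (((ContinuousLinearMap.compL ℝ Y (ℝ × Y) W).flip
          (ContinuousLinearMap.inr ℝ ℝ Y)).comp (fderiv ℝ (fderiv ℝ F) p)) p := by
      exact (((ContinuousLinearMap.compL ℝ Y (ℝ × Y) W).flip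
          (ContinuousLinearMap.inr ℝ ℝ Y)).hasFDerivAt).comp p (hd p).hasFDerivAt
    rw [this.fderiv]
    simp
  have h2 : dy (dt F) p y = fderiv ℝ (fderiv ℝ F) p (0, y) (1, 0) := by
    unfold dt dy
    have : HasFDerivAt (fun p => fderiv ℝ F p ((1 : ℝ), (0 : Y)))
        ((ContinuousLinearMap.apply ℝ W ((1 : ℝ), (0 : Y))).comp (fderiv ℝ (fderiv ℝ F) p)) p := by
      exact ((ContinuousLinearMap.apply ℝ W ((1 : ℝ), (0 : Y))).hasFDerivAt).comp p
        (hd p).hasFDerivAt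
    rw [this.fderiv]
    simp
  rw [h1, h2]
  exact hsym (1, 0) (0, y)

theorem fderiv_slice {F : ℝ × Y → W} (hF : ContDiff ℝ ∞ F) (t : ℝ) :
    fderiv ℝ (fun y => F (t, y)) = fun y => dy F (t, y) := by
  funext y
  have h1 : HasFDerivAt (fun y : Y => (t, y)) (ContinuousLinearMap.inr ℝ ℝ Y) y :=
    hasFDerivAt_prodMk_right t y
  exact ((differentiable_of hF (t, y)).hasFDerivAt.comp y h1).fderiv

theorem SpB.dy {S : Set ℝ} {F : ι → ℝ × Y → W} (hF : ∀ i, ContDiff ℝ ∞ (F i)) (h : SpB S F) :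
    SpB S (fun i => dy (F i)) := by
  intro k
  obtain ⟨C, hC⟩ := h (k + 1)
  refine ⟨C, fun i t ht y => ?_⟩
  rw [← fderiv_slice (hF i) t, norm_iteratedFDeriv_fderiv]
  exact hC i t ht y

theorem MB.dy {j : ℕ} : ∀ {S : Set ℝ} {F : ι → ℝ × Y → W}, (∀ i, ContDiff ℝ ∞ (F i)) →
    MB j S F → MB j S (fun i => dy (F i)) := by
  induction j with
  | zero => intro S F hF h; exact SpB.dy hF h
  | succ j ih =>
    intro S F hF h
    refine ⟨SpB.dy hF h.1, ?_⟩
    have h1 := ih (fun i => contDiff_dt (hF i)) h.2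
    have h2 : (fun i => TB.dt (TB.dy (F i))) = fun i => TB.dy (TB.dt (F i)) := by
      funext i; exact dt_dy (hF i)
    rw [h2]
    exact h1

theorem contDiff_slice {F : ℝ × Y → W} (hF : ContDiff ℝ ∞ F) (t : ℝ) :
    ContDiff ℝ ∞ (fun y => F (t, y)) := hF.comp (contDiff_const.prodMk contDiff_id)

/-- Products. -/
theorem SpB.bilin {S : Set ℝ} (B : W₁ →L[ℝ] W₂ →L[ℝ] W₃) {F : ι → ℝ × Y → W₁}
    {G : ι → ℝ × Y → W₂} (hF : ∀ i, ContDiff ℝ ∞ (F i)) (hG : ∀ i, ContDiff ℝ ∞ (G i))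
    (h1 : SpB S F) (h2 : SpB S G) : SpB S (fun i p => B (F i p) (G i p)) := by
  intro k
  choose C1 hC1 using h1
  choose C2 hC2 using h2
  refine ⟨‖B‖ * ∑ l ∈ Finset.range (k + 1), (k.choose l : ℝ) * C1 l * C2 (k - l),
    fun i t ht y => ?_⟩
  have hk := B.norm_iteratedFDeriv_le_of_bilinear (contDiff_slice (hF i) t)
    (contDiff_slice (hG i) t) y (n := k) (by exact_mod_cast le_top)
  refine hk.trans ?_
  have hnn : ∀ l, 0 ≤ C1 l := fun l => (norm_nonneg _).trans (hC1 l i t ht y)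
  gcongr with l hl
  · exact mul_nonneg (by positivity) (hnn l)
  · exact hC1 l i t ht y
  · exact hC2 _ i t ht y

theorem SpB.add {S : Set ℝ} {F G : ι → ℝ × Y → W} (hF : ∀ i, ContDiff ℝ ∞ (F i))
    (hG : ∀ i, ContDiff ℝ ∞ (G i)) (h1 : SpB S F) (h2 : SpB S G) :
    SpB S (fun i p => F i p + G i p) := by
  intro k
  obtain ⟨C1, hC1⟩ := h1 k
  obtain ⟨C2, hC2⟩ := h2 k
  refine ⟨C1 + C2, fun i t ht y => ?_⟩
  have e : iteratedFDeriv ℝ k (fun y => F i (t, y) + G i (t, y)) y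
      = iteratedFDeriv ℝ k (fun y => F i (t, y)) y + iteratedFDeriv ℝ k (fun y => G i (t, y)) y := by
    have := iteratedFDeriv_add_apply (𝕜 := ℝ) (i := k) (x := y)
      ((contDiff_slice (hF i) t).contDiffAt.of_le (by exact_mod_cast le_top))
      ((contDiff_slice (hG i) t).contDiffAt.of_le (by exact_mod_cast le_top))
    exact this
  rw [e]
  exact (norm_add_le _ _).trans (add_le_add (hC1 i t ht y) (hC2 i t ht y))

/-- Fixed linear maps. -/
theorem SpB.clm {S : Set ℝ} (L : W₁ →L[ℝ] W₂) {F : ι → ℝ × Y → W₁}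
    (hF : ∀ i, ContDiff ℝ ∞ (F i)) (h1 : SpB S F) : SpB S (fun i p => L (F i p)) := by
  intro k
  obtain ⟨C, hC⟩ := h1 k
  refine ⟨‖L‖ * C, fun i t ht y => ?_⟩
  have := L.norm_iteratedFDeriv_comp_left (n := k)
    ((contDiff_slice (hF i) t).contDiffAt (x := y)) (by exact_mod_cast le_top)
  refine (this).trans ?_
  gcongr
  exact hC i t ht y

theorem SpB.const {S : Set ℝ} {a : Y → W} (ha : ∀ k, ∃ C : ℝ, ∀ y, ‖iteratedFDeriv ℝ k a y‖ ≤ C) :
    SpB S (fun (_ : ι) (p : ℝ × Y) => a p.2) := by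
  intro k
  obtain ⟨C, hC⟩ := ha k
  exact ⟨C, fun i t ht y => hC y⟩

theorem SpB.zero {S : Set ℝ} : SpB S (fun (_ : ι) (_ : ℝ × Y) => (0 : W)) := by
  intro k
  refine ⟨0, fun i t ht y => ?_⟩
  rw [show (fun y : Y => (0 : W)) = 0 from rfl]
  simp

/-! ### Closure of `MB` -/

theorem dt_add {F G : ℝ × Y → W} (hF : ContDiff ℝ ∞ F) (hG : ContDiff ℝ ∞ G) :
    dt (fun p => F p + G p) = fun p => dt F p + dt G p := by
  funext p
  unfold dt
  have := ((differentiable_of hF p).hasFDerivAt.add (differentiable_of hG p).hasFDerivAt).fderiv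
  change fderiv ℝ (F + G) p (1, 0) = _
  rw [this]
  rfl

theorem dt_clm (L : W₁ →L[ℝ] W₂) {F : ℝ × Y → W₁} (hF : ContDiff ℝ ∞ F) :
    dt (fun p => L (F p)) = fun p => L (dt F p) := by
  funext p
  unfold dt
  have := (L.hasFDerivAt.comp p (differentiable_of hF p).hasFDerivAt).fderiv
  change fderiv ℝ (L ∘ F) p (1, 0) = _
  rw [this]
  rfl

theorem dt_bilin (B : W₁ →L[ℝ] W₂ →L[ℝ] W₃) {F : ℝ × Y → W₁} {G : ℝ × Y → W₂}
    (hF : ContDiff ℝ ∞ F) (hG : ContDiff ℝ ∞ G) :
    dt (fun p => B (F p) (G p)) = fun p => B (dt F p) (G p) + B (F p) (dt G p) := by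
  funext p
  unfold dt
  have := (B.hasFDerivAt_of_bilinear (differentiable_of hF p).hasFDerivAt
    (differentiable_of hG p).hasFDerivAt).fderiv
  rw [this]
  simp [add_comm]

theorem dt_const (a : Y → W) (ha : ContDiff ℝ ∞ a) :
    dt (fun p : ℝ × Y => a p.2) = fun _ => 0 := by
  funext p
  unfold dt
  have h1 : HasFDerivAt (fun p : ℝ × Y => a p.2)
      ((fderiv ℝ a p.2).comp (ContinuousLinearMap.snd ℝ ℝ Y)) p :=
    (ha.differentiable (by simp) p.2).hasFDerivAt.comp p hasFDerivAt_snd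
  rw [h1.fderiv]
  simp

theorem MB.zero {j : ℕ} {S : Set ℝ} : MB j S (fun (_ : ι) (_ : ℝ × Y) => (0 : W)) := by
  induction j with
  | zero => exact SpB.zero
  | succ j ih =>
    refine ⟨SpB.zero, ?_⟩
    have : (fun (_ : ι) => dt (fun (_ : ℝ × Y) => (0 : W))) = fun _ _ => 0 := by
      funext i p
      simp [dt]
    rw [this]
    exact ih

theorem MB.const {j : ℕ} {S : Set ℝ} {a : Y → W} (has : ContDiff ℝ ∞ a)
    (ha : ∀ k, ∃ C : ℝ, ∀ y, ‖iteratedFDeriv ℝ k a y‖ ≤ C) :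
    MB j S (fun (_ : ι) (p : ℝ × Y) => a p.2) := by
  cases j with
  | zero => exact SpB.const ha
  | succ j =>
    refine ⟨SpB.const ha, ?_⟩
    rw [show (fun (_ : ι) => dt (fun p : ℝ × Y => a p.2)) = fun _ _ => 0 from by
      funext i; exact dt_const a has]
    exact MB.zero

theorem MB.add {j : ℕ} : ∀ {S : Set ℝ} {F G : ι → ℝ × Y → W}, (∀ i, ContDiff ℝ ∞ (F i)) →
    (∀ i, ContDiff ℝ ∞ (G i)) → MB j S F → MB j S G → MB j S (fun i p => F i p + G i p) := by
  induction j with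
  | zero => intro S F G hF hG h1 h2; exact SpB.add hF hG h1 h2
  | succ j ih =>
    intro S F G hF hG h1 h2
    refine ⟨SpB.add hF hG h1.1 h2.1, ?_⟩
    rw [show (fun i => dt (fun p => F i p + G i p)) = fun i p => dt (F i) p + dt (G i) p from by
      funext i; exact dt_add (hF i) (hG i)]
    exact ih (fun i => contDiff_dt (hF i)) (fun i => contDiff_dt (hG i)) h1.2 h2.2

theorem MB.clm {j : ℕ} (L : W₁ →L[ℝ] W₂) : ∀ {S : Set ℝ} {F : ι → ℝ × Y → W₁},
    (∀ i, ContDiff ℝ ∞ (F i)) → MB j S F → MB j S (fun i p => L (F i p)) := by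
  induction j with
  | zero => intro S F hF h; exact SpB.clm L hF h
  | succ j ih =>
    intro S F hF h
    refine ⟨SpB.clm L hF h.1, ?_⟩
    rw [show (fun i => dt (fun p => L (F i p))) = fun i p => L (dt (F i) p) from by
      funext i; exact dt_clm L (hF i)]
    exact ih (fun i => contDiff_dt (hF i)) h.2

theorem contDiff_bilin (B : W₁ →L[ℝ] W₂ →L[ℝ] W₃) {F : ℝ × Y → W₁} {G : ℝ × Y → W₂}
    (hF : ContDiff ℝ ∞ F) (hG : ContDiff ℝ ∞ G) : ContDiff ℝ ∞ (fun p => B (F p) (G p)) :=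
  B.isBoundedBilinearMap.contDiff.comp (hF.prodMk hG)

theorem MB.bilin {j : ℕ} (B : W₁ →L[ℝ] W₂ →L[ℝ] W₃) : ∀ {S : Set ℝ} {F : ι → ℝ × Y → W₁}
    {G : ι → ℝ × Y → W₂}, (∀ i, ContDiff ℝ ∞ (F i)) → (∀ i, ContDiff ℝ ∞ (G i)) →
    MB j S F → MB j S G → MB j S (fun i p => B (F i p) (G i p)) := by
  induction j with
  | zero => intro S F G hF hG h1 h2; exact SpB.bilin B hF hG h1 h2
  | succ j ih =>
    intro S F G hF hG h1 h2
    refine ⟨SpB.bilin B hF hG h1.1 h2.1, ?_⟩
    rw [show (fun i => dt (fun p => B (F i p) (G i p)))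
        = fun i p => B (dt (F i) p) (G i p) + B (F i p) (dt (G i) p) from by
      funext i; exact dt_bilin B (hF i) (hG i)]
    exact MB.add (fun i => contDiff_bilin B (contDiff_dt (hF i)) (hG i))
      (fun i => contDiff_bilin B (hF i) (contDiff_dt (hG i)))
      (ih (fun i => contDiff_dt (hF i)) hG h1.2 h2.mono_succ)
      (ih hF (fun i => contDiff_dt (hG i)) h1.mono_succ h2.2)

/-- Congruence. -/
theorem MB.congr {j : ℕ} {S : Set ℝ} {F G : ι → ℝ × Y → W} (h : MB j S F)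
    (e : ∀ i p, F i p = G i p) : MB j S G := by
  have : F = G := by funext i p; exact e i p
  rwa [this] at h

/-- Reindexing. -/
theorem SpB.reindex {κ : Type*} {S : Set ℝ} {F : ι → ℝ × Y → W} (φ : κ → ι) (h : SpB S F) :
    SpB S (fun k => F (φ k)) := by
  intro k
  obtain ⟨C, hC⟩ := h k
  exact ⟨C, fun i => hC (φ i)⟩

theorem MB.reindex {κ : Type*} {j : ℕ} (φ : κ → ι) : ∀ {S : Set ℝ} {F : ι → ℝ × Y → W},
    MB j S F → MB j S (fun k => F (φ k)) := by
  induction j with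
  | zero => intro S F h; exact SpB.reindex φ h
  | succ j ih => intro S F h; exact ⟨SpB.reindex φ h.1, ih h.2⟩

/-! ### From `MB` to `UB` -/

theorem UB_of_MB_aux (m : ℕ) : ∀ {W : Type} [NormedAddCommGroup W] [NormedSpace ℝ W]
    {S : Set ℝ} {F : ι → ℝ × Y → W}, (∀ i, ContDiff ℝ ∞ (F i)) → MB m S F →
    ∃ C : ℝ, ∀ i, ∀ t ∈ S, ∀ y, ‖iteratedFDeriv ℝ m (F i) (t, y)‖ ≤ C := by
  induction m with
  | zero =>
    intro W _ _ S F hF h
    obtain ⟨C, hC⟩ := h 0
    refine ⟨C, fun i t ht y => ?_⟩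
    have := hC i t ht y
    rw [norm_iteratedFDeriv_zero] at this ⊢
    exact this
  | succ m ih =>
    intro W _ _ S F hF h
    obtain ⟨C1, hC1⟩ := ih (fun i => contDiff_dt (hF i)) h.2
    obtain ⟨C2, hC2⟩ := ih (fun i => contDiff_dy (hF i)) (MB.dy hF h.mono_succ)
    -- fderiv F p = fst ⊗ dt F + dy F ∘ snd
    let L1 : W →L[ℝ] ((ℝ × Y) →L[ℝ] W) :=
      ContinuousLinearMap.smulRightL ℝ (ℝ × Y) W (ContinuousLinearMap.fst ℝ ℝ Y)
    let L2 : (Y →L[ℝ] W) →L[ℝ] ((ℝ × Y) →L[ℝ] W) :=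
      (ContinuousLinearMap.compL ℝ (ℝ × Y) Y W).flip (ContinuousLinearMap.snd ℝ ℝ Y)
    refine ⟨‖L1‖ * C1 + ‖L2‖ * C2, fun i t ht y => ?_⟩
    have e : fderiv ℝ (F i) = (fun p => L1 (dt (F i) p)) + fun p => L2 (TB.dy (F i) p) := by
      funext p
      ext q
      · simp [L1, L2, dt, TB.dy]
        exact (fderiv ℝ (F i) p).map_zero
      · simp [L1, L2, dt, TB.dy]
    rw [← norm_iteratedFDeriv_fderiv, e]
    have hs1 : ContDiff ℝ ∞ (fun p => L1 (dt (F i) p)) := L1.contDiff.comp (contDiff_dt (hF i))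
    have hs2 : ContDiff ℝ ∞ (fun p => L2 (TB.dy (F i) p)) := L2.contDiff.comp (contDiff_dy (hF i))
    rw [iteratedFDeriv_add_apply (hs1.contDiffAt.of_le (by exact_mod_cast le_top))
      (hs2.contDiffAt.of_le (by exact_mod_cast le_top))]
    refine (norm_add_le _ _).trans (add_le_add ?_ ?_)
    · have := L1.norm_iteratedFDeriv_comp_left (n := m)
        ((contDiff_dt (hF i)).contDiffAt (x := (t, y))) (by exact_mod_cast le_top)
      refine this.trans ?_
      gcongr
      exact hC1 i t ht y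
    · have := L2.norm_iteratedFDeriv_comp_left (n := m)
        ((contDiff_dy (hF i)).contDiffAt (x := (t, y))) (by exact_mod_cast le_top)
      refine this.trans ?_
      gcongr
      exact hC2 i t ht y

theorem UB_of_MB {S : Set ℝ} {F : ι → ℝ × Y → W} (hF : ∀ i, ContDiff ℝ ∞ (F i))
    (h : ∀ j, MB j S F) : UB S F := fun m => UB_of_MB_aux m hF (h m)

end Crest.Agent.R106.TB
end

-- ▼ part R106/TBInt
section

/-!
# Row 106, node TB, part 2: momentum integrals and pull-backs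
-/

set_option autoImplicit false
open MeasureTheory Set
open scoped ContDiff

namespace Crest.Agent.R106.TB

open Crest.AnalysisR.VecCalc3

variable {ι : Type*} {W : Type} [NormedAddCommGroup W] [NormedSpace ℝ W]

/-- momentum integral -/
noncomputable def J (H : ℝ × (R3 × R3) → W) : ℝ × R3 → W := fun p => ∫ v, H (p.1, p.2, v)

/-- pull-back of a field to phase space -/
def pb (K : ℝ × R3 → W) : ℝ × (R3 × R3) → W := fun p => K (p.1, p.2.1)

/-- momentum support -/
def VS (R : ℝ) (H : ℝ × (R3 × R3) → W) : Prop := ∀ t x v, R < ‖v‖ → H (t, x, v) = 0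

theorem VS.fderiv {R : ℝ} {H : ℝ × (R3 × R3) → W} (h : VS R H) {t : ℝ} {x v : R3}
    (hv : R < ‖v‖) : fderiv ℝ H (t, x, v) = 0 := by
  have hev : H =ᶠ[nhds (t, x, v)] fun _ => 0 := by
    have hopen : IsOpen {p : ℝ × (R3 × R3) | R < ‖p.2.2‖} :=
      isOpen_lt continuous_const (continuous_snd.snd.norm)
    filter_upwards [hopen.mem_nhds (show (t, x, v) ∈ {p : ℝ × (R3 × R3) | R < ‖p.2.2‖} from hv)]
      with p hp
    exact h p.1 p.2.1 p.2.2 hp
  rw [hev.fderiv_eq]
  simp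

theorem VS.dt {R : ℝ} {H : ℝ × (R3 × R3) → W} (h : VS R H) : VS R (dt H) := by
  intro t x v hv
  unfold TB.dt
  rw [h.fderiv hv]
  rfl

theorem contDiff_J [CompleteSpace W] {R : ℝ} {H : ℝ × (R3 × R3) → W} (hH : ContDiff ℝ ∞ H)
    (h : VS R H) : ContDiff ℝ ∞ (J H) := by
  rw [← contDiffOn_univ]
  refine Src.contDiffOn_integral (μ := volume) (Y := ℝ × R3) (V := R3) (n := ⊤)
    (f := fun q v => H (q.1, q.2, v)) isOpen_univ ?_ ?_
  · exact (hH.comp (by fun_prop :
      ContDiff ℝ ∞ (fun p : (ℝ × R3) × R3 => (p.1.1, p.1.2, p.2)))).contDiffOn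
  · intro y _
    exact ⟨univ, Filter.univ_mem, R, fun y' _ v hv => h _ _ _ hv⟩

theorem dt_J [CompleteSpace W] {R : ℝ} {H : ℝ × (R3 × R3) → W} (hH : ContDiff ℝ ∞ H)
    (h : VS R H) : dt (J H) = J (dt H) := by
  funext q
  have h1 := Src.fderiv_integral_apply (μ := volume) (Y := ℝ × R3) (V := R3)
    (f := fun q v => H (q.1, q.2, v)) (U := univ) isOpen_univ
    (((hH.of_le (by exact_mod_cast le_top)).comp (by fun_prop :
      ContDiff ℝ 1 (fun p : (ℝ × R3) × R3 => (p.1.1, p.1.2, p.2)))).contDiffOn)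
    (fun y _ => ⟨univ, Filter.univ_mem, R, fun y' _ v hv => h _ _ _ hv⟩) (mem_univ q)
    ((1 : ℝ), (0 : R3))
  unfold dt J
  refine h1.trans ?_
  refine integral_congr_ae (Filter.Eventually.of_forall fun v => ?_)
  have h2 : HasFDerivAt (fun y' : ℝ × R3 => ((y'.1, y'.2, v) : ℝ × (R3 × R3)))
      ((ContinuousLinearMap.fst ℝ ℝ R3).prod
        ((ContinuousLinearMap.snd ℝ ℝ R3).prod (0 : (ℝ × R3) →L[ℝ] R3))) q :=
    hasFDerivAt_fst.prodMk (hasFDerivAt_snd.prodMk (hasFDerivAt_const v q))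
  have h3 := (HasFDerivAt.comp q (differentiable_of hH (q.1, q.2, v)).hasFDerivAt h2).fderiv
  change fderiv ℝ (H ∘ fun y' : ℝ × R3 => ((y'.1, y'.2, v) : ℝ × (R3 × R3))) q (1, 0) = _
  rw [h3]
  rfl

theorem norm_iteratedFDeriv_int (k : ℕ) : ∀ {W : Type} [NormedAddCommGroup W] [NormedSpace ℝ W]
    [CompleteSpace W] {R C : ℝ} {g : R3 × R3 → W}, ContDiff ℝ ∞ g →
    (∀ x v, R < ‖v‖ → g (x, v) = 0) → (∀ z, ‖iteratedFDeriv ℝ k g z‖ ≤ C) →
    ∀ x, ‖iteratedFDeriv ℝ k (fun x => ∫ v, g (x, v)) x‖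
      ≤ C * (volume (Metric.closedBall (0 : R3) R)).toReal := by
  induction k with
  | zero =>
    intro W _ _ _ R C g hg hs hC x
    rw [norm_iteratedFDeriv_zero]
    have e : ∫ v, g (x, v) = ∫ v in Metric.closedBall (0 : R3) R, g (x, v) := by
      rw [setIntegral_eq_integral_of_forall_compl_eq_zero]
      intro v hv
      exact hs x v (by simpa using hv)
    rw [e]
    refine norm_setIntegral_le_of_norm_le_const (isCompact_closedBall (0 : R3) R).measure_lt_top ?_
    intro v _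
    have := hC (x, v)
    rwa [norm_iteratedFDeriv_zero] at this
  | succ k ih =>
    intro W _ _ _ R C g hg hs hC x
    set g' : R3 × R3 → (R3 →L[ℝ] W) :=
      fun z => (fderiv ℝ g z).comp (ContinuousLinearMap.inl ℝ R3 R3) with hg'
    have hg's : ContDiff ℝ ∞ g' := (hg.fderiv_right (m := ∞) (by simp)).clm_comp contDiff_const
    have hf0 : ∀ x v, R < ‖v‖ → fderiv ℝ g (x, v) = 0 := by
      intro x v hv
      have hev : g =ᶠ[nhds (x, v)] fun _ => 0 := by
        have hopen : IsOpen {p : R3 × R3 | R < ‖p.2‖} :=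
          isOpen_lt continuous_const (continuous_snd.norm)
        filter_upwards [hopen.mem_nhds (show (x, v) ∈ {p : R3 × R3 | R < ‖p.2‖} from hv)]
          with p hp
        exact hs p.1 p.2 hp
      rw [hev.fderiv_eq]
      simp
    have hg'0 : ∀ x v, R < ‖v‖ → g' (x, v) = 0 := by
      intro x v hv
      simp only [hg', hf0 x v hv, ContinuousLinearMap.zero_comp]
    have hfd : fderiv ℝ (fun x => ∫ v, g (x, v)) = fun x => ∫ v, g' (x, v) := by
      funext x
      have h1 := (Src.hasFDerivAt_integral (μ := volume) (Y := R3) (V := R3)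
        (f := fun q v => g (q, v)) (U := univ) isOpen_univ
        ((hg.of_le (by exact_mod_cast le_top)).contDiffOn)
        (fun y _ => ⟨univ, Filter.univ_mem, R, fun y' _ v hv => hs _ _ hv⟩) (mem_univ x)).fderiv
      rw [h1]
      refine integral_congr_ae (Filter.Eventually.of_forall fun v => ?_)
      exact Src.dpar_eq (f := fun q v => g (q, v)) (U := univ) isOpen_univ
        ((hg.of_le (by exact_mod_cast le_top)).contDiffOn) (mem_univ x) v
    rw [← norm_iteratedFDeriv_fderiv, hfd]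
    refine ih hg's hg'0 ?_ x
    intro z
    have hL := ((ContinuousLinearMap.compL ℝ R3 (R3 × R3) W).flip
      (ContinuousLinearMap.inl ℝ R3 R3)).norm_iteratedFDeriv_comp_left (n := k)
      (((hg.fderiv_right (m := ∞) (by simp))).contDiffAt (x := z)) (by exact_mod_cast le_top)
    have hn : ‖(ContinuousLinearMap.compL ℝ R3 (R3 × R3) W).flip
        (ContinuousLinearMap.inl ℝ R3 R3)‖ ≤ 1 := by
      refine ContinuousLinearMap.opNorm_le_bound _ zero_le_one (fun L => ?_)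
      simp only [ContinuousLinearMap.flip_apply, ContinuousLinearMap.compL_apply, one_mul]
      refine (ContinuousLinearMap.opNorm_comp_le _ _).trans ?_
      calc ‖L‖ * ‖ContinuousLinearMap.inl ℝ R3 R3‖ ≤ ‖L‖ * 1 := by
            gcongr
            exact ContinuousLinearMap.norm_inl_le_one ℝ R3 R3
        _ = ‖L‖ := mul_one _
    calc ‖iteratedFDeriv ℝ k g' z‖ ≤ _ := hL
      _ ≤ 1 * ‖iteratedFDeriv ℝ k (_root_.fderiv ℝ g) z‖ := by gcongr
      _ = ‖iteratedFDeriv ℝ (k + 1) g z‖ := by rw [one_mul, norm_iteratedFDeriv_fderiv]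
      _ ≤ C := hC z

theorem SpB.J [CompleteSpace W] {S : Set ℝ} {R : ℝ} {H : ι → ℝ × (R3 × R3) → W}
    (hH : ∀ i, ContDiff ℝ ∞ (H i)) (hs : ∀ i, VS R (H i)) (h : SpB S H) :
    SpB S (fun i => J (H i)) := by
  intro k
  obtain ⟨C, hC⟩ := h k
  refine ⟨C * (volume (Metric.closedBall (0 : R3) R)).toReal, fun i t ht x => ?_⟩
  exact norm_iteratedFDeriv_int k (g := fun z => H i (t, z)) (contDiff_slice (hH i) t)
    (fun x v hv => hs i t x v hv) (fun z => hC i t ht z) x

theorem MB.J [CompleteSpace W] {j : ℕ} {R : ℝ} : ∀ {S : Set ℝ} {H : ι → ℝ × (R3 × R3) → W},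
    (∀ i, ContDiff ℝ ∞ (H i)) → (∀ i, VS R (H i)) → MB j S H → MB j S (fun i => TB.J (H i)) := by
  induction j with
  | zero => intro S H hH hs h; exact SpB.J hH hs h
  | succ j ih =>
    intro S H hH hs h
    refine ⟨SpB.J hH hs h.1, ?_⟩
    rw [show (fun i => TB.dt (TB.J (H i))) = fun i => TB.J (TB.dt (H i)) from by
      funext i; exact dt_J (hH i) (hs i)]
    exact ih (fun i => contDiff_dt (hH i)) (fun i => (hs i).dt) h.2

theorem contDiff_pb {K : ℝ × R3 → W} (hK : ContDiff ℝ ∞ K) : ContDiff ℝ ∞ (pb K) :=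
  hK.comp (by fun_prop : ContDiff ℝ ∞ (fun p : ℝ × (R3 × R3) => (p.1, p.2.1)))

theorem dt_pb {K : ℝ × R3 → W} (hK : ContDiff ℝ ∞ K) : dt (pb K) = pb (dt K) := by
  funext p
  have h2 : HasFDerivAt (fun p : ℝ × (R3 × R3) => ((p.1, p.2.1) : ℝ × R3))
      ((ContinuousLinearMap.fst ℝ ℝ (R3 × R3)).prod
        ((ContinuousLinearMap.fst ℝ R3 R3).comp (ContinuousLinearMap.snd ℝ ℝ (R3 × R3)))) p :=
    hasFDerivAt_fst.prodMk (hasFDerivAt_fst.comp p hasFDerivAt_snd)
  have h3 := (HasFDerivAt.comp p (differentiable_of hK (p.1, p.2.1)).hasFDerivAt h2).fderiv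
  unfold dt pb
  change fderiv ℝ (K ∘ fun p : ℝ × (R3 × R3) => ((p.1, p.2.1) : ℝ × R3)) p (1, 0) = _
  rw [h3]
  rfl

theorem SpB.pb {S : Set ℝ} {K : ι → ℝ × R3 → W} (hK : ∀ i, ContDiff ℝ ∞ (K i)) (h : SpB S K) :
    SpB S (fun i => TB.pb (K i)) := by
  intro k
  obtain ⟨C, hC⟩ := h k
  refine ⟨C, fun i t ht z => ?_⟩
  have h1 : (fun z : R3 × R3 => TB.pb (K i) (t, z))
      = (fun x => K i (t, x)) ∘ (ContinuousLinearMap.fst ℝ R3 R3) := by
    funext z; rfl
  have h2 := (ContinuousLinearMap.fst ℝ R3 R3).iteratedFDeriv_comp_right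
    (contDiff_slice (hK i) t) z (i := k) (by exact_mod_cast le_top)
  rw [h1, h2]
  refine (ContinuousMultilinearMap.norm_compContinuousLinearMap_le _ _).trans ?_
  have h5 : ∏ _i : Fin k, ‖(ContinuousLinearMap.fst ℝ R3 R3)‖ ≤ 1 :=
    Finset.prod_le_one (fun _ _ => norm_nonneg _)
      (fun _ _ => ContinuousLinearMap.norm_fst_le ℝ R3 R3)
  calc _ ≤ C * 1 := by
        refine mul_le_mul (hC i t ht z.1) h5 (Finset.prod_nonneg fun _ _ => norm_nonneg _) ?_
        exact (norm_nonneg _).trans (hC i t ht z.1)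
    _ = C := mul_one _

theorem MB.pb {j : ℕ} : ∀ {S : Set ℝ} {K : ι → ℝ × R3 → W}, (∀ i, ContDiff ℝ ∞ (K i)) →
    MB j S K → MB j S (fun i => TB.pb (K i)) := by
  induction j with
  | zero => intro S K hK h; exact SpB.pb hK h
  | succ j ih =>
    intro S K hK h
    refine ⟨SpB.pb hK h.1, ?_⟩
    rw [show (fun i => TB.dt (TB.pb (K i))) = fun i => TB.pb (TB.dt (K i)) from by
      funext i; exact dt_pb (hK i)]
    exact ih (fun i => contDiff_dt (hK i)) h.2

end Crest.Agent.R106.TB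
end

-- ▼ part R106/TBTop

/-!
# Row 106, node TB: `theorem tb : Std.TB`
-/

set_option autoImplicit false
open MeasureTheory Set
open scoped ContDiff

namespace Crest.Agent.R106.TB

open Crest.AnalysisR.VecCalc3 Crest.AnalysisR.PDE.RVM Crest.Agent.R106.Std

variable {ι : Type*} {W : Type} [NormedAddCommGroup W] [NormedSpace ℝ W]

theorem MB.of_succ {Y : Type} [NormedAddCommGroup Y] [NormedSpace ℝ Y] {j : ℕ} :
    ∀ {S : Set ℝ} {F : ℕ → ℝ × Y → W}, MB j S (fun n => F (n + 1)) → F 0 = (fun _ => 0) →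
    MB j S F := by
  have key : ∀ {S : Set ℝ} {F : ℕ → ℝ × Y → W}, SpB S (fun n => F (n + 1)) → F 0 = (fun _ => 0) →
      SpB S F := by
    intro S F h h0 k
    obtain ⟨C, hC⟩ := h k
    refine ⟨max C 0, fun n t ht y => ?_⟩
    cases n with
    | zero =>
      rw [h0]
      rw [show (fun y : Y => (fun _ => (0 : W)) ((t, y) : ℝ × Y)) = (0 : Y → W) from rfl]
      simp
    | succ n => exact (hC n t ht y).trans (le_max_left _ _)
  induction j with
  | zero => intro S F h h0; exact key h h0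
  | succ j ih =>
    intro S F h h0
    refine ⟨key h.1 h0, ih h.2 ?_⟩
    rw [h0]
    funext p
    simp [dt]

/-- A compactly supported smooth function has bounded derivatives. -/
theorem bdd_of_support {V : Type} [NormedAddCommGroup V] [NormedSpace ℝ V] [FiniteDimensional ℝ V]
    {a : V → W} (ha : ContDiff ℝ ∞ a) {R : ℝ} (hs : ∀ v, R < ‖v‖ → a v = 0) (k : ℕ) :
    ∃ C : ℝ, ∀ v, ‖iteratedFDeriv ℝ k a v‖ ≤ C := by
  have hp : ProperSpace V := FiniteDimensional.proper ℝ V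
  have hc : HasCompactSupport a :=
    HasCompactSupport.intro (isCompact_closedBall (0 : V) R) (fun v hv => hs v (by simpa using hv))
  have hc' : HasCompactSupport (iteratedFDeriv ℝ k a) := hc.iteratedFDeriv k
  obtain ⟨C, hC⟩ := (ha.continuous_iteratedFDeriv (m := k) (by exact_mod_cast le_top)).bounded_above_of_compact_support hc'
  exact ⟨C, hC⟩

/-- the curl as a linear map of the derivative -/
noncomputable def curlL : (R3 →L[ℝ] R3) →ₗ[ℝ] R3 where
  toFun L := WithLp.toLp 2 ![L (EuclideanSpace.single 1 1) 2 - L (EuclideanSpace.single 2 1) 1,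
    L (EuclideanSpace.single 2 1) 0 - L (EuclideanSpace.single 0 1) 2,
    L (EuclideanSpace.single 0 1) 1 - L (EuclideanSpace.single 1 1) 0]
  map_add' L M := by
    ext i
    fin_cases i <;> simp <;> ring
  map_smul' c L := by
    ext i
    fin_cases i <;> simp <;> ring

theorem curl3_eq {E : ℝ → R3 → R3} (hE : ContDiff ℝ ∞ (fun p : ℝ × R3 => E p.1 p.2)) (t : ℝ)
    (x : R3) : curl3 (E t) x = curlL (dy (fun p : ℝ × R3 => E p.1 p.2) (t, x)) := by
  have hd : DifferentiableAt ℝ (E t) x :=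
    (contDiff_slice hE t).differentiable (by simp) x
  have h1 : fderiv ℝ (E t) x = dy (fun p : ℝ × R3 => E p.1 p.2) (t, x) :=
    congrFun (fderiv_slice hE t) x
  have h2 : ∀ i k : Fin 3, pderiv (fun y => E t y i) k x
      = dy (fun p : ℝ × R3 => E p.1 p.2) (t, x) (EuclideanSpace.single k 1) i := by
    intro i k
    unfold pderiv
    rw [← h1]
    have h3 : HasFDerivAt (fun y => E t y i)
        ((EuclideanSpace.proj i : R3 →L[ℝ] ℝ).comp (fderiv ℝ (E t) x)) x :=
      (EuclideanSpace.proj i : R3 →L[ℝ] ℝ).hasFDerivAt.comp x hd.hasFDerivAt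
    rw [h3.fderiv]
    rfl
  unfold curl3 curlL
  simp only [h2]
  rfl

theorem deriv_eq_dt {Y : Type} [NormedAddCommGroup Y] [NormedSpace ℝ Y] {F : ℝ × Y → W}
    (hF : ContDiff ℝ ∞ F) (t : ℝ) (y : Y) : deriv (fun s => F (s, y)) t = dt F (t, y) := by
  have h2 : HasDerivAt (fun s : ℝ => ((s, y) : ℝ × Y)) (1, 0) t :=
    (hasDerivAt_id t).prodMk (hasDerivAt_const t y)
  exact ((differentiable_of hF (t, y)).hasFDerivAt.comp_hasDerivAt t h2).deriv

theorem deriv_coord_eq {E : ℝ → R3 → R3} (hE : ContDiff ℝ ∞ (fun p : ℝ × R3 => E p.1 p.2)) (t : ℝ)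
    (x : R3) (i : Fin 3) :
    deriv (fun s => E s x i) t = dt (fun p : ℝ × R3 => E p.1 p.2) (t, x) i := by
  have h2 : HasDerivAt (fun s : ℝ => ((s, x) : ℝ × R3)) (1, 0) t :=
    (hasDerivAt_id t).prodMk (hasDerivAt_const t x)
  have h3 := (differentiable_of hE (t, x)).hasFDerivAt.comp_hasDerivAt t h2
  have h4 := ((EuclideanSpace.proj i : R3 →L[ℝ] ℝ).hasFDerivAt).comp_hasDerivAt t h3
  exact h4.deriv

/-- the transport equation in terms of `dt`, `dy` -/
theorem trans_eq {G : R3 → (R3 × R3) →L[ℝ] R3} {E B : ℝ → R3 → R3} {f : ℝ → R3 → R3 → ℝ}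
    (hf : ContDiff ℝ ∞ (fun p : ℝ × (R3 × R3) => f p.1 p.2.1 p.2.2)) {t : ℝ} {x v : R3}
    (h : TransEq G E B f t x v) :
    dt (fun p : ℝ × (R3 × R3) => f p.1 p.2.1 p.2.2) (t, x, v)
      = - dy (fun p : ℝ × (R3 × R3) => f p.1 p.2.1 p.2.2) (t, x, v)
          (relVel v, G v (E t x, B t x)) := by
  set F : ℝ × (R3 × R3) → ℝ := fun p => f p.1 p.2.1 p.2.2 with hF
  have hd : HasFDerivAt (fun z : R3 × R3 => F (t, z)) (dy F (t, x, v)) (x, v) := by
    have h1 := (contDiff_slice hf t).differentiable (by simp) (x, v)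
    have h2 := h1.hasFDerivAt
    rw [fderiv_slice hf t] at h2
    exact h2
  have hx : ∀ i, pderiv (fun y => f t y v) i x = dy F (t, x, v) (EuclideanSpace.single i 1, 0) := by
    intro i
    unfold pderiv
    have h1 : HasFDerivAt (fun y : R3 => ((y, v) : R3 × R3)) (ContinuousLinearMap.inl ℝ R3 R3) x :=
      hasFDerivAt_prodMk_left x v
    have h2 : HasFDerivAt (fun y : R3 => f t y v)
      ((dy F (t, x, v)).comp (ContinuousLinearMap.inl ℝ R3 R3)) x :=
      HasFDerivAt.comp (g := fun z : R3 × R3 => F (t, z)) x hd h1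
    rw [h2.fderiv]
    rfl
  have hv : ∀ i, pderiv (fun w => f t x w) i v = dy F (t, x, v) (0, EuclideanSpace.single i 1) := by
    intro i
    unfold pderiv
    have h1 : HasFDerivAt (fun w : R3 => ((x, w) : R3 × R3)) (ContinuousLinearMap.inr ℝ R3 R3) v :=
      hasFDerivAt_prodMk_right x v
    have h2 : HasFDerivAt (fun w : R3 => f t x w)
      ((dy F (t, x, v)).comp (ContinuousLinearMap.inr ℝ R3 R3)) v :=
      HasFDerivAt.comp (g := fun z : R3 × R3 => F (t, z)) v hd h1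
    rw [h2.fderiv]
    rfl
  have hdec : ∀ w : R3, w = ∑ i : Fin 3, w i • (EuclideanSpace.single i (1 : ℝ) : R3) := by
    intro w
    ext k
    fin_cases k <;> simp [Fin.sum_univ_three]
  unfold TransEq Tfree Gv at h
  have ht : deriv (fun s => f s x v) t = dt F (t, x, v) := deriv_eq_dt hf t (x, v)
  rw [ht] at h
  simp only [hx, hv] at h
  have e1 : ∀ w : R3, dy F (t, x, v) (w, 0)
      = ∑ i : Fin 3, w i * dy F (t, x, v) (EuclideanSpace.single i 1, 0) := by
    intro w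
    have : ((w, 0) : R3 × R3) = ∑ i : Fin 3, w i • ((EuclideanSpace.single i (1 : ℝ), 0) : R3 × R3) := by
      ext k
      · conv_lhs => rw [hdec w]
        simp [Prod.fst_sum]
      · simp [Prod.snd_sum]
    rw [this, map_sum]
    simp only [map_smul, smul_eq_mul]
  have e2 : ∀ w : R3, dy F (t, x, v) (0, w)
      = ∑ i : Fin 3, w i * dy F (t, x, v) (0, EuclideanSpace.single i 1) := by
    intro w
    have : ((0, w) : R3 × R3) = ∑ i : Fin 3, w i • ((0, EuclideanSpace.single i (1 : ℝ)) : R3 × R3) := by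
      ext k
      · simp [Prod.fst_sum]
      · conv_lhs => rw [hdec w]
        simp [Prod.snd_sum]
    rw [this, map_sum]
    simp only [map_smul, smul_eq_mul]
  have e3 : ((relVel v, G v (E t x, B t x)) : R3 × R3)
      = (relVel v, 0) + (0, G v (E t x, B t x)) := by simp
  rw [e3, map_add, e1, e2]
  linarith

theorem bdd_snd {a : R3 → W} (ha : ContDiff ℝ ∞ a)
    (hb : ∀ k, ∃ C : ℝ, ∀ v, ‖iteratedFDeriv ℝ k a v‖ ≤ C) (k : ℕ) :
    ∃ C : ℝ, ∀ z : R3 × R3, ‖iteratedFDeriv ℝ k (fun z : R3 × R3 => a z.2) z‖ ≤ C := by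
  obtain ⟨C, hC⟩ := hb k
  refine ⟨C, fun z => ?_⟩
  have h2 := (ContinuousLinearMap.snd ℝ R3 R3).iteratedFDeriv_comp_right
    ha z (i := k) (by exact_mod_cast le_top)
  have h1 : (fun z : R3 × R3 => a z.2) = a ∘ (ContinuousLinearMap.snd ℝ R3 R3) := rfl
  rw [h1, h2]
  refine (ContinuousMultilinearMap.norm_compContinuousLinearMap_le _ _).trans ?_
  have h5 : ∏ _i : Fin k, ‖(ContinuousLinearMap.snd ℝ R3 R3)‖ ≤ 1 :=
    Finset.prod_le_one (fun _ _ => norm_nonneg _)
      (fun _ _ => ContinuousLinearMap.norm_snd_le ℝ R3 R3)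
  calc _ ≤ C * 1 := by
        refine mul_le_mul (hC z.2) h5 (Finset.prod_nonneg fun _ _ => norm_nonneg _) ?_
        exact (norm_nonneg _).trans (hC z.2)
    _ = C := mul_one _

theorem tb : Std.TB := by
  intro P G hG f₀ E₀ B₀ hadm E B f hseq hbd T
  -- momentum support
  obtain ⟨R, hR2P, hRf⟩ : ∃ R : ℝ, 2 * P ≤ R ∧ ∀ x v : R3, R < ‖v‖ → f₀ x v = 0 := by
    obtain ⟨M, hM⟩ := (hadm.2.2.1.isCompact.isBounded.subset_closedBall (0 : R3 × R3))
    refine ⟨max (2 * P) M, le_max_left _ _, fun x v hv => ?_⟩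
    by_contra hne
    have h1 : (x, v) ∈ tsupport (Function.uncurry f₀) := subset_tsupport _ hne
    have h2 := hM h1
    rw [mem_closedBall_zero_iff] at h2
    have h3 : ‖v‖ ≤ ‖((x, v) : R3 × R3)‖ := norm_snd_le (x, v)
    have h4 := (le_max_right (2 * P) M).trans_lt hv
    linarith
  have hRpos : 0 < R := lt_of_lt_of_le (by linarith [hG.pos]) hR2P
  set S : Set ℝ := {t | |t| ≤ T} with hS
  let F : ℕ → ℝ × (R3 × R3) → ℝ := fun n p => f n p.1 p.2.1 p.2.2
  let Eh : ℕ → ℝ × R3 → R3 := fun n p => E n p.1 p.2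
  let Bh : ℕ → ℝ × R3 → R3 := fun n p => B n p.1 p.2
  have hF : ∀ n, ContDiff ℝ ∞ (F n) := fun n => (hseq.step n).pc.1
  have hE : ∀ n, ContDiff ℝ ∞ (Eh n) := fun n => (hseq.step n).inE.1
  have hB : ∀ n, ContDiff ℝ ∞ (Bh n) := fun n => (hseq.step n).inB.1
  have hVS : ∀ n, VS R (F n) := fun n t x v hv => (hseq.step n).suppv R hR2P hRf t x v hv
  -- spatial bounds
  have hFS : SpB S F := by
    intro k
    obtain ⟨C, hC⟩ := hbd T k
    exact ⟨C, fun n t ht z => (hC n t ht).2 z⟩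
  have hES : SpB S Eh := by
    intro k
    obtain ⟨C, hC⟩ := hbd T k
    exact ⟨C, fun n t ht x => ((hC n t ht).1 x).1⟩
  have hBS : SpB S Bh := by
    intro k
    obtain ⟨C, hC⟩ := hbd T k
    exact ⟨C, fun n t ht x => ((hC n t ht).1 x).2⟩
  -- cut-off velocity
  let χ : ContDiffBump (0 : R3) := ⟨R + 1, R + 2, by linarith, by linarith⟩
  let ut : R3 → R3 := fun v => χ v • relVel v
  have hut : ContDiff ℝ ∞ ut := χ.contDiff.smul Src.contDiff_relVel
  have hut0 : ∀ v, R + 2 < ‖v‖ → ut v = 0 := by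
    intro v hv
    have : χ v = 0 := χ.zero_of_le_dist (by simpa using hv.le)
    simp only [ut, this, zero_smul]
  have hut1 : ∀ v, ‖v‖ ≤ R → ut v = relVel v := by
    intro v hv
    have : χ v = 1 := χ.one_of_mem_closedBall (by
      rw [mem_closedBall_zero_iff]
      change ‖v‖ ≤ R + 1
      linarith)
    simp only [ut, this, one_smul]
  have hutb := bdd_of_support hut hut0
  have hGb : ∀ k, ∃ C : ℝ, ∀ v, ‖iteratedFDeriv ℝ k G v‖ ≤ C :=
    bdd_of_support hG.smooth (R := 2 * P) (fun v hv => hG.supp v hv.le)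
  -- constant families
  have hcu : ∀ j, MB j S (fun (_ : ℕ) (p : ℝ × (R3 × R3)) => ut p.2.2) := fun j =>
    MB.const (a := fun z : R3 × R3 => ut z.2) (hut.comp contDiff_snd) (bdd_snd hut hutb)
  have hcG : ∀ j, MB j S (fun (_ : ℕ) (p : ℝ × (R3 × R3)) => G p.2.2) := fun j =>
    MB.const (a := fun z : R3 × R3 => G z.2) (hG.smooth.comp contDiff_snd) (bdd_snd hG.smooth hGb)
  have hscu : ∀ _ : ℕ, ContDiff ℝ ∞ (fun (p : ℝ × (R3 × R3)) => ut p.2.2) := fun _ =>
    hut.comp (by fun_prop : ContDiff ℝ ∞ (fun p : ℝ × (R3 × R3) => p.2.2))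
  have hscG : ∀ _ : ℕ, ContDiff ℝ ∞ (fun (p : ℝ × (R3 × R3)) => G p.2.2) := fun _ =>
    hG.smooth.comp (by fun_prop : ContDiff ℝ ∞ (fun p : ℝ × (R3 × R3) => p.2.2))
  -- equations
  have heF : ∀ n p, dt (F n) p = - (dy (F n) p) (ut p.2.2, G p.2.2 (Eh n (p.1, p.2.1), Bh n (p.1, p.2.1))) := by
    rintro n ⟨t, x, v⟩
    have h1 := trans_eq (hF n) ((hseq.step n).trans t x v)
    rcases le_or_gt ‖v‖ R with hv | hv
    · rw [hut1 v hv]
      exact h1
    · have h2 : dy (F n) (t, x, v) = 0 := by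
        unfold dy
        rw [(hVS n).fderiv hv, ContinuousLinearMap.zero_comp]
      have h3 : dt (F n) (t, x, v) = 0 := by
        unfold dt
        rw [(hVS n).fderiv hv]
        rfl
      rw [h3, h2]
      simp
  let cL : (R3 →L[ℝ] R3) →L[ℝ] R3 := LinearMap.toContinuousLinearMap curlL
  let H : ℕ → ℝ × (R3 × R3) → R3 := fun n p => F n p • ut p.2.2
  have hHs : ∀ n, ContDiff ℝ ∞ (H n) := fun n => (hF n).smul (hscu n)
  have hHV : ∀ n, VS R (H n) := fun n t x v hv => by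
    simp only [H, hVS n t x v hv, zero_smul]
  have hcur : ∀ n t x, currentDensity (f n) t x = J (H n) (t, x) := by
    intro n t x
    unfold currentDensity J
    refine integral_congr_ae (Filter.Eventually.of_forall fun v => ?_)
    change f n t x v • relVel v = f n t x v • ut v
    rcases le_or_gt ‖v‖ R with hv | hv
    · rw [hut1 v hv]
    · have : f n t x v = 0 := hVS n t x v hv
      rw [this, zero_smul, zero_smul]
  have heE : ∀ n p, dt (Eh (n + 1)) p = cL (dy (Bh (n + 1)) p) + - J (H n) p := by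
    rintro n ⟨t, x⟩
    ext i
    have h1 := ((hseq.step n).maxwell t x).1 i
    rw [deriv_coord_eq (hE (n + 1)), curl3_eq (hB (n + 1)), hcur n t x] at h1
    change dt (Eh (n + 1)) (t, x) i - cL (dy (Bh (n + 1)) (t, x)) i = - J (H n) (t, x) i at h1
    rw [PiLp.add_apply, PiLp.neg_apply]
    linarith
  have heB : ∀ n p, dt (Bh (n + 1)) p = - cL (dy (Eh (n + 1)) p) := by
    rintro n ⟨t, x⟩
    ext i
    have h1 := ((hseq.step n).maxwell t x).2.1 i
    rw [deriv_coord_eq (hB (n + 1)), curl3_eq (hE (n + 1))] at h1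
    change dt (Bh (n + 1)) (t, x) i + cL (dy (Eh (n + 1)) (t, x)) i = 0 at h1
    rw [PiLp.neg_apply]
    linarith
  have hE00 : Eh 0 = fun _ => 0 := by
    funext p
    exact hseq.E0 p.1 p.2
  have hB00 : Bh 0 = fun _ => 0 := by
    funext p
    exact hseq.B0 p.1 p.2
  -- induction
  have key : ∀ j, MB j S F ∧ MB j S Eh ∧ MB j S Bh := by
    intro j
    induction j with
    | zero => exact ⟨hFS, hES, hBS⟩
    | succ j ih =>
      obtain ⟨iF, iE, iB⟩ := ih
      refine ⟨⟨hFS, ?_⟩, ⟨hES, ?_⟩, ⟨hBS, ?_⟩⟩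
      · -- dt F
        have k1 : MB j S (fun n p => (ContinuousLinearMap.inl ℝ R3 R3) (Eh n p)
            + (ContinuousLinearMap.inr ℝ R3 R3) (Bh n p)) :=
          MB.add (fun n => (ContinuousLinearMap.contDiff _).comp (hE n))
            (fun n => (ContinuousLinearMap.contDiff _).comp (hB n))
            (MB.clm _ hE iE) (MB.clm _ hB iB)
        have k1s : ∀ n, ContDiff ℝ ∞ (fun p => (ContinuousLinearMap.inl ℝ R3 R3) (Eh n p)
            + (ContinuousLinearMap.inr ℝ R3 R3) (Bh n p)) := fun n =>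
          ((ContinuousLinearMap.contDiff _).comp (hE n)).add
            ((ContinuousLinearMap.contDiff _).comp (hB n))
        have k2 := MB.pb k1s k1
        have k3 := MB.bilin (ContinuousLinearMap.id ℝ ((R3 × R3) →L[ℝ] R3)) hscG
          (fun n => contDiff_pb (k1s n)) (hcG j) k2
        have k3s : ∀ n : ℕ, ContDiff ℝ ∞ (fun p : ℝ × (R3 × R3) =>
            (ContinuousLinearMap.id ℝ ((R3 × R3) →L[ℝ] R3)) (G p.2.2)
              (TB.pb (fun p => (ContinuousLinearMap.inl ℝ R3 R3) (Eh n p)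
            + (ContinuousLinearMap.inr ℝ R3 R3) (Bh n p)) p)) := fun n =>
          contDiff_bilin _ (hscG n) (contDiff_pb (k1s n))
        have k4 := MB.add (fun n => (ContinuousLinearMap.contDiff _).comp (hscu n))
          (fun n => (ContinuousLinearMap.contDiff _).comp (k3s n))
          (MB.clm (ContinuousLinearMap.inl ℝ R3 R3) hscu (hcu j))
          (MB.clm (ContinuousLinearMap.inr ℝ R3 R3) k3s k3)
        have k4s : ∀ n : ℕ, ContDiff ℝ ∞ (fun p : ℝ × (R3 × R3) =>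
            (ContinuousLinearMap.inl ℝ R3 R3) (ut p.2.2) + (ContinuousLinearMap.inr ℝ R3 R3)
            ((ContinuousLinearMap.id ℝ ((R3 × R3) →L[ℝ] R3)) (G p.2.2)
              (TB.pb (fun p => (ContinuousLinearMap.inl ℝ R3 R3) (Eh n p)
            + (ContinuousLinearMap.inr ℝ R3 R3) (Bh n p)) p))) := fun n =>
          ((ContinuousLinearMap.contDiff _).comp (hscu n)).add
            ((ContinuousLinearMap.contDiff _).comp (k3s n))
        have k5 := MB.bilin (ContinuousLinearMap.id ℝ ((R3 × R3) →L[ℝ] ℝ))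
          (fun n => contDiff_dy (hF n)) k4s (MB.dy hF iF) k4
        have k6 := MB.clm (-(ContinuousLinearMap.id ℝ ℝ))
          (fun n => contDiff_bilin _ (contDiff_dy (hF n)) (k4s n)) k5
        refine k6.congr ?_
        intro n p
        rw [heF n p]
        simp only [neg_apply, ContinuousLinearMap.id_apply, TB.pb,
          ContinuousLinearMap.inl_apply, ContinuousLinearMap.inr_apply, Prod.mk_add_mk, add_zero,
          zero_add]
      · -- dt E
        refine MB.of_succ ?_ ?_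
        · have j1 : MB j S H := by
            have := MB.bilin (ContinuousLinearMap.lsmul ℝ ℝ : ℝ →L[ℝ] R3 →L[ℝ] R3) hF hscu iF (hcu j)
            exact this.congr (fun n p => rfl)
          have j2 := MB.J hHs hHV j1
          have j3 := MB.clm (-(ContinuousLinearMap.id ℝ R3)) (fun n => contDiff_J (hHs n) (hHV n)) j2
          have j4 : MB j S (fun n => dy (Bh (n + 1))) :=
            (MB.dy hB iB).reindex (fun n : ℕ => n + 1)
          have j5 := MB.clm cL (fun n : ℕ => contDiff_dy (hB (n + 1))) j4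
          have j6 := MB.add (fun n : ℕ => cL.contDiff.comp (contDiff_dy (hB (n + 1))))
            (fun n => (ContinuousLinearMap.contDiff _).comp (contDiff_J (hHs n) (hHV n))) j5 j3
          refine j6.congr ?_
          intro n p
          rw [heE n p]
          rfl
        · rw [hE00]
          funext p
          simp [dt]
      · refine MB.of_succ ?_ ?_
        · have j4 : MB j S (fun n => dy (Eh (n + 1))) :=
            (MB.dy hE iE).reindex (fun n : ℕ => n + 1)
          have j5 := MB.clm (-cL) (fun n : ℕ => contDiff_dy (hE (n + 1))) j4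
          refine j5.congr ?_
          intro n p
          rw [heB n p]
          rfl
        · rw [hB00]
          funext p
          simp [dt]
  intro k
  obtain ⟨C1, hC1⟩ := UB_of_MB hF (fun j => (key j).1) k
  obtain ⟨C2, hC2⟩ := UB_of_MB hE (fun j => (key j).2.1) k
  obtain ⟨C3, hC3⟩ := UB_of_MB hB (fun j => (key j).2.2) k
  refine ⟨max C1 (max C2 C3), fun n t ht => ⟨fun x => ⟨?_, ?_⟩, fun x v => ?_⟩⟩
  · exact (hC2 n t ht x).trans ((le_max_left _ _).trans (le_max_right _ _))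
  · exact (hC3 n t ht x).trans ((le_max_right _ _).trans (le_max_right _ _))
  · exact (hC1 n t ht (x, v)).trans (le_max_left _ _)

end Crest.Agent.R106.TB
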