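import Crest.Agent.R106.FlowGen
import Crest.Prelude.Def_VlasovMaxwell

/-!
Row 106, module FLOW: characteristics of the relativistic Vlasov-Maxwell transport equation on an
open time interval, linear Vlasov solver `vf`.
-/

set_option autoImplicit false
set_option linter.unusedSectionVars false

open Set Filter Topology
open scoped ContDiff
open Crest.AnalysisR.VecCalc3 Crest.AnalysisR.PDE.RVM

noncomputable section

namespace Crest.Agent.R106.Flow

/-! ### relativistic velocity and cross product -/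

lemma one_add_sq_pos (v : R3) : 0 < 1 + ‖v‖ ^ 2 := by positivity

lemma contDiff_relVel {n : WithTop ℕ∞} : ContDiff ℝ n relVel := by
  have h1 : ContDiff ℝ n (fun v : R3 => Real.sqrt (1 + ‖v‖ ^ 2)) :=
    ContDiff.sqrt (contDiff_const.add (contDiff_norm_sq ℝ)) (fun v => (one_add_sq_pos v).ne')
  have h2 : ContDiff ℝ n (fun v : R3 => (Real.sqrt (1 + ‖v‖ ^ 2))⁻¹) :=
    h1.inv (fun v => (Real.sqrt_pos.2 (one_add_sq_pos v)).ne')
  exact h2.smul contDiff_id

lemma norm_relVel (v : R3) : ‖relVel v‖ = ‖v‖ / Real.sqrt (1 + ‖v‖ ^ 2) := by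
  unfold relVel
  rw [norm_smul, norm_inv, Real.norm_of_nonneg (Real.sqrt_nonneg _)]
  field_simp

lemma norm_relVel_lt (v : R3) : ‖relVel v‖ < 1 := by
  rw [norm_relVel, div_lt_one (Real.sqrt_pos.2 (one_add_sq_pos v))]
  apply Real.lt_sqrt_of_sq_lt
  linarith

lemma norm_relVel_le (v : R3) : ‖relVel v‖ ≤ 1 := (norm_relVel_lt v).le

lemma norm_sq_R3 (a : R3) : ‖a‖ ^ 2 = a 0 ^ 2 + a 1 ^ 2 + a 2 ^ 2 := by
  rw [EuclideanSpace.norm_sq_eq, Fin.sum_univ_three]
  simp [Real.norm_eq_abs, sq_abs]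

@[simp] lemma cross3_zero' (a b : R3) : cross3 a b 0 = a 1 * b 2 - a 2 * b 1 := rfl
@[simp] lemma cross3_one' (a b : R3) : cross3 a b 1 = a 2 * b 0 - a 0 * b 2 := rfl
@[simp] lemma cross3_two' (a b : R3) : cross3 a b 2 = a 0 * b 1 - a 1 * b 0 := rfl

lemma norm_cross3_le (a b : R3) : ‖cross3 a b‖ ≤ ‖a‖ * ‖b‖ := by
  apply le_of_sq_le_sq _ (by positivity)
  rw [mul_pow, norm_sq_R3, norm_sq_R3, norm_sq_R3]
  simp only [cross3_zero', cross3_one', cross3_two']
  nlinarith [sq_nonneg (a 0 * b 0 + a 1 * b 1 + a 2 * b 2)]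

lemma contDiff_cross3 {n : WithTop ℕ∞} : ContDiff ℝ n (fun p : R3 × R3 => cross3 p.1 p.2) := by
  rw [contDiff_euclidean]
  intro i
  have h1 : ∀ j : Fin 3, ContDiff ℝ n (fun p : R3 × R3 => p.1 j) := fun j =>
    (EuclideanSpace.proj (𝕜 := ℝ) j).contDiff.comp contDiff_fst
  have h2 : ∀ j : Fin 3, ContDiff ℝ n (fun p : R3 × R3 => p.2 j) := fun j =>
    (EuclideanSpace.proj (𝕜 := ℝ) j).contDiff.comp contDiff_snd
  fin_cases i
  · exact ((h1 1).mul (h2 2)).sub ((h1 2).mul (h2 1))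
  · exact ((h1 2).mul (h2 0)).sub ((h1 0).mul (h2 2))
  · exact ((h1 0).mul (h2 1)).sub ((h1 1).mul (h2 0))

/-! ### the characteristic vector field -/

/-- Lorentz force `E + u(v) × B`. -/
def force (E B : ℝ → R3 → R3) (t : ℝ) (z : R3 × R3) : R3 :=
  E t z.1 + cross3 (relVel z.2) (B t z.1)


/-- Fields `C^n` on `(a,b) × R3`, bounded on compact time intervals. -/
structure GoodF (n : ℕ∞) (E B : ℝ → R3 → R3) (a b : ℝ) : Prop where
  smE : ContDiffOn ℝ n (fun p : ℝ × R3 => E p.1 p.2) (Ioo a b ×ˢ (univ : Set R3))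
  smB : ContDiffOn ℝ n (fun p : ℝ × R3 => B p.1 p.2) (Ioo a b ×ˢ (univ : Set R3))
  bdd : ∀ c d, a < c → d < b → ∃ C : ℝ, ∀ t ∈ Icc c d, ∀ x, ‖E t x‖ ≤ C ∧ ‖B t x‖ ≤ C

lemma GoodF.mono {n m : ℕ∞} {E B : ℝ → R3 → R3} {a b : ℝ} (h : GoodF n E B a b) (hm : m ≤ n) :
    GoodF m E B a b :=
  ⟨h.smE.of_le (by exact_mod_cast hm), h.smB.of_le (by exact_mod_cast hm), h.bdd⟩

lemma norm_force_le (E B : ℝ → R3 → R3) (t : ℝ) (z : R3 × R3) :
    ‖force E B t z‖ ≤ ‖E t z.1‖ + ‖B t z.1‖ := by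
  unfold force
  refine (norm_add_le _ _).trans (add_le_add le_rfl ?_)
  refine (norm_cross3_le _ _).trans ?_
  exact mul_le_of_le_one_left (norm_nonneg _) (norm_relVel_le _)



/-! ### partial derivatives and the transport operator -/

/-- Uncurried density. -/
def unc (f : ℝ → R3 → R3 → ℝ) : ℝ × R3 × R3 → ℝ := fun p => f p.1 p.2.1 p.2.2

lemma sum_single (u : R3) : ∑ i : Fin 3, u i • (EuclideanSpace.single i (1 : ℝ) : R3) = u := by
  ext j
  rw [Fin.sum_univ_three]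
  fin_cases j <;> simp [PiLp.add_apply, PiLp.smul_apply]

lemma deriv_time {f : ℝ → R3 → R3 → ℝ} {t : ℝ} {x v : R3}
    (h : DifferentiableAt ℝ (unc f) (t, x, v)) :
    deriv (fun s => f s x v) t = fderiv ℝ (unc f) (t, x, v) (1, 0, 0) := by
  have h1 : HasDerivAt (fun s : ℝ => ((s, x, v) : ℝ × R3 × R3)) ((1 : ℝ), (0 : R3), (0 : R3)) t :=
    (hasDerivAt_id t).prodMk (hasDerivAt_const t (x, v))
  have h2 := h.hasFDerivAt.comp_hasDerivAt t h1
  exact h2.deriv

lemma pderiv_x {f : ℝ → R3 → R3 → ℝ} {t : ℝ} {x v : R3}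
    (h : DifferentiableAt ℝ (unc f) (t, x, v)) (i : Fin 3) :
    pderiv (fun y => f t y v) i x =
      fderiv ℝ (unc f) (t, x, v) (0, EuclideanSpace.single i 1, 0) := by
  have h1 : HasFDerivAt (fun y : R3 => ((t, y, v) : ℝ × R3 × R3))
      ((0 : R3 →L[ℝ] ℝ).prod ((ContinuousLinearMap.id ℝ R3).prod (0 : R3 →L[ℝ] R3))) x :=
    (hasFDerivAt_const t x).prodMk ((hasFDerivAt_id x).prodMk (hasFDerivAt_const v x))
  have h2 := HasFDerivAt.comp (g := unc f) (f := fun y : R3 => ((t, y, v) : ℝ × R3 × R3)) x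
    h.hasFDerivAt h1
  have h3 : HasFDerivAt (fun y => f t y v) _ x := h2
  rw [pderiv, h3.fderiv]
  simp

lemma pderiv_v {f : ℝ → R3 → R3 → ℝ} {t : ℝ} {x v : R3}
    (h : DifferentiableAt ℝ (unc f) (t, x, v)) (i : Fin 3) :
    pderiv (fun w => f t x w) i v =
      fderiv ℝ (unc f) (t, x, v) (0, 0, EuclideanSpace.single i 1) := by
  have h1 : HasFDerivAt (fun w : R3 => ((t, x, w) : ℝ × R3 × R3))
      ((0 : R3 →L[ℝ] ℝ).prod ((0 : R3 →L[ℝ] R3).prod (ContinuousLinearMap.id ℝ R3))) v :=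
    (hasFDerivAt_const t v).prodMk ((hasFDerivAt_const x v).prodMk (hasFDerivAt_id v))
  have h2 := HasFDerivAt.comp (g := unc f) (f := fun w : R3 => ((t, x, w) : ℝ × R3 × R3)) v
    h.hasFDerivAt h1
  have h3 : HasFDerivAt (fun w => f t x w) _ v := h2
  rw [pderiv, h3.fderiv]
  simp

/-- The transport operator in terms of the total derivative. -/
theorem transport_eq {f : ℝ → R3 → R3 → ℝ} {t : ℝ} {x v : R3}
    (h : DifferentiableAt ℝ (unc f) (t, x, v)) (u F : R3) :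
    deriv (fun s => f s x v) t + ∑ i : Fin 3, u i * pderiv (fun y => f t y v) i x
      + ∑ i : Fin 3, F i * pderiv (fun w => f t x w) i v
      = fderiv ℝ (unc f) (t, x, v) (1, u, F) := by
  rw [deriv_time h]
  simp_rw [pderiv_x h, pderiv_v h]
  have e1 : ∑ i : Fin 3, u i * fderiv ℝ (unc f) (t, x, v) (0, EuclideanSpace.single i 1, 0)
      = fderiv ℝ (unc f) (t, x, v) (0, u, 0) := by
    have : ((0 : ℝ), u, (0 : R3)) =
        ∑ i : Fin 3, u i • ((0 : ℝ), (EuclideanSpace.single i (1 : ℝ) : R3), (0 : R3)) := by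
      refine Prod.ext ?_ (Prod.ext ?_ ?_)
      · simp [Prod.fst_sum]
      · simp only [Prod.snd_sum, Prod.fst_sum, Prod.smul_snd, Prod.smul_fst]
        exact (sum_single u).symm
      · simp [Prod.snd_sum]
    rw [this, map_sum]
    exact Finset.sum_congr rfl (fun i _ => by rw [map_smul, smul_eq_mul])
  have e2 : ∑ i : Fin 3, F i * fderiv ℝ (unc f) (t, x, v) (0, 0, EuclideanSpace.single i 1)
      = fderiv ℝ (unc f) (t, x, v) (0, 0, F) := by
    have : ((0 : ℝ), (0 : R3), F) =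
        ∑ i : Fin 3, F i • ((0 : ℝ), (0 : R3), (EuclideanSpace.single i (1 : ℝ) : R3)) := by
      refine Prod.ext ?_ (Prod.ext ?_ ?_)
      · simp [Prod.fst_sum]
      · simp [Prod.snd_sum, Prod.fst_sum]
      · simp only [Prod.snd_sum, Prod.smul_snd]
        exact (sum_single F).symm
    rw [this, map_sum]
    exact Finset.sum_congr rfl (fun i _ => by rw [map_smul, smul_eq_mul])
  rw [e1, e2, ← map_add, ← map_add]
  simp

/-- Derivative of a density along a curve in phase space. -/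
theorem hasDerivAt_along {f : ℝ → R3 → R3 → ℝ} {c : ℝ → R3 × R3} {c' : R3 × R3} {t : ℝ}
    (h : DifferentiableAt ℝ (unc f) (t, c t)) (hc : HasDerivAt c c' t) :
    HasDerivAt (fun s => f s (c s).1 (c s).2) (fderiv ℝ (unc f) (t, c t) (1, c')) t := by
  have h1 : HasDerivAt (fun s : ℝ => ((s, c s) : ℝ × (R3 × R3))) ((1 : ℝ), c') t :=
    (hasDerivAt_id t).prodMk hc
  exact h.hasFDerivAt.comp_hasDerivAt t h1

/-! ### characteristics -/

section VMflow

variable {n : ℕ∞} {E B : ℝ → R3 → R3} {a b : ℝ}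














/-! ### linear Vlasov solver -/


variable {f₀ : R3 → R3 → ℝ}









end VMflow

end Crest.Agent.R106.Flow
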