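import Crest.Agent.Lib.ODEFlow
import Mathlib

/-!
Row 106, module FLOW, general part: the flow of a smooth time dependent vector field on an open
time interval, bounded on compact time intervals.
-/

set_option autoImplicit false
set_option linter.unusedSectionVars false

open Set Filter Topology
open scoped ContDiff
open Crest.Agent.Lib

noncomputable section

namespace Crest.Agent.R106.Flow

variable {Z : Type} [NormedAddCommGroup Z] [NormedSpace ℝ Z]

/-- autonomous extension of `V` (with time direction `σ`) -/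
def av (σ : ℝ) (V : ℝ → Z → Z) : ℝ × Z → ℝ × Z := fun p => (σ, σ • V p.1 p.2)

/-- Space-time domain. -/
def dU (Z : Type) (a b : ℝ) : Set (ℝ × Z) := Ioo a b ×ˢ (univ : Set Z)

/-- `V` is `C^n` on `(a,b) × Z` and bounded on compact time intervals. -/
structure Good (n : ℕ∞) (V : ℝ → Z → Z) (a b : ℝ) : Prop where
  smooth : ContDiffOn ℝ n (fun p : ℝ × Z => V p.1 p.2) (Ioo a b ×ˢ (univ : Set Z))
  bdd : ∀ c d, a < c → d < b → ∃ C : ℝ, ∀ t ∈ Icc c d, ∀ z, ‖V t z‖ ≤ C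

lemma isOpen_dU (a b : ℝ) : IsOpen (dU Z a b) := isOpen_Ioo.prod isOpen_univ

lemma mem_dU {a b : ℝ} {p : ℝ × Z} : p ∈ dU Z a b ↔ p.1 ∈ Ioo a b := by simp [dU]

lemma Good.mono {n m : ℕ∞} {V : ℝ → Z → Z} {a b : ℝ} (h : Good n V a b) (hm : m ≤ n) :
    Good m V a b :=
  ⟨h.smooth.of_le (by exact_mod_cast hm), h.bdd⟩

lemma contDiffOn_av {n : ℕ∞} {V : ℝ → Z → Z} {a b : ℝ} (h : Good n V a b) (σ : ℝ) :
    ContDiffOn ℝ n (av σ V) (dU Z a b) :=
  contDiffOn_const.prodMk (h.smooth.const_smul σ)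

variable [CompleteSpace Z]

section aux

variable {V : ℝ → Z → Z} {a b : ℝ} {σ : ℝ}

lemma fst_flow (h : Good 1 V a b) {x : ℝ × Z} {l : ℝ}
    (hl : (x, l) ∈ ODEFlow.dom (av σ V) (dU Z a b)) :
    (ODEFlow.flow (av σ V) (dU Z a b) (x, l)).1 = x.1 + σ * l := by
  have hU := isOpen_dU (Z := Z) a b
  have hv : ContDiffOn ℝ 1 (av σ V) (dU Z a b) := contDiffOn_av h σ
  have hder : ∀ s ∈ uIcc 0 l, HasDerivWithinAt
      (fun s => (ODEFlow.flow (av σ V) (dU Z a b) (x, s)).1 - σ * s) 0 (uIcc 0 l) s := by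
    intro s hs
    have h1 := ODEFlow.hasDerivAt_flow hU hv (ODEFlow.mem_dom_of_uIcc hl hs)
    have h2 : HasDerivAt (fun s => (ODEFlow.flow (av σ V) (dU Z a b) (x, s)).1) σ s := by
      have := (ContinuousLinearMap.fst ℝ ℝ Z).hasFDerivAt.comp_hasDerivAt s h1
      simpa [av, Function.comp_def] using this
    have h3 : HasDerivAt (fun s => (ODEFlow.flow (av σ V) (dU Z a b) (x, s)).1 - σ * s)
        (σ - σ * 1) s := h2.sub ((hasDerivAt_id s).const_mul σ)
    rw [mul_one, sub_self] at h3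
    exact h3.hasDerivWithinAt
  have h4 := (convex_uIcc (0 : ℝ) l).norm_image_sub_le_of_norm_hasDerivWithin_le (C := 0)
    (fun s hs => hder s hs) (fun s _ => by simp) left_mem_uIcc right_mem_uIcc
  have hx : x ∈ dU Z a b := ODEFlow.mem_of_mem_dom hl
  have h5 : (ODEFlow.flow (av σ V) (dU Z a b) (x, l)).1 - σ * l
      - ((ODEFlow.flow (av σ V) (dU Z a b) (x, 0)).1 - σ * 0) = 0 := by
    rw [← norm_le_zero_iff]; simpa using h4
  rw [ODEFlow.flow_zero hU hv hx] at h5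
  linarith

lemma snd_flow_bound (h : Good 1 V a b) {x : ℝ × Z} {l C : ℝ} (hl0 : 0 ≤ l)
    (hl : (x, l) ∈ ODEFlow.dom (av σ V) (dU Z a b)) (hC0 : 0 ≤ C)
    (hC : ∀ s ∈ Icc 0 l, ∀ z, ‖σ • V (x.1 + σ * s) z‖ ≤ C) :
    ‖(ODEFlow.flow (av σ V) (dU Z a b) (x, l)).2 - x.2‖ ≤ C * l := by
  have hU := isOpen_dU (Z := Z) a b
  have hv : ContDiffOn ℝ 1 (av σ V) (dU Z a b) := contDiffOn_av h σ
  have hmem : ∀ s ∈ Icc 0 l, (x, s) ∈ ODEFlow.dom (av σ V) (dU Z a b) := fun s hs =>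
    ODEFlow.mem_dom_of_uIcc hl (by rwa [uIcc_of_le hl0])
  have hder : ∀ s ∈ Icc 0 l, HasDerivWithinAt
      (fun s => (ODEFlow.flow (av σ V) (dU Z a b) (x, s)).2)
      (σ • V (x.1 + σ * s) (ODEFlow.flow (av σ V) (dU Z a b) (x, s)).2) (Icc 0 l) s := by
    intro s hs
    have h1 := ODEFlow.hasDerivAt_flow hU hv (hmem s hs)
    have h2 := (ContinuousLinearMap.snd ℝ ℝ Z).hasFDerivAt.comp_hasDerivAt s h1
    have h3 : (ContinuousLinearMap.snd ℝ ℝ Z) (av σ V (ODEFlow.flow (av σ V) (dU Z a b) (x, s)))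
        = σ • V (x.1 + σ * s) (ODEFlow.flow (av σ V) (dU Z a b) (x, s)).2 := by
      simp [av, fst_flow h (hmem s hs)]
    rw [h3] at h2
    exact h2.hasDerivWithinAt
  have h4 := (convex_Icc (0 : ℝ) l).norm_image_sub_le_of_norm_hasDerivWithin_le (C := C)
    (fun s hs => hder s hs) (fun s hs => hC s hs _) (left_mem_Icc.2 hl0) (right_mem_Icc.2 hl0)
  have hx : x ∈ dU Z a b := ODEFlow.mem_of_mem_dom hl
  rw [ODEFlow.flow_zero hU hv hx] at h4
  simpa [abs_of_nonneg hl0] using h4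

lemma mem_dom_aux [ProperSpace Z] (h : Good 1 V a b) (hσ : σ = 1 ∨ σ = -1) {x : ℝ × Z} {l : ℝ}
    (hl0 : 0 ≤ l) (hx : x.1 ∈ Ioo a b) (hl : x.1 + σ * l ∈ Ioo a b) :
    (x, l) ∈ ODEFlow.dom (av σ V) (dU Z a b) := by
  have hU := isOpen_dU (Z := Z) a b
  have hv : ContDiffOn ℝ 1 (av σ V) (dU Z a b) := contDiffOn_av h σ
  set c := min x.1 (x.1 + σ * l) with hc
  set d := max x.1 (x.1 + σ * l) with hd
  have hac : a < c := lt_min hx.1 hl.1
  have hdb : d < b := max_lt hx.2 hl.2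
  obtain ⟨C, hC⟩ := h.bdd c d hac hdb
  have hC0 : 0 ≤ C := (norm_nonneg _).trans (hC x.1 ⟨min_le_left _ _, le_max_left _ _⟩ 0)
  have hseg : ∀ s ∈ Icc 0 l, x.1 + σ * s ∈ Icc c d := by
    intro s hs
    rcases hσ with rfl | rfl
    · constructor
      · exact (min_le_left _ _).trans (by linarith [hs.1])
      · exact le_trans (by linarith [hs.2]) (le_max_right _ _)
    · constructor
      · exact (min_le_right _ _).trans (by linarith [hs.2])
      · exact le_trans (by linarith [hs.1]) (le_max_left _ _)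
  have hσn : ‖σ‖ = 1 := by rcases hσ with rfl | rfl <;> simp
  refine ODEFlow.mem_dom_of_compact hU hv
    (K := Icc c d ×ˢ Metric.closedBall x.2 (C * l))
    (isCompact_Icc.prod (isCompact_closedBall _ _)) ?_ (mem_dU.2 hx) ?_ hl0
  · rintro p ⟨hp, -⟩
    exact mem_dU.2 ⟨hac.trans_le hp.1, hp.2.trans_lt hdb⟩
  · intro s hs hmem
    have hsl : s ∈ Icc 0 l := ⟨hs.1, hs.2.le⟩
    refine ⟨?_, ?_⟩
    · rw [fst_flow h hmem]; exact hseg s hsl
    · rw [mem_closedBall_iff_norm]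
      refine (snd_flow_bound h hs.1 hmem hC0 ?_).trans
        (mul_le_mul_of_nonneg_left hs.2.le hC0)
      intro r hr z
      rw [norm_smul, hσn, one_mul]
      exact hC _ (hseg r ⟨hr.1, hr.2.trans hs.2.le⟩) z

end aux

variable [ProperSpace Z] {V : ℝ → Z → Z} {a b : ℝ}

lemma mem_dom (h : Good 1 V a b) {s t : ℝ} (hs : s ∈ Ioo a b) (ht : t ∈ Ioo a b) (z : Z) :
    (((t, z), s - t) : (ℝ × Z) × ℝ) ∈ ODEFlow.dom (av 1 V) (dU Z a b) := by
  rcases le_total t s with hts | hts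
  · exact mem_dom_aux h (Or.inl rfl) (by linarith) ht (by simpa using hs)
  · have h1 := mem_dom_aux (x := (t, z)) (l := t - s) h (Or.inr rfl) (by linarith) ht
      (by simpa using hs)
    have h2 : (av (-1) V) = fun y => -(av 1 V) y := by
      funext y; simp [av]
    rw [h2] at h1
    have h3 := ODEFlow.neg_mem_dom_iff (v := av 1 V) (U := dU Z a b) (x := ((t, z) : ℝ × Z))
      (l := s - t)
    rw [neg_sub] at h3
    exact h3.1 h1

/-- State at time `s` of the integral curve through `z` at time `t`. -/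
def Φ (V : ℝ → Z → Z) (a b : ℝ) (s t : ℝ) (z : Z) : Z :=
  (ODEFlow.flow (av 1 V) (dU Z a b) ((t, z), s - t)).2

lemma flow_eq (h : Good 1 V a b) {s t : ℝ} (hs : s ∈ Ioo a b) (ht : t ∈ Ioo a b) (z : Z) :
    ODEFlow.flow (av 1 V) (dU Z a b) ((t, z), s - t) = (s, Φ V a b s t z) := by
  refine Prod.ext ?_ rfl
  rw [fst_flow h (mem_dom h hs ht z)]
  simp

theorem hasDerivAt_Φ (h : Good 1 V a b) {s t : ℝ} (hs : s ∈ Ioo a b) (ht : t ∈ Ioo a b) (z : Z) :
    HasDerivAt (fun r => Φ V a b r t z) (V s (Φ V a b s t z)) s := by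
  have hU := isOpen_dU (Z := Z) a b
  have hv : ContDiffOn ℝ 1 (av 1 V) (dU Z a b) := contDiffOn_av h 1
  have h1 := ODEFlow.hasDerivAt_flow hU hv (mem_dom h hs ht z)
  have h2 := h1.scomp s ((hasDerivAt_id s).sub_const t)
  have h3 := (ContinuousLinearMap.snd ℝ ℝ Z).hasFDerivAt.comp_hasDerivAt s h2
  rw [flow_eq h hs ht z] at h3
  simpa [Function.comp_def, av, Φ] using h3

@[simp] theorem Φ_self (h : Good 1 V a b) {t : ℝ} (ht : t ∈ Ioo a b) (z : Z) :
    Φ V a b t t z = z := by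
  have hU := isOpen_dU (Z := Z) a b
  have hv : ContDiffOn ℝ 1 (av 1 V) (dU Z a b) := contDiffOn_av h 1
  rw [Φ, sub_self, ODEFlow.flow_zero hU hv (mem_dU.2 ht)]

/-- Group law. -/
theorem Φ_Φ (h : Good 1 V a b) {r s t : ℝ} (hr : r ∈ Ioo a b) (hs : s ∈ Ioo a b)
    (ht : t ∈ Ioo a b) (z : Z) : Φ V a b r s (Φ V a b s t z) = Φ V a b r t z := by
  have hU := isOpen_dU (Z := Z) a b
  have hv : ContDiffOn ℝ 1 (av 1 V) (dU Z a b) := contDiffOn_av h 1
  have h1 := mem_dom h hs ht z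
  have h2 := mem_dom h hr hs (Φ V a b s t z)
  rw [← flow_eq h hs ht z] at h2
  have h3 := (ODEFlow.flow_add hU hv h1 h2).2
  rw [flow_eq h hs ht z] at h3
  rw [show s - t + (r - s) = r - t by ring] at h3
  rw [Φ, ← h3, ]
  rfl

/-- Uniqueness: every integral curve is given by `Φ` (one sided derivatives allowed at ends). -/
theorem eq_Φ (h : Good 1 V a b) {c : ℝ → Z} {s t : ℝ} (hs : s ∈ Ioo a b) (ht : t ∈ Ioo a b)
    (hc : ∀ r ∈ uIcc t s, HasDerivWithinAt c (V r (c r)) (uIcc t s) r) :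
    c s = Φ V a b s t (c t) := by
  have hU := isOpen_dU (Z := Z) a b
  have hv : ContDiffOn ℝ 1 (av 1 V) (dU Z a b) := contDiffOn_av h 1
  have hmaps : ∀ r ∈ uIcc 0 (s - t), t + r ∈ uIcc t s := by
    intro r hr
    rw [mem_uIcc] at hr ⊢
    rcases hr with hr | hr
    · exact Or.inl ⟨by linarith, by linarith⟩
    · exact Or.inr ⟨by linarith, by linarith⟩
  have hI : ∀ r ∈ uIcc t s, r ∈ Ioo a b := by
    intro r hr
    rw [mem_uIcc] at hr
    rcases hr with hr | hr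
    · exact ⟨ht.1.trans_le hr.1, hr.2.trans_lt hs.2⟩
    · exact ⟨hs.1.trans_le hr.1, hr.2.trans_lt ht.2⟩
  have h1 := ODEFlow.flow_of_integralCurve hU hv (c := fun r => ((t + r, c (t + r)) : ℝ × Z))
    (l := s - t) (fun r hr => mem_dU.2 (hI _ (hmaps r hr))) (fun r hr => by
      have h2 : HasDerivWithinAt (fun r => t + r) 1 (uIcc 0 (s - t)) r :=
        ((hasDerivAt_id r).const_add t).hasDerivWithinAt
      have h3 := (hc (t + r) (hmaps r hr)).scomp r h2 hmaps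
      have h4 := h2.prodMk h3
      simpa [av, Function.comp_def] using h4) (right_mem_uIcc)
  have h5 := congrArg Prod.snd h1.2
  simp only [add_zero, add_sub_cancel] at h5
  rw [Φ, ← h5]

/-- Joint smoothness in `(s, t, z)`. -/
theorem contDiffOn_Φ {n : ℕ∞} (hn : 1 ≤ n) (h : Good n V a b) :
    ContDiffOn ℝ n (fun q : ℝ × ℝ × Z => Φ V a b q.1 q.2.1 q.2.2)
      (Ioo a b ×ˢ Ioo a b ×ˢ (univ : Set Z)) := by
  have hU := isOpen_dU (Z := Z) a b
  have h1 : Good 1 V a b := h.mono hn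
  have h2 := ODEFlow.contDiffOn_flow hn hU (contDiffOn_av h 1)
  have h3 : ContDiffOn ℝ n (fun q : ℝ × ℝ × Z => (((q.2.1, q.2.2), q.1 - q.2.1) : (ℝ × Z) × ℝ))
      (Ioo a b ×ˢ Ioo a b ×ˢ (univ : Set Z)) := by
    apply ContDiff.contDiffOn
    fun_prop
  have h4 := h2.comp h3 (fun q hq => mem_dom h1 hq.1 hq.2.1 _)
  exact contDiff_snd.comp_contDiffOn h4





/-- Displacement bound. -/
theorem norm_Φ_sub_le (h : Good 1 V a b) {s t C : ℝ} (hs : s ∈ Ioo a b) (ht : t ∈ Ioo a b)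
    (hC : ∀ r ∈ uIcc t s, ∀ z, ‖V r z‖ ≤ C) (z : Z) :
    ‖Φ V a b s t z - z‖ ≤ C * |s - t| := by
  have hI : ∀ r ∈ uIcc t s, r ∈ Ioo a b := by
    intro r hr
    rw [mem_uIcc] at hr
    rcases hr with hr | hr
    · exact ⟨ht.1.trans_le hr.1, hr.2.trans_lt hs.2⟩
    · exact ⟨hs.1.trans_le hr.1, hr.2.trans_lt ht.2⟩
  have h4 := (convex_uIcc t s).norm_image_sub_le_of_norm_hasDerivWithin_le (C := C)
    (f := fun r => Φ V a b r t z)
    (fun r hr => (hasDerivAt_Φ h (hI r hr) ht z).hasDerivWithinAt)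
    (fun r hr => hC r hr _) left_mem_uIcc right_mem_uIcc
  simpa [Φ_self h ht] using h4

end Crest.Agent.R106.Flow
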