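import Mathlib.Analysis.Calculus.ContDiff.Bounds
import Mathlib.Analysis.Calculus.FDeriv.Symmetric
import Mathlib.Analysis.ODE.Gronwall
import Mathlib.MeasureTheory.Integral.IntervalIntegral.FundThmCalculus

-- ▼ part R106/Trans
section

/-!
# Row 106, module TRANS: derivative estimates for transport equations (abstract)

`F : ℝ × X → Y` (time, space), `W : ℝ × X → X` a time dependent vector field,
`tr W F = ∂_t F + D_x F · W`, `dx F` the space derivative, `N k F p` the norm of the `k`-th space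
derivative of `F` at `p = (t, x)`.
-/

set_option autoImplicit false
set_option linter.unusedSectionVars false

open Set Filter Topology
open scoped ContDiff

noncomputable section

namespace Crest.Agent.R106.Trans

universe u

variable {X : Type u} [NormedAddCommGroup X] [NormedSpace ℝ X]
variable {Y : Type u} [NormedAddCommGroup Y] [NormedSpace ℝ Y]
variable {I : Set ℝ}

/-- space derivative -/
def dx (F : ℝ × X → Y) : ℝ × X → (X →L[ℝ] Y) := fun p => fderiv ℝ (fun y => F (p.1, y)) p.2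

/-- transport derivative `∂_t F + D_x F · W` -/
def tr (W : ℝ × X → X) (F : ℝ × X → Y) : ℝ × X → Y := fun p => fderiv ℝ F p (1, W p)

/-- norm of the `k`-th space derivative -/
def N (k : ℕ) (F : ℝ × X → Y) (p : ℝ × X) : ℝ := ‖iteratedFDeriv ℝ k (fun y => F (p.1, y)) p.2‖

lemma N_nonneg (k : ℕ) (F : ℝ × X → Y) (p : ℝ × X) : 0 ≤ N k F p := norm_nonneg _

lemma N_zero (F : ℝ × X → Y) (p : ℝ × X) : N 0 F p = ‖F p‖ := by
  simp [N, norm_iteratedFDeriv_zero]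

lemma N_succ (k : ℕ) (F : ℝ × X → Y) (p : ℝ × X) : N (k + 1) F p = N k (dx F) p := by
  have := norm_iteratedFDeriv_fderiv (𝕜 := ℝ) (f := fun y => F (p.1, y)) (x := p.2) (n := k)
  rw [N, ← this]
  rfl


lemma nat_le_infty (k : ℕ) : ((k : ℕ∞) : ℕ∞ω) ≤ ∞ := by
  exact_mod_cast (le_top : (k : ℕ∞) ≤ ⊤)

lemma nat_le_infty' (k : ℕ) : (k : ℕ∞ω) ≤ ∞ := nat_le_infty k

lemma mem_nhds_slab (hI : IsOpen I) {p : ℝ × X} (hp : p.1 ∈ I) : I ×ˢ (univ : Set X) ∈ 𝓝 p :=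
  (hI.prod isOpen_univ).mem_nhds ⟨hp, mem_univ _⟩

lemma contDiff_slice {n : ℕ∞ω} {F : ℝ × X → Y} (hF : ContDiffOn ℝ n F (I ×ˢ univ))
    {t : ℝ} (ht : t ∈ I) : ContDiff ℝ n (fun y => F (t, y)) := by
  rw [← contDiffOn_univ]
  exact hF.comp (contDiff_const.prodMk contDiff_id).contDiffOn (fun y _ => ⟨ht, mem_univ _⟩)

lemma diffAt {F : ℝ × X → Y} (hI : IsOpen I) (hF : ContDiffOn ℝ 1 F (I ×ˢ univ)) {p : ℝ × X}
    (hp : p.1 ∈ I) : DifferentiableAt ℝ F p :=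
  (hF.contDiffAt (mem_nhds_slab hI hp)).differentiableAt (by simp)

lemma dx_eq {F : ℝ × X → Y} (hI : IsOpen I) (hF : ContDiffOn ℝ 1 F (I ×ˢ univ)) {p : ℝ × X}
    (hp : p.1 ∈ I) : dx F p = (fderiv ℝ F p).comp (ContinuousLinearMap.inr ℝ ℝ X) := by
  have h1 : HasFDerivAt F (fderiv ℝ F p) (p.1, p.2) := (diffAt hI hF hp).hasFDerivAt
  have h2 : HasFDerivAt (fun y : X => ((p.1, y) : ℝ × X)) (ContinuousLinearMap.inr ℝ ℝ X) p.2 :=
    (hasFDerivAt_const p.1 p.2).prodMk (hasFDerivAt_id p.2)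
  exact (h1.comp p.2 h2).fderiv

lemma dx_apply {F : ℝ × X → Y} (hI : IsOpen I) (hF : ContDiffOn ℝ 1 F (I ×ˢ univ)) {p : ℝ × X}
    (hp : p.1 ∈ I) (h : X) : dx F p h = fderiv ℝ F p (0, h) := by
  rw [dx_eq hI hF hp]; simp


lemma contDiffOn_fderiv {F : ℝ × X → Y} (hI : IsOpen I) (hF : ContDiffOn ℝ ∞ F (I ×ˢ univ)) :
    ContDiffOn ℝ ∞ (fderiv ℝ F) (I ×ˢ univ) :=
  hF.fderiv_of_isOpen (hI.prod isOpen_univ) (by simp)

lemma contDiffOn_dx {F : ℝ × X → Y} (hI : IsOpen I) (hF : ContDiffOn ℝ ∞ F (I ×ˢ univ)) :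
    ContDiffOn ℝ ∞ (dx F) (I ×ˢ univ) := by
  have h : ContDiffOn ℝ ∞ (fun p => (fderiv ℝ F p).comp (ContinuousLinearMap.inr ℝ ℝ X))
      (I ×ˢ univ) := (contDiffOn_fderiv hI hF).clm_comp contDiffOn_const
  exact h.congr fun p hp => dx_eq hI (hF.of_le (by simp)) hp.1

lemma contDiffOn_tr {F : ℝ × X → Y} {W : ℝ × X → X} (hI : IsOpen I)
    (hW : ContDiffOn ℝ ∞ W (I ×ˢ univ)) (hF : ContDiffOn ℝ ∞ F (I ×ˢ univ)) :
    ContDiffOn ℝ ∞ (tr W F) (I ×ˢ univ) :=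
  (contDiffOn_fderiv hI hF).clm_apply (contDiffOn_const.prodMk hW)

lemma contDiffOn_comp {A : ℝ × X → (X →L[ℝ] Y)} {B : ℝ × X → (X →L[ℝ] X)}
    (hA : ContDiffOn ℝ ∞ A (I ×ˢ univ)) (hB : ContDiffOn ℝ ∞ B (I ×ˢ univ)) :
    ContDiffOn ℝ ∞ (fun p => (A p).comp (B p)) (I ×ˢ univ) := hA.clm_comp hB

/-- Commutation of the space derivative with the transport derivative. -/
lemma tr_dx {F : ℝ × X → Y} {W : ℝ × X → X} (hI : IsOpen I)
    (hW : ContDiffOn ℝ ∞ W (I ×ˢ univ)) (hF : ContDiffOn ℝ ∞ F (I ×ˢ univ)) {p : ℝ × X}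
    (hp : p.1 ∈ I) :
    tr W (dx F) p = dx (tr W F) p - (dx F p).comp (dx W p) := by
  have hU : I ×ˢ (univ : Set X) ∈ 𝓝 p := mem_nhds_slab hI hp
  have hF1 : ContDiffOn ℝ 1 F (I ×ˢ univ) := hF.of_le (by simp)
  have hW1 : ContDiffOn ℝ 1 W (I ×ˢ univ) := hW.of_le (by simp)
  have hD : HasFDerivAt (fderiv ℝ F) (fderiv ℝ (fderiv ℝ F) p) p :=
    (((contDiffOn_fderiv hI hF).contDiffAt hU).differentiableAt (by simp)).hasFDerivAt
  have hWd : HasFDerivAt W (fderiv ℝ W p) p := (diffAt hI hW1 hp).hasFDerivAt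
  -- derivative of `dx F`
  have hdx : HasFDerivAt (dx F)
      ((ContinuousLinearMap.compL ℝ X (ℝ × X) Y).flip (ContinuousLinearMap.inr ℝ ℝ X) ∘L
        fderiv ℝ (fderiv ℝ F) p) p := by
    have h1 := ((ContinuousLinearMap.compL ℝ X (ℝ × X) Y).flip
      (ContinuousLinearMap.inr ℝ ℝ X)).hasFDerivAt.comp p hD
    refine h1.congr_of_eventuallyEq ?_
    filter_upwards [hU] with q hq
    rw [dx_eq hI hF1 hq.1]
    rfl
  -- derivative of `tr W F`
  have htr : HasFDerivAt (tr W F)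
      ((fderiv ℝ F p).comp ((0 : (ℝ × X) →L[ℝ] ℝ).prod (fderiv ℝ W p)) +
        (fderiv ℝ (fderiv ℝ F) p).flip (1, W p)) p :=
    hD.clm_apply ((hasFDerivAt_const (1 : ℝ) p).prodMk hWd)
  ext h
  have hsymm : IsSymmSndFDerivAt ℝ F p :=
    (hF.contDiffAt hU).isSymmSndFDerivAt (by simpa using nat_le_infty' 2)
  have e1 : tr W (dx F) p h = fderiv ℝ (fderiv ℝ F) p (1, W p) (0, h) := by
    rw [tr, hdx.fderiv]
    simp
  have e2 : dx (tr W F) p h = fderiv ℝ F p (0, fderiv ℝ W p (0, h)) +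
      fderiv ℝ (fderiv ℝ F) p (0, h) (1, W p) := by
    rw [dx_apply hI ((contDiffOn_tr hI hW hF).of_le (by simp)) hp, htr.fderiv]
    simp
  have e3 : (dx F p).comp (dx W p) h = fderiv ℝ F p (0, fderiv ℝ W p (0, h)) := by
    rw [ContinuousLinearMap.comp_apply, dx_apply hI hF1 hp, dx_apply hI hW1 hp]
  rw [sub_apply, e1, e2, e3, hsymm.eq (1, W p) (0, h)]
  abel

lemma N_congr {F G : ℝ × X → Y} (k : ℕ) {p : ℝ × X} (h : ∀ y, F (p.1, y) = G (p.1, y)) :
    N k F p = N k G p := by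
  have : (fun y => F (p.1, y)) = fun y => G (p.1, y) := funext h
  rw [N, N, this]

lemma N_sub_le {F G : ℝ × X → Y} (k : ℕ) {p : ℝ × X} (hp : p.1 ∈ I)
    (hF : ContDiffOn ℝ ∞ F (I ×ˢ univ)) (hG : ContDiffOn ℝ ∞ G (I ×ˢ univ)) :
    N k (fun q => F q - G q) p ≤ N k F p + N k G p := by
  have h1 : ContDiff ℝ k (fun y => F (p.1, y)) := (contDiff_slice hF hp).of_le (nat_le_infty' k)
  have h2 : ContDiff ℝ k (fun y => G (p.1, y)) := (contDiff_slice hG hp).of_le (nat_le_infty' k)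
  have : iteratedFDeriv ℝ k (fun y => F (p.1, y) - G (p.1, y)) p.2 =
      iteratedFDeriv ℝ k (fun y => F (p.1, y)) p.2 - iteratedFDeriv ℝ k (fun y => G (p.1, y)) p.2 :=
    iteratedFDeriv_sub_apply h1.contDiffAt h2.contDiffAt
  rw [N, N, N, this]
  exact norm_sub_le _ _

lemma N_comp_le {A : ℝ × X → (X →L[ℝ] Y)} {B : ℝ × X → (X →L[ℝ] X)} (k : ℕ) {p : ℝ × X}
    (hp : p.1 ∈ I)
    (hA : ContDiffOn ℝ ∞ A (I ×ˢ univ)) (hB : ContDiffOn ℝ ∞ B (I ×ˢ univ)) :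
    N k (fun q => (A q).comp (B q)) p ≤
      ∑ i ∈ Finset.range (k + 1), (k.choose i : ℝ) * N i A p * N (k - i) B p :=
  (ContinuousLinearMap.compL ℝ X X Y).norm_iteratedFDeriv_le_of_bilinear_of_le_one
    (contDiff_slice hA hp) (contDiff_slice hB hp) p.2 (n := k) (nat_le_infty' k)
    (ContinuousLinearMap.norm_compL_le ℝ X X Y)

/-- the commutator sum -/
def R (k : ℕ) (F : ℝ × X → Y) (W : ℝ × X → X) (p : ℝ × X) : ℝ :=
  ∑ i ∈ Finset.range k, N (i + 1) F p * N (k - i) W p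

/-- **Commutator inequality along a characteristic.** -/
theorem hasDerivAt_iter (hI : IsOpen I) {W : ℝ × X → X} (hW : ContDiffOn ℝ ∞ W (I ×ˢ univ))
    {s : ℝ} (hs : s ∈ I) {z : ℝ → X} (hz : HasDerivAt z (W (s, z s)) s) (k : ℕ) :
    ∀ {Y : Type u} [NormedAddCommGroup Y] [NormedSpace ℝ Y] {F : ℝ × X → Y},
      ContDiffOn ℝ ∞ F (I ×ˢ univ) →
      ∃ φ', HasDerivAt (fun r => iteratedFDeriv ℝ k (fun y => F (r, y)) (z r)) φ' s ∧
        ‖φ'‖ ≤ N k (tr W F) (s, z s) + (2 ^ k - 1) * R k F W (s, z s) := by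
  induction k with
  | zero =>
    intro Y _ _ F hF
    have hF1 : ContDiffOn ℝ 1 F (I ×ˢ univ) := hF.of_le (by simp)
    have h1 : HasFDerivAt F (fderiv ℝ F (s, z s)) (s, z s) :=
      (diffAt hI hF1 (p := (s, z s)) hs).hasFDerivAt
    have h2 : HasDerivAt (fun r : ℝ => ((r, z r) : ℝ × X)) ((1 : ℝ), W (s, z s)) s :=
      (hasDerivAt_id s).prodMk hz
    have h3 : HasDerivAt (fun r => F (r, z r)) (tr W F (s, z s)) s := h1.comp_hasDerivAt s h2
    have h4 := (continuousMultilinearCurryFin0 ℝ X Y).symm.toContinuousLinearEquiv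
      |>.toContinuousLinearMap.hasFDerivAt.comp_hasDerivAt s h3
    refine ⟨_, h4, ?_⟩
    simp [R, N_zero]
  | succ k ih =>
    intro Y _ _ F hF
    have hdF := contDiffOn_dx hI hF
    obtain ⟨ψ, hψ, hψb⟩ := ih hdF
    refine ⟨(continuousMultilinearCurryRightEquiv' ℝ k X Y).symm ψ, ?_, ?_⟩
    · have h4 := (continuousMultilinearCurryRightEquiv' ℝ k X Y).symm.toContinuousLinearEquiv
        |>.toContinuousLinearMap.hasFDerivAt.comp_hasDerivAt s hψ
      refine h4.congr_of_eventuallyEq (Eventually.of_forall fun r => ?_)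
      exact iteratedFDeriv_succ_eq_comp_right
    · rw [LinearIsometryEquiv.norm_map]
      refine hψb.trans ?_
      have hS := contDiffOn_tr hI hW hF
      have hdS := contDiffOn_dx hI hS
      have hdW := contDiffOn_dx hI hW
      have e1 : N k (tr W (dx F)) (s, z s) ≤ N (k + 1) (tr W F) (s, z s) +
          2 ^ k * R (k + 1) F W (s, z s) := by
        rw [N_congr (G := fun q => dx (tr W F) q - (dx F q).comp (dx W q)) k
          (fun y => tr_dx hI hW hF (p := (s, y)) hs)]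
        refine (N_sub_le k (p := (s, z s)) hs hdS (contDiffOn_comp hdF hdW)).trans ?_
        rw [N_succ]
        refine add_le_add le_rfl ((N_comp_le k (p := (s, z s)) hs hdF hdW).trans ?_)
        rw [R, Finset.mul_sum]
        refine Finset.sum_le_sum fun i hi => ?_
        have hik : i ≤ k := Nat.lt_succ_iff.1 (Finset.mem_range.1 hi)
        rw [← N_succ, ← N_succ, mul_assoc, Nat.succ_sub hik]
        refine mul_le_mul_of_nonneg_right ?_ (mul_nonneg (N_nonneg _ _ _) (N_nonneg _ _ _))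
        exact_mod_cast Nat.choose_le_two_pow k i
      have e2 : R k (dx F) W (s, z s) ≤ R (k + 1) F W (s, z s) := by
        rw [R, R, Finset.sum_range_succ']
        refine le_add_of_le_of_nonneg (le_of_eq ?_)
          (mul_nonneg (N_nonneg _ _ _) (N_nonneg _ _ _))
        refine Finset.sum_congr rfl fun i hi => ?_
        rw [← N_succ, Nat.add_sub_add_right]
      have e3 : ((2 : ℝ) ^ k - 1) * R k (dx F) W (s, z s) ≤ (2 ^ k - 1) * R (k + 1) F W (s, z s) :=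
        mul_le_mul_of_nonneg_left e2 (sub_nonneg.2 (one_le_pow₀ (by norm_num)))
      calc _ ≤ (N (k + 1) (tr W F) (s, z s) + 2 ^ k * R (k + 1) F W (s, z s)) +
            (2 ^ k - 1) * R (k + 1) F W (s, z s) := add_le_add e1 e3
        _ = _ := by ring

/-! ### Gronwall with variable coefficients -/

section Gronwall

variable {V : Type*} [NormedAddCommGroup V] [NormedSpace ℝ V]

lemma gron_cont {φ φ' : ℝ → V} {a q : ℝ → ℝ} (ha : Continuous a) (hq : Continuous q)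
    (ha0 : ∀ s, 0 ≤ a s) (hq0 : ∀ s, 0 ≤ q s) {t : ℝ} (ht : 0 ≤ t)
    (hφ : ∀ s ∈ Icc 0 t, HasDerivAt φ (φ' s) s)
    (hb : ∀ s ∈ Icc 0 t, ‖φ' s‖ ≤ a s * ‖φ s‖ + q s) :
    ‖φ t‖ ≤ (‖φ 0‖ + ∫ s in (0 : ℝ)..t, q s) * Real.exp (∫ s in (0 : ℝ)..t, a s) := by
  have key : ∀ ε > 0, ‖φ t‖ ≤ (‖φ 0‖ + ∫ s in (0 : ℝ)..t, (q s + ε)) *
      Real.exp (∫ s in (0 : ℝ)..t, a s) := by
    intro ε hε
    have hqε : Continuous fun s => q s + ε := hq.add continuous_const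
    have hA : ∀ s, HasDerivAt (fun r => ∫ u in (0 : ℝ)..r, a u) (a s) s := fun s =>
      intervalIntegral.integral_hasDerivAt_right (ha.intervalIntegrable _ _)
        (ha.stronglyMeasurableAtFilter _ _) ha.continuousAt
    have hQ : ∀ s, HasDerivAt (fun r => ∫ u in (0 : ℝ)..r, (q u + ε)) (q s + ε) s := fun s =>
      intervalIntegral.integral_hasDerivAt_right (hqε.intervalIntegrable _ _)
        (hqε.stronglyMeasurableAtFilter _ _) hqε.continuousAt
    have hB : ∀ s, HasDerivAt (fun r => (‖φ 0‖ + ∫ u in (0 : ℝ)..r, (q u + ε)) *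
        Real.exp (∫ u in (0 : ℝ)..r, a u))
        ((q s + ε) * Real.exp (∫ u in (0 : ℝ)..s, a u) +
          (‖φ 0‖ + ∫ u in (0 : ℝ)..s, (q u + ε)) * (Real.exp (∫ u in (0 : ℝ)..s, a u) * a s)) s :=
      fun s => ((hQ s).const_add _).mul (hA s).exp
    refine image_norm_le_of_norm_deriv_right_lt_deriv_boundary (a := 0) (b := t)
      (f := φ) (f' := φ')
      (fun s hs => (hφ s hs).continuousAt.continuousWithinAt)
      (fun s hs => (hφ s ⟨hs.1, hs.2.le⟩).hasDerivWithinAt) ?_ hB ?_ ⟨ht, le_rfl⟩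
    · simp
    · intro s hs he
      have h1 := hb s ⟨hs.1, hs.2.le⟩
      have h2 : 1 ≤ Real.exp (∫ u in (0 : ℝ)..s, a u) :=
        Real.one_le_exp (intervalIntegral.integral_nonneg hs.1 fun u _ => ha0 u)
      have h3 : q s < (q s + ε) * Real.exp (∫ u in (0 : ℝ)..s, a u) := by
        nlinarith [hq0 s, mul_nonneg (add_nonneg (hq0 s) hε.le) (sub_nonneg.2 h2)]
      rw [he] at h1
      linarith
  have hlim : Tendsto (fun ε : ℝ => (‖φ 0‖ + ∫ s in (0 : ℝ)..t, (q s + ε)) *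
      Real.exp (∫ s in (0 : ℝ)..t, a s)) (𝓝[>] 0)
      (𝓝 ((‖φ 0‖ + ∫ s in (0 : ℝ)..t, q s) * Real.exp (∫ s in (0 : ℝ)..t, a s))) := by
    have e : ∀ ε : ℝ, ∫ s in (0 : ℝ)..t, (q s + ε) = (∫ s in (0 : ℝ)..t, q s) + t * ε := by
      intro ε
      rw [intervalIntegral.integral_add (hq.intervalIntegrable _ _)
        (continuous_const.intervalIntegrable _ _)]
      simp
    simp only [e]
    have hc : Continuous fun ε : ℝ => (‖φ 0‖ + ((∫ s in (0 : ℝ)..t, q s) + t * ε)) *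
        Real.exp (∫ s in (0 : ℝ)..t, a s) := by fun_prop
    have := hc.tendsto 0
    simp only [mul_zero, add_zero] at this
    exact this.mono_left nhdsWithin_le_nhds
  exact ge_of_tendsto hlim (eventually_nhdsWithin_of_forall fun ε hε => key ε hε)

lemma gron_pos {φ φ' : ℝ → V} {a q : ℝ → ℝ} {t : ℝ} (ht : 0 ≤ t)
    (ha : ContinuousOn a (Icc 0 t)) (hq : ContinuousOn q (Icc 0 t))
    (ha0 : ∀ s ∈ Icc 0 t, 0 ≤ a s) (hq0 : ∀ s ∈ Icc 0 t, 0 ≤ q s)
    (hφ : ∀ s ∈ Icc 0 t, HasDerivAt φ (φ' s) s)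
    (hb : ∀ s ∈ Icc 0 t, ‖φ' s‖ ≤ a s * ‖φ s‖ + q s) :
    ‖φ t‖ ≤ (‖φ 0‖ + ∫ s in (0 : ℝ)..t, q s) * Real.exp (∫ s in (0 : ℝ)..t, a s) := by
  have hmem : ∀ s, (projIcc 0 t ht s : ℝ) ∈ Icc 0 t := fun s => (projIcc 0 t ht s).2
  have ha' : Continuous fun s => a (projIcc 0 t ht s) :=
    ha.comp_continuous (continuous_subtype_val.comp continuous_projIcc) hmem
  have hq' : Continuous fun s => q (projIcc 0 t ht s) :=
    hq.comp_continuous (continuous_subtype_val.comp continuous_projIcc) hmem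
  have hp : ∀ s ∈ Icc 0 t, (projIcc 0 t ht s : ℝ) = s := fun s hs => by
    rw [projIcc_of_mem ht hs]
  have h := gron_cont ha' hq' (fun s => ha0 _ (hmem s)) (fun s => hq0 _ (hmem s)) ht hφ
    (fun s hs => by simpa only [hp s hs] using hb s hs)
  have e1 : ∫ s in (0 : ℝ)..t, a (projIcc 0 t ht s) = ∫ s in (0 : ℝ)..t, a s :=
    intervalIntegral.integral_congr fun s hs => by
      rw [uIcc_of_le ht] at hs
      simp only [hp s hs]
  have e2 : ∫ s in (0 : ℝ)..t, q (projIcc 0 t ht s) = ∫ s in (0 : ℝ)..t, q s :=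
    intervalIntegral.integral_congr fun s hs => by
      rw [uIcc_of_le ht] at hs
      simp only [hp s hs]
  rwa [e1, e2] at h

/-- **Gronwall**, variable coefficients, both directions of time. -/
theorem gron {φ φ' : ℝ → V} {a q : ℝ → ℝ} {t : ℝ}
    (ha : ContinuousOn a (uIcc 0 t)) (hq : ContinuousOn q (uIcc 0 t))
    (ha0 : ∀ s ∈ uIcc 0 t, 0 ≤ a s) (hq0 : ∀ s ∈ uIcc 0 t, 0 ≤ q s)
    (hφ : ∀ s ∈ uIcc 0 t, HasDerivAt φ (φ' s) s)
    (hb : ∀ s ∈ uIcc 0 t, ‖φ' s‖ ≤ a s * ‖φ s‖ + q s) :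
    ‖φ t‖ ≤ (‖φ 0‖ + |∫ s in (0 : ℝ)..t, q s|) * Real.exp |∫ s in (0 : ℝ)..t, a s| := by
  rcases le_total 0 t with ht | ht
  · rw [uIcc_of_le ht] at *
    rw [abs_of_nonneg (intervalIntegral.integral_nonneg ht hq0),
      abs_of_nonneg (intervalIntegral.integral_nonneg ht ha0)]
    exact gron_pos ht ha hq ha0 hq0 hφ hb
  · rw [uIcc_of_ge ht] at *
    have hneg : ∀ s, s ∈ Icc 0 (-t) → -s ∈ Icc t 0 := fun s hs => ⟨by linarith [hs.2], by
      linarith [hs.1]⟩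
    have hφ2 : ∀ s ∈ Icc 0 (-t), HasDerivAt (fun r => φ (-r)) (-φ' (-s)) s := fun s hs => by
      have := (hφ (-s) (hneg s hs)).scomp s (hasDerivAt_neg s)
      rw [neg_one_smul] at this
      exact this
    have h := gron_pos (φ := fun s => φ (-s)) (φ' := fun s => -φ' (-s)) (a := fun s => a (-s))
      (q := fun s => q (-s)) (t := -t) (by linarith)
      (ha.comp continuous_neg.continuousOn hneg) (hq.comp continuous_neg.continuousOn hneg)
      (fun s hs => ha0 _ (hneg s hs)) (fun s hs => hq0 _ (hneg s hs)) hφ2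
      (fun s hs => by simpa using hb _ (hneg s hs))
    have e1 : ∫ s in (0 : ℝ)..(-t), a (-s) = ∫ s in t..0, a s := by
      rw [intervalIntegral.integral_comp_neg]; simp
    have e2 : ∫ s in (0 : ℝ)..(-t), q (-s) = ∫ s in t..0, q s := by
      rw [intervalIntegral.integral_comp_neg]; simp
    rw [e1, e2] at h
    simp only [neg_neg, neg_zero] at h
    have e3 : |∫ s in (0 : ℝ)..t, q s| = ∫ s in t..0, q s := by
      rw [intervalIntegral.integral_symm, abs_neg,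
        abs_of_nonneg (intervalIntegral.integral_nonneg ht hq0)]
    have e4 : |∫ s in (0 : ℝ)..t, a s| = ∫ s in t..0, a s := by
      rw [intervalIntegral.integral_symm, abs_neg,
        abs_of_nonneg (intervalIntegral.integral_nonneg ht ha0)]
    rw [e3, e4]
    exact h

end Gronwall

/-! ### Bounds along characteristics -/

/-- A characteristic through `(t, x)` back (or forward) to time `0`. -/
def HasChar (W : ℝ × X → X) (t : ℝ) (x : X) : Prop :=
  ∃ z : ℝ → X, z t = x ∧ ∀ s ∈ uIcc 0 t, HasDerivAt z (W (s, z s)) s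

/-- **Master bound along one characteristic.** -/
theorem bound_along {W : ℝ × X → X} {F : ℝ × X → Y} (hI : IsOpen I)
    (hW : ContDiffOn ℝ ∞ W (I ×ˢ univ)) (hF : ContDiffOn ℝ ∞ F (I ×ˢ univ))
    {t : ℝ} (ht : uIcc 0 t ⊆ I) {z : ℝ → X} (hz : ∀ s ∈ uIcc 0 t, HasDerivAt z (W (s, z s)) s)
    (k : ℕ) {a q : ℝ → ℝ}
    (ha : ContinuousOn a (uIcc 0 t)) (hq : ContinuousOn q (uIcc 0 t))
    (ha0 : ∀ s ∈ uIcc 0 t, 0 ≤ a s) (hq0 : ∀ s ∈ uIcc 0 t, 0 ≤ q s)
    (hb : ∀ s ∈ uIcc 0 t, N k (tr W F) (s, z s) + (2 ^ k - 1) * R k F W (s, z s) ≤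
      a s * N k F (s, z s) + q s) :
    N k F (t, z t) ≤ (N k F (0, z 0) + |∫ s in (0 : ℝ)..t, q s|) *
      Real.exp |∫ s in (0 : ℝ)..t, a s| := by
  choose! φ' hφ hφb using fun (s : ℝ) (hs : s ∈ uIcc 0 t) =>
    hasDerivAt_iter hI hW (ht hs) (hz s hs) k hF
  exact gron ha hq ha0 hq0 hφ (fun s hs => (hφb s hs).trans (hb s hs))

/-- Order `0`, with source. -/
theorem bound_zero {W : ℝ × X → X} {F : ℝ × X → Y} (hI : IsOpen I)
    (hW : ContDiffOn ℝ ∞ W (I ×ˢ univ)) (hF : ContDiffOn ℝ ∞ F (I ×ˢ univ))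
    {t : ℝ} (ht : uIcc 0 t ⊆ I) {x : X} (hz : HasChar W t x) {c : ℝ} {q : ℝ → ℝ}
    (hq : ContinuousOn q (uIcc 0 t))
    (h0 : ∀ y, ‖F (0, y)‖ ≤ c) (hS : ∀ s ∈ uIcc 0 t, ∀ y, ‖tr W F (s, y)‖ ≤ q s) :
    ‖F (t, x)‖ ≤ c + |∫ s in (0 : ℝ)..t, q s| := by
  obtain ⟨z, rfl, hz⟩ := hz
  have h := bound_along hI hW hF ht hz 0 (a := fun _ => 0) (q := q) continuousOn_const hq
    (fun _ _ => le_rfl) (fun s hs => (norm_nonneg _).trans (hS s hs (z s)))
    (fun s hs => by simpa [N_zero, R] using hS s hs (z s))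
  simp only [N_zero, intervalIntegral.integral_zero, abs_zero, Real.exp_zero, mul_one] at h
  exact h.trans (add_le_add (h0 _) le_rfl)

/-- Order `1`. -/
theorem bound_one {W : ℝ × X → X} {F : ℝ × X → Y} (hI : IsOpen I)
    (hW : ContDiffOn ℝ ∞ W (I ×ˢ univ)) (hF : ContDiffOn ℝ ∞ F (I ×ˢ univ))
    {t : ℝ} (ht : uIcc 0 t ⊆ I) {x : X} (hz : HasChar W t x) {c : ℝ} {a q : ℝ → ℝ}
    (ha : ContinuousOn a (uIcc 0 t)) (hq : ContinuousOn q (uIcc 0 t))
    (h0 : ∀ y, N 1 F (0, y) ≤ c) (hW1 : ∀ s ∈ uIcc 0 t, ∀ y, N 1 W (s, y) ≤ a s)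
    (hS : ∀ s ∈ uIcc 0 t, ∀ y, N 1 (tr W F) (s, y) ≤ q s) :
    N 1 F (t, x) ≤ (c + |∫ s in (0 : ℝ)..t, q s|) * Real.exp |∫ s in (0 : ℝ)..t, a s| := by
  obtain ⟨z, rfl, hz⟩ := hz
  refine (bound_along hI hW hF ht hz 1 ha hq
    (fun s hs => (N_nonneg _ _ _).trans (hW1 s hs (z s)))
    (fun s hs => (N_nonneg _ _ _).trans (hS s hs (z s)))
    (fun s hs => ?_)).trans ?_
  · have h1 := mul_le_mul_of_nonneg_left (hW1 s hs (z s)) (N_nonneg 1 F (s, z s))
    simp only [R, Finset.sum_range_one, zero_add, Nat.sub_zero, pow_one]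
    linarith [hS s hs (z s)]
  · gcongr
    exact h0 _

/-- Order `k ≥ 2`: linear in the top order of `W`. -/
theorem bound_succ {W : ℝ × X → X} {F : ℝ × X → Y} (hI : IsOpen I)
    (hW : ContDiffOn ℝ ∞ W (I ×ˢ univ)) (hF : ContDiffOn ℝ ∞ F (I ×ˢ univ))
    {t : ℝ} (ht : uIcc 0 t ⊆ I) {x : X} (hz : HasChar W t x) {k : ℕ} (hk : 2 ≤ k)
    {c : ℝ} {b M : ℕ → ℝ} {w q : ℝ → ℝ}
    (hw : ContinuousOn w (uIcc 0 t)) (hq : ContinuousOn q (uIcc 0 t))
    (h0 : ∀ y, N k F (0, y) ≤ c)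
    (hb : ∀ j, 1 ≤ j → j < k → ∀ s ∈ uIcc 0 t, ∀ y, N j W (s, y) ≤ b j)
    (hM : ∀ j, 1 ≤ j → j < k → ∀ s ∈ uIcc 0 t, ∀ y, N j F (s, y) ≤ M j)
    (hWk : ∀ s ∈ uIcc 0 t, ∀ y, N k W (s, y) ≤ w s)
    (hS : ∀ s ∈ uIcc 0 t, ∀ y, N k (tr W F) (s, y) ≤ q s) :
    N k F (t, x) ≤ (c + |∫ s in (0 : ℝ)..t, q s| + 2 ^ k * (M 1 * |∫ s in (0 : ℝ)..t, w s| +
      |t| * ∑ i ∈ Finset.Ico 1 (k - 1), M (i + 1) * b (k - i))) * Real.exp (2 ^ k * b 1 * |t|) := by
  obtain ⟨z, rfl, hz⟩ := hz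
  obtain ⟨m, rfl⟩ : ∃ m, k = m + 2 := ⟨k - 2, by omega⟩
  have h0mem : (0 : ℝ) ∈ uIcc 0 t := left_mem_uIcc
  have hb1 : 0 ≤ b 1 := (N_nonneg _ _ _).trans (hb 1 le_rfl (by omega) 0 h0mem 0)
  have hM1 : 0 ≤ M 1 := (N_nonneg _ _ _).trans (hM 1 le_rfl (by omega) 0 h0mem 0)
  set Sg : ℝ := ∑ i ∈ Finset.Ico 1 (m + 2 - 1), M (i + 1) * b (m + 2 - i) with hSg
  have hSg0 : 0 ≤ Sg := by
    refine Finset.sum_nonneg fun i hi => ?_
    rw [Finset.mem_Ico] at hi
    exact mul_nonneg ((N_nonneg _ _ _).trans (hM _ (by omega) (by omega) 0 h0mem 0))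
      ((N_nonneg _ _ _).trans (hb _ (by omega) (by omega) 0 h0mem 0))
  have hRle : ∀ s ∈ uIcc 0 t, R (m + 2) F W (s, z s) ≤
      b 1 * N (m + 2) F (s, z s) + (M 1 * w s + Sg) := by
    intro s hs
    rw [R, Finset.sum_range_succ, Finset.range_eq_Ico,
      Finset.sum_eq_sum_Ico_succ_bot (by omega : 0 < m + 1)]
    have e1 : N (0 + 1) F (s, z s) * N (m + 2 - 0) W (s, z s) ≤ M 1 * w s :=
      mul_le_mul (hM 1 le_rfl (by omega) s hs _) (hWk s hs _) (N_nonneg _ _ _) hM1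
    have e2 : N (m + 1 + 1) F (s, z s) * N (m + 2 - (m + 1)) W (s, z s) ≤
        b 1 * N (m + 2) F (s, z s) := by
      rw [mul_comm (b 1), show m + 2 - (m + 1) = 1 by omega]
      exact mul_le_mul_of_nonneg_left (hb 1 le_rfl (by omega) s hs _) (N_nonneg _ _ _)
    have e3 : ∑ i ∈ Finset.Ico (0 + 1) (m + 1), N (i + 1) F (s, z s) * N (m + 2 - i) W (s, z s) ≤
        Sg := by
      refine Finset.sum_le_sum fun i hi => ?_
      rw [Finset.mem_Ico] at hi
      exact mul_le_mul (hM _ (by omega) (by omega) s hs _) (hb _ (by omega) (by omega) s hs _)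
        (N_nonneg _ _ _) ((N_nonneg _ _ _).trans (hM _ (by omega) (by omega) s hs 0))
    linarith
  have hint : ∀ s ∈ uIcc 0 t, 0 ≤ q s + 2 ^ (m + 2) * (M 1 * w s + Sg) := fun s hs => by
    have h1 := (N_nonneg _ _ _).trans (hS s hs 0)
    have h2 := (N_nonneg _ _ _).trans (hWk s hs 0)
    positivity
  have hcont : ContinuousOn (fun s => q s + 2 ^ (m + 2) * (M 1 * w s + Sg)) (uIcc 0 t) :=
    hq.add (((hw.const_smul (M 1)).add continuousOn_const).const_smul ((2 : ℝ) ^ (m + 2)))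
  have h := bound_along hI hW hF ht hz (m + 2) (a := fun _ => 2 ^ (m + 2) * b 1)
    (q := fun s => q s + 2 ^ (m + 2) * (M 1 * w s + Sg)) continuousOn_const hcont
    (fun _ _ => by positivity) hint (fun s hs => by
      have h1 := hRle s hs
      have h2 : R (m + 2) F W (s, z s) * (2 ^ (m + 2) - 1) ≤
          (b 1 * N (m + 2) F (s, z s) + (M 1 * w s + Sg)) * 2 ^ (m + 2) := by
        have h3 : 0 ≤ R (m + 2) F W (s, z s) :=
          Finset.sum_nonneg fun i _ => mul_nonneg (N_nonneg _ _ _) (N_nonneg _ _ _)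
        exact (mul_le_mul_of_nonneg_left (by linarith) h3).trans
          (mul_le_mul_of_nonneg_right h1 (by positivity))
      linarith [hS s hs (z s)])
  refine h.trans ?_
  have e1 : |∫ s in (0 : ℝ)..t, (2 : ℝ) ^ (m + 2) * b 1| = 2 ^ (m + 2) * b 1 * |t| := by
    rw [intervalIntegral.integral_const, smul_eq_mul, sub_zero, abs_mul,
      abs_of_nonneg (by positivity : (0 : ℝ) ≤ 2 ^ (m + 2) * b 1), mul_comm]
  have hqi : IntervalIntegrable q MeasureTheory.volume 0 t := hq.intervalIntegrable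
  have hwi : IntervalIntegrable w MeasureTheory.volume 0 t := hw.intervalIntegrable
  have e2 : ∫ s in (0 : ℝ)..t, (q s + 2 ^ (m + 2) * (M 1 * w s + Sg)) =
      (∫ s in (0 : ℝ)..t, q s) + 2 ^ (m + 2) * (M 1 * (∫ s in (0 : ℝ)..t, w s) + t * Sg) := by
    rw [intervalIntegral.integral_add hqi (((hwi.const_mul _).add
      (intervalIntegrable_const)).const_mul _), intervalIntegral.integral_const_mul,
      intervalIntegral.integral_add (hwi.const_mul _) intervalIntegrable_const,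
      intervalIntegral.integral_const_mul, intervalIntegral.integral_const]
    simp
  rw [e1, e2]
  refine mul_le_mul_of_nonneg_right ?_ (Real.exp_pos _).le
  have e3 : |(∫ s in (0 : ℝ)..t, q s) + 2 ^ (m + 2) * (M 1 * (∫ s in (0 : ℝ)..t, w s) + t * Sg)| ≤
      |∫ s in (0 : ℝ)..t, q s| + 2 ^ (m + 2) * (M 1 * |∫ s in (0 : ℝ)..t, w s| + |t| * Sg) := by
    refine (abs_add_le _ _).trans (add_le_add le_rfl ?_)
    rw [abs_mul, abs_of_nonneg (by positivity : (0 : ℝ) ≤ 2 ^ (m + 2))]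
    refine mul_le_mul_of_nonneg_left ((abs_add_le _ _).trans (le_of_eq ?_)) (by positivity)
    rw [abs_mul, abs_mul, abs_of_nonneg hM1, abs_of_nonneg hSg0]
  linarith [h0 (z 0)]

end Crest.Agent.R106.Trans
end
end

-- ▼ part R106/TransB

/-!
# Row 106, module TRANS, part 2: all orders, differences
-/

set_option autoImplicit false
set_option linter.unusedSectionVars false

open Set Filter Topology
open scoped ContDiff

noncomputable section

namespace Crest.Agent.R106.Trans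

universe u

variable {X : Type u} [NormedAddCommGroup X] [NormedSpace ℝ X]
variable {Y : Type u} [NormedAddCommGroup Y] [NormedSpace ℝ Y]
variable {I : Set ℝ}






/-! ### Differences -/




/-- A transported function is constant along characteristics. -/
theorem const_along {W : ℝ × X → X} {F : ℝ × X → Y} (hI : IsOpen I)
    (hF : ContDiffOn ℝ ∞ F (I ×ˢ univ))
    {t : ℝ} (ht : uIcc 0 t ⊆ I) {z : ℝ → X} (hz : ∀ s ∈ uIcc 0 t, HasDerivAt z (W (s, z s)) s)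
    (hT : ∀ s ∈ uIcc 0 t, tr W F (s, z s) = 0) : F (t, z t) = F (0, z 0) := by
  have h1 : ∀ s ∈ uIcc 0 t, HasDerivAt (fun r => F (r, z r) - F (0, z 0)) 0 s := by
    intro s hs
    have hd : HasFDerivAt F (fderiv ℝ F (s, z s)) (s, z s) :=
      (diffAt hI (hF.of_le (by simp)) (p := (s, z s)) (ht hs)).hasFDerivAt
    have h2 : HasDerivAt (fun r : ℝ => ((r, z r) : ℝ × X)) ((1 : ℝ), W (s, z s)) s :=
      (hasDerivAt_id s).prodMk (hz s hs)
    have h3 : HasDerivAt (fun r => F (r, z r)) (tr W F (s, z s)) s := hd.comp_hasDerivAt s h2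
    rw [hT s hs] at h3
    exact h3.sub_const _
  have h := gron (a := fun _ => 0) (q := fun _ => 0) continuousOn_const continuousOn_const
    (fun _ _ => le_rfl) (fun _ _ => le_rfl) h1 (fun s _ => by simp)
  simp only [intervalIntegral.integral_zero, abs_zero, Real.exp_zero, mul_one, sub_self,
    norm_zero, add_zero] at h
  exact sub_eq_zero.1 (norm_le_zero_iff.1 h)

end Crest.Agent.R106.Trans
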