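import Mathlib
import Crest.Agent.R106.StdIface
import Crest.Agent.R106.LimDefs
import Crest.Agent.R106.Lim
import Crest.Agent.R106.SmoothLim
import Crest.Agent.R106.Trunc
import Crest.Prelude.Def_VlasovMaxwell
import Crest.Agent.R106.FlowF
import Crest.Agent.R106.TransB
import Crest.Agent.R106.FlowGen

-- ▼ part R106/PicEx
section

/-!
Row 106, node PICEX (helper229): `picEx : Std.Trunc → Std.StepEx → Std.Pic → Std.TB → PicEx`.
-/

set_option autoImplicit false
open MeasureTheory Set Filter Topology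
open scoped ContDiff
open Crest.AnalysisR.VecCalc3 Crest.AnalysisR.PDE.RVM

namespace Crest.Agent.R106.Std

/-- `TruncForce` from `IsTrunc`. -/
theorem IsTrunc.truncForce {P : ℝ} {G : R3 → (R3 × R3) →L[ℝ] R3} (hG : IsTrunc P G) :
    TruncForce P (fun v e b => G v (e, b)) := by
  refine ⟨?_, ?_, fun v e b hv => hG.eq v e b hv⟩
  · exact (hG.smooth.comp contDiff_fst).clm_apply
      ((contDiff_fst.comp contDiff_snd).prodMk (contDiff_snd.comp contDiff_snd))
  · obtain ⟨C, hC⟩ := (isCompact_closedBall (0 : R3) (2 * P)).exists_bound_of_continuousOn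
      (f := G) hG.smooth.continuous.continuousOn
    refine ⟨max C 0, le_max_right _ _, fun v e b => ?_⟩
    have hn : ‖G v‖ ≤ max C 0 := by
      by_cases hv : ‖v‖ ≤ 2 * P
      · exact (hC v (by simpa using hv)).trans (le_max_left _ _)
      · push Not at hv
        rw [hG.supp v hv.le, norm_zero]; exact le_max_right _ _
    calc ‖G v (e, b)‖ ≤ ‖G v‖ * ‖(e, b)‖ := (G v).le_opNorm _
      _ ≤ max C 0 * (‖e‖ + ‖b‖) := by
        refine mul_le_mul hn ?_ (norm_nonneg _) (le_max_right _ _)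
        rw [Prod.norm_mk]
        exact max_le_add_of_nonneg (norm_nonneg _) (norm_nonneg _)

/-- the zero field is smooth and bounded with all derivatives -/
theorem SF_zero : SF (fun _ _ => (0 : R3)) := by
  refine ⟨contDiff_const, fun T k => ⟨0, fun t _ x => ?_⟩⟩
  rcases Nat.eq_zero_or_pos k with hk | hk
  · subst hk; simp
  · rw [iteratedFDeriv_const_of_ne (by omega)]; simp

/-- the Picard sequence exists -/
theorem exists_seq (hSt : StepEx) {P : ℝ} {G : R3 → (R3 × R3) →L[ℝ] R3} (hG : IsTrunc P G)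
    {f₀ : R3 → R3 → ℝ} {E₀ B₀ : R3 → R3} (hadm : IsAdmissibleDatum f₀ E₀ B₀) :
    ∃ (E B : ℕ → ℝ → R3 → R3) (f : ℕ → ℝ → R3 → R3 → ℝ), Seq P G f₀ E₀ B₀ E B f := by
  classical
  let St := {s : (ℝ → R3 → R3) × (ℝ → R3 → R3) // SF s.1 ∧ SF s.2}
  have hst : ∀ s : St, ∃ (f : ℝ → R3 → R3 → ℝ) (E' B' : ℝ → R3 → R3),
      Step P G f₀ E₀ B₀ s.1.1 s.1.2 f E' B' := fun s =>
    hSt P G hG f₀ E₀ B₀ hadm s.1.1 s.1.2 s.2.1 s.2.2
  choose F E' B' hS using hst
  let next : St → St := fun s => ⟨(E' s, B' s), (hS s).outE, (hS s).outB⟩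
  let seq : ℕ → St := fun n => Nat.rec (⟨(fun _ _ => 0, fun _ _ => 0), SF_zero, SF_zero⟩ : St)
    (fun _ s => next s) n
  refine ⟨fun n => (seq n).1.1, fun n => (seq n).1.2, fun n => F (seq n),
    fun t x => rfl, fun t x => rfl, fun n => hS (seq n)⟩

/-- bounds of the support of an admissible datum -/
theorem exists_supp {f₀ : R3 → R3 → ℝ} {E₀ B₀ : R3 → R3} (hadm : IsAdmissibleDatum f₀ E₀ B₀) :
    ∃ R : ℝ, 0 ≤ R ∧ ∀ x v : R3, (R < ‖x‖ ∨ R < ‖v‖) → f₀ x v = 0 := by
  obtain ⟨R, hR⟩ := (hadm.2.2.1.isCompact).isBounded.exists_norm_le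
  refine ⟨max R 0, le_max_right _ _, fun x v hv => ?_⟩
  by_contra hne
  have h1 : (x, v) ∈ tsupport (Function.uncurry f₀) := subset_tsupport _ hne
  have h2 : ‖(x, v)‖ ≤ R := hR _ h1
  have h3 : ‖x‖ ≤ R := (norm_fst_le (x, v)).trans h2
  have h4 : ‖v‖ ≤ R := (norm_snd_le (x, v)).trans h2
  have h5 : R ≤ max R 0 := le_max_left _ _
  rcases hv with h | h <;> linarith

/-- Node PICEX. -/
theorem picEx (hTr : Trunc) (hSt : StepEx) (hPic : Pic) (hTB : TB) : PicEx := by
  intro P hP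
  obtain ⟨G, hG⟩ := hTr P hP
  refine ⟨fun v e b => G v (e, b), hG.truncForce, fun f₀ E₀ B₀ hadm => ?_⟩
  obtain ⟨E, B, f, hseq⟩ := exists_seq hSt hG hadm
  obtain ⟨hbd, hconv⟩ := hPic P G hG f₀ E₀ B₀ hadm E B f hseq
  have htb := hTB P G hG f₀ E₀ B₀ hadm E B f hseq hbd
  have habs : ∀ {T t : ℝ}, t ∈ Icc (-T) T → |t| ≤ T := fun ht => abs_le.mpr ht
  refine ⟨f, E, B, ?_⟩
  exact {
    fs := fun n => (hseq.step n).pc.1
    Es := fun n => (hseq.step n).inE.1
    Bs := fun n => (hseq.step n).inB.1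
    f0 := fun n => (hseq.step n).init
    E0 := fun n => (hseq.step n).initE
    B0 := fun n => (hseq.step n).initB
    vlasov := fun n t x v => (hseq.step n).trans t x v
    amp := fun n t x i => ((hseq.step n).maxwell t x).1 i
    far := fun n t x i => ((hseq.step n).maxwell t x).2.1 i
    gauss := fun n t x => ((hseq.step n).maxwell t x).2.2.1
    nomon := fun n t x => ((hseq.step n).maxwell t x).2.2.2
    supp := by
      intro T
      obtain ⟨R, hR0, hR⟩ := exists_supp hadm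
      refine ⟨max (max R (2 * P)) (R + T), fun n t ht x v hxv => ?_⟩
      rcases hxv with h | h
      · refine (hseq.step n).suppx R (fun x v hx => hR x v (Or.inl hx)) t x v ?_
        have h1 := habs ht
        have h2 : R + T < ‖x‖ := lt_of_le_of_lt (le_max_right _ _) h
        linarith
      · refine (hseq.step n).suppv (max R (2 * P)) (le_max_right _ _)
          (fun x v hv => hR x v (Or.inr (lt_of_le_of_lt (le_max_left _ _) hv))) t x v ?_
        exact lt_of_le_of_lt (le_max_left _ _) h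
    bdf := by
      intro T k
      obtain ⟨C, hC⟩ := htb T k
      exact ⟨C, fun n t ht x v => (hC n t (habs ht)).2 x v⟩
    bdE := by
      intro T k
      obtain ⟨C, hC⟩ := htb T k
      exact ⟨C, fun n t ht x => ((hC n t (habs ht)).1 x).1⟩
    bdB := by
      intro T k
      obtain ⟨C, hC⟩ := htb T k
      exact ⟨C, fun n t ht x => ((hC n t (habs ht)).1 x).2⟩
    conv := by
      intro T
      obtain ⟨u, hu, hC⟩ := hconv T
      exact ⟨u, hu, fun n t ht x => hC n t (habs ht) x⟩ }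

end Crest.Agent.R106.Std
end

-- ▼ part R106/LimEx
section

/-!
# Row 106, node LIM (helper775), second half: `TruncEx` from a global solution of the truncated system.
-/

set_option autoImplicit false
open MeasureTheory Set Filter Topology
open scoped ContDiff
open Crest.AnalysisR.VecCalc3 Crest.AnalysisR.PDE.RVM

namespace Crest.Agent.R106.Lim

variable {P : ℝ} {G : R3 → R3 → R3 → R3} {f₀ : R3 → R3 → ℝ} {E₀ B₀ : R3 → R3}
  {f : ℝ → R3 → R3 → ℝ} {E B : ℝ → R3 → R3}

/-- the characteristic vector field -/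
noncomputable def VF (G : R3 → R3 → R3 → R3) (E B : ℝ → R3 → R3) : ℝ → R3 × R3 → R3 × R3 :=
  fun t z => (relVel z.2, G z.2 (E t z.1) (B t z.1))

lemma contDiff_relVel : ContDiff ℝ ∞ relVel := by
  have h0 : ∀ v : R3, (1 + ‖v‖ ^ 2 : ℝ) ≠ 0 := fun v => by positivity
  have h1 : ContDiff ℝ ∞ fun v : R3 => (1 + ‖v‖ ^ 2 : ℝ) := contDiff_const.add (contDiff_norm_sq ℝ)
  have h2 : ContDiff ℝ ∞ fun v : R3 => Real.sqrt (1 + ‖v‖ ^ 2) := h1.sqrt h0
  have h3 : ContDiff ℝ ∞ fun v : R3 => (Real.sqrt (1 + ‖v‖ ^ 2))⁻¹ • v :=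
    (h2.inv (fun v => (Real.sqrt_pos.2 (by positivity : (0 : ℝ) < 1 + ‖v‖ ^ 2)).ne')).smul contDiff_id
  exact h3

lemma VF_bound (hG : TruncForce P G) (h : TruncSol G f₀ E₀ B₀ f E B) (T : ℝ) :
    ∃ C : ℝ, ∀ t ∈ Icc (-T) T, ∀ z, ‖VF G E B t z‖ ≤ C := by
  obtain ⟨C, hC0, hC⟩ := hG.bdd
  obtain ⟨C1, hC1⟩ := h.bdE T
  obtain ⟨C2, hC2⟩ := h.bdB T
  refine ⟨max 1 (C * (C1 + C2)), fun t ht z => ?_⟩
  rw [VF, Prod.norm_def]
  refine max_le ((norm_relVel_le _).trans (le_max_left _ _)) ?_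
  refine ((hC _ _ _).trans ?_).trans (le_max_right _ _)
  have h1 := hC1 t ht z.1
  have h2 := hC2 t ht z.1
  gcongr

lemma good (hG : TruncForce P G) (h : TruncSol G f₀ E₀ B₀ f E B) (a : ℝ) :
    Flow.Good 1 (VF G E B) (-a) a := by
  constructor
  · apply ContDiff.contDiffOn
    apply ContDiff.of_le (n := ∞) _ (by simp)
    unfold VF
    refine ContDiff.prodMk (contDiff_relVel.comp (by fun_prop)) ?_
    refine hG.smooth.comp (ContDiff.prodMk (by fun_prop) (ContDiff.prodMk ?_ ?_))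
    · exact h.Es.comp (ContDiff.prodMk contDiff_fst (by fun_prop))
    · exact h.Bs.comp (ContDiff.prodMk contDiff_fst (by fun_prop))
  · intro c d hc hd
    obtain ⟨C, hC⟩ := VF_bound hG h (max |c| |d|)
    refine ⟨C, fun t ht z => hC t ⟨?_, ?_⟩ z⟩
    · have := le_max_left |c| |d|
      have := neg_abs_le c
      linarith [ht.1]
    · have := le_max_right |c| |d|
      have := le_abs_self d
      linarith [ht.2]

/-- `f` is constant along characteristics -/
lemma hasDerivAt_along (h : TruncSol G f₀ E₀ B₀ f E B) {c : ℝ → R3 × R3} {t : ℝ}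
    (hc : HasDerivAt c (VF G E B t (c t)) t) :
    HasDerivAt (fun s => f s (c s).1 (c s).2) 0 t := by
  set F : ℝ × R3 × R3 → ℝ := fun p => f p.1 p.2.1 p.2.2 with hF
  have hd : DifferentiableAt ℝ F (t, c t) := h.fs.contDiffAt.differentiableAt (by simp)
  have h1 : HasDerivAt (fun s => ((s, c s) : ℝ × R3 × R3)) (1, VF G E B t (c t)) t :=
    (hasDerivAt_id t).prodMk hc
  have h2 : HasDerivAt (fun s => F (s, c s)) (fderiv ℝ F (t, c t) (1, VF G E B t (c t))) t :=
    HasFDerivAt.comp_hasDerivAt (l := F) t hd.hasFDerivAt h1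
  have h3 : fderiv ℝ F (t, c t) (1, VF G E B t (c t)) = 0 := by
    have hv := h.vlasov t (c t).1 (c t).2
    have e1 := (hasDerivAt_t3 (F := F) (t := t) (x := (c t).1) (v := (c t).2) hd).deriv
    have e2 := fun i => pderiv_x3 (F := F) (t := t) (x := (c t).1) (v := (c t).2) hd i
    have e3 := fun i => pderiv_v3 (F := F) (t := t) (x := (c t).1) (v := (c t).2) hd i
    simp only [hF] at e1 e2 e3
    rw [e1] at hv
    simp_rw [e2, e3] at hv
    have hsum : ∀ (w : R3), w = ∑ i : Fin 3, w i • EuclideanSpace.single i (1 : ℝ) := by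
      intro w
      ext j
      simp [Finset.sum_apply, Pi.single_apply]
    have hdec : ((1, VF G E B t (c t)) : ℝ × R3 × R3)
        = (1, 0, 0) + ∑ i : Fin 3, relVel (c t).2 i • ((0, EuclideanSpace.single i 1, 0) : ℝ × R3 × R3)
          + ∑ i : Fin 3, G (c t).2 (E t (c t).1) (B t (c t).1) i
            • ((0, 0, EuclideanSpace.single i 1) : ℝ × R3 × R3) := by
      ext1
      · simp [Prod.fst_sum]
      · ext1
        · simp only [VF, Prod.snd_add, Prod.fst_add, Prod.snd_sum, Prod.fst_sum, Prod.smul_snd,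
            Prod.smul_fst, smul_zero, Finset.sum_const_zero, add_zero, zero_add]
          exact hsum _
        · simp only [VF, Prod.snd_add, Prod.snd_sum, Prod.smul_snd,
            smul_zero, Finset.sum_const_zero, zero_add]
          exact hsum _
    rw [hdec, map_add, map_add, map_sum, map_sum]
    simp only [map_smul, smul_eq_mul]
    exact hv
  rw [h3] at h2
  exact h2

lemma const_along (hG : TruncForce P G) (h : TruncSol G f₀ E₀ B₀ f E B) {a s t : ℝ}
    (hs : s ∈ Ioo (-a) a) (ht : t ∈ Ioo (-a) a) (z : R3 × R3) :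
    f t z.1 z.2 = f s (Flow.Φ (VF G E B) (-a) a s t z).1 (Flow.Φ (VF G E B) (-a) a s t z).2 := by
  have hg := good hG h a
  have hI : ∀ r ∈ uIcc t s, r ∈ Ioo (-a) a := by
    intro r hr
    rw [mem_uIcc] at hr
    rcases hr with hr | hr
    · exact ⟨ht.1.trans_le hr.1, hr.2.trans_lt hs.2⟩
    · exact ⟨hs.1.trans_le hr.1, hr.2.trans_lt ht.2⟩
  have h4 := (convex_uIcc t s).norm_image_sub_le_of_norm_hasDerivWithin_le (C := 0)
    (f := fun r => f r (Flow.Φ (VF G E B) (-a) a r t z).1 (Flow.Φ (VF G E B) (-a) a r t z).2)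
    (f' := fun _ => 0)
    (fun r hr => (hasDerivAt_along h (Flow.hasDerivAt_Φ hg (hI r hr) ht z)).hasDerivWithinAt)
    (fun r _ => by simp) left_mem_uIcc right_mem_uIcc
  rw [zero_mul] at h4
  have h5 := norm_le_zero_iff.1 h4
  have h6 : Flow.Φ (VF G E B) (-a) a t t z = z := Flow.Φ_self hg ht z
  rw [h6] at h5
  linarith [sub_eq_zero.1 h5]

lemma growth (hG : TruncForce P G) (h : TruncSol G f₀ E₀ B₀ f E B) (T : ℝ) :
    ∃ C : ℝ, ∀ s t m : ℝ, 0 ≤ s → s ≤ t → t ≤ T → (∀ x v : R3, m < ‖v‖ → f s x v = 0) →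
      ∀ x v : R3, m + C * (t - s) < ‖v‖ → f t x v = 0 := by
  obtain ⟨C, hC⟩ := VF_bound hG h |T|
  refine ⟨C, fun s t m hs hst htT hm x v hv => ?_⟩
  have hT0 : 0 ≤ T := hs.trans (hst.trans htT)
  have hsa : s ∈ Ioo (-(|T| + 1)) (|T| + 1) := by
    rw [abs_of_nonneg hT0]; constructor <;> linarith
  have hta : t ∈ Ioo (-(|T| + 1)) (|T| + 1) := by
    rw [abs_of_nonneg hT0]; constructor <;> linarith
  rw [show f t x v = f t ((x, v) : R3 × R3).1 ((x, v) : R3 × R3).2 from rfl,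
    const_along hG h hsa hta (x, v)]
  apply hm
  have hb := Flow.norm_Φ_sub_le (good hG h (|T| + 1)) hsa hta (C := C) (fun r hr z => by
    refine hC r ?_ z
    rw [uIcc_comm, uIcc_of_le hst] at hr
    rw [abs_of_nonneg hT0]
    constructor <;> linarith [hr.1, hr.2]) (x, v)
  have h1 : ‖(Flow.Φ (VF G E B) (-(|T| + 1)) (|T| + 1) s t (x, v)).2 - v‖ ≤ C * (t - s) := by
    have h2 := norm_snd_le (Flow.Φ (VF G E B) (-(|T| + 1)) (|T| + 1) s t (x, v) - (x, v))
    rw [Prod.snd_sub] at h2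
    rw [abs_of_nonpos (show s - t ≤ 0 by linarith), neg_sub] at hb
    exact h2.trans hb
  have h3 : ‖v‖ ≤ ‖(Flow.Φ (VF G E B) (-(|T| + 1)) (|T| + 1) s t (x, v)).2‖
      + ‖(Flow.Φ (VF G E B) (-(|T| + 1)) (|T| + 1) s t (x, v)).2 - v‖ := by
    have := norm_sub_le (Flow.Φ (VF G E B) (-(|T| + 1)) (|T| + 1) s t (x, v)).2
      ((Flow.Φ (VF G E B) (-(|T| + 1)) (|T| + 1) s t (x, v)).2 - v)
    simpa using this
  linarith

lemma continuous_current (h : TruncSol G f₀ E₀ B₀ f E B) :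
    Continuous (fun p : ℝ × R3 => currentDensity f p.1 p.2) := by
  have hne : (∞ : WithTop ℕ∞) ≠ 0 := by simp
  have hcE : ∀ q : ℝ × R3, Continuous fun p : ℝ × R3 => fderiv ℝ (fun p : ℝ × R3 => E p.1 p.2) p q :=
    fun q => (h.Es.continuous_fderiv hne).clm_apply continuous_const
  have hcB : ∀ q : ℝ × R3, Continuous fun p : ℝ × R3 => fderiv ℝ (fun p : ℝ × R3 => B p.1 p.2) p q :=
    fun q => (h.Bs.continuous_fderiv hne).clm_apply continuous_const
  have hpr : ∀ i : Fin 3, Continuous fun w : R3 => w i :=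
    fun i => (EuclideanSpace.proj (𝕜 := ℝ) i : R3 →L[ℝ] ℝ).continuous
  have hdE : ∀ p, DifferentiableAt ℝ (fun p : ℝ × R3 => E p.1 p.2) p :=
    fun p => h.Es.contDiffAt.differentiableAt hne
  have hdB : ∀ p, DifferentiableAt ℝ (fun p : ℝ × R3 => B p.1 p.2) p :=
    fun p => h.Bs.contDiffAt.differentiableAt hne
  have hcurl : ∀ i : Fin 3, Continuous fun p : ℝ × R3 => curl3 (B p.1) p.2 i := by
    have hp : ∀ i j : Fin 3, Continuous fun p : ℝ × R3 => pderiv (fun y => B p.1 y j) i p.2 := by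
      intro i j
      have : (fun p : ℝ × R3 => pderiv (fun y => B p.1 y j) i p.2) = fun p : ℝ × R3 =>
          (fderiv ℝ (fun p : ℝ × R3 => B p.1 p.2) p (0, EuclideanSpace.single i 1)) j := by
        funext p
        exact pderiv_x2 (F := fun p : ℝ × R3 => B p.1 p.2) (t := p.1) (x := p.2) (hdB _) i j
      rw [this]
      exact (hpr j).comp (hcB _)
    intro i
    fin_cases i
    · change Continuous fun p : ℝ × R3 => pderiv (fun y => B p.1 y 2) 1 p.2 - pderiv (fun y => B p.1 y 1) 2 p.2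
      exact (hp 1 2).sub (hp 2 1)
    · change Continuous fun p : ℝ × R3 => pderiv (fun y => B p.1 y 0) 2 p.2 - pderiv (fun y => B p.1 y 2) 0 p.2
      exact (hp 2 0).sub (hp 0 2)
    · change Continuous fun p : ℝ × R3 => pderiv (fun y => B p.1 y 1) 0 p.2 - pderiv (fun y => B p.1 y 0) 1 p.2
      exact (hp 0 1).sub (hp 1 0)
  have hdt : ∀ i : Fin 3, Continuous fun p : ℝ × R3 => deriv (fun s => E s p.2 i) p.1 := by
    intro i
    have : (fun p : ℝ × R3 => deriv (fun s => E s p.2 i) p.1) = fun p : ℝ × R3 =>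
        (fderiv ℝ (fun p : ℝ × R3 => E p.1 p.2) p (1, 0)) i := by
      funext p
      exact (hasDerivAt_t2 (F := fun p : ℝ × R3 => E p.1 p.2) (t := p.1) (x := p.2) (hdE _) i).deriv
    rw [this]
    exact (hpr i).comp (hcE _)
  have hcoord : ∀ i : Fin 3, Continuous fun p : ℝ × R3 => currentDensity f p.1 p.2 i := by
    intro i
    have : (fun p : ℝ × R3 => currentDensity f p.1 p.2 i)
        = fun p : ℝ × R3 => curl3 (B p.1) p.2 i - deriv (fun s => E s p.2 i) p.1 := by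
      funext p
      have := h.amp p.1 p.2 i
      linarith
    rw [this]
    exact (hcurl i).sub (hdt i)
  have h9 : Continuous fun p : ℝ × R3 => (EuclideanSpace.equiv (Fin 3) ℝ) (currentDensity f p.1 p.2) :=
    continuous_pi hcoord
  have h10 := (EuclideanSpace.equiv (Fin 3) ℝ).symm.continuous.comp h9
  simpa [Function.comp_def] using h10

/-- **LIM**: the standard part of row 106 ends here. -/
theorem truncEx (hPic : PicEx) (hS3 : SLim (ℝ × R3 × R3) ℝ) (hS2 : SLim (ℝ × R3) R3)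
    (hL2 : L2Clause) : TruncEx := by
  intro f₀ E₀ B₀ hadm P hP
  obtain ⟨G, hG, hex⟩ := hPic P hP
  obtain ⟨fn, En, Bn, hseq⟩ := hex f₀ E₀ B₀ hadm
  obtain ⟨f, E, B, h⟩ := exists_truncSol hG hS3 hS2 hseq
  refine ⟨f, E, B, h.fs, h.Es, h.Bs, h.f0, h.E0, h.B0, ?_, ?_, ?_, growth hG h⟩
  · intro t _ hsup x
    refine ⟨fun v => ?_, fun i => h.amp t x i, fun i => h.far t x i, h.gauss t x, h.nomon t x⟩
    have hv := h.vlasov t x v
    rcases le_or_gt ‖v‖ P with hvP | hvP
    · rw [hG.agree v _ _ hvP] at hv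
      simpa using hv
    · -- everything vanishes near `v`
      have hopen : {w : R3 | P < ‖w‖} ∈ 𝓝 v := (isOpen_lt continuous_const continuous_norm).mem_nhds hvP
      have hx : ∀ i : Fin 3, pderiv (fun y => f t y v) i x = 0 := by
        intro i
        have : (fun y => f t y v) = fun _ => 0 := funext fun y => hsup y v hvP
        rw [this, pderiv]
        simp
      have hw : ∀ i : Fin 3, pderiv (fun w => f t x w) i v = 0 := by
        intro i
        have : (fun w => f t x w) =ᶠ[𝓝 v] fun _ => (0 : ℝ) := by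
          filter_upwards [hopen] with w hw using hsup x w hw
        rw [pderiv, this.fderiv_eq]
        simp
      simp only [hx, hw, mul_zero, Finset.sum_const_zero, add_zero] at hv ⊢
      exact hv
  · intro T
    obtain ⟨R, hR⟩ := h.supp |T|
    refine ⟨R, fun t ht x v hxv => hR t ⟨?_, ?_⟩ x v hxv⟩
    · exact (neg_nonpos.2 (abs_nonneg T)).trans ht.1
    · exact ht.2.trans (le_abs_self T)
  · intro T
    refine hL2 T E B (currentDensity f) (h.Es.of_le (by simp)).contDiffOn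
      (h.Bs.of_le (by simp)).contDiffOn (continuous_current h).continuousOn ?_
      (fun t _ _ x i => h.amp t x i) (fun t _ _ x i => h.far t x i) ?_ ?_
    · intro T' h0 _
      obtain ⟨R, hR⟩ := h.supp T'
      refine ⟨R, fun t ht x hx => ?_⟩
      have : ∀ v, f t x v = 0 := fun v => hR t ⟨by linarith [ht.1], ht.2⟩ x v (Or.inl hx)
      simp [currentDensity, this]
    · rw [h.E0]; exact hadm.2.2.2.2.2.2.1
    · rw [h.B0]; exact hadm.2.2.2.2.2.2.2.1

end Crest.Agent.R106.Lim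
end

-- ▼ part R106/SLimFin
section

/-! Row 106: `SLim` and `TruncForce` from SMOOTHLIM and TRUNC. -/

set_option autoImplicit false
open Set Filter Topology
open scoped ContDiff
open Crest.AnalysisR.VecCalc3 Crest.AnalysisR.PDE.RVM

namespace Crest.Agent.R106

theorem sLim {X Y : Type} [NormedAddCommGroup X] [NormedSpace ℝ X] [FiniteDimensional ℝ X]
    [NormedAddCommGroup Y] [NormedSpace ℝ Y] [CompleteSpace Y] : SLim X Y := by
  intro g h hg hb hlim
  obtain ⟨h1, h2⟩ := SmoothLim.smoothLim_univ g h hg hb hlim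
  refine ⟨h1, fun x => ?_⟩
  have h3 : Tendsto (fun n => iteratedFDeriv ℝ 1 (g n) x) atTop (𝓝 (iteratedFDeriv ℝ 1 h x)) := by
    have := (h2 1)
    rw [← tendstoLocallyUniformlyOn_univ] at this
    exact this.tendsto_at (mem_univ x)
  rw [tendsto_iff_norm_sub_tendsto_zero] at h3 ⊢
  refine h3.congr fun n => ?_
  have hd1 : DifferentiableAt ℝ (g n) x := ((hg n).differentiable (by simp)) x
  have hd2 : DifferentiableAt ℝ h x := (h1.differentiable (by simp)) x
  have e : iteratedFDeriv ℝ 1 (g n) x - iteratedFDeriv ℝ 1 h x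
      = iteratedFDeriv ℝ 1 (fun y => g n y - h y) x := by
    exact (iteratedFDeriv_sub_apply (((hg n).contDiffAt).of_le (by exact_mod_cast le_top))
      ((h1.contDiffAt).of_le (by exact_mod_cast le_top))).symm
  rw [e, norm_iteratedFDeriv_one, fderiv_fun_sub hd1 hd2]


end Crest.Agent.R106
end

-- ▼ part R106/L2F
section

/-!
Row 106, module L2F (helper727): the L² clause of `IsClassicalSolutionOn` for C¹ solutions of the
Maxwell system with L² data and locally bounded compactly supported current.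
-/

set_option autoImplicit false
open MeasureTheory Set Filter
open scoped ContDiff Topology
open Crest.AnalysisR.VecCalc3

namespace Crest.Agent.R106.L2F

/-! ### the cut-off -/

/-- `(s)₊²`. -/
noncomputable def pp (s : ℝ) : ℝ := (max 0 s) ^ 2

lemma pp_nonneg (s : ℝ) : 0 ≤ pp s := sq_nonneg _

lemma pp_of_nonpos {s : ℝ} (hs : s ≤ 0) : pp s = 0 := by
  simp [pp, max_eq_left hs]

lemma pp_le_one {s : ℝ} (hs : s ≤ 1) : pp s ≤ 1 := by
  have h0 : 0 ≤ max 0 s := le_max_left _ _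
  have h1 : max 0 s ≤ 1 := max_le zero_le_one hs
  unfold pp
  nlinarith

lemma hasDerivAt_pp (s : ℝ) : HasDerivAt pp (2 * max 0 s) s := by
  rcases lt_trichotomy s 0 with h | h | h
  · have : pp =ᶠ[𝓝 s] fun _ => (0 : ℝ) := by
      filter_upwards [Iio_mem_nhds h] with x hx
      exact pp_of_nonpos (le_of_lt hx)
    rw [max_eq_left h.le, mul_zero]
    exact (hasDerivAt_const s (0 : ℝ)).congr_of_eventuallyEq this
  · subst h
    rw [hasDerivAt_iff_isLittleO]
    simp only [max_self, mul_zero, smul_zero, sub_zero]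
    have h0 : pp 0 = 0 := pp_of_nonpos le_rfl
    rw [h0]
    simp only [sub_zero]
    rw [Asymptotics.isLittleO_iff]
    intro c hc
    filter_upwards [Metric.ball_mem_nhds (0 : ℝ) hc] with x hx
    rw [Metric.mem_ball, dist_zero_right, Real.norm_eq_abs] at hx
    rw [Real.norm_eq_abs, Real.norm_eq_abs, abs_of_nonneg (pp_nonneg x)]
    have h1 : max 0 x ≤ |x| := max_le (abs_nonneg _) (le_abs_self _)
    have h2 : 0 ≤ max 0 x := le_max_left _ _
    unfold pp
    nlinarith [abs_nonneg x]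
  · have : pp =ᶠ[𝓝 s] fun x => x ^ 2 := by
      filter_upwards [Ioi_mem_nhds h] with x hx
      have : (0:ℝ) ≤ x := le_of_lt hx
      simp [pp, max_eq_right this]
    rw [max_eq_right h.le]
    have h2 := (hasDerivAt_pow 2 s).congr_of_eventuallyEq this
    simpa using h2

lemma contDiff_pp : ContDiff ℝ 1 pp := by
  rw [contDiff_one_iff_deriv]
  refine ⟨fun s => (hasDerivAt_pp s).differentiableAt, ?_⟩
  have : deriv pp = fun s => 2 * max 0 s := funext fun s => (hasDerivAt_pp s).deriv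
  rw [this]
  fun_prop

/-- `√(1+‖x‖²)`. -/
noncomputable def jb (x : R3) : ℝ := Real.sqrt (1 + ‖x‖ ^ 2)

lemma jb_pos (x : R3) : 0 < jb x := Real.sqrt_pos.2 (by positivity)

lemma norm_le_jb (x : R3) : ‖x‖ ≤ jb x := by
  unfold jb
  apply Real.le_sqrt_of_sq_le
  linarith

lemma contDiff_jb : ContDiff ℝ 1 jb := by
  unfold jb
  apply ContDiff.sqrt
  · exact contDiff_const.add (contDiff_norm_sq ℝ)
  · intro x; positivity

lemma hasFDerivAt_jb (x : R3) : HasFDerivAt jb ((jb x)⁻¹ • (innerSL ℝ x)) x := by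
  have h1 : HasFDerivAt (fun y : R3 => 1 + ‖y‖ ^ 2) (2 • (innerSL ℝ x)) x := by
    have := (hasStrictFDerivAt_norm_sq x).hasFDerivAt
    exact (this.const_add 1)
  have h2 := h1.sqrt (by positivity)
  have h3 : (1 / (2 * √(1 + ‖x‖ ^ 2))) • (2 • (innerSL ℝ) x) = (jb x)⁻¹ • (innerSL ℝ x) := by
    refine ContinuousLinearMap.ext fun y => ?_
    have := (jb_pos x).ne'
    have e : √(1 + ‖x‖ ^ 2) = jb x := rfl
    rw [e]
    simp only [smul_apply, nsmul_eq_mul, smul_eq_mul]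
    push_cast
    field_simp
  rw [← h3]
  exact h2

/-- the moving cut-off. -/
noncomputable def psi (R t : ℝ) (x : R3) : ℝ := pp (1 - (jb x + t) / R)

/-- the positive part entering the derivative of the cut-off -/
noncomputable def mm (R t : ℝ) (x : R3) : ℝ := max 0 (1 - (jb x + t) / R)

lemma psi_nonneg (R t : ℝ) (x : R3) : 0 ≤ psi R t x := pp_nonneg _

lemma mm_nonneg (R t : ℝ) (x : R3) : 0 ≤ mm R t x := le_max_left _ _

lemma mm_le_one {R t : ℝ} (hR : 0 < R) (ht : 0 ≤ t) (x : R3) : mm R t x ≤ 1 := by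
  apply max_le zero_le_one
  have : 0 ≤ (jb x + t) / R := div_nonneg (add_nonneg (jb_pos x).le ht) hR.le
  linarith

lemma psi_le_one {R t : ℝ} (hR : 0 < R) (ht : 0 ≤ t) (x : R3) : psi R t x ≤ 1 := by
  apply pp_le_one
  have : 0 ≤ (jb x + t) / R := div_nonneg (add_nonneg (jb_pos x).le ht) hR.le
  linarith

lemma psi_eq_zero {R t : ℝ} (hR : 0 < R) (ht : 0 ≤ t) {x : R3} (hx : R < ‖x‖) :
    psi R t x = 0 := by
  apply pp_of_nonpos
  have h1 : R ≤ jb x + t := by linarith [norm_le_jb x]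
  have h2 : 1 ≤ (jb x + t) / R := by rwa [le_div_iff₀ hR, one_mul]
  linarith


lemma continuous_psi (R : ℝ) : Continuous (fun p : ℝ × R3 => psi R p.1 p.2) := by
  unfold psi
  have h1 := contDiff_pp.continuous
  have h2 := contDiff_jb.continuous
  fun_prop

lemma continuous_mm (R : ℝ) : Continuous (fun p : ℝ × R3 => mm R p.1 p.2) := by
  unfold mm
  have h2 := contDiff_jb.continuous
  fun_prop

lemma contDiff_psi (R t : ℝ) : ContDiff ℝ 1 (psi R t) := by
  unfold psi
  have h1 := contDiff_pp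
  have h2 := contDiff_jb
  apply h1.comp
  exact contDiff_const.sub ((h2.add contDiff_const).div_const _)

lemma hasCompactSupport_psi {R t : ℝ} (hR : 0 < R) (ht : 0 ≤ t) : HasCompactSupport (psi R t) := by
  apply HasCompactSupport.intro (isCompact_closedBall (0:R3) R)
  intro x hx
  rw [Metric.mem_closedBall, dist_zero_right, not_le] at hx
  exact psi_eq_zero hR ht hx

lemma hasDerivAt_psi_t (R t : ℝ) (x : R3) :
    HasDerivAt (fun s => psi R s x) (-(2 / R) * mm R t x) t := by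
  unfold psi
  have h1 : HasDerivAt (fun s : ℝ => 1 - (jb x + s) / R) (-(1 / R)) t := by
    have := (((hasDerivAt_id t).const_add (jb x)).div_const R).const_sub 1
    simpa using this
  have h2 := (hasDerivAt_pp (1 - (jb x + t) / R)).comp t h1
  refine h2.congr_deriv ?_
  unfold mm; ring

lemma pderiv_psi (R t : ℝ) (i : Fin 3) (x : R3) :
    pderiv (psi R t) i x = -(2 / R) * mm R t x * ((jb x)⁻¹ * x i) := by
  have h1 : HasFDerivAt (fun y : R3 => 1 - (jb y + t) / R) (-(R⁻¹ • ((jb x)⁻¹ • innerSL ℝ x))) x := by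
    have := ((hasFDerivAt_jb x).add_const t).mul_const R⁻¹
    have h3 := this.const_sub 1
    simpa only [div_eq_mul_inv] using h3
  have h2 := (hasDerivAt_pp (1 - (jb x + t) / R)).comp_hasFDerivAt x h1
  have h3 : HasFDerivAt (psi R t) ((2 * max 0 (1 - (jb x + t) / R)) •
      -(R⁻¹ • ((jb x)⁻¹ • innerSL ℝ x))) x := h2
  unfold pderiv
  rw [h3.fderiv]
  simp only [smul_apply, neg_apply, smul_eq_mul, innerSL_apply_apply]
  have h4 : inner ℝ x (EuclideanSpace.single i (1:ℝ)) = x i := by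
    rw [EuclideanSpace.inner_single_right]; simp
  rw [h4]
  unfold mm
  ring

/-! ### spatial integration by parts -/

lemma contDiff_coord {A : R3 → R3} (hA : ContDiff ℝ 1 A) (i : Fin 3) :
    ContDiff ℝ 1 (fun y => A y i) := by
  exact (contDiff_euclidean.1 hA) i

lemma continuous_pderiv {v : R3 → ℝ} (hv : ContDiff ℝ 1 v) (i : Fin 3) :
    Continuous (fun x => pderiv v i x) := by
  unfold pderiv
  exact (hv.continuous_fderiv one_ne_zero).clm_apply continuous_const

lemma pderiv_mul {u v : R3 → ℝ} (hu : ContDiff ℝ 1 u) (hv : ContDiff ℝ 1 v) (i : Fin 3) (x : R3) :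
    pderiv (fun y => u y * v y) i x = pderiv u i x * v x + u x * pderiv v i x := by
  unfold pderiv
  have h1 := (hu.differentiable one_ne_zero) x
  have h2 := (hv.differentiable one_ne_zero) x
  rw [show (fun y => u y * v y) = u * v from rfl, fderiv_mul h1 h2]
  simp only [add_apply, smul_apply, smul_eq_mul]
  ring

lemma hasCompactSupport_pderiv {u : R3 → ℝ} (hc : HasCompactSupport u) (i : Fin 3) :
    HasCompactSupport (fun x => pderiv u i x) :=
  hc.fderiv_apply ℝ _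

lemma ibp {u v : R3 → ℝ} (hu : ContDiff ℝ 1 u) (hv : ContDiff ℝ 1 v) (hc : HasCompactSupport u)
    (i : Fin 3) : ∫ x, (u x * pderiv v i x + pderiv u i x * v x) = 0 := by
  have i1 : Integrable (fun x => u x * pderiv v i x) :=
    (hu.continuous.mul (continuous_pderiv hv i)).integrable_of_hasCompactSupport hc.mul_right
  have i2 : Integrable (fun x => pderiv u i x * v x) :=
    ((continuous_pderiv hu i).mul hv.continuous).integrable_of_hasCompactSupport
      (hasCompactSupport_pderiv hc i).mul_right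
  have i3 : Integrable (fun x => u x * v x) :=
    (hu.continuous.mul hv.continuous).integrable_of_hasCompactSupport hc.mul_right
  have h := integral_mul_fderiv_eq_neg_fderiv_mul_of_integrable (𝕜 := ℝ) (μ := volume)
    (f := u) (g := v) (v := EuclideanSpace.single i (1:ℝ)) i2 i1 i3
    (fun x _ => (hu.differentiable one_ne_zero) x) (fun x _ => (hv.differentiable one_ne_zero) x)
  rw [integral_add i1 i2]
  have h' : ∫ x, u x * pderiv v i x = - ∫ x, pderiv u i x * v x := h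
  rw [h']; ring

/-- integrable with vanishing integral -/
def Zint (f : R3 → ℝ) : Prop := Integrable f ∧ ∫ x, f x = 0

lemma Zadd {f g : R3 → ℝ} (hf : Zint f) (hg : Zint g) : Zint (fun x => f x + g x) :=
  ⟨hf.1.add hg.1, by rw [integral_add hf.1 hg.1, hf.2, hg.2, add_zero]⟩

lemma Zsub {f g : R3 → ℝ} (hf : Zint f) (hg : Zint g) : Zint (fun x => f x - g x) :=
  ⟨hf.1.sub hg.1, by rw [integral_sub hf.1 hg.1, hf.2, hg.2, sub_zero]⟩

/-- the elementary block of the Poynting identity -/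
lemma ibp3 {ψ a c : R3 → ℝ} (hψ : ContDiff ℝ 1 ψ) (hc : HasCompactSupport ψ)
    (ha : ContDiff ℝ 1 a) (hcc : ContDiff ℝ 1 c) (k : Fin 3) :
    Zint (fun x => ψ x * a x * pderiv c k x + ψ x * c x * pderiv a k x
      + pderiv ψ k x * a x * c x) := by
  have h1 := ibp (hψ.mul ha) hcc hc.mul_right k
  have e : (fun x => (ψ x * a x) * pderiv c k x + pderiv (fun y => ψ y * a y) k x * c x)
      = fun x => ψ x * a x * pderiv c k x + ψ x * c x * pderiv a k x + pderiv ψ k x * a x * c x := by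
    funext x
    rw [pderiv_mul hψ ha]
    ring
  constructor
  · apply Continuous.integrable_of_hasCompactSupport
    · have := continuous_pderiv hψ k
      have := continuous_pderiv ha k
      have := continuous_pderiv hcc k
      have := hψ.continuous
      have := ha.continuous
      have := hcc.continuous
      fun_prop
    · have : (fun x => ψ x * a x * pderiv c k x + ψ x * c x * pderiv a k x
        + pderiv ψ k x * a x * c x) = fun x => ψ x * (a x * pderiv c k x + c x * pderiv a k x)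
        + pderiv ψ k x * (a x * c x) := by funext x; ring
      rw [this]
      exact (hc.mul_right).add (hasCompactSupport_pderiv hc k).mul_right
  · rw [← e]; exact h1

lemma poynting {ψ : R3 → ℝ} {A C : R3 → R3} (hψ : ContDiff ℝ 1 ψ) (hc : HasCompactSupport ψ)
    (hA : ContDiff ℝ 1 A) (hC : ContDiff ℝ 1 C) :
    Zint (fun x => ψ x * (∑ i, A x i * curl3 C x i - ∑ i, C x i * curl3 A x i)
      - ∑ i, pderiv ψ i x * cross3 (A x) (C x) i) := by
  have P := fun i j k => ibp3 hψ hc (contDiff_coord hA i) (contDiff_coord hC j) k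
  have e : (fun x => ψ x * (∑ i, A x i * curl3 C x i - ∑ i, C x i * curl3 A x i)
      - ∑ i, pderiv ψ i x * cross3 (A x) (C x) i) =
    fun x => ((ψ x * A x 0 * pderiv (fun y => C y 2) 1 x + ψ x * C x 2 * pderiv (fun y => A y 0) 1 x
        + pderiv ψ 1 x * A x 0 * C x 2)
      - (ψ x * A x 0 * pderiv (fun y => C y 1) 2 x + ψ x * C x 1 * pderiv (fun y => A y 0) 2 x
        + pderiv ψ 2 x * A x 0 * C x 1)
      + (ψ x * A x 1 * pderiv (fun y => C y 0) 2 x + ψ x * C x 0 * pderiv (fun y => A y 1) 2 x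
        + pderiv ψ 2 x * A x 1 * C x 0)
      - (ψ x * A x 1 * pderiv (fun y => C y 2) 0 x + ψ x * C x 2 * pderiv (fun y => A y 1) 0 x
        + pderiv ψ 0 x * A x 1 * C x 2)
      + (ψ x * A x 2 * pderiv (fun y => C y 1) 0 x + ψ x * C x 1 * pderiv (fun y => A y 2) 0 x
        + pderiv ψ 0 x * A x 2 * C x 1))
      - (ψ x * A x 2 * pderiv (fun y => C y 0) 1 x + ψ x * C x 0 * pderiv (fun y => A y 2) 1 x
        + pderiv ψ 1 x * A x 2 * C x 0) := by
    funext x
    simp only [Fin.sum_univ_three, curl3, cross3]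
    simp only [Matrix.cons_val_zero, Matrix.cons_val_one, Matrix.cons_val]
    ring
  rw [e]
  exact Zsub (Zadd (Zsub (Zadd (Zsub (P 0 2 1) (P 0 1 2)) (P 1 0 2)) (P 1 2 0)) (P 2 1 0)) (P 2 0 1)

/-! ### differentiation under the integral sign for compactly supported integrands -/

lemma hasDerivAt_integral_cs {F F' : ℝ → R3 → ℝ} {a b R : ℝ}
    (hF : ∀ t ∈ Ioo a b, ∀ x, HasDerivAt (fun s => F s x) (F' t x) t)
    (hc : ContinuousOn (fun p : ℝ × R3 => F p.1 p.2) (Ioo a b ×ˢ univ))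
    (hc' : ContinuousOn (fun p : ℝ × R3 => F' p.1 p.2) (Ioo a b ×ˢ univ))
    (hs : ∀ t ∈ Ioo a b, ∀ x, R < ‖x‖ → F t x = 0) {t : ℝ} (ht : t ∈ Ioo a b) :
    Integrable (F' t) ∧ HasDerivAt (fun s => ∫ x, F s x) (∫ x, F' t x) t := by
  -- slices are continuous
  have slc : ∀ {G : ℝ → R3 → ℝ}, ContinuousOn (fun p : ℝ × R3 => G p.1 p.2) (Ioo a b ×ˢ univ) →
      ∀ s ∈ Ioo a b, Continuous (G s) := by
    intro G hG s hs
    have : ContinuousOn (fun x : R3 => G s x) univ :=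
      hG.comp (f := fun x : R3 => ((s, x) : ℝ × R3)) (by fun_prop) (fun x _ => ⟨hs, mem_univ _⟩)
    exact continuousOn_univ.1 this
  -- the derivative vanishes outside the ball
  have hs' : ∀ s ∈ Ioo a b, ∀ x, R < ‖x‖ → F' s x = 0 := by
    intro s hs1 x hx
    have h1 := hF s hs1 x
    have h2 : (fun r => F r x) =ᶠ[𝓝 s] fun _ => (0:ℝ) := by
      filter_upwards [Ioo_mem_nhds hs1.1 hs1.2] with r hr using hs r hr x hx
    exact (h1.congr_of_eventuallyEq h2.symm).unique (hasDerivAt_const s (0:ℝ))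
  obtain ⟨c, hac, hct⟩ := exists_between ht.1
  obtain ⟨d, htd, hdb⟩ := exists_between ht.2
  have hsub : Icc c d ⊆ Ioo a b := fun r hr => ⟨lt_of_lt_of_le hac hr.1, lt_of_le_of_lt hr.2 hdb⟩
  have hK : IsCompact (Icc c d ×ˢ Metric.closedBall (0:R3) R) :=
    isCompact_Icc.prod (isCompact_closedBall _ _)
  obtain ⟨M, hM⟩ := hK.exists_bound_of_continuousOn
    (hc'.mono (prod_mono hsub (subset_univ _)))
  have hint : ∀ {g : R3 → ℝ}, Continuous g → (∀ x, R < ‖x‖ → g x = 0) → Integrable g := by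
    intro g hg h0
    apply hg.integrable_of_hasCompactSupport
    apply HasCompactSupport.intro (isCompact_closedBall (0:R3) R)
    intro x hx
    apply h0
    rw [Metric.mem_closedBall, dist_zero_right, not_le] at hx
    exact hx
  refine hasDerivAt_integral_of_dominated_loc_of_deriv_le (μ := volume) (s := Ioo c d)
    (bound := (Metric.closedBall (0:R3) R).indicator fun _ => M) (Ioo_mem_nhds hct htd) ?_ ?_ ?_ ?_
    ?_ ?_
  · filter_upwards [Ioo_mem_nhds ht.1 ht.2] with s hs1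
    exact (slc hc s hs1).aestronglyMeasurable
  · exact hint (slc hc t ht) (hs t ht)
  · exact (slc hc' t ht).aestronglyMeasurable
  · refine Eventually.of_forall fun x s hs1 => ?_
    by_cases hx : x ∈ Metric.closedBall (0:R3) R
    · rw [indicator_of_mem hx]
      exact hM (s, x) ⟨⟨hs1.1.le, hs1.2.le⟩, hx⟩
    · rw [indicator_of_notMem hx, hs' s (hsub ⟨hs1.1.le, hs1.2.le⟩) x, norm_zero]
      rwa [Metric.mem_closedBall, dist_zero_right, not_le] at hx
  · rw [integrable_indicator_iff measurableSet_closedBall]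
    exact integrableOn_const (isCompact_closedBall (0:R3) R).measure_ne_top
  · refine Eventually.of_forall fun x s hs1 => hF s (hsub ⟨hs1.1.le, hs1.2.le⟩) x

/-! ### slices and time derivatives of `C¹` fields on `[0,T) × ℝ³` -/

section fields

variable {T : ℝ} {E : ℝ → R3 → R3}

lemma slice_contDiff (hE : ContDiffOn ℝ 1 (fun p : ℝ × R3 => E p.1 p.2) (Ico 0 T ×ˢ univ))
    {t : ℝ} (ht : t ∈ Ico 0 T) : ContDiff ℝ 1 (E t) := by
  have : ContDiffOn ℝ 1 (fun x : R3 => E t x) univ :=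
    hE.comp (f := fun x : R3 => ((t, x) : ℝ × R3)) (by fun_prop) (fun x _ => ⟨ht, mem_univ _⟩)
  exact contDiffOn_univ.1 this

/-- the time derivative -/
noncomputable def Dt (E : ℝ → R3 → R3) (t : ℝ) (x : R3) : R3 :=
  fderiv ℝ (fun p : ℝ × R3 => E p.1 p.2) (t, x) (1, 0)

lemma continuousOn_Dt (hE : ContDiffOn ℝ 1 (fun p : ℝ × R3 => E p.1 p.2) (Ico 0 T ×ˢ univ)) :
    ContinuousOn (fun p : ℝ × R3 => Dt E p.1 p.2) (Ioo 0 T ×ˢ univ) := by
  have h1 : ContDiffOn ℝ 1 (fun p : ℝ × R3 => E p.1 p.2) (Ioo 0 T ×ˢ univ) :=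
    hE.mono (prod_mono Ioo_subset_Ico_self (subset_univ _))
  have h2 := h1.continuousOn_fderiv_of_isOpen (isOpen_Ioo.prod isOpen_univ) le_rfl
  exact h2.clm_apply continuousOn_const

lemma hasDerivAt_Dt (hE : ContDiffOn ℝ 1 (fun p : ℝ × R3 => E p.1 p.2) (Ico 0 T ×ˢ univ))
    {t : ℝ} (ht : t ∈ Ioo 0 T) (x : R3) : HasDerivAt (fun s => E s x) (Dt E t x) t := by
  have hmem : Ico 0 T ×ˢ (univ : Set R3) ∈ 𝓝 ((t, x) : ℝ × R3) :=
    prod_mem_nhds (Ico_mem_nhds ht.1 ht.2) univ_mem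
  have h1 : HasFDerivAt (fun p : ℝ × R3 => E p.1 p.2)
      (fderiv ℝ (fun p : ℝ × R3 => E p.1 p.2) (t, x)) (t, x) :=
    ((hE.contDiffAt hmem).differentiableAt one_ne_zero).hasFDerivAt
  have h2 : HasDerivAt (fun s : ℝ => ((s, x) : ℝ × R3)) (1, 0) t :=
    (hasDerivAt_id t).prodMk (hasDerivAt_const t x)
  exact h1.comp_hasDerivAt t h2

lemma Dt_coord (hE : ContDiffOn ℝ 1 (fun p : ℝ × R3 => E p.1 p.2) (Ico 0 T ×ˢ univ))
    {t : ℝ} (ht : t ∈ Ioo 0 T) (x : R3) (i : Fin 3) :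
    Dt E t x i = deriv (fun s => E s x i) t := by
  have h := hasDerivAt_Dt hE ht x
  have h2 : HasDerivAt (fun s => E s x i) (Dt E t x i) t := by
    have := (EuclideanSpace.proj (𝕜 := ℝ) i : EuclideanSpace ℝ (Fin 3) →L[ℝ] ℝ).hasFDerivAt
      (x := E t x) |>.comp_hasDerivAt t h
    exact this
  exact h2.deriv.symm

end fields

/-! ### the local energy -/

/-- energy density (without the factor 1/2) -/
noncomputable def en (E B : ℝ → R3 → R3) (t : ℝ) (x : R3) : ℝ := ‖E t x‖ ^ 2 + ‖B t x‖ ^ 2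

lemma en_nonneg (E B : ℝ → R3 → R3) (t : ℝ) (x : R3) : 0 ≤ en E B t x := by
  unfold en; positivity

lemma norm_cross_coord_sum (w a b : R3) :
    |∑ i, w i * cross3 a b i| ≤ ‖w‖ * (‖a‖ * ‖b‖) := by
  have hw := EuclideanSpace.real_norm_sq_eq w
  have ha := EuclideanSpace.real_norm_sq_eq a
  have hb := EuclideanSpace.real_norm_sq_eq b
  simp only [Fin.sum_univ_three] at hw ha hb
  apply abs_le_of_sq_le_sq' _ (by positivity) |> abs_le.2
  have e : (∑ i, w i * cross3 a b i) = w 0 * (a 1 * b 2 - a 2 * b 1)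
      + w 1 * (a 2 * b 0 - a 0 * b 2) + w 2 * (a 0 * b 1 - a 1 * b 0) := by
    simp only [Fin.sum_univ_three, cross3]
    simp only [Matrix.cons_val_zero, Matrix.cons_val_one, Matrix.cons_val]
  rw [e, mul_pow, mul_pow, hw, ha, hb]
  have hc : (w 0 * (a 1 * b 2 - a 2 * b 1) + w 1 * (a 2 * b 0 - a 0 * b 2)
      + w 2 * (a 0 * b 1 - a 1 * b 0)) ^ 2 ≤ (w 0 ^ 2 + w 1 ^ 2 + w 2 ^ 2) *
      ((a 1 * b 2 - a 2 * b 1) ^ 2 + (a 2 * b 0 - a 0 * b 2) ^ 2 + (a 0 * b 1 - a 1 * b 0) ^ 2) := by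
    nlinarith [sq_nonneg (w 0 * (a 2 * b 0 - a 0 * b 2) - w 1 * (a 1 * b 2 - a 2 * b 1)),
      sq_nonneg (w 0 * (a 0 * b 1 - a 1 * b 0) - w 2 * (a 1 * b 2 - a 2 * b 1)),
      sq_nonneg (w 1 * (a 0 * b 1 - a 1 * b 0) - w 2 * (a 2 * b 0 - a 0 * b 2))]
  refine hc.trans ?_
  apply mul_le_mul_of_nonneg_left _ (by positivity)
  have : (a 1 * b 2 - a 2 * b 1) ^ 2 + (a 2 * b 0 - a 0 * b 2) ^ 2 + (a 0 * b 1 - a 1 * b 0) ^ 2
      = (a 0 ^ 2 + a 1 ^ 2 + a 2 ^ 2) * (b 0 ^ 2 + b 1 ^ 2 + b 2 ^ 2)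
        - (a 0 * b 0 + a 1 * b 1 + a 2 * b 2) ^ 2 := by ring
  rw [this]
  nlinarith [sq_nonneg (a 0 * b 0 + a 1 * b 1 + a 2 * b 2)]

/-- the flux part is controlled by the energy density -/
lemma flux_bound (a b x : R3) :
    |2 * ∑ i, ((jb x)⁻¹ * x i) * cross3 a b i| ≤ ‖a‖ ^ 2 + ‖b‖ ^ 2 := by
  have h1 := norm_cross_coord_sum ((jb x)⁻¹ • x) a b
  have h2 : ‖(jb x)⁻¹ • x‖ ≤ 1 := by
    rw [norm_smul, norm_inv, Real.norm_of_nonneg (jb_pos x).le, inv_mul_le_iff₀ (jb_pos x), mul_one]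
    exact norm_le_jb x
  have h3 : (∑ i, ((jb x)⁻¹ • x) i * cross3 a b i) = ∑ i, ((jb x)⁻¹ * x i) * cross3 a b i := rfl
  rw [h3] at h1
  rw [abs_mul, abs_of_pos (by norm_num : (0:ℝ) < 2)]
  have h4 : ‖(jb x)⁻¹ • x‖ * (‖a‖ * ‖b‖) ≤ 1 * (‖a‖ * ‖b‖) :=
    mul_le_mul_of_nonneg_right h2 (by positivity)
  nlinarith [sq_nonneg (‖a‖ - ‖b‖)]

/-- hypotheses of this file: `C¹` Maxwell fields on `[0,T) × ℝ³` with continuous current `j` of
locally (in time) bounded support. -/
structure Fld (T : ℝ) (E B j : ℝ → R3 → R3) : Prop where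
  hE : ContDiffOn ℝ 1 (fun p : ℝ × R3 => E p.1 p.2) (Ico 0 T ×ˢ univ)
  hB : ContDiffOn ℝ 1 (fun p : ℝ × R3 => B p.1 p.2) (Ico 0 T ×ˢ univ)
  hj : ContinuousOn (fun p : ℝ × R3 => j p.1 p.2) (Ico 0 T ×ˢ univ)
  hjs : ∀ T', 0 ≤ T' → T' < T → ∃ R : ℝ, ∀ t ∈ Icc 0 T', ∀ x, R < ‖x‖ → j t x = 0
  h1 : ∀ t, 0 < t → t < T → ∀ (x : R3) (i : Fin 3),
    deriv (fun s => E s x i) t - curl3 (B t) x i = - j t x i
  h2 : ∀ t, 0 < t → t < T → ∀ (x : R3) (i : Fin 3),
    deriv (fun s => B s x i) t + curl3 (E t) x i = 0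

/-- local energy -/
noncomputable def Y (E B : ℝ → R3 → R3) (R t : ℝ) : ℝ := ∫ x, psi R t x * en E B t x

/-- density of the derivative of the local energy -/
noncomputable def gd (E B j : ℝ → R3 → R3) (R t : ℝ) (x : R3) : ℝ :=
  -(2 / R) * mm R t x * (en E B t x + 2 * ∑ i, ((jb x)⁻¹ * x i) * cross3 (E t x) (B t x) i)
    - 2 * psi R t x * ∑ i, E t x i * j t x i

variable {T : ℝ} {E B j : ℝ → R3 → R3}

lemma Fld.cE (h : Fld T E B j) : ContinuousOn (fun p : ℝ × R3 => E p.1 p.2) (Ico 0 T ×ˢ univ) :=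
  h.hE.continuousOn

lemma Fld.cB (h : Fld T E B j) : ContinuousOn (fun p : ℝ × R3 => B p.1 p.2) (Ico 0 T ×ˢ univ) :=
  h.hB.continuousOn

lemma Fld.cen (h : Fld T E B j) :
    ContinuousOn (fun p : ℝ × R3 => en E B p.1 p.2) (Ico 0 T ×ˢ univ) := by
  unfold en
  exact (h.cE.norm.pow 2).add (h.cB.norm.pow 2)

lemma Fld.cont_slice (h : Fld T E B j) {t : ℝ} (ht : t ∈ Ico 0 T) :
    Continuous (E t) ∧ Continuous (B t) ∧ Continuous (j t) := by
  refine ⟨(slice_contDiff h.hE ht).continuous, (slice_contDiff h.hB ht).continuous, ?_⟩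
  have : ContinuousOn (fun x : R3 => j t x) univ :=
    h.hj.comp (f := fun x : R3 => ((t, x) : ℝ × R3)) (by fun_prop) (fun x _ => ⟨ht, mem_univ _⟩)
  exact continuousOn_univ.1 this

lemma Fld.hasDerivAt_Y (h : Fld T E B j) {R t : ℝ} (hR : 0 < R) (ht : t ∈ Ioo 0 T) :
    Integrable (gd E B j R t) ∧ HasDerivAt (Y E B R) (∫ x, gd E B j R t x) t := by
  have hIoo : Ioo 0 T ×ˢ (univ : Set R3) ⊆ Ico 0 T ×ˢ univ :=
    prod_mono Ioo_subset_Ico_self (subset_univ _)
  set F : ℝ → R3 → ℝ := fun t x => psi R t x * en E B t x with hF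
  set F' : ℝ → R3 → ℝ := fun t x => -(2 / R) * mm R t x * en E B t x
    + psi R t x * (2 * inner ℝ (E t x) (Dt E t x) + 2 * inner ℝ (B t x) (Dt B t x)) with hF'
  have hder : ∀ t ∈ Ioo 0 T, ∀ x, HasDerivAt (fun s => F s x) (F' t x) t := by
    intro t ht x
    have e1 := (hasDerivAt_Dt h.hE ht x).norm_sq
    have e2 := (hasDerivAt_Dt h.hB ht x).norm_sq
    exact (hasDerivAt_psi_t R t x).mul (e1.add e2)
  have hc : ContinuousOn (fun p : ℝ × R3 => F p.1 p.2) (Ioo 0 T ×ˢ univ) :=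
    (continuous_psi R).continuousOn.mul (h.cen.mono hIoo)
  have hc' : ContinuousOn (fun p : ℝ × R3 => F' p.1 p.2) (Ioo 0 T ×ˢ univ) := by
    apply ContinuousOn.add
    · exact ((continuousOn_const.mul (continuous_mm R).continuousOn)).mul (h.cen.mono hIoo)
    · apply (continuous_psi R).continuousOn.mul
      exact ((continuousOn_const.mul ((h.cE.mono hIoo).inner (𝕜 := ℝ) (continuousOn_Dt h.hE)))).add
        (continuousOn_const.mul ((h.cB.mono hIoo).inner (𝕜 := ℝ) (continuousOn_Dt h.hB)))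
  have hs : ∀ t ∈ Ioo 0 T, ∀ x, R < ‖x‖ → F t x = 0 := by
    intro t ht x hx
    simp only [hF, psi_eq_zero hR ht.1.le hx, zero_mul]
  obtain ⟨i1, i2⟩ := hasDerivAt_integral_cs hder hc hc' hs ht
  have ht' : t ∈ Ico 0 T := ⟨ht.1.le, ht.2⟩
  obtain ⟨P1, P2⟩ := poynting (contDiff_psi R t) (hasCompactSupport_psi hR ht.1.le)
    (slice_contDiff h.hE ht') (slice_contDiff h.hB ht')
  have key : gd E B j R t = fun x => F' t x - 2 * (psi R t x *
      (∑ i, E t x i * curl3 (B t) x i - ∑ i, B t x i * curl3 (E t) x i)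
      - ∑ i, pderiv (psi R t) i x * cross3 (E t x) (B t x) i) := by
    funext x
    have a1 : ∀ i, Dt E t x i = curl3 (B t) x i - j t x i := by
      intro i
      rw [Dt_coord h.hE ht]; linarith [h.h1 t ht.1 ht.2 x i]
    have a2 : ∀ i, Dt B t x i = - curl3 (E t) x i := by
      intro i
      rw [Dt_coord h.hB ht]; linarith [h.h2 t ht.1 ht.2 x i]
    have a3 : inner ℝ (E t x) (Dt E t x) = ∑ i, E t x i * (curl3 (B t) x i - j t x i) := by
      rw [PiLp.inner_apply]
      apply Finset.sum_congr rfl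
      intro i _
      rw [← a1 i]
      simp [mul_comm]
    have a4 : inner ℝ (B t x) (Dt B t x) = ∑ i, B t x i * (- curl3 (E t) x i) := by
      rw [PiLp.inner_apply]
      apply Finset.sum_congr rfl
      intro i _
      rw [← a2 i]
      simp [mul_comm]
    simp only [hF', gd, a3, a4, pderiv_psi, Fin.sum_univ_three]
    ring
  rw [key]
  refine ⟨i1.sub (P1.const_mul 2), ?_⟩
  rw [integral_sub i1 (P1.const_mul 2), integral_const_mul, P2, mul_zero, sub_zero]
  exact i2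

lemma two_sum_mul_le (a b : R3) : |2 * ∑ i, a i * b i| ≤ ‖a‖ ^ 2 + ‖b‖ ^ 2 := by
  have h : (∑ i, a i * b i) = inner ℝ a b := by
    rw [PiLp.inner_apply]
    exact Finset.sum_congr rfl fun i _ => by simp [mul_comm]
  rw [h, abs_mul, abs_of_pos (by norm_num : (0:ℝ) < 2)]
  have := abs_real_inner_le_norm a b
  nlinarith [sq_nonneg (‖a‖ - ‖b‖)]

lemma gd_le (E B j : ℝ → R3 → R3) {R t : ℝ} (hR : 0 < R) (x : R3) :
    gd E B j R t x ≤ psi R t x * en E B t x + psi R t x * ‖j t x‖ ^ 2 := by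
  have f1 := flux_bound (E t x) (B t x) x
  have f2 := two_sum_mul_le (E t x) (j t x)
  rw [abs_le] at f1 f2
  have h1 : 0 ≤ en E B t x + 2 * ∑ i, ((jb x)⁻¹ * x i) * cross3 (E t x) (B t x) i := by
    unfold en; linarith [f1.1]
  have h2 : 0 ≤ (2 / R) * mm R t x := mul_nonneg (by positivity) (mm_nonneg _ _ _)
  have h3 : 0 ≤ psi R t x := psi_nonneg _ _ _
  have h4 : ‖E t x‖ ^ 2 ≤ en E B t x := by unfold en; nlinarith [sq_nonneg ‖B t x‖]
  unfold gd
  have h5 : psi R t x * (-(2 * ∑ i, E t x i * j t x i)) ≤ psi R t x * (en E B t x + ‖j t x‖ ^ 2) :=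
    mul_le_mul_of_nonneg_left (by linarith [f2.1]) h3
  nlinarith [mul_nonneg h2 h1]

lemma abs_gd_le (E B j : ℝ → R3 → R3) {R t : ℝ} (hR : 1 ≤ R) (ht : 0 ≤ t) (x : R3) :
    |gd E B j R t x| ≤ 5 * en E B t x + ‖j t x‖ ^ 2 := by
  have hR0 : 0 < R := by linarith
  have f1 := flux_bound (E t x) (B t x) x
  have f2 := two_sum_mul_le (E t x) (j t x)
  rw [abs_le] at f1 f2
  have hen : ‖E t x‖ ^ 2 + ‖B t x‖ ^ 2 = en E B t x := rfl
  rw [hen] at f1
  have h1 : 0 ≤ en E B t x + 2 * ∑ i, ((jb x)⁻¹ * x i) * cross3 (E t x) (B t x) i := by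
    linarith [f1.1]
  have h1' : en E B t x + 2 * ∑ i, ((jb x)⁻¹ * x i) * cross3 (E t x) (B t x) i
      ≤ 2 * en E B t x := by linarith [f1.2]
  have h2 : 0 ≤ (2 / R) * mm R t x := mul_nonneg (by positivity) (mm_nonneg _ _ _)
  have h2' : (2 / R) * mm R t x ≤ 2 := by
    have a1 : 2 / R ≤ 2 := by rw [div_le_iff₀ hR0]; linarith
    calc (2 / R) * mm R t x ≤ 2 * 1 :=
          mul_le_mul a1 (mm_le_one hR0 ht x) (mm_nonneg _ _ _) (by norm_num)
      _ = 2 := by norm_num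
  have h3 : 0 ≤ psi R t x := psi_nonneg _ _ _
  have h3' : psi R t x ≤ 1 := psi_le_one hR0 ht x
  have h4 : ‖E t x‖ ^ 2 ≤ en E B t x := by unfold en; nlinarith [sq_nonneg ‖B t x‖]
  have hen0 := en_nonneg E B t x
  have hj0 : 0 ≤ ‖j t x‖ ^ 2 := by positivity
  set S1 := en E B t x + 2 * ∑ i, ((jb x)⁻¹ * x i) * cross3 (E t x) (B t x) i
  set S2 := 2 * ∑ i, E t x i * j t x i
  have e : gd E B j R t x = -((2 / R) * mm R t x * S1) - psi R t x * S2 := by
    unfold gd; ring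
  rw [e]
  have g1 : (2 / R) * mm R t x * S1 ≤ 4 * en E B t x := by
    calc (2 / R) * mm R t x * S1 ≤ 2 * (2 * en E B t x) := mul_le_mul h2' h1' h1 (by norm_num)
      _ = _ := by ring
  have g1' : 0 ≤ (2 / R) * mm R t x * S1 := mul_nonneg h2 h1
  have g2 : |psi R t x * S2| ≤ en E B t x + ‖j t x‖ ^ 2 := by
    rw [abs_mul, abs_of_nonneg h3]
    have : |S2| ≤ en E B t x + ‖j t x‖ ^ 2 := abs_le.2 ⟨by linarith [f2.1], by linarith [f2.2]⟩
    calc psi R t x * |S2| ≤ 1 * |S2| := mul_le_mul_of_nonneg_right h3' (abs_nonneg _)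
      _ ≤ _ := by rw [one_mul]; exact this
  rw [abs_le] at g2 ⊢
  constructor <;> linarith [g2.1, g2.2]

lemma Fld.integrable_j (h : Fld T E B j) {T' : ℝ} (h0 : 0 ≤ T') (hT : T' < T) :
    ∃ J0 : ℝ, 0 ≤ J0 ∧ ∀ t ∈ Icc 0 T', Integrable (fun x => ‖j t x‖ ^ 2) ∧
      ∫ x, ‖j t x‖ ^ 2 ≤ J0 := by
  obtain ⟨R, hR⟩ := h.hjs T' h0 hT
  have hsub : Icc 0 T' ⊆ Ico 0 T := fun r hr => ⟨hr.1, lt_of_le_of_lt hr.2 hT⟩
  have hsup : ∀ t ∈ Icc 0 T', ∀ x ∉ Metric.closedBall (0:R3) R, ‖j t x‖ ^ 2 = 0 := by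
    intro t ht x hx
    rw [Metric.mem_closedBall, dist_zero_right, not_le] at hx
    rw [hR t ht x hx]; simp
  have hcont : ContinuousOn (fun t => ∫ x, ‖j t x‖ ^ 2) (Icc 0 T') := by
    apply continuousOn_integral_of_compact_support (k := Metric.closedBall (0:R3) R)
      (isCompact_closedBall _ _)
    · exact (h.hj.mono (prod_mono hsub (subset_univ _))).norm.pow 2
    · intro t x ht hx
      exact hsup t ht x hx
  obtain ⟨M, hM⟩ := isCompact_Icc.exists_bound_of_continuousOn hcont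
  refine ⟨max M 0, le_max_right _ _, fun t ht => ⟨?_, ?_⟩⟩
  · apply Continuous.integrable_of_hasCompactSupport
    · exact (h.cont_slice (hsub ht)).2.2.norm.pow 2
    · exact HasCompactSupport.intro (isCompact_closedBall (0:R3) R) (hsup t ht)
  · exact ((le_abs_self _).trans (hM t ht)).trans (le_max_left _ _)

lemma Fld.integrable_psi_mul (_h : Fld T E B j) {R t : ℝ} (hR : 0 < R) (ht : t ∈ Ico 0 T)
    {g : R3 → ℝ} (hg : Continuous g) : Integrable (fun x => psi R t x * g x) := by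
  apply Continuous.integrable_of_hasCompactSupport
  · exact (contDiff_psi R t).continuous.mul hg
  · exact (hasCompactSupport_psi hR ht.1).mul_right

lemma Fld.continuous_en (h : Fld T E B j) {t : ℝ} (ht : t ∈ Ico 0 T) :
    Continuous (en E B t) := by
  unfold en
  exact ((h.cont_slice ht).1.norm.pow 2).add ((h.cont_slice ht).2.1.norm.pow 2)

lemma Fld.continuousOn_Y (h : Fld T E B j) {R : ℝ} (hR : 0 < R) :
    ContinuousOn (Y E B R) (Ico 0 T) := by
  unfold Y
  apply continuousOn_integral_of_compact_support (k := Metric.closedBall (0:R3) R)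
    (isCompact_closedBall _ _)
  · exact (continuous_psi R).continuousOn.mul h.cen
  · intro t x ht hx
    rw [Metric.mem_closedBall, dist_zero_right, not_le] at hx
    simp only [psi_eq_zero hR ht.1 hx, zero_mul]

lemma Y_nonneg (E B : ℝ → R3 → R3) (R t : ℝ) : 0 ≤ Y E B R t :=
  integral_nonneg fun x => mul_nonneg (psi_nonneg _ _ _) (en_nonneg _ _ _ _)

lemma Fld.Y_le (h : Fld T E B j) {R T' J0 : ℝ} (hR : 0 < R) (hT : T' < T) (hJ : 0 ≤ J0)
    (hj0 : ∀ t ∈ Icc 0 T', Integrable (fun x => ‖j t x‖ ^ 2) ∧ ∫ x, ‖j t x‖ ^ 2 ≤ J0)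
    {t : ℝ} (ht : t ∈ Icc 0 T') :
    Y E B R t ≤ Real.exp t * (Y E B R 0 + J0 * t) := by
  have hsub : Icc 0 T' ⊆ Ico 0 T := fun r hr => ⟨hr.1, lt_of_le_of_lt hr.2 hT⟩
  have key : AntitoneOn (fun s => Real.exp (-s) * Y E B R s - J0 * s) (Icc 0 T') := by
    apply antitoneOn_of_deriv_nonpos (convex_Icc _ _)
    · apply ContinuousOn.sub
      · exact (by fun_prop : Continuous fun s : ℝ => Real.exp (-s)).continuousOn.mul
          ((h.continuousOn_Y hR).mono hsub)
      · fun_prop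
    · intro s hs
      rw [interior_Icc] at hs
      have hs' : s ∈ Ioo 0 T := ⟨hs.1, hs.2.trans hT⟩
      have d1 := (h.hasDerivAt_Y hR hs').2
      have d2 : HasDerivAt (fun s : ℝ => Real.exp (-s)) (-Real.exp (-s)) s := by
        simpa using (hasDerivAt_neg s).exp
      exact ((d2.mul d1).sub ((hasDerivAt_id s).const_mul J0)).differentiableAt.differentiableWithinAt
    · intro s hs
      rw [interior_Icc] at hs
      have hs' : s ∈ Ioo 0 T := ⟨hs.1, hs.2.trans hT⟩
      have hs2 : s ∈ Ico 0 T := ⟨hs.1.le, hs'.2⟩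
      obtain ⟨gi, d1⟩ := h.hasDerivAt_Y hR hs'
      have d2 : HasDerivAt (fun s : ℝ => Real.exp (-s)) (-Real.exp (-s)) s := by
        simpa using (hasDerivAt_neg s).exp
      have d3 := (d2.mul d1).sub ((hasDerivAt_id s).const_mul J0)
      have e3 : deriv (fun s => Real.exp (-s) * Y E B R s - J0 * s) s
          = -Real.exp (-s) * Y E B R s + Real.exp (-s) * (∫ x, gd E B j R s x) - J0 * 1 := d3.deriv
      rw [e3]
      have hj := hj0 s ⟨hs.1.le, hs.2.le⟩
      have ie : Integrable (fun x => psi R s x * en E B s x) :=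
        h.integrable_psi_mul hR hs2 (h.continuous_en hs2)
      have ij : Integrable (fun x => psi R s x * ‖j s x‖ ^ 2) :=
        h.integrable_psi_mul hR hs2 ((h.cont_slice hs2).2.2.norm.pow 2)
      have b1 : ∫ x, gd E B j R s x ≤ Y E B R s + J0 := by
        calc ∫ x, gd E B j R s x ≤ ∫ x, (psi R s x * en E B s x + psi R s x * ‖j s x‖ ^ 2) :=
              integral_mono gi (ie.add ij) fun x => gd_le E B j hR x
          _ = Y E B R s + ∫ x, psi R s x * ‖j s x‖ ^ 2 := integral_add ie ij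
          _ ≤ Y E B R s + J0 := by
              gcongr
              refine (integral_mono ij hj.1 fun x => ?_).trans hj.2
              have := psi_le_one hR hs.1.le x
              have h0 : 0 ≤ ‖j s x‖ ^ 2 := by positivity
              show psi R s x * ‖j s x‖ ^ 2 ≤ ‖j s x‖ ^ 2
              nlinarith
      have b2 : 0 < Real.exp (-s) := Real.exp_pos _
      have b3 : Real.exp (-s) ≤ 1 := by
        rw [Real.exp_le_one_iff]; linarith [hs.1]
      nlinarith [mul_le_mul_of_nonneg_left b1 b2.le, mul_le_mul_of_nonneg_right b3 hJ]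
  have h0 : (0:ℝ) ∈ Icc 0 T' := ⟨le_rfl, ht.1.trans ht.2⟩
  have := key h0 ht ht.1
  simp only [neg_zero, Real.exp_zero, one_mul, mul_zero, sub_zero] at this
  have e1 : Real.exp t * Real.exp (-t) = 1 := by rw [← Real.exp_add]; simp
  have e2 : Real.exp (-t) * Y E B R t ≤ Y E B R 0 + J0 * t := by linarith
  calc Y E B R t = Real.exp t * (Real.exp (-t) * Y E B R t) := by rw [← mul_assoc, e1, one_mul]
    _ ≤ _ := mul_le_mul_of_nonneg_left e2 (Real.exp_pos _).le

/-- the cut-off tends to one -/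
lemma tendsto_psi (t : ℝ) (x : R3) :
    Tendsto (fun n : ℕ => psi ((n:ℝ) + 1) t x) atTop (𝓝 1) := by
  have h1 : Tendsto (fun n : ℕ => 1 - (jb x + t) / ((n:ℝ) + 1)) atTop (𝓝 (1 - 0)) := by
    apply Tendsto.const_sub
    have := tendsto_one_div_add_atTop_nhds_zero_nat (𝕜 := ℝ)
    have h2 := this.const_mul (jb x + t)
    simpa [div_eq_mul_inv] using h2
  have h2 := (contDiff_pp.continuous.tendsto (1 - 0)).comp h1
  have h3 : pp (1 - 0) = 1 := by simp [pp]
  rw [h3] at h2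
  exact h2

/-- the energy is bounded on compact time intervals -/
lemma Fld.integrable_en (h : Fld T E B j) (h0 : Integrable (en E B 0)) {T' : ℝ} (hT0 : 0 ≤ T')
    (hT : T' < T) : ∃ C : ℝ, 0 ≤ C ∧ ∀ t ∈ Icc 0 T', Integrable (en E B t) ∧
      ∫ x, en E B t x ≤ C := by
  obtain ⟨J0, hJ, hj0⟩ := h.integrable_j hT0 hT
  have hsub : Icc 0 T' ⊆ Ico 0 T := fun r hr => ⟨hr.1, lt_of_le_of_lt hr.2 hT⟩
  have hE0 : 0 ≤ ∫ x, en E B 0 x := integral_nonneg fun x => en_nonneg _ _ _ _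
  refine ⟨Real.exp T' * ((∫ x, en E B 0 x) + J0 * T'), by positivity, fun t ht => ?_⟩
  have hT0' : (0:ℝ) ∈ Ico 0 T := ⟨le_rfl, lt_of_le_of_lt hT0 hT⟩
  have bound : ∀ n : ℕ, Y E B ((n:ℝ) + 1) t ≤ Real.exp T' * ((∫ x, en E B 0 x) + J0 * T') := by
    intro n
    have hn : (0:ℝ) < (n:ℝ) + 1 := by positivity
    have b1 := h.Y_le hn hT hJ hj0 ht
    have b2 : Y E B ((n:ℝ) + 1) 0 ≤ ∫ x, en E B 0 x := by
      apply integral_mono (h.integrable_psi_mul hn hT0' (h.continuous_en hT0')) h0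
      intro x
      have := psi_le_one hn le_rfl x
      have := en_nonneg E B 0 x
      show psi ((n:ℝ) + 1) 0 x * en E B 0 x ≤ en E B 0 x
      nlinarith
    refine b1.trans ?_
    have hy := Y_nonneg E B ((n:ℝ) + 1) 0
    have c1 : Real.exp t ≤ Real.exp T' := Real.exp_le_exp.2 ht.2
    have c2 : J0 * t ≤ J0 * T' := mul_le_mul_of_nonneg_left ht.2 hJ
    have c3 : 0 ≤ J0 * t := mul_nonneg hJ ht.1
    exact mul_le_mul c1 (by linarith) (by linarith) (Real.exp_pos _).le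
  have hcont := h.continuous_en (hsub ht)
  -- Fatou
  have fatou : ∫⁻ x, ENNReal.ofReal (en E B t x) ≤
      ENNReal.ofReal (Real.exp T' * ((∫ x, en E B 0 x) + J0 * T')) := by
    calc ∫⁻ x, ENNReal.ofReal (en E B t x)
        = ∫⁻ x, liminf (fun n : ℕ => ENNReal.ofReal (psi ((n:ℝ) + 1) t x * en E B t x)) atTop := by
          congr 1
          funext x
          have h1 : Tendsto (fun n : ℕ => ENNReal.ofReal (psi ((n:ℝ) + 1) t x * en E B t x)) atTop
              (𝓝 (ENNReal.ofReal (1 * en E B t x))) :=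
            (ENNReal.continuous_ofReal.tendsto _).comp ((tendsto_psi t x).mul_const _)
          rw [h1.liminf_eq, one_mul]
      _ ≤ liminf (fun n : ℕ => ∫⁻ x, ENNReal.ofReal (psi ((n:ℝ) + 1) t x * en E B t x)) atTop := by
          apply lintegral_liminf_le
          intro n
          exact (((contDiff_psi _ t).continuous.mul hcont).measurable).ennreal_ofReal
      _ ≤ ENNReal.ofReal (Real.exp T' * ((∫ x, en E B 0 x) + J0 * T')) := by
          apply liminf_le_of_le (by isBoundedDefault)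
          intro b hb
          obtain ⟨n, hn⟩ := hb.exists
          refine hn.trans ?_
          have hn1 : (0:ℝ) < (n:ℝ) + 1 := by positivity
          rw [← ofReal_integral_eq_lintegral_ofReal
            (h.integrable_psi_mul hn1 (hsub ht) hcont)
            (Eventually.of_forall fun x => mul_nonneg (psi_nonneg _ _ _) (en_nonneg _ _ _ _))]
          exact ENNReal.ofReal_le_ofReal (bound n)
  have hint : Integrable (en E B t) := by
    refine ⟨hcont.aestronglyMeasurable, ?_⟩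
    rw [hasFiniteIntegral_iff_ofReal (Eventually.of_forall fun x => en_nonneg _ _ _ _)]
    exact lt_of_le_of_lt fatou ENNReal.ofReal_lt_top
  refine ⟨hint, ?_⟩
  rw [← ofReal_integral_eq_lintegral_ofReal hint (Eventually.of_forall fun x => en_nonneg _ _ _ _)]
    at fatou
  exact (ENNReal.ofReal_le_ofReal_iff (by positivity)).1 fatou

/-- local energies converge to the energy -/
lemma Fld.tendsto_Y (h : Fld T E B j) {t : ℝ} (ht : t ∈ Ico 0 T) (hi : Integrable (en E B t)) :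
    Tendsto (fun n : ℕ => Y E B ((n:ℝ) + 1) t) atTop (𝓝 (∫ x, en E B t x)) := by
  unfold Y
  apply tendsto_integral_of_dominated_convergence (en E B t)
  · intro n
    exact ((contDiff_psi _ t).continuous.mul (h.continuous_en ht)).aestronglyMeasurable
  · exact hi
  · intro n
    refine Eventually.of_forall fun x => ?_
    have hn1 : (0:ℝ) < (n:ℝ) + 1 := by positivity
    have h1 := psi_le_one hn1 ht.1 x
    have h2 := psi_nonneg ((n:ℝ) + 1) t x
    have h3 := en_nonneg E B t x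
    rw [Real.norm_of_nonneg (mul_nonneg h2 h3)]
    nlinarith
  · refine Eventually.of_forall fun x => ?_
    have := (tendsto_psi t x).mul_const (en E B t x)
    simpa using this

/-- Lipschitz continuity of the energy in time -/
lemma Fld.energy_lipschitz (h : Fld T E B j) (h0 : Integrable (en E B 0)) {T' : ℝ} (hT0 : 0 ≤ T')
    (hT : T' < T) : ∃ C : ℝ, ∀ s ∈ Icc 0 T', ∀ t ∈ Icc 0 T',
      |(∫ x, en E B t x) - ∫ x, en E B s x| ≤ C * |t - s| := by
  obtain ⟨J0, hJ, hj0⟩ := h.integrable_j hT0 hT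
  obtain ⟨C, hC, hen⟩ := h.integrable_en h0 hT0 hT
  have hsub : Icc 0 T' ⊆ Ico 0 T := fun r hr => ⟨hr.1, lt_of_le_of_lt hr.2 hT⟩
  -- local version, for s ≤ t
  have loc : ∀ n : ℕ, ∀ s ∈ Icc 0 T', ∀ t ∈ Icc 0 T', s < t →
      |Y E B ((n:ℝ) + 1) t - Y E B ((n:ℝ) + 1) s| ≤ (5 * C + J0) * (t - s) := by
    intro n s hs t ht hst
    have hn : (1:ℝ) ≤ (n:ℝ) + 1 := by
      have : (0:ℝ) ≤ (n:ℝ) := Nat.cast_nonneg n
      linarith
    have hn0 : (0:ℝ) < (n:ℝ) + 1 := by linarith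
    obtain ⟨c, hc, hc'⟩ := exists_hasDerivAt_eq_slope (Y E B ((n:ℝ) + 1))
      (fun r => ∫ x, gd E B j ((n:ℝ) + 1) r x) hst
      ((h.continuousOn_Y hn0).mono fun r hr => hsub ⟨hs.1.trans hr.1, hr.2.trans ht.2⟩)
      (fun r hr => (h.hasDerivAt_Y hn0 ⟨lt_of_le_of_lt hs.1 hr.1,
        lt_of_lt_of_le hr.2 (ht.2.trans hT.le)⟩).2)
    have hcI : c ∈ Icc 0 T' := ⟨hs.1.trans hc.1.le, hc.2.le.trans ht.2⟩
    have hcpos : 0 < c := lt_of_le_of_lt hs.1 hc.1
    have hcT : c ∈ Ioo 0 T := ⟨hcpos, lt_of_le_of_lt hcI.2 hT⟩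
    have gi := (h.hasDerivAt_Y hn0 hcT).1
    have b : |∫ x, gd E B j ((n:ℝ) + 1) c x| ≤ 5 * C + J0 := by
      calc |∫ x, gd E B j ((n:ℝ) + 1) c x| ≤ ∫ x, |gd E B j ((n:ℝ) + 1) c x| :=
            abs_integral_le_integral_abs
        _ ≤ ∫ x, (5 * en E B c x + ‖j c x‖ ^ 2) := by
            apply integral_mono gi.abs (((hen c hcI).1.const_mul 5).add (hj0 c hcI).1)
            intro x
            exact abs_gd_le E B j hn hcI.1 x
        _ = 5 * (∫ x, en E B c x) + ∫ x, ‖j c x‖ ^ 2 := by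
            rw [integral_add ((hen c hcI).1.const_mul 5) (hj0 c hcI).1, integral_const_mul]
        _ ≤ _ := by linarith [(hen c hcI).2, (hj0 c hcI).2]
    have hts : 0 < t - s := by linarith
    have e : Y E B ((n:ℝ) + 1) t - Y E B ((n:ℝ) + 1) s
        = (∫ x, gd E B j ((n:ℝ) + 1) c x) * (t - s) := by
      rw [hc']; field_simp
    rw [e, abs_mul, abs_of_pos hts]
    exact mul_le_mul_of_nonneg_right b hts.le
  have lim : ∀ s ∈ Icc 0 T', ∀ t ∈ Icc 0 T', s < t →
      |(∫ x, en E B t x) - ∫ x, en E B s x| ≤ (5 * C + J0) * (t - s) := by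
    intro s hs t ht hst
    have l1 := h.tendsto_Y (hsub ht) (hen t ht).1
    have l2 := h.tendsto_Y (hsub hs) (hen s hs).1
    exact le_of_tendsto' (l1.sub l2).abs fun n => loc n s hs t ht hst
  refine ⟨5 * C + J0, fun s hs t ht => ?_⟩
  rcases lt_trichotomy s t with hst | hst | hst
  · rw [abs_of_pos (sub_pos.2 hst)]; exact lim s hs t ht hst
  · subst hst; simp
  · rw [abs_sub_comm, abs_sub_comm t s, abs_of_pos (sub_pos.2 hst)]; exact lim t ht s hs hst

/-- pointwise convergence and convergence of the energies give `L²` convergence (sequences) -/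
lemma l2_conv_seq {a b : ℕ → R3 → R3} {a0 b0 : R3 → R3}
    (ha : ∀ n, Continuous (a n)) (hb : ∀ n, Continuous (b n)) (ha0 : Continuous a0)
    (hb0 : Continuous b0) (hi : ∀ n, Integrable fun x => ‖a n x‖ ^ 2 + ‖b n x‖ ^ 2)
    (hi0 : Integrable fun x => ‖a0 x‖ ^ 2 + ‖b0 x‖ ^ 2)
    (hpa : ∀ x, Tendsto (fun n => a n x) atTop (𝓝 (a0 x)))
    (hpb : ∀ x, Tendsto (fun n => b n x) atTop (𝓝 (b0 x)))
    (hen : Tendsto (fun n => ∫ x, (‖a n x‖ ^ 2 + ‖b n x‖ ^ 2)) atTop
      (𝓝 (∫ x, (‖a0 x‖ ^ 2 + ‖b0 x‖ ^ 2)))) :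
    Tendsto (fun n => ∫ x, (‖a n x - a0 x‖ ^ 2 + ‖b n x - b0 x‖ ^ 2)) atTop (𝓝 0) := by
  set e : ℕ → R3 → ℝ := fun n x => ‖a n x‖ ^ 2 + ‖b n x‖ ^ 2 with he
  set e0 : R3 → ℝ := fun x => ‖a0 x‖ ^ 2 + ‖b0 x‖ ^ 2 with he0
  set d : ℕ → R3 → ℝ := fun n x => ‖a n x - a0 x‖ ^ 2 + ‖b n x - b0 x‖ ^ 2 with hd
  have hdc : ∀ n, Continuous (d n) := fun n =>
    (((ha n).sub ha0).norm.pow 2).add (((hb n).sub hb0).norm.pow 2)
  have hd0 : ∀ n x, 0 ≤ d n x := fun n x => by simp only [hd]; positivity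
  have par : ∀ u v : R3, ‖u - v‖ ^ 2 ≤ 2 * ‖u‖ ^ 2 + 2 * ‖v‖ ^ 2 := by
    intro u v
    have h1 := norm_sub_le u v
    have h2 : ‖u - v‖ ^ 2 ≤ (‖u‖ + ‖v‖) ^ 2 := pow_le_pow_left₀ (norm_nonneg _) h1 2
    nlinarith [sq_nonneg (‖u‖ - ‖v‖)]
  have hde : ∀ n x, d n x ≤ 2 * e n x + 2 * e0 x := by
    intro n x
    have h1 := par (a n x) (a0 x)
    have h2 := par (b n x) (b0 x)
    simp only [hd, he, he0]; linarith
  have hei : ∀ n, Integrable fun x => 2 * e n x + 2 * e0 x := fun n =>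
    ((hi n).const_mul 2).add (hi0.const_mul 2)
  have hdi : ∀ n, Integrable (d n) := by
    intro n
    apply (hei n).mono (hdc n).aestronglyMeasurable
    refine Eventually.of_forall fun x => ?_
    rw [Real.norm_of_nonneg (hd0 n x)]
    exact (hde n x).trans (le_abs_self _)
  have hgi : ∀ n, Integrable fun x => 2 * e n x + 2 * e0 x - d n x := fun n => (hei n).sub (hdi n)
  -- Fatou for `2 e_n + 2 e_0 - d_n ≥ 0`
  have hgc : ∀ n, Continuous fun x => 2 * e n x + 2 * e0 x - d n x := by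
    intro n
    have c1 : Continuous (e n) := ((ha n).norm.pow 2).add ((hb n).norm.pow 2)
    have c2 : Continuous e0 := (ha0.norm.pow 2).add (hb0.norm.pow 2)
    exact ((continuous_const.mul c1).add (continuous_const.mul c2)).sub (hdc n)
  have hplim : ∀ x, Tendsto (fun n => 2 * e n x + 2 * e0 x - d n x) atTop (𝓝 (4 * e0 x)) := by
    intro x
    have t1 : Tendsto (fun n => e n x) atTop (𝓝 (e0 x)) :=
      ((hpa x).norm.pow 2).add ((hpb x).norm.pow 2)
    have t2 : Tendsto (fun n => d n x) atTop (𝓝 (‖a0 x - a0 x‖ ^ 2 + ‖b0 x - b0 x‖ ^ 2)) :=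
      (((hpa x).sub_const _).norm.pow 2).add (((hpb x).sub_const _).norm.pow 2)
    have t3 := ((t1.const_mul 2).add_const (2 * e0 x)).sub t2
    have : 2 * e0 x + 2 * e0 x - (‖a0 x - a0 x‖ ^ 2 + ‖b0 x - b0 x‖ ^ 2) = 4 * e0 x := by
      simp; ring
    rw [this] at t3
    exact t3
  have fatou : ENNReal.ofReal (4 * ∫ x, e0 x) ≤
      liminf (fun n => ENNReal.ofReal (2 * (∫ x, e n x) + 2 * (∫ x, e0 x) - ∫ x, d n x)) atTop := by
    have h1 : ENNReal.ofReal (4 * ∫ x, e0 x) = ∫⁻ x, ENNReal.ofReal (4 * e0 x) := by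
      rw [← integral_const_mul, ofReal_integral_eq_lintegral_ofReal (hi0.const_mul 4)]
      exact Eventually.of_forall fun x => by simp only [he0, Pi.zero_apply]; positivity
    have h2 : ∀ n, ENNReal.ofReal (2 * (∫ x, e n x) + 2 * (∫ x, e0 x) - ∫ x, d n x)
        = ∫⁻ x, ENNReal.ofReal (2 * e n x + 2 * e0 x - d n x) := by
      intro n
      rw [← ofReal_integral_eq_lintegral_ofReal (hgi n)
        (Eventually.of_forall fun x => by simp only [Pi.zero_apply]; linarith [hde n x]),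
        integral_sub (hei n) (hdi n),
        integral_add ((hi n).const_mul 2) (hi0.const_mul 2), integral_const_mul, integral_const_mul]
    rw [h1]
    simp only [h2]
    calc ∫⁻ x, ENNReal.ofReal (4 * e0 x)
        = ∫⁻ x, liminf (fun n => ENNReal.ofReal (2 * e n x + 2 * e0 x - d n x)) atTop := by
          congr 1
          funext x
          exact (((ENNReal.continuous_ofReal.tendsto _).comp (hplim x)).liminf_eq).symm
      _ ≤ _ := lintegral_liminf_le fun n => (hgc n).measurable.ennreal_ofReal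
  -- conclude
  have hI0 : 0 ≤ ∫ x, e0 x := integral_nonneg fun x => by simp only [he0]; positivity
  rw [Metric.tendsto_atTop]
  intro ε hε
  have hlt : ENNReal.ofReal (4 * (∫ x, e0 x) - ε / 2) <
      liminf (fun n => ENNReal.ofReal (2 * (∫ x, e n x) + 2 * (∫ x, e0 x) - ∫ x, d n x)) atTop ∨
      4 * (∫ x, e0 x) ≤ 0 := by
    by_cases hz : 4 * (∫ x, e0 x) ≤ 0
    · right; exact hz
    · left
      push Not at hz
      refine lt_of_lt_of_le ?_ fatou
      rw [ENNReal.ofReal_lt_ofReal_iff hz]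
      linarith
  have hev2 : ∀ᶠ n in atTop, |(∫ x, e n x) - ∫ x, e0 x| < ε / 8 := by
    have := (Metric.tendsto_atTop.1 hen) (ε / 8) (by positivity)
    obtain ⟨N, hN⟩ := this
    filter_upwards [eventually_ge_atTop N] with n hn
    exact hN n hn
  have hev : ∀ᶠ n in atTop, 4 * (∫ x, e0 x) - ε / 2 <
      2 * (∫ x, e n x) + 2 * (∫ x, e0 x) - ∫ x, d n x := by
    rcases hlt with hlt | hz
    · have := eventually_lt_of_lt_liminf hlt
      filter_upwards [this] with n hn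
      by_contra hcon
      push Not at hcon
      exact absurd (ENNReal.ofReal_le_ofReal hcon) (not_le.2 hn)
    · filter_upwards [hev2] with n hn
      have i1 : ∫ x, d n x ≤ 2 * (∫ x, e n x) + 2 * ∫ x, e0 x := by
        rw [← integral_const_mul, ← integral_const_mul,
          ← integral_add ((hi n).const_mul 2) (hi0.const_mul 2)]
        exact integral_mono (hdi n) (hei n) (hde n)
      linarith
  obtain ⟨N, hN⟩ := (hev.and hev2).exists_forall_of_atTop
  refine ⟨N, fun n hn => ?_⟩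
  obtain ⟨h1, h2⟩ := hN n hn
  rw [abs_lt] at h2
  have hdn : 0 ≤ ∫ x, d n x := integral_nonneg fun x => hd0 n x
  rw [Real.dist_eq, sub_zero, abs_of_nonneg hdn]
  linarith [h2.2]

/-- time continuity of a slice (within `[0,T)`) -/
lemma tendsto_slice (hE : ContDiffOn ℝ 1 (fun p : ℝ × R3 => E p.1 p.2) (Ico 0 T ×ˢ univ))
    {t : ℝ} (ht : t ∈ Ico 0 T) (x : R3) : Tendsto (fun s => E s x) (𝓝[Ico 0 T] t) (𝓝 (E t x)) := by
  have h1 : ContinuousOn (fun s : ℝ => E s x) (Ico 0 T) :=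
    hE.continuousOn.comp (f := fun s : ℝ => ((s, x) : ℝ × R3)) (by fun_prop)
      (fun s hs => ⟨hs, mem_univ _⟩)
  exact h1 t ht

lemma eLpNorm_two_eq {u : R3 → R3} (hu : Continuous u) (hi : Integrable fun x => ‖u x‖ ^ 2) :
    eLpNorm u 2 volume = ENNReal.ofReal (Real.sqrt (∫ x, ‖u x‖ ^ 2)) := by
  have hm : MemLp u 2 volume := (memLp_two_iff_integrable_sq_norm hu.aestronglyMeasurable).2 hi
  rw [hm.eLpNorm_eq_integral_rpow_norm (by norm_num) (by norm_num)]
  congr 1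
  rw [Real.sqrt_eq_rpow]
  simp

/-- **The `L²` clause.** -/
theorem l2_clause {T : ℝ} {E B j : ℝ → R3 → R3} (h : Fld T E B j)
    (hE0 : MemLp (E 0) 2) (hB0 : MemLp (B 0) 2) :
    ∀ t ∈ Ico 0 T, MemLp (E t) 2 ∧ MemLp (B t) 2 ∧
      Tendsto (fun s => eLpNorm (E s - E t) 2 volume) (𝓝[Ico 0 T] t) (𝓝 0) ∧
      Tendsto (fun s => eLpNorm (B s - B t) 2 volume) (𝓝[Ico 0 T] t) (𝓝 0) := by
  intro t ht
  have hTpos : 0 < T := lt_of_le_of_lt ht.1 ht.2
  have h0I : (0:ℝ) ∈ Ico 0 T := ⟨le_rfl, hTpos⟩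
  have hen0 : Integrable (en E B 0) := by
    unfold en
    exact ((memLp_two_iff_integrable_sq_norm (h.cont_slice h0I).1.aestronglyMeasurable).1 hE0).add
      ((memLp_two_iff_integrable_sq_norm (h.cont_slice h0I).2.1.aestronglyMeasurable).1 hB0)
  -- integrability of the squares at every time
  have hsq : ∀ s ∈ Ico 0 T, Integrable (en E B s) ∧ Integrable (fun x => ‖E s x‖ ^ 2) ∧
      Integrable (fun x => ‖B s x‖ ^ 2) := by
    intro s hs
    obtain ⟨C, _, hC⟩ := h.integrable_en hen0 hs.1 hs.2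
    have hi := (hC s ⟨hs.1, le_rfl⟩).1
    refine ⟨hi, ?_, ?_⟩
    · apply hi.mono ((h.cont_slice hs).1.norm.pow 2).aestronglyMeasurable
      refine Eventually.of_forall fun x => ?_
      show ‖‖E s x‖ ^ 2‖ ≤ ‖en E B s x‖
      rw [Real.norm_of_nonneg (by positivity), Real.norm_of_nonneg (en_nonneg _ _ _ _)]
      unfold en; nlinarith [sq_nonneg ‖B s x‖]
    · apply hi.mono ((h.cont_slice hs).2.1.norm.pow 2).aestronglyMeasurable
      refine Eventually.of_forall fun x => ?_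
      show ‖‖B s x‖ ^ 2‖ ≤ ‖en E B s x‖
      rw [Real.norm_of_nonneg (by positivity), Real.norm_of_nonneg (en_nonneg _ _ _ _)]
      unfold en; nlinarith [sq_nonneg ‖E s x‖]
  have hEt := (h.cont_slice ht).1
  have hBt := (h.cont_slice ht).2.1
  refine ⟨(memLp_two_iff_integrable_sq_norm hEt.aestronglyMeasurable).2 (hsq t ht).2.1,
    (memLp_two_iff_integrable_sq_norm hBt.aestronglyMeasurable).2 (hsq t ht).2.2, ?_⟩
  -- continuity of the energy at `t`
  obtain ⟨T', htT', hT'T⟩ := exists_between ht.2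
  have hT'0 : 0 ≤ T' := ht.1.trans htT'.le
  obtain ⟨C, hC⟩ := h.energy_lipschitz hen0 hT'0 hT'T
  have hnear : ∀ᶠ s in 𝓝[Ico 0 T] t, s ∈ Icc 0 T' := by
    have h1 : ∀ᶠ s in 𝓝[Ico 0 T] t, s ∈ Ico 0 T := eventually_mem_nhdsWithin
    have h2 : ∀ᶠ s in 𝓝[Ico 0 T] t, s ∈ Iio T' :=
      mem_nhdsWithin_of_mem_nhds (Iio_mem_nhds htT')
    filter_upwards [h1, h2] with s hs1 hs2 using ⟨hs1.1, le_of_lt hs2⟩
  have hencont : Tendsto (fun s => ∫ x, en E B s x) (𝓝[Ico 0 T] t) (𝓝 (∫ x, en E B t x)) := by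
    rw [tendsto_iff_norm_sub_tendsto_zero]
    have hb : Tendsto (fun s => C * |s - t|) (𝓝[Ico 0 T] t) (𝓝 0) := by
      have : Tendsto (fun s => C * |s - t|) (𝓝 t) (𝓝 (C * |t - t|)) := by
        apply Continuous.tendsto; fun_prop
      simp only [sub_self, abs_zero, mul_zero] at this
      exact this.mono_left nhdsWithin_le_nhds
    refine squeeze_zero' (Eventually.of_forall fun _ => norm_nonneg _) ?_ hb
    filter_upwards [hnear] with s hs
    rw [Real.norm_eq_abs]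
    exact hC t ⟨ht.1, htT'.le⟩ s hs
  -- convergence of the squared distance
  have main : Tendsto (fun s => ∫ x, (‖E s x - E t x‖ ^ 2 + ‖B s x - B t x‖ ^ 2))
      (𝓝[Ico 0 T] t) (𝓝 0) := by
    rw [tendsto_iff_seq_tendsto]
    intro s hs
    -- replace the sequence by one that stays in `[0,T)`
    have hmem : ∀ᶠ n in atTop, s n ∈ Ico 0 T := hs.eventually eventually_mem_nhdsWithin
    obtain ⟨N, hN⟩ := hmem.exists_forall_of_atTop
    have hs' : Tendsto (fun n => s (n + N)) atTop (𝓝[Ico 0 T] t) :=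
      hs.comp (tendsto_add_atTop_nat N)
    have hmem' : ∀ n, s (n + N) ∈ Ico 0 T := fun n => hN _ (Nat.le_add_left _ _)
    have := l2_conv_seq (a := fun n => E (s (n + N))) (b := fun n => B (s (n + N)))
      (a0 := E t) (b0 := B t)
      (fun n => (h.cont_slice (hmem' n)).1) (fun n => (h.cont_slice (hmem' n)).2.1) hEt hBt
      (fun n => (hsq _ (hmem' n)).1) (hsq t ht).1
      (fun x => (tendsto_slice h.hE ht x).comp hs') (fun x => (tendsto_slice h.hB ht x).comp hs')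
      (hencont.comp hs')
    exact (tendsto_add_atTop_iff_nat N).1 this
  -- conclusion
  have hdist : ∀ s ∈ Ico 0 T,
      Integrable (fun x => ‖E s x - E t x‖ ^ 2) ∧ Integrable (fun x => ‖B s x - B t x‖ ^ 2) := by
    intro s hs
    have m1 : MemLp (fun x => E s x - E t x) 2 volume :=
      ((memLp_two_iff_integrable_sq_norm (h.cont_slice hs).1.aestronglyMeasurable).2
        (hsq s hs).2.1).sub
      ((memLp_two_iff_integrable_sq_norm hEt.aestronglyMeasurable).2 (hsq t ht).2.1)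
    have m2 : MemLp (fun x => B s x - B t x) 2 volume :=
      ((memLp_two_iff_integrable_sq_norm (h.cont_slice hs).2.1.aestronglyMeasurable).2
        (hsq s hs).2.2).sub
      ((memLp_two_iff_integrable_sq_norm hBt.aestronglyMeasurable).2 (hsq t ht).2.2)
    exact ⟨(memLp_two_iff_integrable_sq_norm m1.aestronglyMeasurable).1 m1,
      (memLp_two_iff_integrable_sq_norm m2.aestronglyMeasurable).1 m2⟩
  have hsqrt : Tendsto (fun s => ENNReal.ofReal
      (Real.sqrt (∫ x, (‖E s x - E t x‖ ^ 2 + ‖B s x - B t x‖ ^ 2)))) (𝓝[Ico 0 T] t) (𝓝 0) := by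
    have h1 := (Real.continuous_sqrt.tendsto 0).comp main
    rw [Real.sqrt_zero] at h1
    have h2 := (ENNReal.continuous_ofReal.tendsto 0).comp h1
    rw [ENNReal.ofReal_zero] at h2
    exact h2
  constructor
  · refine tendsto_of_tendsto_of_tendsto_of_le_of_le' tendsto_const_nhds hsqrt
      (Eventually.of_forall fun _ => bot_le) ?_
    filter_upwards [eventually_mem_nhdsWithin] with s hs
    have c : Continuous (E s - E t) := (h.cont_slice hs).1.sub hEt
    rw [eLpNorm_two_eq c (hdist s hs).1]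
    apply ENNReal.ofReal_le_ofReal
    apply Real.sqrt_le_sqrt
    apply integral_mono (hdist s hs).1 ((hdist s hs).1.add (hdist s hs).2)
    intro x
    show ‖E s x - E t x‖ ^ 2 ≤ ‖E s x - E t x‖ ^ 2 + ‖B s x - B t x‖ ^ 2
    nlinarith [sq_nonneg ‖B s x - B t x‖]
  · refine tendsto_of_tendsto_of_tendsto_of_le_of_le' tendsto_const_nhds hsqrt
      (Eventually.of_forall fun _ => bot_le) ?_
    filter_upwards [eventually_mem_nhdsWithin] with s hs
    have c : Continuous (B s - B t) := (h.cont_slice hs).2.1.sub hBt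
    rw [eLpNorm_two_eq c (hdist s hs).2]
    apply ENNReal.ofReal_le_ofReal
    apply Real.sqrt_le_sqrt
    apply integral_mono (hdist s hs).2 ((hdist s hs).1.add (hdist s hs).2)
    intro x
    show ‖B s x - B t x‖ ^ 2 ≤ ‖E s x - E t x‖ ^ 2 + ‖B s x - B t x‖ ^ 2
    nlinarith [sq_nonneg ‖E s x - E t x‖]

/-- the `L²` clause in the exact form announced (note 12382) -/
theorem l2_clause' {T : ℝ} {E B j : ℝ → R3 → R3}
    (hE : ContDiffOn ℝ 1 (fun p : ℝ × R3 => E p.1 p.2) (Set.Ico 0 T ×ˢ Set.univ))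
    (hB : ContDiffOn ℝ 1 (fun p : ℝ × R3 => B p.1 p.2) (Set.Ico 0 T ×ˢ Set.univ))
    (hjc : ContinuousOn (fun p : ℝ × R3 => j p.1 p.2) (Set.Ico 0 T ×ˢ Set.univ))
    (hjs : ∀ T', 0 ≤ T' → T' < T → ∃ R : ℝ, ∀ t ∈ Set.Icc 0 T', ∀ x, R < ‖x‖ → j t x = 0)
    (h1 : ∀ t, 0 < t → t < T → ∀ (x : R3) (i : Fin 3),
      deriv (fun s => E s x i) t - curl3 (B t) x i = - j t x i)
    (h2 : ∀ t, 0 < t → t < T → ∀ (x : R3) (i : Fin 3),
      deriv (fun s => B s x i) t + curl3 (E t) x i = 0)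
    (hE0 : MemLp (E 0) 2) (hB0 : MemLp (B 0) 2) :
    ∀ t ∈ Set.Ico 0 T, MemLp (E t) 2 ∧ MemLp (B t) 2 ∧
      Filter.Tendsto (fun s => eLpNorm (E s - E t) 2 volume) (nhdsWithin t (Set.Ico 0 T))
        (nhds 0) ∧
      Filter.Tendsto (fun s => eLpNorm (B s - B t) 2 volume) (nhdsWithin t (Set.Ico 0 T))
        (nhds 0) :=
  l2_clause ⟨hE, hB, hjc, hjs, h1, h2⟩ hE0 hB0

end Crest.Agent.R106.L2F
end

-- ▼ part R106/L2FAd
section

set_option autoImplicit false

namespace Crest.Agent.R106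

/-- node L2F in the form of `LimDefs.lean` -/
theorem l2Clause : L2Clause :=
  fun _ _ _ _ hE hB hjc hjs h1 h2 hE0 hB0 => L2F.l2_clause' hE hB hjc hjs h1 h2 hE0 hB0

end Crest.Agent.R106
end

-- ▼ part R106/StdTrunc
section

/-! Row 106: the frozen Props `Std.Trunc` and `Std.SmoothLim`. -/

set_option autoImplicit false
open Set Filter Topology
open scoped ContDiff
open Crest.AnalysisR.VecCalc3 Crest.AnalysisR.PDE.RVM

namespace Crest.Agent.R106.Std

theorem isTrunc_Gop {P : ℝ} (hP : 0 < P) : IsTrunc P (Crest.Agent.R106.Trunc.Gop P) where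
  pos := hP
  smooth := Crest.Agent.R106.Trunc.Gop_contDiff P
  supp := fun _ hv => Crest.Agent.R106.Trunc.Gop_eq_zero hP hv
  divfree := fun F v => Crest.Agent.R106.Trunc.div3_G P F.1 F.2 v
  eq := fun _ e b hv => Crest.Agent.R106.Trunc.G_eq_lorentz hP hv e b

/-- TRUNC. -/
theorem trunc : Trunc := fun _ hP => ⟨_, isTrunc_Gop hP⟩


end Crest.Agent.R106.Std
end

-- ▼ part R106/FlowAd
section

/-!
Row 106, node ITER-A (helper201): the frozen Props `Flow` and `Grow` from helper332's `FlowF`.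
-/

set_option autoImplicit false

open Set Filter Topology MeasureTheory
open scoped ContDiff
open Crest.AnalysisR.VecCalc3 Crest.AnalysisR.PDE.RVM
open Crest.Agent.R106.Flow

noncomputable section

namespace Crest.Agent.R106.Std

theorem SF.norm_le {K : ℝ → R3 → R3} (h : SF K) (T : ℝ) :
    ∃ C : ℝ, 0 ≤ C ∧ ∀ t : ℝ, |t| ≤ T → ∀ x : R3, ‖K t x‖ ≤ C := by
  obtain ⟨C, hC⟩ := h.2 T 0
  refine ⟨max C 0, le_max_right _ _, fun t ht x => ?_⟩
  have := hC t ht x
  rw [norm_iteratedFDeriv_zero] at this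
  exact this.trans (le_max_left _ _)

/-- A truncated force is bounded. -/
theorem IsTrunc.bound {P : ℝ} {G : R3 → (R3 × R3) →L[ℝ] R3} (h : IsTrunc P G) :
    ∃ C : ℝ, 0 ≤ C ∧ ∀ v : R3, ‖G v‖ ≤ C := by
  have hc : IsCompact (Metric.closedBall (0 : R3) (2 * P)) := isCompact_closedBall _ _
  obtain ⟨C, hC⟩ := (hc.image (h.smooth.continuous.norm)).bddAbove
  refine ⟨max C 0, le_max_right _ _, fun v => ?_⟩
  by_cases hv : ‖v‖ ≤ 2 * P
  · exact (hC ⟨v, by simpa using hv, rfl⟩).trans (le_max_left _ _)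
  · rw [h.supp v (not_le.1 hv).le]
    simp

/-- The force field of the fields `E, B`. -/
def TFo (G : R3 → (R3 × R3) →L[ℝ] R3) (E B : ℝ → R3 → R3) (t : ℝ) (x v : R3) : R3 :=
  G v (E t x, B t x)

theorem goodForce_TFo {P : ℝ} {G : R3 → (R3 × R3) →L[ℝ] R3} (hG : IsTrunc P G)
    {E B : ℝ → R3 → R3} (hE : SF E) (hB : SF B) : GoodForce ⊤ (TFo G E B) := by
  refine ⟨?_, fun T => ?_⟩
  · have hE' : ContDiff ℝ ∞ (fun p : ℝ × R3 × R3 => E p.1 p.2.1) :=
      hE.1.comp (contDiff_fst.prodMk (contDiff_fst.comp contDiff_snd))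
    have hB' : ContDiff ℝ ∞ (fun p : ℝ × R3 × R3 => B p.1 p.2.1) :=
      hB.1.comp (contDiff_fst.prodMk (contDiff_fst.comp contDiff_snd))
    have hG' : ContDiff ℝ ∞ (fun p : ℝ × R3 × R3 => G p.2.2) :=
      hG.smooth.comp (contDiff_snd.comp contDiff_snd)
    exact hG'.clm_apply (hE'.prodMk hB')
  · obtain ⟨C, hC0, hC⟩ := hG.bound
    obtain ⟨CE, hCE0, hCE⟩ := hE.norm_le T
    obtain ⟨CB, hCB0, hCB⟩ := hB.norm_le T
    refine ⟨C * (CE + CB), fun t ht x v => ?_⟩
    have ht' : |t| ≤ T := abs_le.2 ht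
    have h1 : ‖TFo G E B t x v‖ ≤ ‖G v‖ * ‖(E t x, B t x)‖ := (G v).le_opNorm _
    refine h1.trans ?_
    have h2 : ‖(E t x, B t x)‖ ≤ CE + CB := by
      rw [Prod.norm_def]
      exact max_le ((hCE t ht' x).trans (by linarith)) ((hCB t ht' x).trans (by linarith))
    exact mul_le_mul (hC v) h2 (norm_nonneg _) hC0

/-- Closed-ball version of the invariance of the momentum ball. -/
theorem lv_support_v_le {F : ℝ → R3 → R3 → R3} (h : GoodForce 1 F) {f₀ : R3 → R3 → ℝ} {R : ℝ}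
    (hP : ∀ t x v, R ≤ ‖v‖ → F t x v = 0)
    (hf : ∀ x v : R3, R < ‖v‖ → f₀ x v = 0) {t : ℝ} {x v : R3} (hv : R < ‖v‖) :
    lv F f₀ t x v = 0 := by
  by_contra hne
  have h1 : ¬ (R < ‖(Ξ F 0 t (x, v)).2‖) := fun h2 => hne (hf _ _ h2)
  push Not at h1
  -- the ball `‖·‖ < R'` is invariant for every `R' > R`
  have h3 : ‖(Ξ F 0 t (x, v)).2‖ < ‖v‖ := h1.trans_lt hv
  have h4 := (norm_Ξ_snd_lt_iff h (P := ‖v‖) (fun t x w hw => hP t x w (hv.le.trans hw)) 0 t
    (z := (x, v))).1 h3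
  exact lt_irrefl _ h4

theorem flow : Std.Flow := by
  intro P G hG f₀ hf hc E B hE hB
  have hGF := goodForce_TFo hG hE hB
  have hG1 : GoodForce 1 (TFo G E B) := hGF.mono le_top
  have hf1 : ContDiff ℝ 1 (Function.uncurry f₀) := hf.of_le (by exact_mod_cast le_top)
  have hs : ContDiff ℝ ∞ (fun p : ℝ × R3 × R3 => lv (TFo G E B) f₀ p.1 p.2.1 p.2.2) :=
    contDiff_lv (n := ⊤) le_top hGF hf
  obtain ⟨R0, hR0⟩ := hc.isCompact.isBounded.exists_norm_le
  have hR : ∀ x v : R3, f₀ x v ≠ 0 → ‖x‖ ≤ R0 ∧ ‖v‖ ≤ R0 := by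
    intro x v h
    have h1 := hR0 (x, v) (subset_tsupport _ h)
    rw [Prod.norm_def] at h1
    exact ⟨(le_max_left _ _).trans h1, (le_max_right _ _).trans h1⟩
  refine ⟨lv (TFo G E B) f₀, ⟨hs, fun T => ?_⟩, lv_zero hG1, ?_, fun t x v => ⟨_, _, rfl⟩, ?_, ?_⟩
  · obtain ⟨M, hM⟩ := lv_compactSupport hG1 hR T
    refine ⟨M, fun t ht x v h => ?_⟩
    by_contra hne
    have := hM t (abs_le.1 ht) x v hne
    rcases h with h | h
    · exact absurd this.1 (not_le.2 h)
    · exact absurd this.2 (not_le.2 h)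
  · intro t x v
    exact lv_transport hG1 hf1 t x v
  · intro R hPR hR' t x v hv
    refine lv_support_v_le hG1 (fun t x w hw => ?_) hR' hv
    rw [TFo, hG.supp w (hPR.trans hw)]
    simp
  · intro R hR' t x v hx
    by_contra hne
    have := lv_support_x hG1 (R := R) (fun x v h => by
      by_contra h2
      exact h (hR' x v (not_le.1 h2))) hne
    exact absurd this (not_le.2 hx)


end Crest.Agent.R106.Std
end
end

-- ▼ part R106/TransStd

/-!
# Row 106, TRANS: the frozen Props `Tr0`, `Tr1`, `Trk` of `StdIface` (helper728)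
-/

set_option autoImplicit false
set_option linter.unusedSectionVars false

open MeasureTheory Set Filter Topology
open scoped ContDiff
open Crest.AnalysisR.VecCalc3 Crest.AnalysisR.PDE.RVM
open Crest.Agent.R106.Trans

noncomputable section

namespace Crest.Agent.R106.Std

/-! ### Calculus lemmas -/

section Calc

variable {D A B : Type} [NormedAddCommGroup D] [NormedSpace ℝ D] [NormedAddCommGroup A]
  [NormedSpace ℝ A] [NormedAddCommGroup B] [NormedSpace ℝ B]

lemma norm_iter_prodMk_le {f : D → A} {g : D → B} (hf : ContDiff ℝ ∞ f) (hg : ContDiff ℝ ∞ g)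
    (k : ℕ) (x : D) : ‖iteratedFDeriv ℝ k (fun y => (f y, g y)) x‖ ≤
      ‖iteratedFDeriv ℝ k f x‖ + ‖iteratedFDeriv ℝ k g x‖ := by
  rw [iteratedFDeriv_prodMk hf.contDiffAt hg.contDiffAt (nat_le_infty' k),
    ContinuousMultilinearMap.opNorm_prod]
  exact max_le (le_add_of_nonneg_right (norm_nonneg _)) (le_add_of_nonneg_left (norm_nonneg _))

lemma norm_iter_comp_le {f : A → B} (hf : ContDiff ℝ ∞ f) (L : D →L[ℝ] A) (hL : ‖L‖ ≤ 1)
    (k : ℕ) (x : D) : ‖iteratedFDeriv ℝ k (fun y => f (L y)) x‖ ≤ ‖iteratedFDeriv ℝ k f (L x)‖ := by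
  have h := L.iteratedFDeriv_comp_right hf x (nat_le_infty' k)
  have e : (f ∘ L) = fun y => f (L y) := rfl
  rw [e] at h
  rw [h]
  refine (ContinuousMultilinearMap.norm_compContinuousLinearMap_le _ _).trans ?_
  refine mul_le_of_le_one_right (norm_nonneg _) ?_
  rw [Finset.prod_const]
  exact pow_le_one₀ (norm_nonneg _) hL

lemma norm_iter_fst_le {f : A → D} (hf : ContDiff ℝ ∞ f) (k : ℕ) (x : A × B) :
    ‖iteratedFDeriv ℝ k (fun y : A × B => f y.1) x‖ ≤ ‖iteratedFDeriv ℝ k f x.1‖ :=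
  norm_iter_comp_le hf (ContinuousLinearMap.fst ℝ A B) (ContinuousLinearMap.norm_fst_le ℝ A B) k x

lemma norm_iter_snd_le {f : B → D} (hf : ContDiff ℝ ∞ f) (k : ℕ) (x : A × B) :
    ‖iteratedFDeriv ℝ k (fun y : A × B => f y.2) x‖ ≤ ‖iteratedFDeriv ℝ k f x.2‖ :=
  norm_iter_comp_le hf (ContinuousLinearMap.snd ℝ A B) (ContinuousLinearMap.norm_snd_le ℝ A B) k x

/-- all derivatives of a smooth compactly supported function are bounded -/
lemma exists_iter_bound {f : A → B} (hf : ContDiff ℝ ∞ f) (hc : HasCompactSupport f) :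
    ∃ c : ℕ → ℝ, (∀ k, 0 ≤ c k) ∧ ∀ k x, ‖iteratedFDeriv ℝ k f x‖ ≤ c k := by
  have h : ∀ k, ∃ C, ∀ x, ‖iteratedFDeriv ℝ k f x‖ ≤ C := fun k =>
    (hf.continuous_iteratedFDeriv (nat_le_infty' k)).bounded_above_of_compact_support
      (hc.iteratedFDeriv k)
  choose c hc using h
  exact ⟨c, fun k => (norm_nonneg _).trans (hc k 0), hc⟩

end Calc

lemma contDiff_relVel : ContDiff ℝ ∞ relVel := by
  unfold relVel
  have h1 : ContDiff ℝ ∞ (fun v : R3 => 1 + ‖v‖ ^ 2) := contDiff_const.add (contDiff_norm_sq ℝ)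
  have h2 : ContDiff ℝ ∞ (fun v : R3 => (Real.sqrt (1 + ‖v‖ ^ 2))⁻¹) :=
    (h1.sqrt fun v => by positivity).inv fun v => by positivity
  exact h2.smul contDiff_id

lemma norm_relVel_le (v : R3) : ‖relVel v‖ ≤ 1 := by
  have h0 : 0 < Real.sqrt (1 + ‖v‖ ^ 2) := Real.sqrt_pos.2 (by positivity)
  rw [relVel, norm_smul, norm_inv, Real.norm_of_nonneg h0.le, inv_mul_le_iff₀ h0, mul_one]
  exact Real.le_sqrt_of_sq_le (by linarith)

/-- the vector field of the characteristics, with velocity function `u` -/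
def VF (u : R3 → R3) (G : R3 → (R3 × R3) →L[ℝ] R3) (E B : ℝ → R3 → R3) :
    ℝ × (R3 × R3) → R3 × R3 :=
  fun p => (u p.2.2, G p.2.2 (E p.1 p.2.1, B p.1 p.2.1))

section VF

variable {u : R3 → R3} {G : R3 → (R3 × R3) →L[ℝ] R3} {E B : ℝ → R3 → R3} {P : ℝ}

lemma contDiff_VF (hu : ContDiff ℝ ∞ u) (hG : ContDiff ℝ ∞ G)
    (hE : ContDiff ℝ ∞ (fun p : ℝ × R3 => E p.1 p.2))
    (hB : ContDiff ℝ ∞ (fun p : ℝ × R3 => B p.1 p.2)) : ContDiff ℝ ∞ (VF u G E B) := by
  have h1 : ContDiff ℝ ∞ (fun p : ℝ × (R3 × R3) => (p.1, p.2.1)) := by fun_prop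
  have h2 : ContDiff ℝ ∞ (fun p : ℝ × (R3 × R3) => p.2.2) := by fun_prop
  exact (hu.comp h2).prodMk ((hG.comp h2).clm_apply ((hE.comp h1).prodMk (hB.comp h1)))

lemma IsTrunc.hasCompactSupport (h : IsTrunc P G) : HasCompactSupport G := by
  refine HasCompactSupport.of_support_subset_isCompact (isCompact_closedBall 0 (2 * P)) ?_
  intro v hv
  rw [mem_closedBall_zero_iff]
  by_contra hlt
  exact hv (h.supp v (not_le.1 hlt).le)

lemma SF.bdd (h : SF E) (T : ℝ) : ∃ C : ℝ, 0 ≤ C ∧ ∀ t, |t| ≤ T → ∀ x, ‖E t x‖ ≤ C := by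
  obtain ⟨C, hC⟩ := h.2 T 0
  refine ⟨max C 0, le_max_right _ _, fun t ht x => ?_⟩
  have := hC t ht x
  rw [norm_iteratedFDeriv_zero] at this
  exact this.trans (le_max_left _ _)

lemma hasChar_VF (hu : ContDiff ℝ ∞ u) (hub : ∃ C, ∀ v, ‖u v‖ ≤ C) (hG : IsTrunc P G)
    (hE : SF E) (hB : SF B) (t : ℝ) (z : R3 × R3) : HasChar (VF u G E B) t z := by
  obtain ⟨Cu, hCu⟩ := hub
  obtain ⟨g, hg0, hg⟩ := exists_iter_bound hG.smooth hG.hasCompactSupport
  set T : ℝ := |t| + 1 with hT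
  obtain ⟨CE, hCE0, hCE⟩ := hE.bdd T
  obtain ⟨CB, hCB0, hCB⟩ := hB.bdd T
  have hgood : Flow.Good 1 (fun t z => VF u G E B (t, z)) (-T) T := by
    refine ⟨((contDiff_VF hu hG.smooth hE.1 hB.1).of_le (by simp)).contDiffOn, ?_⟩
    intro c d hc hd
    refine ⟨max Cu (g 0 * max CE CB), fun s hs z => ?_⟩
    have hsT : |s| ≤ T := abs_le.2 ⟨by linarith [hs.1], by linarith [hs.2]⟩
    refine max_le_max (hCu _) ?_
    refine (ContinuousLinearMap.le_opNorm _ _).trans ?_
    have h1 : ‖G z.2‖ ≤ g 0 := by simpa [norm_iteratedFDeriv_zero] using hg 0 z.2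
    exact mul_le_mul h1 (max_le_max (hCE s hsT _) (hCB s hsT _)) (norm_nonneg _) (hg0 0)
  have htI : t ∈ Ioo (-T) T := by
    constructor
    · linarith [neg_abs_le t]
    · linarith [le_abs_self t]
  have h0I : (0 : ℝ) ∈ Ioo (-T) T := by
    constructor <;> linarith [abs_nonneg t]
  refine ⟨fun s => Flow.Φ (fun t z => VF u G E B (t, z)) (-T) T s t z, Flow.Φ_self hgood htI z, ?_⟩
  intro s hs
  have hsI : s ∈ Ioo (-T) T := by
    rcases le_total 0 t with h | h
    · rw [uIcc_of_le h] at hs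
      exact ⟨by linarith [hs.1, h0I.1], by linarith [hs.2, htI.2]⟩
    · rw [uIcc_of_ge h] at hs
      exact ⟨by linarith [hs.1, htI.1], by linarith [hs.2, h0I.2]⟩
  exact Flow.hasDerivAt_Φ hgood hsI htI z

end VF

/-! ### The transport derivative in coordinates -/

lemma sum_single (a : R3) : ∑ i : Fin 3, a i • (EuclideanSpace.single i (1 : ℝ) : R3) = a := by
  ext j
  fin_cases j <;> simp [Fin.sum_univ_three]

lemma tr_VF {u : R3 → R3} {G : R3 → (R3 × R3) →L[ℝ] R3} {E B : ℝ → R3 → R3}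
    {f : ℝ → R3 → R3 → ℝ} (hf : ContDiff ℝ 1 (fun p : ℝ × R3 × R3 => f p.1 p.2.1 p.2.2))
    (t : ℝ) (x v : R3) :
    tr (VF u G E B) (fun p : ℝ × R3 × R3 => f p.1 p.2.1 p.2.2) (t, (x, v)) =
      deriv (fun s => f s x v) t + ∑ i : Fin 3, u v i * pderiv (fun y => f t y v) i x +
      Gv G E B f t x v := by
  set F : ℝ × R3 × R3 → ℝ := fun p => f p.1 p.2.1 p.2.2 with hF
  have hd : HasFDerivAt F (fderiv ℝ F (t, x, v)) (t, x, v) :=
    (hf.differentiable (by simp) _).hasFDerivAt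
  set L := fderiv ℝ F (t, x, v) with hL
  have h1 : deriv (fun s => f s x v) t = L (1, 0, 0) := by
    have h2 : HasDerivAt (fun s : ℝ => ((s, x, v) : ℝ × R3 × R3)) ((1 : ℝ), (0 : R3), (0 : R3)) t :=
      (hasDerivAt_id t).prodMk (hasDerivAt_const t (x, v))
    have h3 := hd.comp_hasDerivAt t h2
    have h4 : HasDerivAt (fun s => f s x v) (L (1, 0, 0)) t := h3
    exact h4.deriv
  have h2 : ∀ i, pderiv (fun y => f t y v) i x = L (0, EuclideanSpace.single i 1, 0) := by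
    intro i
    have h2 : HasFDerivAt (fun y : R3 => ((t, y, v) : ℝ × R3 × R3))
        ((0 : R3 →L[ℝ] ℝ).prod ((ContinuousLinearMap.id ℝ R3).prod (0 : R3 →L[ℝ] R3))) x :=
      (hasFDerivAt_const t x).prodMk ((hasFDerivAt_id x).prodMk (hasFDerivAt_const v x))
    have h3 := hd.comp x h2
    have h4 : HasFDerivAt (fun y => f t y v) (L.comp ((0 : R3 →L[ℝ] ℝ).prod
        ((ContinuousLinearMap.id ℝ R3).prod (0 : R3 →L[ℝ] R3)))) x := h3
    rw [pderiv, h4.fderiv]
    simp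
  have h3 : ∀ i, pderiv (fun w => f t x w) i v = L (0, 0, EuclideanSpace.single i 1) := by
    intro i
    have h2 : HasFDerivAt (fun w : R3 => ((t, x, w) : ℝ × R3 × R3))
        ((0 : R3 →L[ℝ] ℝ).prod ((0 : R3 →L[ℝ] R3).prod (ContinuousLinearMap.id ℝ R3))) v :=
      (hasFDerivAt_const t v).prodMk ((hasFDerivAt_const x v).prodMk (hasFDerivAt_id v))
    have h3 := hd.comp v h2
    have h4 : HasFDerivAt (fun w => f t x w) (L.comp ((0 : R3 →L[ℝ] ℝ).prod
        ((0 : R3 →L[ℝ] R3).prod (ContinuousLinearMap.id ℝ R3)))) v := h3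
    rw [pderiv, h4.fderiv]
    simp
  have e1 : ∀ a : R3, L (0, a, 0) = ∑ i : Fin 3, a i * L (0, EuclideanSpace.single i 1, 0) := by
    intro a
    have : ((0 : ℝ), a, (0 : R3)) = (ContinuousLinearMap.inr ℝ ℝ (R3 × R3)).comp
      (ContinuousLinearMap.inl ℝ R3 R3) a := rfl
    rw [this]
    conv_lhs => rw [← sum_single a]
    rw [map_sum, map_sum]
    refine Finset.sum_congr rfl fun i _ => ?_
    rw [map_smul, map_smul, smul_eq_mul]
    rfl
  have e2 : ∀ a : R3, L (0, 0, a) = ∑ i : Fin 3, a i * L (0, 0, EuclideanSpace.single i 1) := by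
    intro a
    have : ((0 : ℝ), (0 : R3), a) = (ContinuousLinearMap.inr ℝ ℝ (R3 × R3)).comp
      (ContinuousLinearMap.inr ℝ R3 R3) a := rfl
    rw [this]
    conv_lhs => rw [← sum_single a]
    rw [map_sum, map_sum]
    refine Finset.sum_congr rfl fun i _ => ?_
    rw [map_smul, map_smul, smul_eq_mul]
    rfl
  have e3 : tr (VF u G E B) F (t, (x, v)) = L (1, u v, G v (E t x, B t x)) := rfl
  have e4 : ((1 : ℝ), u v, G v (E t x, B t x)) =
      (1, 0, 0) + (0, u v, 0) + (0, 0, G v (E t x, B t x)) := by simp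
  rw [e3, e4, map_add, map_add, e1, e2, h1, Gv]
  simp only [h2, h3]

/-! ### Tr0 -/

lemma PC.one {f : ℝ → R3 → R3 → ℝ} (h : PC f) :
    ContDiff ℝ 1 (fun p : ℝ × R3 × R3 => f p.1 p.2.1 p.2.2) := h.1.of_le (by simp)

theorem tr0 : Tr0 := by
  intro P G hG E B hE hB r T a φ hr hφ h0 hS t ht x v
  have hz : HasChar (VF relVel G E B) t (x, v) :=
    hasChar_VF contDiff_relVel ⟨1, norm_relVel_le⟩ hG hE hB t (x, v)
  have habs : ∀ s ∈ uIcc 0 t, |s| ≤ T := fun s hs => by
    refine le_trans ?_ ht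
    rcases le_total 0 t with h | h
    · rw [uIcc_of_le h] at hs
      rw [abs_of_nonneg hs.1, abs_of_nonneg h]; exact hs.2
    · rw [uIcc_of_ge h] at hs
      rw [abs_of_nonpos hs.2, abs_of_nonpos h]; linarith [hs.1]
  have h := bound_zero (I := univ) (X := R3 × R3) (Y := ℝ)
    (F := fun p : ℝ × R3 × R3 => r p.1 p.2.1 p.2.2) isOpen_univ
    (contDiff_VF contDiff_relVel hG.smooth hE.1 hB.1).contDiffOn hr.1.contDiffOn
    (subset_univ _) hz (c := a) (q := φ) hφ.continuousOn (fun y => h0 y.1 y.2)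
    (fun s hs y => by
      have := hS s (habs s hs) y.1 y.2
      rw [tr_VF hr.one s y.1 y.2]
      simpa [Tfree, Real.norm_eq_abs] using this)
  exact h

/-! ### Bounds of the vector field -/

section bounds

variable {u : R3 → R3} {G : R3 → (R3 × R3) →L[ℝ] R3} {E B : ℝ → R3 → R3} {P : ℝ}

lemma SF.slice (h : SF E) (s : ℝ) : ContDiff ℝ ∞ (E s) := by
  have h2 : ContDiff ℝ ∞ (fun x : R3 => ((s, x) : ℝ × R3)) := by fun_prop
  exact h.1.comp h2

lemma N_VF_le (hu : ContDiff ℝ ∞ u) (hG : ContDiff ℝ ∞ G) (hE : SF E) (hB : SF B)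
    {cu g : ℕ → ℝ} (hcu : ∀ k v, ‖iteratedFDeriv ℝ k u v‖ ≤ cu k)
    (hg : ∀ k v, ‖iteratedFDeriv ℝ k G v‖ ≤ g k) (k : ℕ) {s e : ℝ}
    (he : ∀ i ≤ k, FBd i E B s e) (z : R3 × R3) :
    N k (VF u G E B) (s, z) ≤
      cu k + (∑ i ∈ Finset.range (k + 1), (k.choose i : ℝ) * g i) * (2 * e) := by
  have hEs := hE.slice s
  have hBs := hB.slice s
  have hK : ContDiff ℝ ∞ (fun y : R3 => (E s y, B s y)) := hEs.prodMk hBs
  have h1 : ContDiff ℝ ∞ (fun y : R3 × R3 => u y.2) := hu.comp contDiff_snd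
  have h2 : ContDiff ℝ ∞ (fun y : R3 × R3 => G y.2) := hG.comp contDiff_snd
  have h3 : ContDiff ℝ ∞ (fun y : R3 × R3 => (E s y.1, B s y.1)) := hK.comp contDiff_fst
  have e1 : N k (VF u G E B) (s, z) ≤ ‖iteratedFDeriv ℝ k (fun y : R3 × R3 => u y.2) z‖ +
      ‖iteratedFDeriv ℝ k (fun y : R3 × R3 => G y.2 (E s y.1, B s y.1)) z‖ :=
    norm_iter_prodMk_le h1 (h2.clm_apply h3) k z
  refine e1.trans (add_le_add ((norm_iter_snd_le hu k z).trans (hcu k _)) ?_)
  refine (norm_iteratedFDeriv_clm_apply (N := ∞) h2 h3 z (nat_le_infty' k)).trans ?_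
  rw [Finset.sum_mul]
  refine Finset.sum_le_sum fun i hi => ?_
  have h0 : ‖iteratedFDeriv ℝ (k - i) (fun y : R3 × R3 => (E s y.1, B s y.1)) z‖ ≤ 2 * e := by
    refine (norm_iter_fst_le hK (k - i) z).trans ((norm_iter_prodMk_le hEs hBs _ _).trans ?_)
    have := he (k - i) (Nat.sub_le _ _) z.1
    linarith [this.1, this.2]
  have h4 : ‖iteratedFDeriv ℝ i (fun y : R3 × R3 => G y.2) z‖ ≤ g i :=
    (norm_iter_snd_le hG i z).trans (hg i _)
  have h5 : 0 ≤ g i := (norm_nonneg _).trans h4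
  gcongr

end bounds

/-! ### Momentum support and the cut-off velocity -/

lemma PC.supp_v {G : R3 → (R3 × R3) →L[ℝ] R3} {P : ℝ} (hG : IsTrunc P G)
    {E B : ℝ → R3 → R3} {f : ℝ → R3 → R3 → ℝ} (hf : PC f)
    (hT : ∀ (t : ℝ) (x v : R3), TransEq G E B f t x v) {R : ℝ} (hR : 2 * P ≤ R)
    (h0 : ∀ x v : R3, R < ‖v‖ → f 0 x v = 0) (t : ℝ) (x v : R3) (hv : R < ‖v‖) :
    f t x v = 0 := by
  have hz : ∀ s ∈ uIcc 0 t, HasDerivAt (fun s : ℝ => ((x + (s - t) • relVel v, v) : R3 × R3))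
      (VF relVel G E B (s, (x + (s - t) • relVel v, v))) s := by
    intro s _
    have e : VF relVel G E B (s, (x + (s - t) • relVel v, v)) = ((1 : ℝ) • relVel v, (0 : R3)) := by
      rw [VF]
      simp only [one_smul, Prod.mk.injEq, true_and]
      rw [hG.supp v (hR.trans hv.le)]
      rfl
    rw [e]
    exact ((((hasDerivAt_id s).sub_const t).smul_const (relVel v)).const_add x).prodMk
      (hasDerivAt_const s v)
  have h := const_along (I := univ) (X := R3 × R3) (Y := ℝ)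
    (F := fun p : ℝ × R3 × R3 => f p.1 p.2.1 p.2.2) isOpen_univ hf.1.contDiffOn
    (subset_univ _) hz (fun s _ => by
      rw [tr_VF hf.one s _ v]
      exact hT s _ v)
  simp only [sub_self, zero_smul, add_zero] at h
  rw [h]
  exact h0 _ _ hv

lemma exists_cutoff {P : ℝ} {G : R3 → (R3 × R3) →L[ℝ] R3} (hG : IsTrunc P G)
    {f₀ : R3 → R3 → ℝ} (hc : HasCompactSupport (Function.uncurry f₀)) :
    ∃ u : R3 → R3, ContDiff ℝ ∞ u ∧ HasCompactSupport u ∧
      ∀ (E B : ℝ → R3 → R3) (f : ℝ → R3 → R3 → ℝ), PC f → f 0 = f₀ →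
        (∀ (t : ℝ) (x v : R3), TransEq G E B f t x v) → ∀ (t : ℝ) (y : R3 × R3),
        tr (VF u G E B) (fun p : ℝ × R3 × R3 => f p.1 p.2.1 p.2.2) (t, y) = 0 := by
  obtain ⟨R1, hR1⟩ := hc.isCompact.isBounded.subset_closedBall (0 : R3 × R3)
  set R : ℝ := max (2 * P) (max R1 0) with hR
  have hRP : 2 * P ≤ R := le_max_left _ _
  have hR0 : 0 ≤ R := (le_max_right _ _).trans (le_max_right _ _)
  have hRR1 : R1 ≤ R := (le_max_left _ _).trans (le_max_right _ _)
  have hf0 : ∀ x v : R3, R < ‖v‖ → f₀ x v = 0 := by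
    intro x v hv
    by_contra hne
    have h1 : (x, v) ∈ Metric.closedBall (0 : R3 × R3) R1 := hR1 (subset_tsupport _ hne)
    rw [mem_closedBall_zero_iff] at h1
    have h2 : ‖v‖ ≤ ‖((x, v) : R3 × R3)‖ := le_max_right _ _
    linarith
  let χ : ContDiffBump (0 : R3) := ⟨R + 1, R + 2, by linarith, by linarith⟩
  refine ⟨fun v => χ v • relVel v, χ.contDiff.smul contDiff_relVel,
    χ.hasCompactSupport.smul_right, ?_⟩
  intro E B f hf hf0' hT t y
  have hsupp := PC.supp_v hG hf hT hRP (fun x v hv => by rw [hf0']; exact hf0 x v hv)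
  rcases le_or_gt ‖y.2‖ R with hy | hy
  · have e : tr (VF (fun v => χ v • relVel v) G E B)
        (fun p : ℝ × R3 × R3 => f p.1 p.2.1 p.2.2) (t, y) =
        tr (VF relVel G E B) (fun p : ℝ × R3 × R3 => f p.1 p.2.1 p.2.2) (t, y) := by
      have h1 : χ y.2 = 1 := χ.one_of_mem_closedBall (by
        rw [mem_closedBall_zero_iff]; change ‖y.2‖ ≤ R + 1; linarith)
      simp only [tr, VF, h1, one_smul]
    rw [e]
    obtain ⟨x, v⟩ := y
    rw [tr_VF hf.one t x v]
    exact hT t x v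
  · have hopen : IsOpen {p : ℝ × R3 × R3 | R < ‖p.2.2‖} :=
      isOpen_lt continuous_const (by fun_prop)
    have hz : (fun p : ℝ × R3 × R3 => f p.1 p.2.1 p.2.2) =ᶠ[𝓝 (t, y)] fun _ => 0 := by
      filter_upwards [hopen.mem_nhds (show (t, y) ∈ {p : ℝ × R3 × R3 | R < ‖p.2.2‖} from hy)]
        with p hp using hsupp p.1 p.2.1 p.2.2 hp
    rw [tr, hz.fderiv_eq]
    simp

/-! ### Tr1, Trk -/

lemma abs_le_of_mem_uIcc {s t T : ℝ} (hs : s ∈ uIcc 0 t) (ht : |t| ≤ T) : |s| ≤ T := by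
  refine le_trans ?_ ht
  rcases le_total 0 t with h | h
  · rw [uIcc_of_le h] at hs
    rw [abs_of_nonneg hs.1, abs_of_nonneg h]; exact hs.2
  · rw [uIcc_of_ge h] at hs
    rw [abs_of_nonpos hs.2, abs_of_nonpos h]; linarith [hs.1]

lemma abs_int_affine_le {φ : ℝ → ℝ} (hφ : Continuous φ) {a b t T : ℝ} (ha : 0 ≤ a) (hb : 0 ≤ b)
    (ht : |t| ≤ T) :
    |∫ s in (0 : ℝ)..t, (a + b * φ s)| ≤ a * T + b * |∫ s in (0 : ℝ)..t, φ s| := by
  rw [intervalIntegral.integral_add intervalIntegrable_const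
    ((hφ.intervalIntegrable _ _).const_mul _), intervalIntegral.integral_const_mul,
    intervalIntegral.integral_const]
  refine (abs_add_le _ _).trans ?_
  rw [abs_mul, abs_of_nonneg hb, smul_eq_mul, sub_zero, abs_mul, abs_of_nonneg ha, mul_comm a]
  gcongr

theorem tr1 : Tr1 := by
  intro P G hG f₀ hf₀ hc T A
  obtain ⟨u, hu, huc, htr⟩ := exists_cutoff hG hc
  obtain ⟨cu, hcu0, hcu⟩ := exists_iter_bound hu huc
  obtain ⟨g, hg0, hg⟩ := exists_iter_bound hG.smooth hG.hasCompactSupport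
  obtain ⟨c, hc0, hcb⟩ := exists_iter_bound hf₀ hc
  set S : ℝ := ∑ i ∈ Finset.range (1 + 1), ((1 : ℕ).choose i : ℝ) * g i with hS
  have hS0 : 0 ≤ S := Finset.sum_nonneg fun i _ => mul_nonneg (by positivity) (hg0 i)
  refine ⟨c 1 + (cu 1 + S * (2 * |A|)) * |T| + S * 2, by have := hc0 1; have := hcu0 1; positivity, ?_⟩
  intro E B f φ hE hB hf hf0 hT hA hφ hφ1 t ht z
  have hT0 : 0 ≤ T := (abs_nonneg t).trans ht
  have hz : HasChar (VF u G E B) t z :=
    hasChar_VF hu ⟨cu 0, fun v => by simpa [norm_iteratedFDeriv_zero] using hcu 0 v⟩ hG hE hB t z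
  have hφ0 : ∀ s, |s| ≤ T → 0 ≤ φ s := fun s hs => (norm_nonneg _).trans (hφ1 s hs 0).1
  have hW1 : ∀ s ∈ uIcc 0 t, ∀ y, N 1 (VF u G E B) (s, y) ≤
      (cu 1 + S * (2 * |A|)) + (S * 2) * φ s := by
    intro s hs y
    have hsT := abs_le_of_mem_uIcc hs ht
    have he : ∀ i ≤ 1, FBd i E B s (|A| + φ s) := by
      intro i hi x
      have h0 := hφ0 s hsT
      interval_cases i
      · have := hA s hsT x
        have h3 := le_abs_self A
        exact ⟨by linarith [this.1], by linarith [this.2]⟩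
      · have := hφ1 s hsT x
        have h3 := abs_nonneg A
        exact ⟨by linarith [this.1], by linarith [this.2]⟩
    refine (N_VF_le hu hG.smooth hE hB hcu hg 1 he y).trans (le_of_eq ?_)
    rw [← hS]; ring
  have h := bound_one (I := univ) (X := R3 × R3) (Y := ℝ)
    (F := fun p : ℝ × R3 × R3 => f p.1 p.2.1 p.2.2) isOpen_univ
    (contDiff_VF hu hG.smooth hE.1 hB.1).contDiffOn hf.1.contDiffOn
    (subset_univ _) hz (c := c 1) (a := fun s => (cu 1 + S * (2 * |A|)) + (S * 2) * φ s)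
    (q := fun _ => 0) (by fun_prop) continuousOn_const
    (fun y => by
      have h1 : N 1 (fun p : ℝ × R3 × R3 => f p.1 p.2.1 p.2.2) (0, y) =
          ‖iteratedFDeriv ℝ 1 (Function.uncurry f₀) y‖ := by
        rw [N]; simp only [hf0]; rfl
      rw [h1]; exact hcb 1 y) hW1
    (fun s hs y => by
      have h1 : (fun y => tr (VF u G E B) (fun p : ℝ × R3 × R3 => f p.1 p.2.1 p.2.2) (s, y)) =
          fun _ => 0 := funext fun y => htr E B f hf hf0 hT s y
      have h2 : N 1 (tr (VF u G E B) (fun p : ℝ × R3 × R3 => f p.1 p.2.1 p.2.2)) (s, y) = 0 := by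
        rw [N]; simp only [h1]
        rw [norm_iteratedFDeriv_one]; simp
      rw [h2])
  have h' : ‖iteratedFDeriv ℝ 1 (fun z : R3 × R3 => f t z.1 z.2) z‖ ≤
      (c 1 + |∫ s in (0 : ℝ)..t, (0 : ℝ)|) * Real.exp |∫ s in (0 : ℝ)..t,
        ((cu 1 + S * (2 * |A|)) + (S * 2) * φ s)| := h
  refine h'.trans ?_
  rw [intervalIntegral.integral_zero, abs_zero, add_zero]
  have h1 : c 1 ≤ Real.exp (c 1) := by linarith [Real.add_one_le_exp (c 1)]
  have hcu1 := hcu0 1
  have hc1 := hc0 1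
  have h2 := abs_int_affine_le hφ (a := cu 1 + S * (2 * |A|)) (b := S * 2) (by positivity)
    (by positivity) ht
  calc _ ≤ Real.exp (c 1) * Real.exp ((cu 1 + S * (2 * |A|)) * T +
        S * 2 * |∫ s in (0 : ℝ)..t, φ s|) :=
        mul_le_mul h1 (Real.exp_le_exp.2 h2) (Real.exp_pos _).le (Real.exp_pos _).le
    _ = Real.exp (c 1 + ((cu 1 + S * (2 * |A|)) * T + S * 2 * |∫ s in (0 : ℝ)..t, φ s|)) :=
        (Real.exp_add _ _).symm
    _ ≤ _ := by
        refine Real.exp_le_exp.2 ?_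
        have hI : 0 ≤ |∫ s in (0 : ℝ)..t, φ s| := abs_nonneg _
        have hTT : T ≤ |T| := le_abs_self T
        have h3 : (cu 1 + S * (2 * |A|)) * T ≤ (cu 1 + S * (2 * |A|)) * |T| := by gcongr
        have h4 : 0 ≤ (cu 1 + S * (2 * |A|)) * |T| := by positivity
        nlinarith [mul_nonneg hc1 hI, mul_nonneg h4 hI, mul_nonneg hS0 hI]

theorem trk : Trk := by
  intro P G hG f₀ hf₀ hc k T A hk
  obtain ⟨u, hu, huc, htr⟩ := exists_cutoff hG hc
  obtain ⟨cu, hcu0, hcu⟩ := exists_iter_bound hu huc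
  obtain ⟨g, hg0, hg⟩ := exists_iter_bound hG.smooth hG.hasCompactSupport
  obtain ⟨c, hc0, hcb⟩ := exists_iter_bound hf₀ hc
  set S : ℕ → ℝ := fun j => ∑ i ∈ Finset.range (j + 1), (j.choose i : ℝ) * g i with hS
  have hS0 : ∀ j, 0 ≤ S j := fun j => Finset.sum_nonneg fun i _ => mul_nonneg (by positivity) (hg0 i)
  set b : ℕ → ℝ := fun j => cu j + S j * (2 * |A|) with hb
  have hb0 : ∀ j, 0 ≤ b j := fun j => by
    have := hcu0 j; have := hS0 j
    positivity
  have hSg0 : 0 ≤ ∑ i ∈ Finset.Ico 1 (k - 1), |A| * b (k - i) :=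
    Finset.sum_nonneg fun i _ => mul_nonneg (abs_nonneg _) (hb0 _)
  set Sg : ℝ := ∑ i ∈ Finset.Ico 1 (k - 1), |A| * b (k - i) with hSg
  have hck := hc0 k
  have hbk := hb0 k
  have hSk := hS0 k
  have hb1 := hb0 1
  refine ⟨(c k + 2 ^ k * (|A| * (b k * |T| + S k * 2) + |T| * Sg)) *
    Real.exp (2 ^ k * b 1 * |T|), by positivity, ?_⟩
  intro E B f φ hE hB hf hf0 hT hA hφ hφk t ht z
  have hT0 : 0 ≤ T := (abs_nonneg t).trans ht
  have hTT : |T| = T := abs_of_nonneg hT0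
  have hA0 : 0 ≤ A := (norm_nonneg _).trans ((hA 0 (by simpa using hT0) 0 (by omega)).1 0).1
  have hz : HasChar (VF u G E B) t z :=
    hasChar_VF hu ⟨cu 0, fun v => by simpa [norm_iteratedFDeriv_zero] using hcu 0 v⟩ hG hE hB t z
  have hφ0 : ∀ s, |s| ≤ T → 0 ≤ φ s := fun s hs => (norm_nonneg _).trans (hφk s hs 0).1
  have h := bound_succ (I := univ) (X := R3 × R3) (Y := ℝ) (W := VF u G E B)
    (F := fun p : ℝ × R3 × R3 => f p.1 p.2.1 p.2.2) isOpen_univ
    (contDiff_VF hu hG.smooth hE.1 hB.1).contDiffOn hf.1.contDiffOn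
    (subset_univ _) hz hk (c := c k) (b := b) (M := fun _ => |A|)
    (w := fun s => b k + (S k * 2) * φ s) (q := fun _ => 0) (by fun_prop) continuousOn_const
    (fun y => by
      have h1 : N k (fun p : ℝ × R3 × R3 => f p.1 p.2.1 p.2.2) (0, y) =
          ‖iteratedFDeriv ℝ k (Function.uncurry f₀) y‖ := by
        rw [N]; simp only [hf0]; rfl
      rw [h1]; exact hcb k y)
    (fun j h1 h2 s hs y => by
      have hsT := abs_le_of_mem_uIcc hs ht
      refine (N_VF_le hu hG.smooth hE hB hcu hg j (e := |A|) (fun i hi x => ?_) y)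
      have := (hA s hsT i (by omega)).1 x
      have h3 := le_abs_self A
      exact ⟨by linarith [this.1], by linarith [this.2]⟩)
    (fun j h1 h2 s hs y => by
      have hsT := abs_le_of_mem_uIcc hs ht
      exact ((hA s hsT j h2).2 y).trans (le_abs_self A))
    (fun s hs y => by
      have hsT := abs_le_of_mem_uIcc hs ht
      have h0 := hφ0 s hsT
      refine (N_VF_le hu hG.smooth hE hB hcu hg k (e := |A| + φ s) (fun i hi x => ?_) y).trans
        (le_of_eq ?_)
      · rcases Nat.lt_or_ge i k with h4 | h4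
        · have := (hA s hsT i h4).1 x
          have h3 := le_abs_self A
          exact ⟨by linarith [this.1], by linarith [this.2]⟩
        · obtain rfl : i = k := le_antisymm hi h4
          have := hφk s hsT x
          have h3 := abs_nonneg A
          exact ⟨by linarith [this.1], by linarith [this.2]⟩
      · simp only [hb, hS]; ring)
    (fun s hs y => by
      have h1 : (fun y => tr (VF u G E B) (fun p : ℝ × R3 × R3 => f p.1 p.2.1 p.2.2) (s, y)) =
          fun _ => 0 := funext fun y => htr E B f hf hf0 hT s y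
      have h2 : N k (tr (VF u G E B) (fun p : ℝ × R3 × R3 => f p.1 p.2.1 p.2.2)) (s, y) = 0 := by
        rw [N]; simp only [h1]
        rw [iteratedFDeriv_fun_zero]; simp
      rw [h2])
  refine le_trans h ?_
  rw [intervalIntegral.integral_zero, abs_zero, add_zero, hTT]
  have h2 := abs_int_affine_le hφ (a := b k) (b := S k * 2) hbk (by positivity) ht
  have hI : 0 ≤ |∫ s in (0 : ℝ)..t, φ s| := abs_nonneg _
  set I := |∫ s in (0 : ℝ)..t, φ s|
  have hAA := abs_nonneg A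
  have e1 : c k + 2 ^ k * (|A| * |∫ s in (0 : ℝ)..t, (b k + S k * 2 * φ s)| + |t| * Sg) ≤
      (c k + 2 ^ k * (|A| * (b k * T + S k * 2) + T * Sg)) * (1 + I) := by
    have t1 : 2 ^ k * (|A| * |∫ s in (0 : ℝ)..t, (b k + S k * 2 * φ s)| + |t| * Sg) ≤
        2 ^ k * (|A| * (b k * T + S k * 2 * I) + T * Sg) := by gcongr
    have t2 : 0 ≤ c k * I + 2 ^ k * (|A| * (b k * T * I + S k * 2) + T * Sg * I) := by positivity
    nlinarith [t1, t2]
  have e2 : Real.exp (2 ^ k * b 1 * |t|) ≤ Real.exp (2 ^ k * b 1 * T) := by gcongr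
  calc _ ≤ ((c k + 2 ^ k * (|A| * (b k * T + S k * 2) + T * Sg)) * (1 + I)) *
        Real.exp (2 ^ k * b 1 * T) := mul_le_mul e1 e2 (Real.exp_pos _).le (by positivity)
    _ = _ := by ring

end Crest.Agent.R106.Std
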