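import Crest.Agent.R106.FieldStd
import Crest.Agent.R106.Rev
import Crest.Agent.R106.Gs2Core
import Crest.Agent.R106.Gs2Int
import Crest.Agent.R106.Gs2Sup
import Crest.Agent.R106.Gs2DivInt
import Crest.Agent.R106.TransStd_Mg
import Crest.Agent.R106.Pic
import Crest.Agent.R106.TBTop_Mg
import Crest.Agent.R106.SrcStd
import Crest.Agent.R106.IterB
import Crest.Agent.R106.FBDir_Mg
import Crest.Agent.R106.FieldLogU

-- ▼ part R106/FBlogFin
section

/-!
# Row 106 (helper2): node `FBlog` of the standard part from `GSLogU` (one-sided bound + time reversal).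
-/

set_option autoImplicit false

namespace Crest.Agent.R106.FieldStd

open Crest.Agent.R106.Std

theorem fblogpos' (h : Field.GSLogU) : FBlogpos := fblogpos h

theorem fbLog (h : Field.GSLogU) : FBlog := fblog_of_pos (fblogpos' h)

end Crest.Agent.R106.FieldStd
end

-- ▼ part R106/Gs2Wrap
section

set_option autoImplicit false
open MeasureTheory Set Filter Topology
open scoped ContDiff
open Crest.AnalysisR.VecCalc3 Crest.AnalysisR.PDE.RVM

namespace Crest.Agent.R106.Gs2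

/-! ### the limit `d → 0` -/

theorem th_nonneg (d s : ℝ) : 0 ≤ th d s := Real.smoothTransition.nonneg _
theorem th_le_one (d s : ℝ) : th d s ≤ 1 := Real.smoothTransition.le_one _
theorem th_of_nonpos {d s : ℝ} (hd : 0 < d) (hs : s ≤ 0) : th d s = 0 :=
  Real.smoothTransition.zero_of_nonpos (div_nonpos_of_nonpos_of_nonneg hs hd.le)
theorem th_of_le {d s : ℝ} (hd : 0 < d) (hs : d ≤ s) : th d s = 1 :=
  Real.smoothTransition.one_of_one_le ((one_le_div hd).2 hs)

theorem prof_nonneg {C t : ℝ} (hC : 0 ≤ C) (z : R3) :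
    0 ≤ (Iic t).indicator (fun r => C * (r ^ 1)⁻¹) ‖z‖ := by
  by_cases h : ‖z‖ ∈ Iic t
  · rw [indicator_of_mem h]; positivity
  · rw [indicator_of_notMem h]

/-- the limit integrand -/
noncomputable def limI (m : R3 → ℝ) (F : PS → ℝ) (t : ℝ) (x : R3) (p : ZV) : ℝ :=
  (Metric.ball (0 : R3) t).indicator (fun _ => (1 : ℝ)) p.1 *
    (m p.2 * (4 * Real.pi * ‖p.1‖)⁻¹) * F (t - ‖p.1‖, x + p.1, p.2)

section limit

variable {m : R3 → ℝ} {F : PS → ℝ} {t P : ℝ} {x : R3}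

theorem exists_dom (hm : Continuous m) (hF : Continuous F)
    (hP : ∀ (s : ℝ) (y v : R3), P < ‖v‖ → F (s, y, v) = 0) :
    ∃ C : ℝ, 0 ≤ C ∧ ∀ z v : R3, z ≠ 0 → ‖z‖ < t →
      |(m v * (4 * Real.pi * ‖z‖)⁻¹) * F (t - ‖z‖, x + z, v)|
        ≤ (Iic t).indicator (fun r => C * (r ^ 1)⁻¹) ‖z‖ * indP P v := by
  have hK : IsCompact (Metric.closedBall (0 : R3) t ×ˢ Metric.closedBall (0 : R3) P) :=
    (isCompact_closedBall _ _).prod (isCompact_closedBall _ _)
  have hc : Continuous (fun p : ZV => m p.2 * F (t - ‖p.1‖, x + p.1, p.2)) := by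
    refine (hm.comp continuous_snd).mul (hF.comp ?_)
    fun_prop
  obtain ⟨C, hC⟩ := hK.exists_bound_of_continuousOn hc.continuousOn
  refine ⟨max C 0 * (4 * Real.pi)⁻¹, by positivity, fun z v hz hzt => ?_⟩
  by_cases hv : ‖v‖ ≤ P
  · have hmem : ((z, v) : ZV) ∈ Metric.closedBall (0 : R3) t ×ˢ Metric.closedBall (0 : R3) P := by
      simp only [mem_prod, Metric.mem_closedBall, dist_zero_right]
      exact ⟨hzt.le, hv⟩
    have h1 := (hC _ hmem).trans (le_max_left C 0)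
    rw [Real.norm_eq_abs] at h1
    have h2 : ‖z‖ ∈ Iic t := hzt.le
    rw [indicator_of_mem h2, indP_of_le hv, mul_one]
    have h3 : |(m v * (4 * Real.pi * ‖z‖)⁻¹) * F (t - ‖z‖, x + z, v)|
        = |m v * F (t - ‖z‖, x + z, v)| * ((4 * Real.pi)⁻¹ * ‖z‖⁻¹) := by
      rw [show (m v * (4 * Real.pi * ‖z‖)⁻¹) * F (t - ‖z‖, x + z, v)
        = (m v * F (t - ‖z‖, x + z, v)) * ((4 * Real.pi)⁻¹ * ‖z‖⁻¹) by
          rw [mul_inv]; ring, abs_mul]
      congr 1
      exact abs_of_nonneg (by positivity)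
    rw [h3, pow_one]
    calc |m v * F (t - ‖z‖, x + z, v)| * ((4 * Real.pi)⁻¹ * ‖z‖⁻¹)
        ≤ max C 0 * ((4 * Real.pi)⁻¹ * ‖z‖⁻¹) := by
          refine mul_le_mul_of_nonneg_right h1 (by positivity)
      _ = _ := by ring
  · have hv : P < ‖v‖ := not_le.1 hv
    rw [hP _ _ _ hv, indP_of_lt hv, mul_zero, abs_zero, mul_zero]

theorem cont_base (hm : Continuous m) (hF : Continuous F) :
    ContinuousOn (fun p : ZV => (m p.2 * (4 * Real.pi * ‖p.1‖)⁻¹) * F (t - ‖p.1‖, x + p.1, p.2))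
      SS := by
  have h1 : Continuous (fun p : ZV => F (t - ‖p.1‖, x + p.1, p.2)) := hF.comp (by fun_prop)
  refine ContinuousOn.mul (ContinuousOn.mul (hm.comp continuous_snd).continuousOn ?_)
    h1.continuousOn
  refine ContinuousOn.inv₀ (by fun_prop) fun p hp => ?_
  have : 0 < ‖p.1‖ := norm_pos_iff.2 hp
  positivity

theorem aesm_limI (hm : Continuous m) (hF : Continuous F) :
    AEStronglyMeasurable (limI m F t x) volume := by
  have h1 : AEStronglyMeasurable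
      (fun p : ZV => (m p.2 * (4 * Real.pi * ‖p.1‖)⁻¹) * F (t - ‖p.1‖, x + p.1, p.2)) volume :=
    aesm_of_SS (cont_base hm hF)
  have h2 : AEStronglyMeasurable
      (fun p : ZV => (Metric.ball (0 : R3) t).indicator (fun _ => (1 : ℝ)) p.1) volume := by
    have : Measurable (fun p : ZV => (Metric.ball (0 : R3) t).indicator (fun _ => (1 : ℝ)) p.1) :=
      (measurable_const.indicator Metric.isOpen_ball.measurableSet).comp measurable_fst
    exact this.aestronglyMeasurable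
  refine (h2.mul h1).congr (Eventually.of_forall fun p => ?_)
  simp only [limI, Pi.mul_apply]
  ring

theorem limI_bound (hm : Continuous m) (hF : Continuous F)
    (hP : ∀ (s : ℝ) (y v : R3), P < ‖v‖ → F (s, y, v) = 0) :
    ∃ C : ℝ, 0 ≤ C ∧ ∀ z v : R3, z ≠ 0 →
      |limI m F t x (z, v)| ≤ (Iic t).indicator (fun r => C * (r ^ 1)⁻¹) ‖z‖ * indP P v := by
  obtain ⟨C, hC0, hC⟩ := exists_dom (m := m) (F := F) (t := t) (x := x) hm hF hP
  refine ⟨C, hC0, fun z v hz => ?_⟩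
  unfold limI
  by_cases h : z ∈ Metric.ball (0 : R3) t
  · simp only [indicator_of_mem h, one_mul]
    exact hC z v hz (by simpa using h)
  · simp only [indicator_of_notMem h, zero_mul, abs_zero]
    exact mul_nonneg (prof_nonneg hC0 _) (indP_nonneg _ _)

/-- the limit of the cut-off cone integrals -/
theorem tendsto_Wth (hm : Continuous m) (hF : Continuous F)
    (hP : ∀ (s : ℝ) (y v : R3), P < ‖v‖ → F (s, y, v) = 0) :
    Tendsto (fun d => Wth d m F t x) (𝓝[>] 0) (𝓝 (∫ p, limI m F t x p)) := by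
  obtain ⟨C, hC0, hC⟩ := limI_bound (m := m) (F := F) (t := t) (x := x) hm hF hP
  have hI := integrable_dom P (integrableOn_profile (k := 1) (by norm_num) C t)
  refine tendsto_integral_filter_of_dominated_convergence
    (fun p : ZV => (Iic t).indicator (fun r => C * (r ^ 1)⁻¹) ‖p.1‖ * indP P p.2) ?_ ?_ hI ?_
  · refine Eventually.of_forall fun d => ?_
    have h1 : AEStronglyMeasurable
        (fun p : ZV => (m p.2 * (4 * Real.pi * ‖p.1‖)⁻¹) * F (t - ‖p.1‖, x + p.1, p.2)) volume :=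
      aesm_of_SS (cont_base hm hF)
    have h2 : Continuous (fun p : ZV => th d (t - ‖p.1‖)) := by
      unfold th
      exact Real.smoothTransition.continuous.comp (by fun_prop)
    refine (h2.aestronglyMeasurable.mul h1).congr (Eventually.of_forall fun p => ?_)
    simp only [Pi.mul_apply]
    ring
  · filter_upwards [self_mem_nhdsWithin] with d hd
    filter_upwards [ae_SS] with p hp
    have hd' : (0 : ℝ) < d := hd
    rw [Real.norm_eq_abs]
    by_cases h : ‖p.1‖ < t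
    · have h1 := hC p.1 p.2 hp
      have hb : p.1 ∈ Metric.ball (0 : R3) t := by simpa using h
      unfold limI at h1
      simp only [indicator_of_mem hb, one_mul] at h1
      refine le_trans ?_ h1
      rw [mul_assoc, abs_mul, abs_of_nonneg (th_nonneg _ _)]
      exact mul_le_of_le_one_left (abs_nonneg _) (th_le_one _ _)
    · rw [th_of_nonpos hd' (by linarith [not_lt.1 h])]
      simp only [zero_mul, abs_zero]
      exact mul_nonneg (prof_nonneg hC0 _) (indP_nonneg _ _)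
  · refine Eventually.of_forall fun p => ?_
    by_cases h : ‖p.1‖ < t
    · have hb : p.1 ∈ Metric.ball (0 : R3) t := by simpa using h
      have hev : (fun _ : ℝ => limI m F t x p) =ᶠ[𝓝[>] 0] fun d =>
          th d (t - ‖p.1‖) * (m p.2 * (4 * Real.pi * ‖p.1‖)⁻¹) * F (t - ‖p.1‖, x + p.1, p.2) := by
        have h0 : (0 : ℝ) < t - ‖p.1‖ := by linarith
        filter_upwards [self_mem_nhdsWithin, mem_nhdsWithin_of_mem_nhds (Iio_mem_nhds h0)]
          with d hd hd2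
        have hd' : (0 : ℝ) < d := hd
        have hd2' : d < t - ‖p.1‖ := hd2
        rw [th_of_le hd' hd2'.le]
        unfold limI
        simp only [indicator_of_mem hb]
      exact tendsto_const_nhds.congr' hev
    · have hb : p.1 ∉ Metric.ball (0 : R3) t := by simpa using h
      have h0 : limI m F t x p = 0 := by
        unfold limI
        simp only [indicator_of_notMem hb, zero_mul]
      rw [h0]
      have hev : (fun _ : ℝ => (0 : ℝ)) =ᶠ[𝓝[>] 0] fun d =>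
          th d (t - ‖p.1‖) * (m p.2 * (4 * Real.pi * ‖p.1‖)⁻¹) * F (t - ‖p.1‖, x + p.1, p.2) := by
        filter_upwards [self_mem_nhdsWithin] with d hd
        have hd' : (0 : ℝ) < d := hd
        rw [th_of_nonpos hd' (by linarith [not_lt.1 h])]
        simp
      exact tendsto_const_nhds.congr' hev

/-- the limit integral is the retarded potential of the moment -/
theorem integral_limI (hm : Continuous m) (hF : Continuous F)
    (hP : ∀ (s : ℝ) (y v : R3), P < ‖v‖ → F (s, y, v) = 0) :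
    ∫ p, limI m F t x p = Wv (mom m F) t x := by
  obtain ⟨C, hC0, hC⟩ := limI_bound (m := m) (F := F) (t := t) (x := x) hm hF hP
  have hI := integrable_dom P (integrableOn_profile (k := 1) (by norm_num) C t)
  have hint : Integrable (limI m F t x) (volume : Measure ZV) := by
    refine hI.mono' (aesm_limI hm hF) ?_
    filter_upwards [ae_SS] with p hp
    exact hC p.1 p.2 hp
  rw [Measure.volume_eq_prod] at hint ⊢
  rw [integral_prod _ hint]
  unfold Wv
  rw [← integral_indicator Metric.isOpen_ball.measurableSet]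
  refine integral_congr_ae (Eventually.of_forall fun z => ?_)
  simp only [limI]
  by_cases h : z ∈ Metric.ball (0 : R3) t
  · simp only [indicator_of_mem h, one_mul]
    unfold mom
    rw [div_eq_mul_inv, mul_comm (∫ v, _) _, ← integral_const_mul]
    refine integral_congr_ae (Eventually.of_forall fun v => ?_)
    simp only
    ring
  · simp only [indicator_of_notMem h, zero_mul]
    simp

end limit

/-! ### localisation in time -/

section cutoff

variable {J : Set ℝ} {t : ℝ}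

/-- a smooth cut-off in time which is `1` near `[0,t]` and supported in `J` -/
theorem exists_zeta (hJ : IsOpen J) (hJt : Icc 0 t ⊆ J) (ht : 0 < t) :
    ∃ ζ : ℝ → ℝ, ContDiff ℝ ∞ ζ ∧ (∀ s, s ∉ J → ζ =ᶠ[𝓝 s] fun _ => 0) ∧
      (∀ s ∈ Icc 0 t, ζ =ᶠ[𝓝 s] fun _ => 1) := by
  obtain ⟨δ, hδ, hδJ⟩ := isCompact_Icc.exists_thickening_subset_open hJ hJt
  have hmem : ∀ s, -δ < s → s < t + δ → s ∈ J := by
    intro s h1 h2
    apply hδJ
    rw [Metric.mem_thickening_iff]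
    by_cases hs0 : s < 0
    · exact ⟨0, ⟨le_refl _, ht.le⟩, by rw [Real.dist_eq, abs_lt]; constructor <;> linarith⟩
    · by_cases hst : t < s
      · exact ⟨t, ⟨ht.le, le_refl _⟩, by rw [Real.dist_eq, abs_lt]; constructor <;> linarith⟩
      · exact ⟨s, ⟨by linarith, by linarith⟩, by simpa using hδ⟩
  set η := δ / 4 with hη
  have hη0 : 0 < η := by positivity
  refine ⟨fun s => Real.smoothTransition ((s + 2 * η) / η) *
    Real.smoothTransition ((t + 2 * η - s) / η), ?_, ?_, ?_⟩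
  · refine ContDiff.mul ?_ ?_
    · exact Real.smoothTransition.contDiff.comp (by fun_prop)
    · exact Real.smoothTransition.contDiff.comp (by fun_prop)
  · intro s hs
    have h1 : s ≤ -δ ∨ t + δ ≤ s := by
      by_contra hcon
      rw [not_or, not_le, not_le] at hcon
      exact hs (hmem s hcon.1 hcon.2)
    rcases h1 with h1 | h1
    · filter_upwards [Iio_mem_nhds (show s < -2 * η by linarith)] with r hr
      have hr' : r < -2 * η := hr
      rw [Real.smoothTransition.zero_of_nonpos, zero_mul]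
      exact div_nonpos_of_nonpos_of_nonneg (by linarith) hη0.le
    · filter_upwards [Ioi_mem_nhds (show t + 2 * η < s by linarith)] with r hr
      have hr' : t + 2 * η < r := hr
      rw [Real.smoothTransition.zero_of_nonpos (x := (t + 2 * η - r) / η), mul_zero]
      exact div_nonpos_of_nonpos_of_nonneg (by linarith) hη0.le
  · intro s hs
    filter_upwards [Ioi_mem_nhds (show -η < s by linarith [hs.1]),
      Iio_mem_nhds (show s < t + η by linarith [hs.2])] with r hr1 hr2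
    have hr1' : -η < r := hr1
    have hr2' : r < t + η := hr2
    rw [Real.smoothTransition.one_of_one_le, Real.smoothTransition.one_of_one_le, one_mul]
    · rw [one_le_div hη0]; linarith
    · rw [one_le_div hη0]; linarith

/-- localised function -/
noncomputable def loc (ζ : ℝ → ℝ) (F : PS → ℝ) : PS → ℝ := fun p => ζ p.1 * F p

theorem loc_contDiff {ζ : ℝ → ℝ} {F : PS → ℝ} {n : ℕ∞} (hJ : IsOpen J) (hζ : ContDiff ℝ ∞ ζ)
    (h0 : ∀ s, s ∉ J → ζ =ᶠ[𝓝 s] fun _ => 0) (hF : ContDiffOn ℝ n F (J ×ˢ univ)) :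
    ContDiff ℝ n (loc ζ F) := by
  rw [contDiff_iff_contDiffAt]
  intro p
  by_cases hp : p.1 ∈ J
  · have h1 : ContDiffAt ℝ n F p :=
      hF.contDiffAt ((hJ.prod isOpen_univ).mem_nhds ⟨hp, mem_univ _⟩)
    have h2 : ContDiff ℝ n (fun p : PS => ζ p.1) :=
      (hζ.of_le (by exact_mod_cast le_top)).comp contDiff_fst
    exact h2.contDiffAt.mul h1
  · have h1 : (fun p : PS => ζ p.1) =ᶠ[𝓝 p] fun _ => 0 :=
      (continuous_fst.tendsto p).eventually (h0 p.1 hp)
    have h2 : loc ζ F =ᶠ[𝓝 p] fun _ => 0 := by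
      filter_upwards [h1] with q hq
      unfold loc
      rw [hq, zero_mul]
    exact contDiffAt_const.congr_of_eventuallyEq h2

theorem loc_continuous {ζ : ℝ → ℝ} {F : PS → ℝ} (hJ : IsOpen J) (hζ : ContDiff ℝ ∞ ζ)
    (h0 : ∀ s, s ∉ J → ζ =ᶠ[𝓝 s] fun _ => 0) (hF : ContinuousOn F (J ×ˢ univ)) :
    Continuous (loc ζ F) := by
  have := loc_contDiff (n := 0) hJ hζ h0 (by simpa using hF)
  simpa using this

theorem loc_eq {ζ : ℝ → ℝ} {F : PS → ℝ} (h1 : ∀ s ∈ Icc 0 t, ζ =ᶠ[𝓝 s] fun _ => 1)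
    {p : PS} (hp : p.1 ∈ Icc 0 t) : loc ζ F =ᶠ[𝓝 p] F := by
  have h2 : (fun p : PS => ζ p.1) =ᶠ[𝓝 p] fun _ => 1 :=
    (continuous_fst.tendsto p).eventually (h1 p.1 hp)
  filter_upwards [h2] with q hq
  unfold loc
  rw [hq, one_mul]

theorem loc_val {ζ : ℝ → ℝ} {F : PS → ℝ} (h1 : ∀ s ∈ Icc 0 t, ζ =ᶠ[𝓝 s] fun _ => 1)
    {p : PS} (hp : p.1 ∈ Icc 0 t) : loc ζ F p = F p := (loc_eq h1 hp).self_of_nhds

theorem loc_zero {ζ : ℝ → ℝ} {F : PS → ℝ} {P : ℝ}
    (h0 : ∀ s, s ∉ J → ζ =ᶠ[𝓝 s] fun _ => 0)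
    (hF : ∀ s ∈ J, ∀ y v : R3, P < ‖v‖ → F (s, y, v) = 0) (s : ℝ) (y v : R3) (hv : P < ‖v‖) :
    loc ζ F (s, y, v) = 0 := by
  unfold loc
  by_cases hs : s ∈ J
  · rw [hF s hs y v hv, mul_zero]
  · have : ζ s = 0 := (h0 s hs).self_of_nhds
    simp only [this, zero_mul]

theorem fderiv_loc {ζ : ℝ → ℝ} {F : PS → ℝ} (h1 : ∀ s ∈ Icc 0 t, ζ =ᶠ[𝓝 s] fun _ => 1)
    {p : PS} (hp : p.1 ∈ Icc 0 t) : fderiv ℝ (loc ζ F) p = fderiv ℝ F p :=
  (loc_eq h1 hp).fderiv_eq

theorem dxt_loc_eq {ζ : ℝ → ℝ} {F : PS → ℝ} (h1 : ∀ s ∈ Icc 0 t, ζ =ᶠ[𝓝 s] fun _ => 1)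
    {p : PS} (hp : p.1 ∈ Icc 0 t) (a : ℝ) (b : R3) : dxt a b (loc ζ F) =ᶠ[𝓝 p] dxt a b F := by
  have h2 := (loc_eq (F := F) h1 hp).eventuallyEq_nhds
  filter_upwards [h2] with q hq
  unfold dxt
  rw [hq.fderiv_eq]

/-- the retarded potential only sees times in `[0,t]` -/
theorem Wv_congr {m : R3 → ℝ} {F G : PS → ℝ} {x : R3}
    (h : ∀ s ∈ Icc 0 t, ∀ y v : R3, F (s, y, v) = G (s, y, v)) :
    Wv (mom m F) t x = Wv (mom m G) t x := by
  unfold Wv
  refine setIntegral_congr_fun Metric.isOpen_ball.measurableSet fun z hz => ?_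
  have hz' : ‖z‖ < t := by simpa using hz
  have : mom m F (t - ‖z‖) (x + z) = mom m G (t - ‖z‖) (x + z) := by
    unfold mom
    refine integral_congr_ae (Eventually.of_forall fun v => ?_)
    simp only
    rw [h _ ⟨by linarith, by linarith [norm_nonneg z]⟩]
  simp only [this]

end cutoff

theorem dxt_contDiff {n : ℕ} {F : PS → ℝ} (hF : ContDiff ℝ (n + 1) F) (a : ℝ) (b : R3) :
    ContDiff ℝ n (dxt a b F) := by
  unfold dxt
  exact (hF.fderiv_right (le_refl _)).clm_apply contDiff_const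

theorem dxt_zero_of {P : ℝ} {F : PS → ℝ} (hF : ∀ (s : ℝ) (y v : R3), P < ‖v‖ → F (s, y, v) = 0)
    (a : ℝ) (b : R3) (s : ℝ) (y v : R3) (hv : P < ‖v‖) : dxt a b F (s, y, v) = 0 := by
  unfold dxt
  have : F =ᶠ[𝓝 (s, y, v)] fun _ => 0 := by
    have hc : Continuous (fun q : PS => ‖q.2.2‖) := by fun_prop
    filter_upwards [hc.continuousAt.eventually (Ioi_mem_nhds hv)] with q hq
    exact hF q.1 q.2.1 q.2.2 hq
  rw [this.fderiv_eq]
  simp

/-- passage to the limit in the bounds of the cut-off integrals -/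
theorem bound_of_Wth {m : R3 → ℝ} {F : PS → ℝ} {t P : ℝ} {x : R3} (hm : Continuous m)
    (hF : Continuous F) (hP : ∀ (s : ℝ) (y v : R3), P < ‖v‖ → F (s, y, v) = 0) {δ K : ℝ}
    (hδ : 0 < δ) (h : ∀ d, 0 < d → d ≤ δ → |Wth d m F t x| ≤ K) :
    |Wv (mom m F) t x| ≤ K := by
  have h1 := (tendsto_Wth (m := m) (F := F) (t := t) (x := x) hm hF hP).abs
  rw [integral_limI hm hF hP] at h1
  refine le_of_tendsto h1 ?_
  filter_upwards [self_mem_nhdsWithin, mem_nhdsWithin_of_mem_nhds (Iio_mem_nhds hδ)] with d hd hd2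
  exact h d hd (le_of_lt hd2)

theorem supEst_of_core (h : CoreSup) : SupEst := by
  intro P m hm a b
  obtain ⟨C, hC0, hC⟩ := h P m hm a b
  refine ⟨C, hC0, ?_⟩
  intro J t δ x g h G a0 N NG Nh hJ hJt ht hδ hg hG hh hsupp heq ha0 hN hNG hNh iN iNG iNh
  obtain ⟨ζ, hζ, hζ0, hζ1⟩ := exists_zeta hJ hJt ht
  have hgl : ContDiff ℝ 1 (loc ζ g) := loc_contDiff (n := 1) hJ hζ hζ0 hg
  have hGl : ∀ i, ContDiff ℝ 1 (loc ζ (G i)) := fun i => loc_contDiff (n := 1) hJ hζ hζ0 (hG i)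
  have hhl : Continuous (loc ζ h) := loc_continuous hJ hζ hζ0 hh
  have hzg : ∀ (s : ℝ) (y v : R3), P < ‖v‖ → loc ζ g (s, y, v) = 0 :=
    loc_zero hζ0 fun s hs y v hv => (hsupp s hs y v hv).1
  have e0 : Wv (mom m (dxt a b g)) t x = Wv (mom m (dxt a b (loc ζ g))) t x := by
    refine Wv_congr fun s hs y v => ?_
    exact ((dxt_loc_eq (F := g) hζ1 (p := (s, y, v)) hs a b).self_of_nhds).symm
  rw [e0]
  refine bound_of_Wth (P := P) hm.continuous ((dxt_contDiff (n := 0) (by simpa using hgl) a b).continuous)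
    (dxt_zero_of hzg a b) (lt_min ht hδ) fun d hd hd2 => ?_
  refine hC t d x (loc ζ g) (loc ζ h) (fun i => loc ζ (G i)) a0 N NG Nh ht hd
    (hd2.trans (min_le_left _ _)) hgl hGl hhl ?_ ?_ ?_ ?_ ?_ ?_ iN iNG iNh
  · intro s y v hv
    exact ⟨hzg s y v hv, fun i => loc_zero hζ0 (fun s hs y v hv => (hsupp s hs y v hv).2.1 i) s y v hv,
      loc_zero hζ0 (fun s hs y v hv => (hsupp s hs y v hv).2.2) s y v hv⟩
  · intro s hs y v
    have := heq s hs y v
    unfold Tr divv at this ⊢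
    rw [fderiv_loc hζ1 (p := (s, y, v)) hs, loc_val hζ1 (p := (s, y, v)) hs, this]
    congr 1
    refine Finset.sum_congr rfl fun i _ => ?_
    rw [fderiv_loc hζ1 (p := (s, y, v)) hs]
  · intro s hs y v
    have hs' : s ∈ Icc 0 (min t δ) := ⟨hs.1, hs.2.trans hd2⟩
    have hst : s ∈ Icc 0 t := ⟨hs.1, hs'.2.trans (min_le_left _ _)⟩
    rw [loc_val hζ1 (p := (s, y, v)) hst]
    exact ha0 s hs' y v
  · intro s hs y v
    rw [loc_val hζ1 (p := (s, y, v)) hs]
    exact hN s hs y v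
  · intro s hs i y v
    rw [loc_val hζ1 (p := (s, y, v)) hs]
    exact hNG s hs i y v
  · intro s hs y v
    rw [loc_val hζ1 (p := (s, y, v)) hs]
    exact hNh s hs y v

theorem gradEst_of_core (h : CoreGrad) : GradEst := by
  intro P m hm a b e
  obtain ⟨C, hC0, hC⟩ := h P m hm a b e
  refine ⟨C, hC0, ?_⟩
  intro J t δ ε x g G H K a0 a1 b0 n0 n1 NG NH hJ hJt ht hδ hε hεt hg hG hH hK hsupp heq heqG
    ha0 hn hNG hNH iNG iNH
  obtain ⟨ζ, hζ, hζ0, hζ1⟩ := exists_zeta hJ hJt ht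
  have hgl : ContDiff ℝ 2 (loc ζ g) := loc_contDiff (n := 2) hJ hζ hζ0 hg
  have hGl : ∀ i, ContDiff ℝ 2 (loc ζ (G i)) := fun i => loc_contDiff (n := 2) hJ hζ hζ0 (hG i)
  have hHl : ∀ i, Continuous (loc ζ (H i)) := fun i => loc_continuous hJ hζ hζ0 (hH i)
  have hKl : ∀ i j, ContDiff ℝ 1 (loc ζ (K i j)) := fun i j =>
    loc_contDiff (n := 1) hJ hζ hζ0 (hK i j)
  have hzg : ∀ (s : ℝ) (y v : R3), P < ‖v‖ → loc ζ g (s, y, v) = 0 :=
    loc_zero hζ0 fun s hs y v hv => (hsupp s hs y v hv).1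
  have hd1 : ContDiff ℝ 1 (dxt 0 e (loc ζ g)) :=
    dxt_contDiff (n := 1) (by simpa using (by exact_mod_cast hgl : ContDiff ℝ (1 + 1) (loc ζ g))) 0 e
  have e0 : Wv (mom m (dxt a b (dxt 0 e g))) t x = Wv (mom m (dxt a b (dxt 0 e (loc ζ g)))) t x := by
    refine Wv_congr fun s hs y v => ?_
    have h1 := dxt_loc_eq (F := g) hζ1 (p := (s, y, v)) hs 0 e
    unfold dxt at h1 ⊢
    rw [h1.fderiv_eq]
  rw [e0]
  refine bound_of_Wth (P := P) hm.continuous
    ((dxt_contDiff (n := 0) (by simpa using hd1) a b).continuous)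
    (dxt_zero_of (dxt_zero_of hzg 0 e) a b) (lt_min ht hδ) fun d hd hd2 => ?_
  have hdx : ∀ s ∈ Icc 0 t, ∀ y v : R3, dxt 0 e (loc ζ g) (s, y, v) = dxt 0 e g (s, y, v) :=
    fun s hs y v => (dxt_loc_eq (F := g) hζ1 (p := (s, y, v)) hs 0 e).self_of_nhds
  refine hC t d ε x (loc ζ g) (fun i => loc ζ (G i)) (fun i => loc ζ (H i))
    (fun i j => loc ζ (K i j)) a0 a1 b0 n0 n1 NG NH ht hd
    (hd2.trans (min_le_left _ _)) hε hεt hgl hGl hHl hKl ?_ ?_ ?_ ?_ ?_ ?_ ?_ iNG iNH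
  · intro s y v hv
    refine ⟨hzg s y v hv, fun i => ⟨?_, ?_, fun j => ?_⟩⟩
    · exact loc_zero hζ0 (fun s hs y v hv => ((hsupp s hs y v hv).2 i).1) s y v hv
    · exact loc_zero hζ0 (fun s hs y v hv => ((hsupp s hs y v hv).2 i).2.1) s y v hv
    · exact loc_zero hζ0 (fun s hs y v hv => ((hsupp s hs y v hv).2 i).2.2 j) s y v hv
  · intro s hs y v
    have := heq s (hJt hs) y v
    unfold Tr divv at this ⊢
    rw [fderiv_loc hζ1 (p := (s, y, v)) hs, this]
    refine Finset.sum_congr rfl fun i _ => ?_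
    rw [fderiv_loc hζ1 (p := (s, y, v)) hs]
  · intro s hs i y v
    have := heqG s (hJt hs) i y v
    unfold Tr divv at this ⊢
    rw [fderiv_loc hζ1 (p := (s, y, v)) hs, loc_val hζ1 (p := (s, y, v)) hs, this]
    congr 1
    refine Finset.sum_congr rfl fun j _ => ?_
    rw [fderiv_loc hζ1 (p := (s, y, v)) hs]
  · intro s hs y v
    have hs' : s ∈ Icc 0 (min t δ) := ⟨hs.1, hs.2.trans hd2⟩
    have hst : s ∈ Icc 0 t := ⟨hs.1, hs'.2.trans (min_le_left _ _)⟩
    have h1 := ha0 s hs' y v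
    refine ⟨?_, ?_, fun i => ?_⟩
    · rw [loc_val hζ1 (p := (s, y, v)) hst]; exact h1.1
    · rw [hdx s hst y v]; exact h1.2.1
    · rw [loc_val hζ1 (p := (s, y, v)) hst]; exact h1.2.2 i
  · intro s hs y v
    have h1 := hn s hs y v
    refine ⟨?_, ?_⟩
    · rw [loc_val hζ1 (p := (s, y, v)) hs]; exact h1.1
    · rw [hdx s hs y v]; exact h1.2
  · intro s hs i y v
    rw [loc_val hζ1 (p := (s, y, v)) hs]
    exact hNG s hs i y v
  · intro s hs i y v
    have h1 := hNH s hs i y v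
    refine ⟨?_, fun j => ?_⟩
    · rw [loc_val hζ1 (p := (s, y, v)) hs]; exact h1.1
    · rw [loc_val hζ1 (p := (s, y, v)) hs]; exact h1.2 j

end Crest.Agent.R106.Gs2
end

-- ▼ part R106/Gs2SupEst
section

namespace Crest.Agent.R106.Gs2

theorem supEst : SupEst := supEst_of_core coreSup

end Crest.Agent.R106.Gs2
end

-- ▼ part R106/Gs2Aux
section

set_option autoImplicit false
open MeasureTheory Set Filter Topology
open scoped ContDiff RealInnerProductSpace
open Crest.AnalysisR.VecCalc3 Crest.AnalysisR.PDE.RVM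

namespace Crest.Agent.R106.Gs2

/-! ### (i) commuting `Tr` and `dxt 0 e` -/

section comm

variable {E : Type} [NormedAddCommGroup E] [NormedSpace ℝ E]

theorem fderiv_fderiv_apply {g : E → ℝ} (hg : ContDiff ℝ 2 g) (p u w : E) :
    fderiv ℝ (fun q => fderiv ℝ g q w) p u = fderiv ℝ (fderiv ℝ g) p u w := by
  have h2 : DifferentiableAt ℝ (fderiv ℝ g) p :=
    (hg.fderiv_right (m := 1) (by norm_num)).differentiable (by norm_num) p
  rw [fderiv_clm_apply h2 (differentiableAt_const w)]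
  simp

theorem fderiv_fderiv_symm {g : E → ℝ} (hg : ContDiff ℝ 2 g) (p u w : E) :
    fderiv ℝ (fderiv ℝ g) p u w = fderiv ℝ (fderiv ℝ g) p w u := by
  have h := (hg.contDiffAt (x := p)).isSymmSndFDerivAt (by simp)
  exact h.eq u w

/-- derivative along a line -/
theorem hasDerivAt_line {g : E → ℝ} (hg : ContDiff ℝ 2 g) (p u w : E) :
    HasDerivAt (fun r : ℝ => fderiv ℝ g (p + r • u) w) (fderiv ℝ (fderiv ℝ g) p u w) 0 := by
  have h2 : DifferentiableAt ℝ (fderiv ℝ g) p :=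
    (hg.fderiv_right (m := 1) (by norm_num)).differentiable (by norm_num) p
  have h3 : HasDerivAt (fun r : ℝ => p + r • u) u 0 := by
    simpa using ((hasDerivAt_id (0 : ℝ)).smul_const u).const_add p
  have h4 : HasFDerivAt (fderiv ℝ g) (fderiv ℝ (fderiv ℝ g) p) (p + (0 : ℝ) • u) := by
    simpa using h2.hasFDerivAt
  have h5 := h4.comp_hasDerivAt (0 : ℝ) h3
  exact (ContinuousLinearMap.apply ℝ ℝ w).hasFDerivAt.comp_hasDerivAt (0 : ℝ) h5

end comm

theorem Tr_dxt {g : PS → ℝ} {G : Fin 3 → PS → ℝ} (hg : ContDiff ℝ 2 g)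
    (hG : ∀ i, ContDiff ℝ 2 (G i)) {s : ℝ}
    (h : ∀ y v : R3, Tr g (s, y, v) = divv G (s, y, v)) (e y v : R3) :
    Tr (dxt 0 e g) (s, y, v) = divv (fun i => dxt 0 e (G i)) (s, y, v) := by
  set p : PS := (s, y, v) with hp
  set u : PS := (0, e, 0) with hu
  have hline : ∀ r : ℝ, p + r • u = (s, y + r • e, v) := fun r => by
    simp [hp, hu]
  have h1 := hasDerivAt_line hg p u (1, relVel v, 0)
  have h2 : HasDerivAt (fun r : ℝ => ∑ i, fderiv ℝ (G i) (p + r • u) (ev i))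
      (∑ i, fderiv ℝ (fderiv ℝ (G i)) p u (ev i)) 0 :=
    HasDerivAt.fun_sum fun i _ => hasDerivAt_line (hG i) p u (ev i)
  have h3 : (fun r : ℝ => fderiv ℝ g (p + r • u) (1, relVel v, 0))
      = fun r : ℝ => ∑ i, fderiv ℝ (G i) (p + r • u) (ev i) := by
    funext r
    rw [hline r]
    exact h (y + r • e) v
  rw [h3] at h1
  have h4 := h1.unique h2
  have e1 : Tr (dxt 0 e g) p = fderiv ℝ (fderiv ℝ g) p (1, relVel v, 0) u := by
    unfold Tr dxt
    exact fderiv_fderiv_apply hg p (1, relVel v, 0) u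
  have e2 : divv (fun i => dxt 0 e (G i)) p = ∑ i, fderiv ℝ (fderiv ℝ (G i)) p (ev i) u := by
    unfold divv dxt
    exact Finset.sum_congr rfl fun i _ => fderiv_fderiv_apply (hG i) p (ev i) u
  rw [e1, e2, fderiv_fderiv_symm hg, h4]
  exact Finset.sum_congr rfl fun i _ => fderiv_fderiv_symm (hG i) p u (ev i)

/-! ### (ii) the radial cut-off -/

/-- radial cut-off: `0` for `r ≤ ε/2`, `1` for `r ≥ ε` -/
noncomputable def ch (ε r : ℝ) : ℝ := Real.smoothTransition (2 * r / ε - 1)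

theorem ch_smooth (ε : ℝ) : ContDiff ℝ ∞ (ch ε) :=
  Real.smoothTransition.contDiff.comp
    (((contDiff_const.mul contDiff_id).div_const ε).sub contDiff_const)

theorem ch_mem (ε r : ℝ) : 0 ≤ ch ε r ∧ ch ε r ≤ 1 :=
  ⟨Real.smoothTransition.nonneg _, Real.smoothTransition.le_one _⟩

theorem ch_zero {ε r : ℝ} (hε : 0 < ε) (hr : r ≤ ε / 2) : ch ε r = 0 := by
  refine Real.smoothTransition.zero_of_nonpos ?_
  have : 2 * r / ε ≤ 1 := by rw [div_le_one hε]; linarith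
  linarith

theorem ch_one {ε r : ℝ} (hε : 0 < ε) (hr : ε ≤ r) : ch ε r = 1 := by
  refine Real.smoothTransition.one_of_one_le ?_
  have : 2 ≤ 2 * r / ε := by rw [le_div_iff₀ hε]; linarith
  linarith

theorem ch_hasDerivAt (ε r : ℝ) :
    HasDerivAt (ch ε) (deriv Real.smoothTransition (2 * r / ε - 1) * (2 / ε)) r := by
  have h1 : HasDerivAt (fun r : ℝ => 2 * r / ε - 1) (2 / ε) r := by
    have := (((hasDerivAt_id r).const_mul 2).div_const ε).sub_const 1
    simpa using this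
  have h2 : HasDerivAt Real.smoothTransition
      (deriv Real.smoothTransition (2 * r / ε - 1)) (2 * r / ε - 1) :=
    ((Real.smoothTransition.contDiff (n := 1)).differentiable (by simp) _).hasDerivAt
  exact h2.comp r h1

theorem ch_deriv_le : ∃ M : ℝ, 0 ≤ M ∧ ∀ ε : ℝ, 0 < ε → ∀ r : ℝ, |deriv (ch ε) r| ≤ M / ε := by
  obtain ⟨M, hM0, hM⟩ := exists_sT_bound
  refine ⟨M * 2, by positivity, fun ε hε r => ?_⟩
  rw [(ch_hasDerivAt ε r).deriv, abs_mul, abs_of_pos (by positivity : 0 < 2 / ε)]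
  have h := mul_le_mul_of_nonneg_right (hM (2 * r / ε - 1)) (by positivity : 0 ≤ 2 / ε)
  refine h.trans (le_of_eq ?_)
  ring

theorem ch_deriv_zero {ε r : ℝ} (hε : 0 < ε) (hr : r ≤ ε / 2 ∨ ε ≤ r) : deriv (ch ε) r = 0 := by
  rcases hr with h | h
  · apply IsLocalMin.deriv_eq_zero
    refine Eventually.of_forall fun y => ?_
    rw [ch_zero hε h]
    exact (ch_mem ε y).1
  · apply IsLocalMax.deriv_eq_zero
    refine Eventually.of_forall fun y => ?_
    rw [ch_one hε h]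
    exact (ch_mem ε y).2

/-! ### (iii) integrability of `ϑ κ F∘cone` -/

theorem continuousOn_cone {F : PS → ℝ} (hF : Continuous F) (t : ℝ) (x : R3) :
    Continuous (fun p : ZV => F (cone t x p)) := by
  refine hF.comp ?_
  unfold cone
  fun_prop

theorem integrable_RI {κ : ZV → ℝ} (hκ : ContinuousOn κ SS) {ϑ : ℝ → ℝ} (hϑ : Continuous ϑ)
    {F : PS → ℝ} (hF : Continuous F) {R P t C : ℝ} {x : R3} (hC : 0 ≤ C)
    (h0 : ∀ r, R < r → ϑ r = 0) (hP : ∀ (s : ℝ) (y v : R3), P < ‖v‖ → F (s, y, v) = 0)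
    (hb : ∀ z v : R3, z ≠ 0 → ‖z‖ ≤ R → ‖v‖ ≤ P → |ϑ ‖z‖ * κ (z, v)| ≤ C * (‖z‖ ^ 2)⁻¹) :
    Integrable (fun p : ZV => ϑ ‖p.1‖ * κ p * F (cone t x p)) := by
  have hFc := continuousOn_cone hF t x
  have hK : IsCompact (Metric.closedBall (0 : R3) R ×ˢ Metric.closedBall (0 : R3) P) :=
    (isCompact_closedBall _ _).prod (isCompact_closedBall _ _)
  obtain ⟨M, hM⟩ := hK.exists_bound_of_continuousOn hFc.continuousOn
  refine integrable_two (R := R) (P := P) (C := C * |M|) ?_ (by positivity) ?_ ?_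
  · refine ContinuousOn.mul (ContinuousOn.mul ?_ hκ) hFc.continuousOn
    exact (hϑ.comp (continuous_norm.comp continuous_fst)).continuousOn
  · rintro z v hz (h | h)
    · simp only [h0 _ h, zero_mul]
    · have : F (cone t x (z, v)) = 0 := by unfold cone; exact hP _ _ _ h
      simp only [this, mul_zero]
  · intro z v hz hzR hvP
    have h1 := hb z v hz hzR hvP
    have h2 : |F (cone t x (z, v))| ≤ |M| := by
      have := hM (z, v) ⟨by simpa using hzR, by simpa using hvP⟩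
      exact this.trans (le_abs_self M)
    rw [abs_mul]
    calc |ϑ ‖z‖ * κ (z, v)| * |F (cone t x (z, v))| ≤ (C * (‖z‖ ^ 2)⁻¹) * |M| := by gcongr
      _ = C * |M| * (‖z‖ ^ 2)⁻¹ := by ring

end Crest.Agent.R106.Gs2
end

-- ▼ part R106/Gs2Grad
section

set_option autoImplicit false
open MeasureTheory Set Filter Topology
open scoped ContDiff RealInnerProductSpace
open Crest.AnalysisR.VecCalc3 Crest.AnalysisR.PDE.RVM

namespace Crest.Agent.R106.Gs2

namespace Grad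

/-- base kernel `m(v) / (4 π |z|)` -/
theorem k0_Hk {m : R3 → ℝ} (hm : ContDiff ℝ ∞ m) :
    Hk 1 (fun p : ZV => m p.2 * (4 * Real.pi * ‖p.1‖)⁻¹) := by
  have h := Hk.nrmInv.mul0 ((Hk.ofV hm).mul0 (Hk.const (4 * Real.pi)⁻¹))
  have e : (fun p : ZV => m p.2 * (4 * Real.pi * ‖p.1‖)⁻¹)
      = fun p : ZV => ‖p.1‖⁻¹ * (m p.2 * (4 * Real.pi)⁻¹) := by
    funext p; rw [mul_inv]; ring
  rw [e]; exact h

theorem thr_contDiff (d t : ℝ) : ContDiff ℝ 1 (fun r : ℝ => th d (t - r)) :=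
  ((th_smooth d).of_le (by simp)).comp (contDiff_const.sub contDiff_id)

theorem deriv_thr (d t r : ℝ) : deriv (fun r : ℝ => th d (t - r)) r = - deriv (th d) (t - r) := by
  have h1 : HasDerivAt (th d) (deriv (th d) (t - r)) (t - r) :=
    ((th_smooth d).differentiable (by simp) _).hasDerivAt
  have h2 : HasDerivAt (fun r : ℝ => t - r) (-1) r := by
    simpa using (hasDerivAt_id r).const_sub t
  have h3 := h1.comp r h2
  rw [show (fun r : ℝ => th d (t - r)) = th d ∘ (fun r => t - r) from rfl, h3.deriv]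
  ring

/-- the radial term produced by the time cut-off (with a bounded factor `ψ`) -/
theorem radial {k : ℕ} (hk : k ≤ 2) {κ : ZV → ℝ} {P C : ℝ} (hC : 0 ≤ C)
    (hb : ∀ z v : R3, z ≠ 0 → ‖v‖ ≤ P → |κ (z, v)| ≤ C * (‖z‖ ^ k)⁻¹)
    {t d a0 : ℝ} {x : R3} (ht : 0 < t) (hd : 0 < d) (hdt : d ≤ t) {ψ : ℝ → ℝ}
    (hψ : ∀ r, |ψ r| ≤ 1) {F : PS → ℝ}
    (hP : ∀ (s : ℝ) (y v : R3), P < ‖v‖ → F (s, y, v) = 0)
    (ha : ∀ s ∈ Icc 0 d, ∀ y v : R3, |F (s, y, v)| ≤ a0) :
    |∫ p : ZV, (deriv (th d) (t - ‖p.1‖) * ψ ‖p.1‖) * κ p * F (cone t x p)|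
      ≤ cB P * C * (t ^ (2 - k) * a0) := by
  have ha0 : 0 ≤ a0 := (abs_nonneg _).trans (ha 0 ⟨le_rfl, hd.le⟩ 0 0)
  have hcont : Continuous (deriv (th d)) := (th_smooth d).continuous_deriv (by simp)
  have hM : IntervalIntegrable (fun s => (t - s) ^ (2 - k) * (deriv (th d) s * a0)) volume 0 t :=
    Continuous.intervalIntegrable (by fun_prop) _ _
  refine (cone_int_le hk ht.le hM (P := P) (C := C) ?_ ?_).trans ?_
  · rintro z v hz (h | h)
    · simp only [th_deriv_zero hd (Or.inl (by linarith : t - ‖z‖ ≤ 0)), zero_mul]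
    · have : F (cone t x (z, v)) = 0 := hP _ _ _ h
      simp only [this, mul_zero]
  · intro z v hz hzt hv
    have hz' : 0 < ‖z‖ := norm_pos_iff.2 hz
    by_cases hin : d < t - ‖z‖
    · simp only [th_deriv_zero hd (Or.inr hin.le)]; simp
    · have hF : |F (cone t x (z, v))| ≤ a0 := ha _ ⟨by linarith, not_lt.1 hin⟩ _ _
      have h1 := th_deriv_nonneg hd (t - ‖z‖)
      have h2 := hb z v hz hv
      rw [abs_mul, abs_mul, abs_mul, abs_of_nonneg h1]
      calc deriv (th d) (t - ‖z‖) * |ψ ‖z‖| * |κ (z, v)| * |F (cone t x (z, v))|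
          ≤ deriv (th d) (t - ‖z‖) * 1 * (C * (‖z‖ ^ k)⁻¹) * a0 := by
            gcongr
            exact hψ _
        _ = _ := by ring
  · refine mul_le_mul_of_nonneg_left ?_ (mul_nonneg (cB_nonneg P) hC)
    have e : ∫ s in (0:ℝ)..t, (t - s) ^ (2 - k) * (deriv (th d) s * a0)
        ≤ ∫ s in (0:ℝ)..t, t ^ (2 - k) * a0 * deriv (th d) s := by
      refine intervalIntegral.integral_mono_on ht.le hM
        (Continuous.intervalIntegrable (by fun_prop) _ _) ?_
      intro s hs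
      have h1 := th_deriv_nonneg hd s
      have h2 : (t - s) ^ (2 - k) ≤ t ^ (2 - k) :=
        pow_le_pow_left₀ (by linarith [hs.2]) (by linarith [hs.1]) _
      calc (t - s) ^ (2 - k) * (deriv (th d) s * a0) ≤ t ^ (2 - k) * (deriv (th d) s * a0) := by
            gcongr
        _ = _ := by ring
    refine e.trans ?_
    rw [intervalIntegral.integral_const_mul, int_th_deriv hd hdt, mul_one]

/-- the `|z|^{-2}`-kernel part, with a cut-off at `|z| ~ ε` -/
theorem hk2 (P : ℝ) {κ : ZV → ℝ} (hκ : Hk 2 κ) (e : R3) : ∃ C : ℝ, 0 ≤ C ∧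
    ∀ (t d ε : ℝ) (x : R3) (g : PS → ℝ) (G : Fin 3 → PS → ℝ) (a0 n0 n1 : ℝ) (NG : ℝ → ℝ),
      0 < t → 0 < d → d ≤ t → 0 < ε → ε ≤ t →
      ContDiff ℝ 2 g → (∀ i, ContDiff ℝ 1 (G i)) →
      (∀ (s : ℝ) (y v : R3), P < ‖v‖ → g (s, y, v) = 0 ∧ ∀ i, G i (s, y, v) = 0) →
      (∀ s ∈ Icc 0 t, ∀ y v : R3, Tr g (s, y, v) = divv G (s, y, v)) →
      (∀ s ∈ Icc 0 d, ∀ y v : R3, |g (s, y, v)| ≤ a0) →
      (∀ s ∈ Icc 0 t, ∀ y v : R3, |g (s, y, v)| ≤ n0 ∧ |dxt 0 e g (s, y, v)| ≤ n1) →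
      (∀ s ∈ Icc 0 t, ∀ i, ∀ y v : R3, |G i (s, y, v)| ≤ NG s) →
      IntervalIntegrable NG volume 0 t →
      |∫ p, th d (t - ‖p.1‖) * κ p * dxt 0 e g (cone t x p)| ≤
        C * (a0 + n0 * (1 + Real.log (t / ε)) + ε * n1 + (∫ s in (0:ℝ)..t, NG s)) := by
  obtain ⟨M, hM0, hM'⟩ := ch_deriv_le
  have hM : ∀ ε r : ℝ, 0 < ε → |deriv (ch ε) r| ≤ M / ε ∧
      (r < ε / 2 ∨ ε < r → deriv (ch ε) r = 0) := fun ε r hε =>
    ⟨hM' ε hε r, fun h => ch_deriv_zero hε (h.imp le_of_lt le_of_lt)⟩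
  have hV := fun i : Fin 3 => kV_Hk hκ 0 e i
  have hZ : Hk 3 (kZ κ 0 e) := kZ_Hk hκ 0 e
  have hR : Hk 2 (kR κ 0 e) := kR_Hk hκ 0 e
  obtain ⟨C1, hC1, b1⟩ := hκ.bound P
  choose C2 hC2 b2 using fun i : Fin 3 => (hV i).bound P
  obtain ⟨C3, hC3, b3⟩ := hZ.bound P
  obtain ⟨C4, hC4, b4⟩ := hR.bound P
  have hcB := cB_nonneg P
  have hl2 : 0 ≤ Real.log 2 := Real.log_nonneg (by norm_num)
  have hl2' : Real.log 2 ≤ 1 := by
    have := Real.log_two_lt_d9; linarith
  have hs2 : 0 ≤ ∑ i, C2 i := Finset.sum_nonneg fun i _ => hC2 i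
  refine ⟨cB P * (C1 + (∑ i, C2 i) + C3 + C4 + M * C4), by positivity, ?_⟩
  intro t d ε x g G a0 n0 n1 NG ht hd hdt hε hεt hg hG hP hT ha hn hNG hNGi
  have ht0 : (0:ℝ) ∈ Icc 0 t := ⟨le_rfl, ht.le⟩
  have hn0 : 0 ≤ n0 := (abs_nonneg _).trans (hn 0 ht0 0 0).1
  have hn1 : 0 ≤ n1 := (abs_nonneg _).trans (hn 0 ht0 0 0).2
  have ha0 : 0 ≤ a0 := (abs_nonneg _).trans (ha 0 ⟨le_rfl, hd.le⟩ 0 0)
  have hg1 : ContDiff ℝ 1 g := hg.of_le (by norm_num)
  have hge : ContDiff ℝ 1 (dxt 0 e g) := dxt_contDiff (n := 1) (by exact_mod_cast hg) 0 e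
  have hPe : ∀ (s : ℝ) (y v : R3), P < ‖v‖ → dxt 0 e g (s, y, v) = 0 :=
    dxt_zero_of (fun s y v hv => (hP s y v hv).1) 0 e
  -- the cut-offs
  set ϑ : ℝ → ℝ := fun r => th d (t - r) with hϑ
  have hϑc : ContDiff ℝ 1 ϑ := thr_contDiff d t
  have hϑ0 : ∀ r, t ≤ r → ϑ r = 0 := fun r hr => th_zero hd (by linarith)
  have hϑm : ∀ r, 0 ≤ ϑ r ∧ ϑ r ≤ 1 := fun r => th_mem d _
  set Θ : ℝ → ℝ := fun r => ϑ r * ch ε r with hΘ
  have hchc : ContDiff ℝ 1 (ch ε) := (ch_smooth ε).of_le (by simp)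
  have hΘc : ContDiff ℝ 1 Θ := hϑc.mul hchc
  have hΘ0 : ∀ r, t ≤ r → Θ r = 0 := fun r hr => by simp [hΘ, hϑ0 r hr]
  have hΘm : ∀ r, |Θ r| ≤ 1 := fun r => by
    have h1 := hϑm r
    have h2 := ch_mem ε r
    rw [abs_le]; constructor
    · have : 0 ≤ Θ r := mul_nonneg h1.1 h2.1
      linarith
    · exact mul_le_one₀ h1.2 h2.1 h2.2
  have hΘn : ∀ r, r ≤ ε / 2 → Θ r = 0 := fun r hr => by simp [hΘ, ch_zero hε hr]
  -- splitting
  have iA : Integrable (fun p : ZV => (ϑ ‖p.1‖ * (1 - ch ε ‖p.1‖)) * κ p * dxt 0 e g (cone t x p)) := by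
    refine integrable_RI (ϑ := fun r => ϑ r * (1 - ch ε r)) (R := t) (P := P) (C := C1)
      hκ.smooth.continuousOn (hϑc.continuous.mul (continuous_const.sub hchc.continuous))
      hge.continuous hC1 (fun r hr => by simp [hϑ0 r hr.le]) hPe ?_
    intro z v hz _ hv
    have h1 := hϑm ‖z‖
    have h2 := ch_mem ε ‖z‖
    rw [abs_mul]
    calc |ϑ ‖z‖ * (1 - ch ε ‖z‖)| * |κ (z, v)| ≤ 1 * (C1 * (‖z‖ ^ 2)⁻¹) := by
          gcongr
          · rw [abs_of_nonneg (mul_nonneg h1.1 (by linarith))]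
            exact mul_le_one₀ h1.2 (by linarith) (by linarith)
          · exact b1 z v hz hv
      _ = _ := one_mul _
  have iB : Integrable (fun p : ZV => Θ ‖p.1‖ * κ p * dxt 0 e g (cone t x p)) := by
    refine integrable_RI (ϑ := Θ) (R := t) (P := P) (C := C1)
      hκ.smooth.continuousOn hΘc.continuous
      hge.continuous hC1 (fun r hr => hΘ0 r hr.le) hPe ?_
    intro z v hz _ hv
    rw [abs_mul]
    calc |Θ ‖z‖| * |κ (z, v)| ≤ 1 * (C1 * (‖z‖ ^ 2)⁻¹) := by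
          gcongr
          · exact hΘm _
          · exact b1 z v hz hv
      _ = _ := one_mul _
  have split : ∫ p : ZV, th d (t - ‖p.1‖) * κ p * dxt 0 e g (cone t x p)
      = (∫ p : ZV, (ϑ ‖p.1‖ * (1 - ch ε ‖p.1‖)) * κ p * dxt 0 e g (cone t x p))
        + ∫ p : ZV, Θ ‖p.1‖ * κ p * dxt 0 e g (cone t x p) := by
    rw [← integral_add iA iB]
    refine integral_congr_ae (Eventually.of_forall fun p => ?_)
    simp only [hΘ, hϑ]; ring
  -- near part
  have near : |∫ p : ZV, (ϑ ‖p.1‖ * (1 - ch ε ‖p.1‖)) * κ p * dxt 0 e g (cone t x p)|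
      ≤ cB P * (C1 * n1) * ε := by
    refine near_int_le (by positivity) hε ?_ ?_
    · rintro z v hz (h | h)
      · simp only [ch_one hε h.le]; ring
      · have : dxt 0 e g (cone t x (z, v)) = 0 := hPe _ _ _ h
        simp only [this, mul_zero]
    · intro z v hz hv
      have h1 := hϑm ‖z‖
      have h2 := ch_mem ε ‖z‖
      by_cases hzt : t ≤ ‖z‖
      · simp only [hϑ0 _ hzt, zero_mul, abs_zero]; positivity
      · have hF : |dxt 0 e g (cone t x (z, v))| ≤ n1 :=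
          (hn (t - ‖z‖) ⟨by linarith, by linarith [norm_nonneg z]⟩ (x + z) v).2
        rw [abs_mul, abs_mul]
        calc |ϑ ‖z‖ * (1 - ch ε ‖z‖)| * |κ (z, v)| * |dxt 0 e g (cone t x (z, v))|
            ≤ 1 * (C1 * (‖z‖ ^ 2)⁻¹) * n1 := by
              gcongr
              · rw [abs_of_nonneg (mul_nonneg h1.1 (by linarith))]
                exact mul_le_one₀ h1.2 (by linarith) (by linarith)
              · exact b1 z v hz hv
          _ = _ := by ring
  -- far part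
  have hKB : KB 1 (fun p : ZV => Θ ‖p.1‖ * κ p) := by
    have h2 : KB (1 + 1) (fun p : ZV => Θ ‖p.1‖ * κ p) := by
      have := (rad_KB hΘc).mul hκ.toKB
      simpa using this
    refine h2.lower (r0 := ε / 2) (by positivity) ?_
    intro z v hz hlt
    rw [hΘn _ hlt.le, zero_mul]
  have iZ : Integrable (fun p : ZV => Θ ‖p.1‖ * kZ κ 0 e p * g (cone t x p)) := by
    refine integrable_RI (ϑ := Θ) (R := t) (P := P) (C := C3 * (2 / ε))
      hZ.smooth.continuousOn hΘc.continuous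
      hg.continuous (by positivity) (fun r hr => hΘ0 r hr.le) (fun s y v hv => (hP s y v hv).1) ?_
    intro z v hz _ hv
    have hz' : 0 < ‖z‖ := norm_pos_iff.2 hz
    by_cases hnear : ‖z‖ ≤ ε / 2
    · rw [hΘn _ hnear, zero_mul, abs_zero]; positivity
    · rw [not_le] at hnear
      rw [abs_mul]
      calc |Θ ‖z‖| * |kZ κ 0 e (z, v)| ≤ 1 * (C3 * (‖z‖ ^ 3)⁻¹) := by
            gcongr
            · exact hΘm _
            · exact b3 z v hz hv
        _ = C3 * ‖z‖⁻¹ * (‖z‖ ^ 2)⁻¹ := by rw [pow_succ]; field_simp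
        _ ≤ C3 * (2 / ε) * (‖z‖ ^ 2)⁻¹ := by
            gcongr
            rw [inv_le_comm₀ hz' (by positivity), inv_div]
            exact hnear.le
  have hTΘ : ∀ p ∈ SS, Θ ‖p.1‖ ≠ 0 →
      Tr g (cone t x p) = (fun _ => (0:ℝ)) (cone t x p) + divv G (cone t x p) := by
    intro p _ hne
    have hlt : ‖p.1‖ < t := by
      by_contra hge
      exact hne (hΘ0 _ (not_lt.1 hge))
    rw [zero_add]
    exact hT (t - ‖p.1‖) ⟨by linarith, by linarith [norm_nonneg p.1]⟩ (x + p.1) p.2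
  have hdiv := division_rad (t := t) (x := x) hκ hΘc hKB (P := P) hΘ0 hg1 hG
    (h := fun _ => (0:ℝ)) continuous_const
    (fun s y v hv => ⟨(hP s y v hv).1, (hP s y v hv).2, rfl⟩) hTΘ 0 e iZ
  simp only [mul_zero, integral_zero, zero_sub] at hdiv
  -- the momentum terms
  have tV : ∀ i, |∫ p : ZV, Θ ‖p.1‖ * kV κ 0 e i p * G i (cone t x p)|
      ≤ cB P * C2 i * ∫ s in (0:ℝ)..t, NG s := by
    intro i
    have hc2i := hC2 i
    have h := cone_int_le (k := 2) le_rfl (P := P) (C := C2 i) ht.le (M := NG)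
      (Φ := fun p : ZV => Θ ‖p.1‖ * kV κ 0 e i p * G i (cone t x p)) (by simpa using hNGi) ?_ ?_
    · simpa using h
    · rintro z v hz (h | h)
      · simp only [hΘ0 _ h, zero_mul]
      · have : G i (cone t x (z, v)) = 0 := (hP _ _ _ h).2 i
        simp only [this, mul_zero]
    · intro z v hz hzt hv
      have hF : |G i (cone t x (z, v))| ≤ NG (t - ‖z‖) :=
        hNG (t - ‖z‖) ⟨by linarith, by linarith [norm_nonneg z]⟩ i (x + z) v
      have hN0 : 0 ≤ NG (t - ‖z‖) := (abs_nonneg _).trans hF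
      rw [abs_mul, abs_mul]
      calc |Θ ‖z‖| * |kV κ 0 e i (z, v)| * |G i (cone t x (z, v))|
          ≤ 1 * (C2 i * (‖z‖ ^ 2)⁻¹) * NG (t - ‖z‖) := by
            gcongr
            · exact hΘm _
            · exact b2 i z v hz hv
        _ = _ := by ring
  -- the logarithmic term
  have tL : |∫ p : ZV, Θ ‖p.1‖ * kZ κ 0 e p * g (cone t x p)|
      ≤ cB P * (C3 * n0) * (Real.log 2 + Real.log (t / ε)) := by
    refine log_int_le (by positivity) hε hεt ?_ ?_
    · rintro z v hz (h | h | h)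
      · simp only [hΘn _ h.le, zero_mul]
      · simp only [hΘ0 _ h.le, zero_mul]
      · have : g (cone t x (z, v)) = 0 := (hP _ _ _ h).1
        simp only [this, mul_zero]
    · intro z v hz hv
      by_cases hzt : t ≤ ‖z‖
      · simp only [hΘ0 _ hzt, zero_mul, abs_zero]; positivity
      · have hF : |g (cone t x (z, v))| ≤ n0 :=
          (hn (t - ‖z‖) ⟨by linarith, by linarith [norm_nonneg z]⟩ (x + z) v).1
        rw [abs_mul, abs_mul]
        calc |Θ ‖z‖| * |kZ κ 0 e (z, v)| * |g (cone t x (z, v))|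
            ≤ 1 * (C3 * (‖z‖ ^ 3)⁻¹) * n0 := by
              gcongr
              · exact hΘm _
              · exact b3 z v hz hv
          _ = _ := by ring
  -- the radial term
  have hdΘ : ∀ r, deriv Θ r = -(deriv (th d) (t - r) * ch ε r) + ϑ r * deriv (ch ε) r := by
    intro r
    have h1 : HasDerivAt ϑ (deriv ϑ r) r := (hϑc.differentiable (by simp) r).hasDerivAt
    have h2 : HasDerivAt (ch ε) (deriv (ch ε) r) r := (hchc.differentiable (by simp) r).hasDerivAt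
    have h3 : HasDerivAt Θ (deriv ϑ r * ch ε r + ϑ r * deriv (ch ε) r) r := h1.mul h2
    rw [h3.deriv]
    have h4 : deriv ϑ r = - deriv (th d) (t - r) := deriv_thr d t r
    rw [h4]; ring
  have hthc : Continuous (deriv (th d)) := (th_smooth d).continuous_deriv (by simp)
  have hchd : Continuous (deriv (ch ε)) := (ch_smooth ε).continuous_deriv (by simp)
  obtain ⟨K1, hK1⟩ : ∃ K1 : ℝ, ∀ r ∈ Icc 0 t, |deriv (th d) (t - r)| ≤ K1 := by
    obtain ⟨K, hK⟩ := (isCompact_Icc (a := (0:ℝ)) (b := t)).exists_bound_of_continuousOn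
      (f := fun r => deriv (th d) (t - r)) (by fun_prop)
    exact ⟨K, hK⟩
  have iR1 : Integrable (fun p : ZV => (deriv (th d) (t - ‖p.1‖) * ch ε ‖p.1‖) * kR κ 0 e p
      * g (cone t x p)) := by
    refine integrable_RI (ϑ := fun r => deriv (th d) (t - r) * ch ε r) (R := t) (P := P)
      (C := |K1| * C4)
      hR.smooth.continuousOn (by fun_prop) hg.continuous (by positivity) ?_
      (fun s y v hv => (hP s y v hv).1) ?_
    · intro r hr
      simp only [th_deriv_zero hd (Or.inl (by linarith : t - r ≤ 0)), zero_mul]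
    · intro z v hz hzt hv
      have h1 := ch_mem ε ‖z‖
      rw [abs_mul, abs_mul]
      have k1 : |deriv (th d) (t - ‖z‖)| ≤ |K1| :=
        (hK1 _ ⟨norm_nonneg z, hzt⟩).trans (le_abs_self _)
      have k2 : |ch ε ‖z‖| ≤ 1 := by rw [abs_of_nonneg h1.1]; exact h1.2
      calc |deriv (th d) (t - ‖z‖)| * |ch ε ‖z‖| * |kR κ 0 e (z, v)|
          ≤ |K1| * 1 * (C4 * (‖z‖ ^ 2)⁻¹) :=
            mul_le_mul (mul_le_mul k1 k2 (abs_nonneg _) (abs_nonneg _)) (b4 z v hz hv)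
              (abs_nonneg _) (by positivity)
        _ = _ := by ring
  have iR2 : Integrable (fun p : ZV => (ϑ ‖p.1‖ * deriv (ch ε) ‖p.1‖) * kR κ 0 e p
      * g (cone t x p)) := by
    refine integrable_RI (ϑ := fun r => ϑ r * deriv (ch ε) r) (R := t) (P := P)
      (C := M / ε * C4)
      hR.smooth.continuousOn (hϑc.continuous.mul hchd) hg.continuous (by positivity) ?_
      (fun s y v hv => (hP s y v hv).1) ?_
    · intro r hr
      simp only [hϑ0 r hr.le, zero_mul]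
    · intro z v hz hzt hv
      have h1 := hϑm ‖z‖
      rw [abs_mul, abs_mul]
      calc |ϑ ‖z‖| * |deriv (ch ε) ‖z‖| * |kR κ 0 e (z, v)|
          ≤ 1 * (M / ε) * (C4 * (‖z‖ ^ 2)⁻¹) := by
            gcongr
            · rw [abs_of_nonneg h1.1]; exact h1.2
            · exact (hM ε ‖z‖ hε).1
            · exact b4 z v hz hv
        _ = _ := by ring
  have splitR : ∫ p : ZV, deriv Θ ‖p.1‖ * kR κ 0 e p * g (cone t x p)
      = -(∫ p : ZV, (deriv (th d) (t - ‖p.1‖) * ch ε ‖p.1‖) * kR κ 0 e p * g (cone t x p))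
        + ∫ p : ZV, (ϑ ‖p.1‖ * deriv (ch ε) ‖p.1‖) * kR κ 0 e p * g (cone t x p) := by
    have iR1' : Integrable (fun p : ZV => -((deriv (th d) (t - ‖p.1‖) * ch ε ‖p.1‖) * kR κ 0 e p
      * g (cone t x p))) := iR1.neg
    rw [← integral_neg, ← integral_add iR1' iR2]
    refine integral_congr_ae (Eventually.of_forall fun p => ?_)
    simp only [hdΘ]; ring
  have tR1 : |∫ p : ZV, (deriv (th d) (t - ‖p.1‖) * ch ε ‖p.1‖) * kR κ 0 e p * g (cone t x p)|
      ≤ cB P * C4 * a0 := by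
    have h := radial (k := 2) le_rfl (κ := kR κ 0 e) hC4 b4 (x := x) ht hd hdt (ψ := ch ε)
      (fun r => by rw [abs_of_nonneg (ch_mem ε r).1]; exact (ch_mem ε r).2)
      (fun s y v hv => (hP s y v hv).1) ha
    simpa using h
  have tR2 : |∫ p : ZV, (ϑ ‖p.1‖ * deriv (ch ε) ‖p.1‖) * kR κ 0 e p * g (cone t x p)|
      ≤ cB P * (M / ε * C4 * n0) * ε := by
    refine near_int_le (by positivity) hε ?_ ?_
    · rintro z v hz (h | h)
      · simp only [(hM ε ‖z‖ hε).2 (Or.inr h)]; ring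
      · have : g (cone t x (z, v)) = 0 := (hP _ _ _ h).1
        simp only [this, mul_zero]
    · intro z v hz hv
      have h1 := hϑm ‖z‖
      by_cases hzt : t ≤ ‖z‖
      · simp only [hϑ0 _ hzt, zero_mul, abs_zero]; positivity
      · have hF : |g (cone t x (z, v))| ≤ n0 :=
          (hn (t - ‖z‖) ⟨by linarith, by linarith [norm_nonneg z]⟩ (x + z) v).1
        rw [abs_mul, abs_mul, abs_mul]
        calc |ϑ ‖z‖| * |deriv (ch ε) ‖z‖| * |kR κ 0 e (z, v)| * |g (cone t x (z, v))|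
            ≤ 1 * (M / ε) * (C4 * (‖z‖ ^ 2)⁻¹) * n0 := by
              gcongr
              · rw [abs_of_nonneg h1.1]; exact h1.2
              · exact (hM ε ‖z‖ hε).1
              · exact b4 z v hz hv
          _ = _ := by ring
  have e2 : cB P * (M / ε * C4 * n0) * ε = cB P * (M * C4) * n0 := by field_simp
  rw [e2] at tR2
  -- conclusion
  have hNI : 0 ≤ ∫ s in (0:ℝ)..t, NG s :=
    intervalIntegral.integral_nonneg ht.le fun s hs => (abs_nonneg _).trans (hNG s hs 0 0 0)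
  have hlog : 0 ≤ Real.log (t / ε) := Real.log_nonneg ((one_le_div hε).2 hεt)
  have sV : |∑ i, ∫ p : ZV, Θ ‖p.1‖ * kV κ 0 e i p * G i (cone t x p)|
      ≤ cB P * (∑ i, C2 i) * ∫ s in (0:ℝ)..t, NG s := by
    refine (Finset.abs_sum_le_sum_abs _ _).trans ?_
    calc _ ≤ ∑ i, cB P * C2 i * ∫ s in (0:ℝ)..t, NG s := Finset.sum_le_sum fun i _ => tV i
      _ = _ := by rw [Finset.mul_sum, Finset.sum_mul]
  set S1 := ∑ i, ∫ p : ZV, Θ ‖p.1‖ * kV κ 0 e i p * G i (cone t x p)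
  set S2 := ∫ p : ZV, Θ ‖p.1‖ * kZ κ 0 e p * g (cone t x p)
  set S3 := ∫ p : ZV, (deriv (th d) (t - ‖p.1‖) * ch ε ‖p.1‖) * kR κ 0 e p * g (cone t x p)
  set S4 := ∫ p : ZV, (ϑ ‖p.1‖ * deriv (ch ε) ‖p.1‖) * kR κ 0 e p * g (cone t x p)
  rw [split, hdiv, splitR]
  set S0 := ∫ p : ZV, (ϑ ‖p.1‖ * (1 - ch ε ‖p.1‖)) * κ p * dxt 0 e g (cone t x p)
  have habs : |S0 + (-S1 - S2 - (-S3 + S4))| ≤ |S0| + |S1| + |S2| + |S3| + |S4| := by
    rw [abs_le]
    constructor <;> nlinarith [neg_abs_le S0, le_abs_self S0, neg_abs_le S1, le_abs_self S1,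
      neg_abs_le S2, le_abs_self S2, neg_abs_le S3, le_abs_self S3, neg_abs_le S4, le_abs_self S4]
  refine habs.trans ?_
  have t1 : cB P * (C1 * n1) * ε = cB P * C1 * (ε * n1) := by ring
  have t2 : cB P * (C3 * n0) * (Real.log 2 + Real.log (t / ε))
      ≤ cB P * C3 * (n0 * (1 + Real.log (t / ε))) := by
    have : cB P * (C3 * n0) * (Real.log 2 + Real.log (t / ε))
        ≤ cB P * (C3 * n0) * (1 + Real.log (t / ε)) := by
      gcongr
    refine this.trans (le_of_eq (by ring))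
  have t3 : cB P * (M * C4) * n0 ≤ cB P * (M * C4) * (n0 * (1 + Real.log (t / ε))) := by
    have : n0 * 1 ≤ n0 * (1 + Real.log (t / ε)) := by gcongr; linarith
    rw [mul_one] at this
    gcongr
  set X1 := n0 * (1 + Real.log (t / ε)) with hX1
  set X2 := ε * n1 with hX2
  set X3 := ∫ s in (0:ℝ)..t, NG s with hX3
  have hX1n : 0 ≤ X1 := by positivity
  have hX2n : 0 ≤ X2 := by positivity
  have total : cB P * C1 * X2 + cB P * (∑ i, C2 i) * X3 + cB P * C3 * X1 + cB P * C4 * a0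
      + cB P * (M * C4) * X1 ≤ cB P * (C1 + (∑ i, C2 i) + C3 + C4 + M * C4)
        * (a0 + X1 + X2 + X3) := by
    have hA : 0 ≤ a0 + X1 + X2 + X3 := by positivity
    have p1 : X2 ≤ a0 + X1 + X2 + X3 := by linarith
    have p2 : X3 ≤ a0 + X1 + X2 + X3 := by linarith
    have p3 : X1 ≤ a0 + X1 + X2 + X3 := by linarith
    have p4 : a0 ≤ a0 + X1 + X2 + X3 := by linarith
    calc _ ≤ cB P * C1 * (a0 + X1 + X2 + X3) + cB P * (∑ i, C2 i) * (a0 + X1 + X2 + X3)
          + cB P * C3 * (a0 + X1 + X2 + X3) + cB P * C4 * (a0 + X1 + X2 + X3)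
          + cB P * (M * C4) * (a0 + X1 + X2 + X3) := by gcongr
      _ = _ := by ring
  refine le_trans ?_ total
  rw [t1] at near
  linarith [tL.trans t2, tR2.trans t3]

end Grad

open Grad in
/-- **the logarithmic gradient estimate** -/
theorem coreGrad : CoreGrad := by
  intro P m hm a b e
  have hκ := k0_Hk hm
  set κ : ZV → ℝ := fun p : ZV => m p.2 * (4 * Real.pi * ‖p.1‖)⁻¹ with hκdef
  have hV := fun i : Fin 3 => kV_Hk hκ a b i
  have hZ : Hk 2 (kZ κ a b) := kZ_Hk hκ a b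
  have hR : Hk 1 (kR κ a b) := kR_Hk hκ a b
  choose C1 hC1 b1 using fun i : Fin 3 => supK P (hV i) 0 e
  obtain ⟨C2, hC2, b2⟩ := hk2 P hZ e
  obtain ⟨C3, hC3, b3⟩ := hR.bound P
  obtain ⟨C4, hC4, b4⟩ := hZ.bound P
  have hcB := cB_nonneg P
  have hs1 : 0 ≤ ∑ i, C1 i := Finset.sum_nonneg fun i _ => hC1 i
  refine ⟨2 * (∑ i, C1 i) + C2 + cB P * C3, by positivity, ?_⟩
  intro t d ε x g G H K a0 a1 b0 n0 n1 NG NH ht hd hdt hε hεt hg hG hH hK hP hT hTG ha hn hNG hNH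
    hNGi hNHi
  have ht0 : (0:ℝ) ∈ Icc 0 t := ⟨le_rfl, ht.le⟩
  have hd0 : (0:ℝ) ∈ Icc 0 d := ⟨le_rfl, hd.le⟩
  have hn0 : 0 ≤ n0 := (abs_nonneg _).trans (hn 0 ht0 0 0).1
  have hn1 : 0 ≤ n1 := (abs_nonneg _).trans (hn 0 ht0 0 0).2
  have ha0 : 0 ≤ a0 := (abs_nonneg _).trans (ha 0 hd0 0 0).1
  have ha1 : 0 ≤ a1 := (abs_nonneg _).trans (ha 0 hd0 0 0).2.1
  have hb0 : 0 ≤ b0 := (abs_nonneg _).trans ((ha 0 hd0 0 0).2.2 0)
  have hg1 : ContDiff ℝ 1 g := hg.of_le (by norm_num)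
  have hG1 : ∀ i, ContDiff ℝ 1 (G i) := fun i => (hG i).of_le (by norm_num)
  have hge : ContDiff ℝ 1 (dxt 0 e g) := dxt_contDiff (n := 1) (by exact_mod_cast hg) 0 e
  have hGe : ∀ i, ContDiff ℝ 1 (dxt 0 e (G i)) := fun i =>
    dxt_contDiff (n := 1) (by exact_mod_cast hG i) 0 e
  have hPg : ∀ (s : ℝ) (y v : R3), P < ‖v‖ → g (s, y, v) = 0 := fun s y v hv => (hP s y v hv).1
  have hPG : ∀ i, ∀ (s : ℝ) (y v : R3), P < ‖v‖ → G i (s, y, v) = 0 :=
    fun i s y v hv => ((hP s y v hv).2 i).1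
  have hPge : ∀ (s : ℝ) (y v : R3), P < ‖v‖ → dxt 0 e g (s, y, v) = 0 := dxt_zero_of hPg 0 e
  have hPGe : ∀ i, ∀ (s : ℝ) (y v : R3), P < ‖v‖ → dxt 0 e (G i) (s, y, v) = 0 :=
    fun i => dxt_zero_of (hPG i) 0 e
  have hTe : ∀ s ∈ Icc 0 t, ∀ y v : R3,
      Tr (dxt 0 e g) (s, y, v) = divv (fun i => dxt 0 e (G i)) (s, y, v) := fun s hs y v =>
    Tr_dxt hg hG (hT s hs) e y v
  set ϑ : ℝ → ℝ := fun r => th d (t - r) with hϑ
  have hϑc : ContDiff ℝ 1 ϑ := thr_contDiff d t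
  have hϑ0 : ∀ r, t ≤ r → ϑ r = 0 := fun r hr => th_zero hd (by linarith)
  have hϑm : ∀ r, 0 ≤ ϑ r ∧ ϑ r ≤ 1 := fun r => th_mem d _
  have hKB : KB 1 (fun p : ZV => ϑ ‖p.1‖ * κ p) := by
    simpa using (rad_KB hϑc).mul hκ.toKB
  have iZ : Integrable (fun p : ZV => ϑ ‖p.1‖ * kZ κ a b p * dxt 0 e g (cone t x p)) := by
    refine integrable_RI (ϑ := ϑ) (R := t) (P := P) (C := C4)
      hZ.smooth.continuousOn hϑc.continuous
      hge.continuous hC4 (fun r hr => hϑ0 r hr.le) hPge ?_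
    intro z v hz _ hv
    rw [abs_mul]
    calc |ϑ ‖z‖| * |kZ κ a b (z, v)| ≤ 1 * (C4 * (‖z‖ ^ 2)⁻¹) := by
          gcongr
          · rw [abs_of_nonneg (hϑm _).1]; exact (hϑm _).2
          · exact b4 z v hz hv
      _ = _ := one_mul _
  have hTϑ : ∀ p ∈ SS, ϑ ‖p.1‖ ≠ 0 → Tr (dxt 0 e g) (cone t x p)
      = (fun _ => (0:ℝ)) (cone t x p) + divv (fun i => dxt 0 e (G i)) (cone t x p) := by
    intro p _ hne
    have hlt : ‖p.1‖ < t := by
      by_contra hge
      exact hne (hϑ0 _ (not_lt.1 hge))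
    rw [zero_add]
    exact hTe (t - ‖p.1‖) ⟨by linarith, by linarith [norm_nonneg p.1]⟩ (x + p.1) p.2
  have hdiv := division_rad (t := t) (x := x) hκ hϑc hKB (P := P) hϑ0 hge hGe
    (h := fun _ => (0:ℝ)) continuous_const
    (fun s y v hv => ⟨hPge s y v hv, fun i => hPGe i s y v hv, rfl⟩) hTϑ a b iZ
  simp only [mul_zero, integral_zero, zero_sub] at hdiv
  -- first term
  have t1 : ∀ i, |∫ p : ZV, ϑ ‖p.1‖ * kV κ a b i p * dxt 0 e (G i) (cone t x p)|
      ≤ C1 i * (t * b0 + (∫ s in (0:ℝ)..t, NG s) + (∫ s in (0:ℝ)..t, (t - s) * (NH s + NH s))) := by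
    intro i
    refine b1 i t d x (G i) (H i) (K i) b0 NG NH NH ht hd hdt (hG1 i) (fun j => hK i j) (hH i)
      (fun s y v hv => ⟨hPG i s y v hv, fun j => ((hP s y v hv).2 i).2.2 j,
        ((hP s y v hv).2 i).2.1⟩)
      (fun s hs y v => hTG s hs i y v) (fun s hs y v => (ha s hs y v).2.2 i)
      (fun s hs y v => hNG s hs i y v) (fun s hs j y v => (hNH s hs i y v).2 j)
      (fun s hs y v => (hNH s hs i y v).1) hNGi hNHi hNHi
  -- second term
  have t2 := b2 t d ε x g G a0 n0 n1 NG ht hd hdt hε hεt hg hG1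
    (fun s y v hv => ⟨hPg s y v hv, fun i => hPG i s y v hv⟩) hT
    (fun s hs y v => (ha s hs y v).1) hn hNG hNGi
  -- third term
  have t3 : |∫ p : ZV, deriv ϑ ‖p.1‖ * kR κ a b p * dxt 0 e g (cone t x p)|
      ≤ cB P * C3 * (t * a1) := by
    have h := radial (k := 1) (by norm_num) (κ := kR κ a b) hC3 b3 (x := x) ht hd hdt
      (ψ := fun _ => (1:ℝ)) (fun r => by simp) hPge (fun s hs y v => (ha s hs y v).2.1)
    have e1 : ∫ p : ZV, deriv ϑ ‖p.1‖ * kR κ a b p * dxt 0 e g (cone t x p)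
        = - ∫ p : ZV, (deriv (th d) (t - ‖p.1‖) * 1) * kR κ a b p * dxt 0 e g (cone t x p) := by
      rw [← integral_neg]
      refine integral_congr_ae (Eventually.of_forall fun p => ?_)
      simp only [hϑ, deriv_thr]; ring
    rw [e1, abs_neg]
    simpa using h
  have hNI : 0 ≤ ∫ s in (0:ℝ)..t, NG s :=
    intervalIntegral.integral_nonneg ht.le fun s hs => (abs_nonneg _).trans (hNG s hs 0 0 0)
  have hNHI : 0 ≤ ∫ s in (0:ℝ)..t, (t - s) * NH s :=
    intervalIntegral.integral_nonneg ht.le fun s hs =>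
      mul_nonneg (by linarith [hs.2]) ((abs_nonneg _).trans (hNH s hs 0 0 0).1)
  have hlog : 0 ≤ Real.log (t / ε) := Real.log_nonneg ((one_le_div hε).2 hεt)
  have e2 : ∫ s in (0:ℝ)..t, (t - s) * (NH s + NH s) = 2 * ∫ s in (0:ℝ)..t, (t - s) * NH s := by
    rw [← intervalIntegral.integral_const_mul]
    congr 1
    funext s; ring
  simp only [e2] at t1
  have s1 : |∑ i, ∫ p : ZV, ϑ ‖p.1‖ * kV κ a b i p * dxt 0 e (G i) (cone t x p)|
      ≤ (∑ i, C1 i) * (t * b0 + (∫ s in (0:ℝ)..t, NG s) + 2 * ∫ s in (0:ℝ)..t, (t - s) * NH s) := by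
    refine (Finset.abs_sum_le_sum_abs _ _).trans ?_
    rw [Finset.sum_mul]
    exact Finset.sum_le_sum fun i _ => t1 i
  have hW : Wth d m (dxt a b (dxt 0 e g)) t x
      = ∫ p : ZV, ϑ ‖p.1‖ * κ p * dxt a b (dxt 0 e g) (cone t x p) := rfl
  rw [hW, hdiv]
  set S1 := ∑ i, ∫ p : ZV, ϑ ‖p.1‖ * kV κ a b i p * dxt 0 e (G i) (cone t x p)
  have t2' : |∫ p : ZV, ϑ ‖p.1‖ * kZ κ a b p * dxt 0 e g (cone t x p)|
      ≤ C2 * (a0 + n0 * (1 + Real.log (t / ε)) + ε * n1 + (∫ s in (0:ℝ)..t, NG s)) := t2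
  set S2 := ∫ p : ZV, ϑ ‖p.1‖ * kZ κ a b p * dxt 0 e g (cone t x p)
  set S3 := ∫ p : ZV, deriv ϑ ‖p.1‖ * kR κ a b p * dxt 0 e g (cone t x p)
  have habs : |-S1 - S2 - S3| ≤ |S1| + |S2| + |S3| := by
    rw [abs_le]
    constructor <;> linarith [neg_abs_le S1, le_abs_self S1,
      neg_abs_le S2, le_abs_self S2, neg_abs_le S3, le_abs_self S3]
  refine habs.trans ?_
  set X1 := n0 * (1 + Real.log (t / ε)) with hX1
  set X2 := ε * n1 with hX2
  set X3 := ∫ s in (0:ℝ)..t, NG s with hX3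
  set X4 := ∫ s in (0:ℝ)..t, (t - s) * NH s with hX4
  set X5 := t * b0 with hX5
  set X6 := t * a1 with hX6
  have hX1n : 0 ≤ X1 := by positivity
  have hX2n : 0 ≤ X2 := by positivity
  have hX5n : 0 ≤ X5 := by positivity
  have hX6n : 0 ≤ X6 := by positivity
  have A : (∑ i, C1 i) * (X5 + X3 + 2 * X4) ≤ 2 * (∑ i, C1 i) * (X6 + a0 + X5 + X1 + X2 + X3 + X4) := by
    have : X5 + X3 + 2 * X4 ≤ 2 * (X6 + a0 + X5 + X1 + X2 + X3 + X4) := by linarith
    calc _ ≤ (∑ i, C1 i) * (2 * (X6 + a0 + X5 + X1 + X2 + X3 + X4)) := by gcongr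
      _ = _ := by ring
  have B : C2 * (a0 + X1 + X2 + X3) ≤ C2 * (X6 + a0 + X5 + X1 + X2 + X3 + X4) := by
    gcongr ?_ * ?_
    linarith
  have D : cB P * C3 * X6 ≤ cB P * C3 * (X6 + a0 + X5 + X1 + X2 + X3 + X4) := by
    have : X6 ≤ X6 + a0 + X5 + X1 + X2 + X3 + X4 := by linarith
    gcongr
  calc |S1| + |S2| + |S3| ≤ 2 * (∑ i, C1 i) * (X6 + a0 + X5 + X1 + X2 + X3 + X4)
        + C2 * (X6 + a0 + X5 + X1 + X2 + X3 + X4)
        + cB P * C3 * (X6 + a0 + X5 + X1 + X2 + X3 + X4) := by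
        linarith [s1.trans A, t2'.trans B, t3.trans D]
    _ = _ := by ring

end Crest.Agent.R106.Gs2
end

-- ▼ part R106/Gs2GradEst
section

set_option autoImplicit false

namespace Crest.Agent.R106.Gs2

theorem gradEst : GradEst := gradEst_of_core coreGrad

end Crest.Agent.R106.Gs2
end

-- ▼ part R106/StdTop
section

/-!
# Row 106, STANDARD PART: top link (helper775).

`truncEx_of` : the truncated system has global smooth solutions, from `FB`, `FBz`, `FBlog`.
`truncEx` : the same, unconditional.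
-/

set_option autoImplicit false

namespace Crest.Agent.R106.Std

/-- global existence for the truncated system from the open leaves of `StdIface.lean`. -/
theorem truncEx_of (hFB : FB) (hFBz : FBz) (hFBlog : FBlog) : TruncEx :=
  Lim.truncEx
    (picEx trunc (stepEx flow src R106.Max.max)
      (pic (b0_of_fb hFB) (b1_of hFBlog tr1) (bk_of hFB trk) (IterC.cdiff hFBz tr0)) TB.tb)
    sLim sLim l2Clause

/-- **THE STANDARD PART OF ROW 106**: the truncated system has global smooth solutions. -/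
theorem truncEx : TruncEx :=
  truncEx_of (FBDir.fb Gs2.supEst) (FBDir.fbz Gs2.supEst) (FieldStd.fbLog (Field.gslogU Gs2.gradEst))

end Crest.Agent.R106.Std
end

-- ▼ part R106/FBlogTop

/-! Row 106 (helper835): node FBlog complete. -/

namespace Crest.Agent.R106.Std

theorem fbLog : FBlog := FieldStd.fbLog (Field.gslogU Gs2.gradEst)

end Crest.Agent.R106.Std
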