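import Crest.Agent.R106.FlowF
import Crest.Agent.R106.Trunc
import Crest.Agent.R106.ConeMu
import Crest.Agent.R106.MomIface
import Crest.Agent.R106.Clamp

-- ▼ part R106/FlowLiou
section

/-!
Row 106, module FLOW: Liouville's theorem. For a divergence free vector field the flow has
Jacobian one and preserves every Haar measure.
-/

set_option autoImplicit false
set_option linter.unusedSectionVars false

open Set Filter Topology MeasureTheory
open scoped ContDiff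
open Crest.AnalysisR.VecCalc3 Crest.AnalysisR.PDE.RVM

noncomputable section

namespace Crest.Agent.R106.Flow

section det

variable {Z : Type} [NormedAddCommGroup Z] [NormedSpace ℝ Z] [FiniteDimensional ℝ Z]

lemma clm_det_eq {ι : Type} [Fintype ι] [DecidableEq ι] (b : Module.Basis ι ℝ Z)
    (s : Z →L[ℝ] Z) : s.det = (LinearMap.toMatrix b b (s : Z →ₗ[ℝ] Z)).det := by
  rw [LinearMap.det_toMatrix]

lemma differentiable_clm_det : Differentiable ℝ (fun s : Z →L[ℝ] Z => s.det) := by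
  set b := Module.finBasis ℝ Z with hb
  have h : (fun s : Z →L[ℝ] Z => s.det) = fun s =>
      ∑ σ : Equiv.Perm (Fin (Module.finrank ℝ Z)),
      ((Equiv.Perm.sign σ : ℤ) : ℝ) * ∏ i, (LinearMap.toContinuousLinearMap (b.coord (σ i)))
        (s (b i)) := by
    ext s
    rw [clm_det_eq b, Matrix.det_apply']
    simp [LinearMap.toMatrix_apply]
  rw [h]
  fun_prop

/-- Derivative of the determinant at the identity. -/
theorem hasDerivAt_det_of_one {A : ℝ → Z →L[ℝ] Z} {A' : Z →L[ℝ] Z} {s : ℝ}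
    (hA : HasDerivAt A A' s) (h1 : A s = 1) :
    HasDerivAt (fun r => (A r).det) (LinearMap.trace ℝ Z (A' : Z →ₗ[ℝ] Z)) s := by
  have hd := (differentiable_clm_det (Z := Z) (A s)).hasFDerivAt
  have h2 := hd.comp_hasDerivAt s hA
  refine h2.congr_deriv ?_
  have h3 : HasDerivAt (fun t : ℝ => 1 + t • A') A' 0 := by
    simpa using ((hasDerivAt_id (0 : ℝ)).smul_const A').const_add (1 : Z →L[ℝ] Z)
  have h4 : HasFDerivAt (fun s : Z →L[ℝ] Z => s.det)
      (fderiv ℝ (fun s : Z →L[ℝ] Z => s.det) (A s)) (1 + (0 : ℝ) • A') := by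
    rw [zero_smul, add_zero, ← h1]; exact hd
  have h5 := h4.comp_hasDerivAt (0 : ℝ) h3
  set b := Module.finBasis ℝ Z
  set M := LinearMap.toMatrix b b (A' : Z →ₗ[ℝ] Z) with hM
  have h6 : ∀ t : ℝ, (1 + t • A' : Z →L[ℝ] Z).det = 1 + M.trace * t +
      (Matrix.det (1 + (Polynomial.X : Polynomial ℝ) • M.map Polynomial.C)).divX.divX.eval t
        * t ^ 2 := by
    intro t
    rw [clm_det_eq b, ← Matrix.det_one_add_smul]
    congr 1
    simp [hM, LinearMap.toMatrix_one]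
  have h7 : HasDerivAt (fun t : ℝ => (1 + t • A' : Z →L[ℝ] Z).det) M.trace 0 := by
    have hp := ((Matrix.det (1 + (Polynomial.X : Polynomial ℝ) • M.map Polynomial.C)).divX.divX).hasDerivAt (0 : ℝ)
    have h8 := (((hasDerivAt_id (0 : ℝ)).const_mul M.trace).const_add 1).add
      (hp.mul ((hasDerivAt_id (0:ℝ)).pow 2))
    refine (h8.congr_deriv (by simp)).congr_of_eventuallyEq (Eventually.of_forall fun t => ?_)
    simp [h6 t]
  rw [h5.unique h7, LinearMap.trace_eq_matrix_trace ℝ b]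

end det

section liou

variable {Z : Type} [NormedAddCommGroup Z] [NormedSpace ℝ Z] [FiniteDimensional ℝ Z]
  [CompleteSpace Z] [ProperSpace Z] {V : ℝ → Z → Z}

/-- The linearised flow at the starting time. -/
theorem hasDerivAt_fderiv_Ψ_self (h : GoodR 2 V) (s : ℝ) (w : Z) :
    HasDerivAt (fun r => fderiv ℝ (Ψ V r s) w) (fderiv ℝ (V s) w) s := by
  have h1 : GoodR 1 V := h.mono (by norm_num)
  set G : ℝ × Z → Z := fun p => Ψ V p.1 s p.2 with hG
  have hG2 : ContDiff ℝ 2 G := by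
    have h2 := contDiff_Ψ_joint (n := 2) (by norm_num) h
    have h3 : ContDiff ℝ 2 (fun p : ℝ × Z => ((p.1, s, p.2) : ℝ × ℝ × Z)) :=
      contDiff_fst.prodMk (contDiff_const.prodMk contDiff_snd)
    have h4 := ContDiff.comp (g := fun q : ℝ × ℝ × Z => Ψ V q.1 q.2.1 q.2.2)
      (f := fun p : ℝ × Z => ((p.1, s, p.2) : ℝ × ℝ × Z)) h2 h3
    exact h4
  have hGd : Differentiable ℝ G := hG2.differentiable (by norm_num)
  have hG1 : ContDiff ℝ 1 (fderiv ℝ G) := hG2.fderiv_right (by norm_num)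
  have hG1d : Differentiable ℝ (fderiv ℝ G) := hG1.differentiable (by norm_num)
  -- the partial derivative in `z`
  have hpz : ∀ r z, fderiv ℝ (Ψ V r s) z =
      (fderiv ℝ G (r, z)).comp (ContinuousLinearMap.inr ℝ ℝ Z) := by
    intro r z
    have h3 : HasFDerivAt (fun z : Z => ((r, z) : ℝ × Z)) (ContinuousLinearMap.inr ℝ ℝ Z) z :=
      hasFDerivAt_prodMk_right r z
    exact ((hGd (r, z)).hasFDerivAt.comp z h3).fderiv
  -- the partial derivative in time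
  have hpt : ∀ r z, fderiv ℝ G (r, z) (1, 0) = V r (Ψ V r s z) := by
    intro r z
    have h3 : HasDerivAt (fun r : ℝ => ((r, z) : ℝ × Z)) (1, 0) r :=
      (hasDerivAt_id r).prodMk (hasDerivAt_const r z)
    have h4 := (hGd (r, z)).hasFDerivAt.comp_hasDerivAt r h3
    exact h4.unique (hasDerivAt_Ψ h1 r s z)
  have h5 : HasDerivAt (fun r : ℝ => fderiv ℝ G (r, w)) (fderiv ℝ (fderiv ℝ G) (s, w) (1, 0)) s := by
    have h3 : HasDerivAt (fun r : ℝ => ((r, w) : ℝ × Z)) (1, 0) s :=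
      (hasDerivAt_id s).prodMk (hasDerivAt_const s w)
    exact (hG1d (s, w)).hasFDerivAt.comp_hasDerivAt s h3
  have h6 : HasDerivAt (fun r => fderiv ℝ (Ψ V r s) w)
      ((fderiv ℝ (fderiv ℝ G) (s, w) (1, 0)).comp (ContinuousLinearMap.inr ℝ ℝ Z)) s := by
    have h7 := h5.clm_comp (hasDerivAt_const s (ContinuousLinearMap.inr ℝ ℝ Z))
    have e1 : (fun r => fderiv ℝ (Ψ V r s) w) =
        fun r => (fderiv ℝ G (r, w)).comp (ContinuousLinearMap.inr ℝ ℝ Z) := by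
      funext r; exact hpz r w
    rw [e1]
    simpa using h7
  refine h6.congr_deriv ?_
  ext ζ
  simp only [ContinuousLinearMap.comp_apply, ContinuousLinearMap.inr_apply]
  have hsym : fderiv ℝ (fderiv ℝ G) (s, w) (1, 0) (0, ζ) =
      fderiv ℝ (fderiv ℝ G) (s, w) (0, ζ) (1, 0) :=
    (hG2.contDiffAt.isSymmSndFDerivAt (by simp)).eq _ _
  rw [hsym]
  -- differentiate `z ↦ fderiv G (s,z) (1,0) = V s z`
  have h8 : HasFDerivAt (fun z : Z => fderiv ℝ G (s, z) (1, 0))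
      (((ContinuousLinearMap.apply ℝ Z ((1 : ℝ), (0 : Z))).comp
        (fderiv ℝ (fderiv ℝ G) (s, w))).comp (ContinuousLinearMap.inr ℝ ℝ Z)) w := by
    have h3 : HasFDerivAt (fun z : Z => ((s, z) : ℝ × Z)) (ContinuousLinearMap.inr ℝ ℝ Z) w :=
      hasFDerivAt_prodMk_right s w
    have h9 : HasFDerivAt (fun p : ℝ × Z => fderiv ℝ G p (1, 0))
        ((ContinuousLinearMap.apply ℝ Z ((1 : ℝ), (0 : Z))).comp
          (fderiv ℝ (fderiv ℝ G) (s, w))) (s, w) :=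
      (ContinuousLinearMap.apply ℝ Z ((1 : ℝ), (0 : Z))).hasFDerivAt.comp (s, w)
        (hG1d (s, w)).hasFDerivAt
    exact h9.comp w h3
  have h10 : (fun z : Z => fderiv ℝ G (s, z) (1, 0)) = V s := by
    funext z
    rw [hpt, Ψ_self h1]
  rw [h10] at h8
  rw [h8.fderiv]
  rfl

theorem fderiv_Ψ_self (h : GoodR 1 V) (s : ℝ) (w : Z) : fderiv ℝ (Ψ V s s) w = 1 := by
  have h1 : Ψ V s s = id := by
    funext z; exact Ψ_self h s z
  rw [h1, fderiv_id]
  rfl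

lemma fderiv_Ψ_comp (h : GoodR 1 V) (r s t : ℝ) (z : Z) :
    fderiv ℝ (Ψ V r t) z = (fderiv ℝ (Ψ V r s) (Ψ V s t z)).comp (fderiv ℝ (Ψ V s t) z) := by
  have h1 : Ψ V r t = Ψ V r s ∘ Ψ V s t := by
    funext z; exact (Ψ_Ψ h r s t z).symm
  rw [h1]
  exact fderiv_comp z (((contDiff_Ψ le_rfl h r s).differentiable (by norm_num)) _)
    (((contDiff_Ψ le_rfl h s t).differentiable (by norm_num)) _)


/-- Liouville: the derivative of the Jacobian. -/
theorem hasDerivAt_det_Ψ (h : GoodR 2 V) (s t : ℝ) (z : Z) :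
    HasDerivAt (fun r => (fderiv ℝ (Ψ V r t) z).det)
      (LinearMap.trace ℝ Z (fderiv ℝ (V s) (Ψ V s t z) : Z →ₗ[ℝ] Z)
        * (fderiv ℝ (Ψ V s t) z).det) s := by
  have h1 : GoodR 1 V := h.mono (by norm_num)
  have h2 := (hasDerivAt_det_of_one (hasDerivAt_fderiv_Ψ_self h s (Ψ V s t z))
    (fderiv_Ψ_self h1 s _)).mul_const (fderiv ℝ (Ψ V s t) z).det
  have e1 : (fun r => (fderiv ℝ (Ψ V r t) z).det) =
      fun r => (fderiv ℝ (Ψ V r s) (Ψ V s t z)).det * (fderiv ℝ (Ψ V s t) z).det := by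
    funext r
    rw [fderiv_Ψ_comp h1 r s t z]
    simp [ContinuousLinearMap.det, LinearMap.det_comp]
  rw [e1]
  exact h2

/-- Liouville: a divergence free field has a flow with Jacobian one. -/
theorem det_Ψ (h : GoodR 2 V)
    (hdiv : ∀ t z, LinearMap.trace ℝ Z (fderiv ℝ (V t) z : Z →ₗ[ℝ] Z) = 0) (s t : ℝ) (z : Z) :
    (fderiv ℝ (Ψ V s t) z).det = 1 := by
  have h1 : GoodR 1 V := h.mono (by norm_num)
  have h2 : ∀ r, HasDerivAt (fun r => (fderiv ℝ (Ψ V r t) z).det) 0 r := by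
    intro r
    have h3 := hasDerivAt_det_Ψ h r t z
    rwa [hdiv, zero_mul] at h3
  have h4 : (fun r => (fderiv ℝ (Ψ V r t) z).det) s = (fun r => (fderiv ℝ (Ψ V r t) z).det) t :=
    is_const_of_deriv_eq_zero (fun r => (h2 r).differentiableAt) (fun r => (h2 r).deriv) s t
  simp only at h4
  rw [h4, fderiv_Ψ_self h1]
  simp [ContinuousLinearMap.det]

end liou

section mp

variable {Z : Type} [NormedAddCommGroup Z] [NormedSpace ℝ Z] [FiniteDimensional ℝ Z]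
  [MeasurableSpace Z] [BorelSpace Z]

/-- A differentiable bijection with `|det| = 1` whose inverse is also such preserves Haar
measure. -/
theorem measurePreserving_of_det_one (μ : Measure Z) [μ.IsAddHaarMeasure] (e : Z ≃ₜ Z)
    (hd : ∀ z, DifferentiableAt ℝ e z) (hdet : ∀ z, |(fderiv ℝ e z).det| = 1) :
    MeasurePreserving e μ μ := by
  have himg : ∀ A : Set Z, MeasurableSet A → μ (e '' A) = μ A := by
    intro A hA
    rw [← lintegral_abs_det_fderiv_eq_addHaar_image μ hA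
      (fun z _ => (hd z).hasFDerivAt.hasFDerivWithinAt) e.injective.injOn]
    simp [hdet]
  refine ⟨e.continuous.measurable, ?_⟩
  ext A hA
  rw [Measure.map_apply e.continuous.measurable hA]
  have h1 := himg (e ⁻¹' A) (e.continuous.measurable hA)
  rw [← h1, image_preimage_eq _ e.surjective]

end mp

section mpΨ

variable {Z : Type} [NormedAddCommGroup Z] [NormedSpace ℝ Z] [FiniteDimensional ℝ Z]
  [CompleteSpace Z] [ProperSpace Z] {V : ℝ → Z → Z} [MeasurableSpace Z] [BorelSpace Z]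


end mpΨ

/-! ### phase space -/

/-- Trace of an operator on a product. -/
lemma trace_prod {X Y : Type} [NormedAddCommGroup X] [NormedSpace ℝ X] [NormedAddCommGroup Y]
    [NormedSpace ℝ Y] {ι κ : Type} [Fintype ι] [Fintype κ] [DecidableEq ι] [DecidableEq κ]
    (b : Module.Basis ι ℝ X) (c : Module.Basis κ ℝ Y) (L : (X × Y) →ₗ[ℝ] (X × Y)) :
    LinearMap.trace ℝ (X × Y) L = ∑ i, b.repr (L (b i, 0)).1 i + ∑ j, c.repr (L (0, c j)).2 j := by
  rw [LinearMap.trace_eq_matrix_trace ℝ (b.prod c)]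
  simp [Matrix.trace, LinearMap.toMatrix_apply, Fintype.sum_sum_type]

lemma trace_CF {F : ℝ → R3 → R3 → R3} (h : GoodForce 1 F) (t : ℝ) (z : R3 × R3) :
    LinearMap.trace ℝ (R3 × R3) (fderiv ℝ (CF F t) z : R3 × R3 →ₗ[ℝ] R3 × R3) =
      div3 (F t z.1) z.2 := by
  obtain ⟨x, v⟩ := z
  set b := (EuclideanSpace.basisFun (Fin 3) ℝ).toBasis with hb
  rw [trace_prod b b]
  have hFd : Differentiable ℝ (fun p : ℝ × R3 × R3 => F p.1 p.2.1 p.2.2) :=
    h.smooth.differentiable (by norm_num)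
  have hud : Differentiable ℝ relVel := (contDiff_relVel (n := 1)).differentiable (by norm_num)
  have hF2 : HasFDerivAt (fun z : R3 × R3 => F t z.1 z.2)
      ((fderiv ℝ (fun p : ℝ × R3 × R3 => F p.1 p.2.1 p.2.2) (t, x, v)).comp
        (ContinuousLinearMap.inr ℝ ℝ (R3 × R3))) (x, v) :=
    HasFDerivAt.comp (g := fun p : ℝ × R3 × R3 => F p.1 p.2.1 p.2.2)
      (f := fun z : R3 × R3 => ((t, z) : ℝ × R3 × R3)) (x, v) (hFd (t, x, v)).hasFDerivAt
      (hasFDerivAt_prodMk_right t (x, v))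
  have hu2 : HasFDerivAt (fun z : R3 × R3 => relVel z.2)
      ((fderiv ℝ relVel v).comp (ContinuousLinearMap.snd ℝ R3 R3)) (x, v) :=
    HasFDerivAt.comp (g := relVel) (f := fun z : R3 × R3 => z.2) (x, v) (hud v).hasFDerivAt
      hasFDerivAt_snd
  have hCF : HasFDerivAt (CF F t) (((fderiv ℝ relVel v).comp
      (ContinuousLinearMap.snd ℝ R3 R3)).prod
      ((fderiv ℝ (fun p : ℝ × R3 × R3 => F p.1 p.2.1 p.2.2) (t, x, v)).comp
        (ContinuousLinearMap.inr ℝ ℝ (R3 × R3)))) (x, v) := hu2.prodMk hF2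
  have hFv : HasFDerivAt (F t x)
      (((fderiv ℝ (fun p : ℝ × R3 × R3 => F p.1 p.2.1 p.2.2) (t, x, v)).comp
        (ContinuousLinearMap.inr ℝ ℝ (R3 × R3))).comp (ContinuousLinearMap.inr ℝ R3 R3)) v :=
    HasFDerivAt.comp (g := fun z : R3 × R3 => F t z.1 z.2)
      (f := fun w : R3 => ((x, w) : R3 × R3)) v hF2 (hasFDerivAt_prodMk_right x v)
  rw [hCF.fderiv]
  have e1 : ∀ i : Fin 3, pderiv (fun y => F t x y i) i v =
      (fderiv ℝ (fun p : ℝ × R3 × R3 => F p.1 p.2.1 p.2.2) (t, x, v)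
        (0, 0, EuclideanSpace.single i 1)) i := by
    intro i
    have h2 : HasFDerivAt (fun y => F t x y i) _ v :=
      (EuclideanSpace.proj (𝕜 := ℝ) i : R3 →L[ℝ] ℝ).hasFDerivAt.comp v hFv
    rw [pderiv, h2.fderiv]
    simp
  simp only [div3, e1]
  simp [hb]

instance isAddHaarMeasure_volume_R3_prod : (volume : Measure (R3 × R3)).IsAddHaarMeasure := by
  rw [Measure.volume_eq_prod]; infer_instance

/-- Liouville for characteristics of a force with `div_v F = 0`. -/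
theorem det_Ξ {F : ℝ → R3 → R3 → R3} (h : GoodForce 2 F) (hdiv : ∀ t x v, div3 (F t x) v = 0)
    (s t : ℝ) (z : R3 × R3) : (fderiv ℝ (Ξ F s t) z).det = 1 :=
  det_Ψ (goodR_CF h) (fun t z => by rw [trace_CF (h.mono (by norm_num)), hdiv]) s t z




end Crest.Agent.R106.Flow
end
end

-- ▼ part R106/FlowU
section

/-!
Row 106, module FLOW: characteristics of a force which is only bounded for bounded positions
(automatic for `E + u(v) × B` with continuous fields), on all of `ℝ × R3 × R3`.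
-/

set_option autoImplicit false
set_option linter.unusedSectionVars false

open Set Filter Topology MeasureTheory
open scoped ContDiff
open Crest.AnalysisR.VecCalc3 Crest.AnalysisR.PDE.RVM

noncomputable section

namespace Crest.Agent.R106.Flow

/-- The force is `C^n` on `ℝ × R3 × R3` and bounded for bounded times and positions. -/
structure LocForce (n : ℕ∞) (F : ℝ → R3 → R3 → R3) : Prop where
  smooth : ContDiff ℝ n (fun p : ℝ × R3 × R3 => F p.1 p.2.1 p.2.2)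
  bdd : ∀ T R : ℝ, ∃ C : ℝ, ∀ t ∈ Icc (-T) T, ∀ x : R3, ‖x‖ ≤ R → ∀ v, ‖F t x v‖ ≤ C

lemma LocForce.mono {n m : ℕ∞} {F : ℝ → R3 → R3 → R3} (h : LocForce n F) (hm : m ≤ n) :
    LocForce m F := ⟨h.smooth.of_le (by exact_mod_cast hm), h.bdd⟩

/-- Smooth cut-off, equal to one on the ball of radius `R`. -/
def bmp (R : ℝ) : ContDiffBump (0 : R3) :=
  ⟨max R 1, max R 1 + 1, lt_of_lt_of_le one_pos (le_max_right _ _), by linarith⟩

lemma bmp_one {R : ℝ} {x : R3} (hx : ‖x‖ ≤ R) : bmp R x = 1 := by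
  apply ContDiffBump.one_of_mem_closedBall
  simp only [Metric.mem_closedBall, dist_zero_right]
  exact hx.trans (le_max_left _ _)

lemma bmp_zero {R : ℝ} {x : R3} (hx : max R 1 + 1 ≤ ‖x‖) : bmp R x = 0 := by
  apply ContDiffBump.zero_of_le_dist
  simpa [bmp] using hx

lemma contDiff_bmp {n : ℕ∞} (R : ℝ) : ContDiff ℝ n (bmp R : R3 → ℝ) := (bmp R).contDiff

/-- The force cut off at positions of norm `R`. -/
def cut (R : ℝ) (F : ℝ → R3 → R3 → R3) (t : ℝ) (x v : R3) : R3 := bmp R x • F t x v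

lemma cut_eq {R : ℝ} {F : ℝ → R3 → R3 → R3} {x : R3} (hx : ‖x‖ ≤ R) (t : ℝ) (v : R3) :
    cut R F t x v = F t x v := by
  rw [cut, bmp_one hx, one_smul]

variable {n : ℕ∞} {F : ℝ → R3 → R3 → R3}

lemma LocForce.good (h : LocForce n F) (R : ℝ) : GoodForce n (cut R F) := by
  refine ⟨?_, fun T => ?_⟩
  · have h1 : ContDiff ℝ n (fun p : ℝ × R3 × R3 => bmp R p.2.1) :=
      (contDiff_bmp R).comp (contDiff_fst.comp contDiff_snd)
    exact h1.smul h.smooth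
  · obtain ⟨C, hC⟩ := h.bdd T (max R 1 + 1)
    refine ⟨max C 0, fun t ht x v => ?_⟩
    rcases le_total (‖x‖) (max R 1 + 1) with hx | hx
    · rw [cut, norm_smul, Real.norm_of_nonneg (bmp R).nonneg]
      refine (mul_le_of_le_one_left (norm_nonneg _) (bmp R).le_one).trans
        ((hC t ht x hx v).trans (le_max_left _ _))
    · rw [cut, bmp_zero hx, zero_smul, norm_zero]
      exact le_max_right _ _

/-- The positions stay in a ball. -/
lemma norm_Ξ_cut_le (h : LocForce 1 F) {R s t r : ℝ} {z : R3 × R3}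
    (hR : ‖z.1‖ + |s| + |t| ≤ R) (hr : r ∈ uIcc t s) : ‖(Ξ (cut R F) r t z).1‖ ≤ R := by
  have h1 := norm_Ξ_fst_sub_le (h.good R) r t z
  have h2 : |r - t| ≤ |s| + |t| := by
    have h3 := abs_sub_left_of_mem_uIcc hr
    exact h3.trans (abs_sub s t)
  have h4 := norm_sub_norm_le (Ξ (cut R F) r t z).1 z.1
  linarith

/-- The flows of two cut-off forces agree. -/
lemma Ξ_cut_eq (h : LocForce 1 F) {R R' s t : ℝ} {z : R3 × R3} (hR : ‖z.1‖ + |s| + |t| ≤ R)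
    (hR' : R ≤ R') : Ξ (cut R F) s t z = Ξ (cut R' F) s t z := by
  have hX : ∀ r ∈ uIcc t s, HasDerivWithinAt (fun r => (Ξ (cut R F) r t z).1)
      (relVel (Ξ (cut R F) r t z).2) (uIcc t s) r := fun r _ =>
    (hasDerivAt_Ξ_fst (h.good R) r t z).hasDerivWithinAt
  have hV : ∀ r ∈ uIcc t s, HasDerivWithinAt (fun r => (Ξ (cut R F) r t z).2)
      (cut R' F r (Ξ (cut R F) r t z).1 (Ξ (cut R F) r t z).2) (uIcc t s) r := by
    intro r hr
    have h1 := norm_Ξ_cut_le h hR hr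
    have h2 := hasDerivAt_Ξ_snd (h.good R) r t z
    rw [cut_eq h1] at h2
    rw [cut_eq (h1.trans hR')]
    exact h2.hasDerivWithinAt
  have h3 := eq_Ξ (h.good R') hX hV
  simp only [Ξ_self (h.good R), Prod.mk.eta] at h3
  exact h3

/-- The characteristic map of a locally bounded force: state at time `s` of the characteristic
which is at `z` at time `t`. -/
def Ξu (F : ℝ → R3 → R3 → R3) (s t : ℝ) (z : R3 × R3) : R3 × R3 :=
  Ξ (cut (‖z.1‖ + |s| + |t|) F) s t z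

lemma Ξu_eq (h : LocForce 1 F) {R s t : ℝ} {z : R3 × R3} (hR : ‖z.1‖ + |s| + |t| ≤ R) :
    Ξu F s t z = Ξ (cut R F) s t z := Ξ_cut_eq h le_rfl hR

lemma Ξu_eventuallyEq (h : LocForce 1 F) {R s t : ℝ} {z : R3 × R3}
    (hR : ‖z.1‖ + |s| + |t| < R) :
    (fun q : ℝ × ℝ × (R3 × R3) => Ξu F q.1 q.2.1 q.2.2) =ᶠ[𝓝 (s, t, z)]
      fun q => Ξ (cut R F) q.1 q.2.1 q.2.2 := by
  have hc : Continuous (fun q : ℝ × ℝ × (R3 × R3) => ‖q.2.2.1‖ + |q.1| + |q.2.1|) := by fun_prop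
  filter_upwards [(isOpen_lt hc continuous_const).mem_nhds hR] with q hq
  exact Ξu_eq h (le_of_lt hq)

@[simp] lemma Ξu_self (h : LocForce 1 F) (t : ℝ) (z : R3 × R3) : Ξu F t t z = z :=
  Ξ_self (h.good _) t z

/-- Speed less than one. -/
lemma norm_Ξu_fst_sub_le (h : LocForce 1 F) (s t : ℝ) (z : R3 × R3) :
    ‖(Ξu F s t z).1 - z.1‖ ≤ |s - t| := norm_Ξ_fst_sub_le (h.good _) s t z

lemma norm_Ξu_fst_le (h : LocForce 1 F) (s t : ℝ) (z : R3 × R3) :
    ‖(Ξu F s t z).1‖ ≤ ‖z.1‖ + |s| + |t| := by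
  have h1 := norm_Ξu_fst_sub_le h s t z
  have h4 := norm_sub_norm_le (Ξu F s t z).1 z.1
  have h5 := abs_sub s t
  linarith

theorem hasDerivAt_Ξu (h : LocForce 1 F) (s t : ℝ) (z : R3 × R3) :
    HasDerivAt (fun r => Ξu F r t z) (relVel (Ξu F s t z).2, F s (Ξu F s t z).1 (Ξu F s t z).2)
      s := by
  set R := ‖z.1‖ + |s| + |t| + 1 with hR
  have h0 : ‖z.1‖ + |s| + |t| < R := by linarith
  have h1 := hasDerivAt_Ξ (h.good R) s t z
  have h2 : ‖(Ξ (cut R F) s t z).1‖ ≤ R := norm_Ξ_cut_le h h0.le right_mem_uIcc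
  rw [cut_eq h2, ← Ξu_eq h h0.le] at h1
  refine h1.congr_of_eventuallyEq ?_
  have hc : Continuous (fun r : ℝ => ‖z.1‖ + |r| + |t|) := by fun_prop
  filter_upwards [(isOpen_lt hc continuous_const).mem_nhds h0] with r hr
  exact Ξu_eq h (le_of_lt hr)

lemma hasDerivAt_Ξu_fst (h : LocForce 1 F) (s t : ℝ) (z : R3 × R3) :
    HasDerivAt (fun r => (Ξu F r t z).1) (relVel (Ξu F s t z).2) s :=
  (ContinuousLinearMap.fst ℝ R3 R3).hasFDerivAt.comp_hasDerivAt s (hasDerivAt_Ξu h s t z)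

lemma hasDerivAt_Ξu_snd (h : LocForce 1 F) (s t : ℝ) (z : R3 × R3) :
    HasDerivAt (fun r => (Ξu F r t z).2) (F s (Ξu F s t z).1 (Ξu F s t z).2) s :=
  (ContinuousLinearMap.snd ℝ R3 R3).hasFDerivAt.comp_hasDerivAt s (hasDerivAt_Ξu h s t z)

/-- Uniqueness of characteristics. -/
theorem eq_Ξu (h : LocForce 1 F) {X V : ℝ → R3} {s t : ℝ}
    (hX : ∀ r ∈ uIcc t s, HasDerivWithinAt X (relVel (V r)) (uIcc t s) r)
    (hV : ∀ r ∈ uIcc t s, HasDerivWithinAt V (F r (X r) (V r)) (uIcc t s) r) :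
    (X s, V s) = Ξu F s t (X t, V t) := by
  have hXc : ContinuousOn X (uIcc t s) := fun r hr => (hX r hr).continuousWithinAt
  obtain ⟨C, hC⟩ := isCompact_uIcc.exists_bound_of_continuousOn hXc
  set R := max C (‖X t‖ + |s| + |t|) with hR
  have hV' : ∀ r ∈ uIcc t s, HasDerivWithinAt V (cut R F r (X r) (V r)) (uIcc t s) r := by
    intro r hr
    rw [cut_eq ((hC r hr).trans (le_max_left _ _))]
    exact hV r hr
  have h1 := eq_Ξ (h.good R) hX hV'
  have h2 : Ξu F s t (X t, V t) = Ξ (cut R F) s t (X t, V t) :=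
    Ξu_eq h (z := (X t, V t)) (R := R) (le_max_right C (‖X t‖ + |s| + |t|))
  rw [h2]
  exact h1

/-- Group law. -/
theorem Ξu_Ξu (h : LocForce 1 F) (r s t : ℝ) (z : R3 × R3) :
    Ξu F r s (Ξu F s t z) = Ξu F r t z := by
  have hX : ∀ q ∈ uIcc s r, HasDerivWithinAt (fun q => (Ξu F q t z).1)
      (relVel (Ξu F q t z).2) (uIcc s r) q := fun q _ =>
    (hasDerivAt_Ξu_fst h q t z).hasDerivWithinAt
  have hV : ∀ q ∈ uIcc s r, HasDerivWithinAt (fun q => (Ξu F q t z).2)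
      (F q (Ξu F q t z).1 (Ξu F q t z).2) (uIcc s r) q := fun q _ =>
    (hasDerivAt_Ξu_snd h q t z).hasDerivWithinAt
  have h1 := eq_Ξu h hX hV
  simpa using h1.symm

theorem contDiff_Ξu_joint (hn : 1 ≤ n) (h : LocForce n F) :
    ContDiff ℝ n (fun q : ℝ × ℝ × (R3 × R3) => Ξu F q.1 q.2.1 q.2.2) := by
  rw [contDiff_iff_contDiffAt]
  rintro ⟨s, t, z⟩
  have h0 : ‖z.1‖ + |s| + |t| < ‖z.1‖ + |s| + |t| + 1 := by linarith
  exact (contDiff_Ξ_joint hn (h.good (‖z.1‖ + |s| + |t| + 1))).contDiffAt.congr_of_eventuallyEq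
    (Ξu_eventuallyEq (h.mono hn) h0)

theorem contDiff_Ξu (hn : 1 ≤ n) (h : LocForce n F) (s t : ℝ) : ContDiff ℝ n (Ξu F s t) := by
  have h2 : ContDiff ℝ n (fun z : R3 × R3 => ((s, t, z) : ℝ × ℝ × (R3 × R3))) :=
    contDiff_const.prodMk (contDiff_const.prodMk contDiff_id)
  have h3 := ContDiff.comp (g := fun q : ℝ × ℝ × (R3 × R3) => Ξu F q.1 q.2.1 q.2.2)
    (f := fun z : R3 × R3 => ((s, t, z) : ℝ × ℝ × (R3 × R3))) (contDiff_Ξu_joint hn h) h2
  exact h3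


theorem continuous_Ξu (h : LocForce 1 F) (s t : ℝ) : Continuous (Ξu F s t) :=
  (contDiff_Ξu (n := 1) le_rfl h s t).continuous

/-- The characteristic map as a homeomorphism of phase space. -/
def homeoΞu (h : LocForce 1 F) (s t : ℝ) : (R3 × R3) ≃ₜ (R3 × R3) where
  toFun := Ξu F s t
  invFun := Ξu F t s
  left_inv z := by rw [Ξu_Ξu h, Ξu_self h]
  right_inv z := by rw [Ξu_Ξu h, Ξu_self h]
  continuous_toFun := continuous_Ξu h s t
  continuous_invFun := continuous_Ξu h t s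

@[simp] lemma homeoΞu_apply (h : LocForce 1 F) (s t : ℝ) (z : R3 × R3) :
    homeoΞu h s t z = Ξu F s t z := rfl

lemma div3_cut {F : ℝ → R3 → R3 → R3} (h : LocForce 1 F)
    (hdiv : ∀ t x v, div3 (F t x) v = 0) (R t : ℝ) (x v : R3) : div3 (cut R F t x) v = 0 := by
  have hd : ∀ i : Fin 3, DifferentiableAt ℝ (fun w => F t x w i) v := by
    intro i
    have h1 : Differentiable ℝ (fun p : ℝ × R3 × R3 => F p.1 p.2.1 p.2.2) :=
      h.smooth.differentiable (by norm_num)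
    have h2 : Differentiable ℝ (fun w : R3 => ((t, x, w) : ℝ × R3 × R3)) :=
      (differentiable_const t).prodMk ((differentiable_const x).prodMk differentiable_id)
    have h3 : Differentiable ℝ (fun w : R3 => F t x w) := h1.comp h2
    exact (EuclideanSpace.proj (𝕜 := ℝ) i : R3 →L[ℝ] ℝ).differentiableAt.comp v (h3 v)
  have h1 : ∀ i : Fin 3, pderiv (fun w => cut R F t x w i) i v =
      bmp R x * pderiv (fun w => F t x w i) i v := by
    intro i
    have h2 : (fun w => cut R F t x w i) = fun w => bmp R x * (fun w => F t x w i) w := by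
      funext w
      simp [cut]
    rw [pderiv, h2, fderiv_const_mul (hd i)]
    simp [pderiv]
  have h2 := hdiv t x v
  rw [div3] at h2 ⊢
  simp only [h1]
  rw [← Finset.mul_sum, h2, mul_zero]

theorem det_Ξu (h : LocForce 2 F) (hdiv : ∀ t x v, div3 (F t x) v = 0) (s t : ℝ)
    (z : R3 × R3) : (fderiv ℝ (Ξu F s t) z).det = 1 := by
  have h1 : LocForce 1 F := h.mono (by norm_num)
  set R := ‖z.1‖ + |s| + |t| + 1 with hR
  have h0 : ‖z.1‖ + |s| + |t| < R := by linarith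
  have h2 : Ξu F s t =ᶠ[𝓝 z] Ξ (cut R F) s t := by
    have hc : Continuous (fun w : R3 × R3 => ‖w.1‖ + |s| + |t|) := by fun_prop
    filter_upwards [(isOpen_lt hc continuous_const).mem_nhds h0] with w hw
    exact Ξu_eq h1 (le_of_lt hw)
  rw [h2.fderiv_eq]
  exact det_Ξ (h.good R) (fun t x v => div3_cut h1 hdiv R t x v) s t z

theorem measurePreserving_Ξu (h : LocForce 2 F) (hdiv : ∀ t x v, div3 (F t x) v = 0)
    (s t : ℝ) : MeasurePreserving (Ξu F s t) (volume : Measure (R3 × R3)) volume := by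
  have h1 : LocForce 1 F := h.mono (by norm_num)
  refine measurePreserving_of_det_one volume (homeoΞu h1 s t)
    (fun z => (contDiff_Ξu le_rfl h1 s t).differentiable (by norm_num) z) (fun z => ?_)
  have : fderiv ℝ (homeoΞu h1 s t) z = fderiv ℝ (Ξu F s t) z := rfl
  rw [this, det_Ξu h hdiv, abs_one]

/-- Derivative of a differentiable density along a characteristic. -/
theorem hasDerivAt_charu (h : LocForce 1 F) {g : ℝ → R3 → R3 → ℝ} {s t : ℝ} {z : R3 × R3}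
    (hd : DifferentiableAt ℝ (unc g) (s, Ξu F s t z)) :
    HasDerivAt (fun r => g r (Ξu F r t z).1 (Ξu F r t z).2)
      (deriv (fun r => g r (Ξu F s t z).1 (Ξu F s t z).2) s
        + ∑ i : Fin 3, relVel (Ξu F s t z).2 i * pderiv (fun y => g s y (Ξu F s t z).2) i
          (Ξu F s t z).1
        + ∑ i : Fin 3, F s (Ξu F s t z).1 (Ξu F s t z).2 i *
          pderiv (fun w => g s (Ξu F s t z).1 w) i (Ξu F s t z).2) s := by
  have h1 := hasDerivAt_along hd (c := fun r => Ξu F r t z) (hasDerivAt_Ξu h s t z)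
  have hd' : DifferentiableAt ℝ (unc g) (s, (Ξu F s t z).1, (Ξu F s t z).2) := hd
  have h2 := transport_eq hd' (relVel (Ξu F s t z).2) (F s (Ξu F s t z).1 (Ξu F s t z).2)
  rw [h2]
  exact h1

/-- A solution of the transport equation on `(c,d)` is constant along the characteristics on
`[c,d)`. -/
theorem const_of_transportu (h : LocForce 1 F) {g : ℝ → R3 → R3 → ℝ} {c d : ℝ}
    (hcont : ContinuousOn (unc g) (Ico c d ×ˢ (univ : Set (R3 × R3))))
    (hd : ∀ t ∈ Ioo c d, ∀ x v, DifferentiableAt ℝ (unc g) (t, x, v))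
    (heq : ∀ t ∈ Ioo c d, ∀ x v : R3, deriv (fun s => g s x v) t
      + ∑ i : Fin 3, relVel v i * pderiv (fun y => g t y v) i x
      + ∑ i : Fin 3, F t x v i * pderiv (fun w => g t x w) i v = 0)
    {s t : ℝ} (hs : s ∈ Ico c d) (ht : t ∈ Ico c d) (r : ℝ) (z : R3 × R3) :
    g t (Ξu F t r z).1 (Ξu F t r z).2 = g s (Ξu F s r z).1 (Ξu F s r z).2 := by
  have hpath : Continuous (fun τ : ℝ => ((τ, Ξu F τ r z) : ℝ × (R3 × R3))) := by
    rw [continuous_iff_continuousAt]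
    intro τ
    exact continuousAt_id.prodMk (hasDerivAt_Ξu h τ r z).continuousAt
  have hgc : ContinuousOn (fun τ => g τ (Ξu F τ r z).1 (Ξu F τ r z).2) (Ico c d) :=
    hcont.comp hpath.continuousOn (fun τ hτ => ⟨hτ, mem_univ _⟩)
  have hgd : ∀ τ ∈ Ioo c d, HasDerivAt (fun τ => g τ (Ξu F τ r z).1 (Ξu F τ r z).2) 0 τ := by
    intro τ hτ
    have h1 := hasDerivAt_charu h (hd τ hτ (Ξu F τ r z).1 (Ξu F τ r z).2) (t := r) (z := z)
    rw [heq τ hτ] at h1
    exact h1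
  have key : ∀ p ∈ Ico c d, ∀ q ∈ Ico c d, p < q →
      g q (Ξu F q r z).1 (Ξu F q r z).2 = g p (Ξu F p r z).1 (Ξu F p r z).2 := by
    intro p hp q hq hpq
    have hsub : Icc p q ⊆ Ico c d := fun τ hτ => ⟨hp.1.trans hτ.1, hτ.2.trans_lt hq.2⟩
    obtain ⟨ξ, -, he⟩ := exists_hasDerivAt_eq_slope
      (fun τ => g τ (Ξu F τ r z).1 (Ξu F τ r z).2) (fun _ => 0) hpq (hgc.mono hsub)
      (fun τ hτ => hgd τ ⟨hp.1.trans_lt hτ.1, hτ.2.trans hq.2⟩)
    have hne : q - p ≠ 0 := (sub_pos.2 hpq).ne'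
    have h3 : g q (Ξu F q r z).1 (Ξu F q r z).2 - g p (Ξu F p r z).1 (Ξu F p r z).2 = 0 := by
      have h4 := (eq_div_iff hne).1 he
      simpa using h4.symm
    linarith
  rcases lt_trichotomy s t with hst | hst | hst
  · exact key s hs t ht hst
  · rw [hst]
  · exact (key t ht s hs hst).symm

end Crest.Agent.R106.Flow
end
end

-- ▼ part R106/FlowSol
section

/-!
Row 106, module FLOW: characteristics of a smooth solution: label flow, `CharP`, `LipP`.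
-/

set_option autoImplicit false
set_option linter.unusedSectionVars false

open Set Filter Topology MeasureTheory
open scoped ContDiff
open Crest.AnalysisR.VecCalc3 Crest.AnalysisR.PDE.RVM

noncomputable section

namespace Crest.Agent.R106.FlowSol

open Crest.Agent.R106.Flow Crest.Agent.R106.Mom
open Crest.Agent.R106.GSR (lor)

/-! ### the Lorentz force -/

lemma lor_eq_G {P : ℝ} (hP : 0 < P) (E B : ℝ → R3 → R3) (t : ℝ) (x : R3) {v : R3}
    (hv : ‖v‖ ≤ P) : lor E B t x v = Trunc.G P v (E t x) (B t x) :=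
  (Trunc.G_eq_lorentz hP hv (E t x) (B t x)).symm

theorem div3_lor (E B : ℝ → R3 → R3) (t : ℝ) (x v : R3) : div3 (lor E B t x) v = 0 := by
  have hP : (0 : ℝ) < ‖v‖ + 1 := by positivity
  have h1 : ∀ i : Fin 3, (fun w => lor E B t x w i) =ᶠ[𝓝 v]
      fun w => Trunc.G (‖v‖ + 1) w (E t x) (B t x) i := by
    intro i
    filter_upwards [(isOpen_lt continuous_norm continuous_const).mem_nhds
      (show ‖v‖ < ‖v‖ + 1 by linarith)] with w hw
    rw [lor_eq_G hP E B t x (le_of_lt hw)]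
  have h2 := Trunc.div3_G (‖v‖ + 1) (E t x) (B t x) v
  rw [div3] at h2 ⊢
  rw [← h2]
  refine Finset.sum_congr rfl fun i _ => ?_
  rw [pderiv, pderiv, (h1 i).fderiv_eq]

lemma norm_lor_le (E B : ℝ → R3 → R3) (t : ℝ) (x v : R3) :
    ‖lor E B t x v‖ ≤ ‖E t x‖ + ‖B t x‖ := norm_force_le E B t (x, v)

variable {E B : ℝ → R3 → R3}

/-- The fields are bounded on compact sets. -/
lemma exists_bound_EB (hE : Continuous (fun p : ℝ × R3 => E p.1 p.2))
    (hB : Continuous (fun p : ℝ × R3 => B p.1 p.2)) (T R : ℝ) :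
    ∃ C : ℝ, 0 ≤ C ∧ ∀ t ∈ Icc (-T) T, ∀ x : R3, ‖x‖ ≤ R → ‖E t x‖ + ‖B t x‖ ≤ C := by
  have hK : IsCompact (Icc (-T) T ×ˢ Metric.closedBall (0 : R3) R) :=
    isCompact_Icc.prod (isCompact_closedBall _ _)
  have hc : ContinuousOn (fun p : ℝ × R3 => ‖E p.1 p.2‖ + ‖B p.1 p.2‖)
      (Icc (-T) T ×ˢ Metric.closedBall (0 : R3) R) := (hE.norm.add hB.norm).continuousOn
  obtain ⟨C, hC⟩ := hK.exists_bound_of_continuousOn hc
  refine ⟨max C 0, le_max_right _ _, fun t ht x hx => ?_⟩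
  have h1 := hC (t, x) ⟨ht, by simpa using hx⟩
  refine le_trans ?_ (h1.trans (le_max_left _ _))
  exact Real.le_norm_self _

lemma locForce_lor {n : ℕ∞} (hE : ContDiff ℝ n (fun p : ℝ × R3 => E p.1 p.2))
    (hB : ContDiff ℝ n (fun p : ℝ × R3 => B p.1 p.2)) : LocForce n (lor E B) := by
  refine ⟨?_, fun T R => ?_⟩
  · have hpr : ContDiff ℝ n (fun p : ℝ × R3 × R3 => ((p.1, p.2.1) : ℝ × R3)) :=
      contDiff_fst.prodMk (contDiff_fst.comp contDiff_snd)
    have h2 : ContDiff ℝ n (fun p : ℝ × R3 × R3 => E p.1 p.2.1) := hE.comp hpr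
    have h3 : ContDiff ℝ n (fun p : ℝ × R3 × R3 => B p.1 p.2.1) := hB.comp hpr
    have hu : ContDiff ℝ n (fun p : ℝ × R3 × R3 => relVel p.2.2) :=
      contDiff_relVel.comp (contDiff_snd.comp contDiff_snd)
    exact h2.add (contDiff_cross3.comp (hu.prodMk h3))
  · obtain ⟨C, _, hC⟩ := exists_bound_EB hE.continuous hB.continuous T R
    exact ⟨C, fun t ht x hx v => (norm_lor_le E B t x v).trans (hC t ht x hx)⟩

/-! ### label flow -/

/-- Phase space flow of the fields: state at time `t` of the particle with label (state at time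
zero) `z`. -/
def Zf (E B : ℝ → R3 → R3) (t : ℝ) (z : R3 × R3) : R3 × R3 := Ξu (lor E B) t 0 z

/-- Inverse label flow. -/
def Zi (E B : ℝ → R3 → R3) (t : ℝ) (z : R3 × R3) : R3 × R3 := Ξu (lor E B) 0 t z

/-- Characteristic vector field. -/
def av (E B : ℝ → R3 → R3) (t : ℝ) (z : R3 × R3) : R3 × R3 := (relVel z.2, lor E B t z.1 z.2)

variable {T : ℝ} {f₀ : R3 → R3 → ℝ} {E₀ B₀ : R3 → R3} {f : ℝ → R3 → R3 → ℝ}

lemma lFlow (T : ℝ) (hE : ContDiff ℝ ∞ (fun p : ℝ × R3 => E p.1 p.2))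
    (hB : ContDiff ℝ ∞ (fun p : ℝ × R3 => B p.1 p.2)) :
    CM.LFlow T (av E B) (Zf E B) (Zi E B) := by
  have hI : LocForce ⊤ (lor E B) := locForce_lor hE hB
  have h1 : LocForce 1 (lor E B) := hI.mono le_top
  have h2 : LocForce 2 (lor E B) := hI.mono le_top
  refine ⟨fun z => Ξu_self h1 0 z, fun τ _ z => ?_, fun τ _ w => ?_, fun z => ?_,
    fun τ _ z => hasDerivAt_Ξu h1 τ 0 z, fun τ w => norm_relVel_lt _, fun τ _ w => ?_,
    fun τ _ w => ?_⟩
  · rw [Zi, Zf, Ξu_Ξu h1, Ξu_self h1]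
  · rw [Zi, Zf, Ξu_Ξu h1, Ξu_self h1]
  · exact fun τ _ => (hasDerivAt_Ξu h1 τ 0 z).continuousAt.continuousWithinAt
  · have h3 := contDiff_Ξu_joint (n := 1) le_rfl h1
    have h4 : ContDiff ℝ 1 (fun q : ℝ × (R3 × R3) => ((0, q.1, q.2) : ℝ × ℝ × (R3 × R3))) :=
      contDiff_const.prodMk (contDiff_fst.prodMk contDiff_snd)
    have h5 := ContDiff.comp (g := fun q : ℝ × ℝ × (R3 × R3) => Ξu (lor E B) q.1 q.2.1 q.2.2)
      (f := fun q : ℝ × (R3 × R3) => ((0, q.1, q.2) : ℝ × ℝ × (R3 × R3))) h3 h4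
    exact (h5.differentiable (by norm_num)) (τ, w)
  · have h3 := det_Ξu h2 (div3_lor E B) 0 τ w
    have h4 : fderiv ℝ (Zi E B τ) w = fderiv ℝ (Ξu (lor E B) 0 τ) w := rfl
    rw [h4, h3, abs_one]

/-- The density is constant along characteristics. -/
theorem const_char (h : IsClassicalSolutionOn T f₀ E₀ B₀ f E B)
    (hf : ContDiff ℝ ∞ (fun p : ℝ × R3 × R3 => f p.1 p.2.1 p.2.2))
    (hE : ContDiff ℝ ∞ (fun p : ℝ × R3 => E p.1 p.2))
    (hB : ContDiff ℝ ∞ (fun p : ℝ × R3 => B p.1 p.2)) {s t : ℝ} (hs : s ∈ Ico 0 T)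
    (ht : t ∈ Ico 0 T) (r : ℝ) (z : R3 × R3) :
    f t (Ξu (lor E B) t r z).1 (Ξu (lor E B) t r z).2 =
      f s (Ξu (lor E B) s r z).1 (Ξu (lor E B) s r z).2 := by
  have hI : LocForce ⊤ (lor E B) := locForce_lor hE hB
  have h1 : LocForce 1 (lor E B) := hI.mono le_top
  have hd : Differentiable ℝ (unc f) := hf.differentiable (by simp)
  refine const_of_transportu h1 hd.continuous.continuousOn (fun τ _ x v => hd _) ?_ hs ht r z
  intro τ hτ x v
  exact (h.2.2.2.2.2.2.1 τ hτ.1 hτ.2 x).1 v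

/-- A characteristic of the flow that meets the support at some time of `[0,T)`. -/
theorem isChar_Ξu (hT : 0 < T) (h : IsClassicalSolutionOn T f₀ E₀ B₀ f E B)
    (hf : ContDiff ℝ ∞ (fun p : ℝ × R3 × R3 => f p.1 p.2.1 p.2.2))
    (hE : ContDiff ℝ ∞ (fun p : ℝ × R3 => E p.1 p.2))
    (hB : ContDiff ℝ ∞ (fun p : ℝ × R3 => B p.1 p.2)) {t : ℝ} (ht : t ∈ Ico 0 T)
    {z : R3 × R3} (hz : f t z.1 z.2 ≠ 0) :
    IsChar T f E B (fun s => (Ξu (lor E B) s t z).1) (fun s => (Ξu (lor E B) s t z).2) := by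
  have hI : LocForce ⊤ (lor E B) := locForce_lor hE hB
  have h1 : LocForce 1 (lor E B) := hI.mono le_top
  refine ⟨fun s _ => (hasDerivAt_Ξu_fst h1 s t z).continuousAt.continuousWithinAt,
    fun s _ => (hasDerivAt_Ξu_snd h1 s t z).continuousAt.continuousWithinAt,
    fun s _ => hasDerivAt_Ξu_fst h1 s t z, fun s _ => hasDerivAt_Ξu_snd h1 s t z, ?_⟩
  have h2 := const_char h hf hE hB ⟨le_rfl, hT⟩ ht t z
  rw [Ξu_self h1] at h2
  rw [← h2]
  exact hz

theorem charP (hT : 0 < T) (h : IsClassicalSolutionOn T f₀ E₀ B₀ f E B)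
    (hf : ContDiff ℝ ∞ (fun p : ℝ × R3 × R3 => f p.1 p.2.1 p.2.2))
    (hE : ContDiff ℝ ∞ (fun p : ℝ × R3 => E p.1 p.2))
    (hB : ContDiff ℝ ∞ (fun p : ℝ × R3 => B p.1 p.2)) : CharP T f E B := by
  intro t ht x v hne
  have hI : LocForce ⊤ (lor E B) := locForce_lor hE hB
  have h1 : LocForce 1 (lor E B) := hI.mono le_top
  refine ⟨⟨(fun s => (Ξu (lor E B) s t (x, v)).1, fun s => (Ξu (lor E B) s t (x, v)).2),
    isChar_Ξu hT h hf hE hB ht hne⟩, ?_, ?_⟩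
  · simp [Ξu_self h1]
  · simp [Ξu_self h1]

/-! ### characteristics in the sense of `IsChar` -/

variable {X p : ℝ → R3}

lemma derivX0 (hT : 0 < T) (hc : IsChar T f E B X p) :
    HasDerivWithinAt X (relVel (p 0)) (Ici 0) 0 := by
  have h0 : (0 : ℝ) ∈ Ico 0 T := ⟨le_rfl, hT⟩
  refine hasDerivWithinAt_Ici_of_tendsto_deriv (s := Ioo 0 T)
    (fun s hs => (hc.dX s hs).differentiableAt.differentiableWithinAt)
    ((hc.cX 0 h0).mono Ioo_subset_Ico_self) (Ioo_mem_nhdsGT hT) ?_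
  have h1 : Tendsto (fun s => relVel (p s)) (𝓝[>] (0 : ℝ)) (𝓝 (relVel (p 0))) := by
    have h2 : Tendsto p (𝓝[>] (0 : ℝ)) (𝓝 (p 0)) :=
      (hc.cp 0 h0).tendsto.mono_left (nhdsWithin_le_iff.2 (Filter.mem_of_superset
        (Ioo_mem_nhdsGT hT) Ioo_subset_Ico_self))
    exact ((contDiff_relVel (n := 0)).continuous.tendsto _).comp h2
  refine h1.congr' ?_
  filter_upwards [Ioo_mem_nhdsGT hT] with s hs
  exact (hc.dX s hs).deriv.symm

lemma derivp0 (hT : 0 < T) (hE : Continuous (fun p : ℝ × R3 => E p.1 p.2))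
    (hB : Continuous (fun p : ℝ × R3 => B p.1 p.2)) (hc : IsChar T f E B X p) :
    HasDerivWithinAt p (lor E B 0 (X 0) (p 0)) (Ici 0) 0 := by
  have h0 : (0 : ℝ) ∈ Ico 0 T := ⟨le_rfl, hT⟩
  refine hasDerivWithinAt_Ici_of_tendsto_deriv (s := Ioo 0 T)
    (fun s hs => (hc.dp s hs).differentiableAt.differentiableWithinAt)
    ((hc.cp 0 h0).mono Ioo_subset_Ico_self) (Ioo_mem_nhdsGT hT) ?_
  have hle : 𝓝[>] (0 : ℝ) ≤ 𝓝[Ico 0 T] 0 := nhdsWithin_le_iff.2 (Filter.mem_of_superset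
        (Ioo_mem_nhdsGT hT) Ioo_subset_Ico_self)
  have h2 : Tendsto p (𝓝[>] (0 : ℝ)) (𝓝 (p 0)) := (hc.cp 0 h0).tendsto.mono_left hle
  have h3 : Tendsto X (𝓝[>] (0 : ℝ)) (𝓝 (X 0)) := (hc.cX 0 h0).tendsto.mono_left hle
  have h4 : Tendsto (fun s : ℝ => s) (𝓝[>] (0 : ℝ)) (𝓝 0) := nhdsWithin_le_nhds
  have hlc : Continuous (fun q : ℝ × R3 × R3 => lor E B q.1 q.2.1 q.2.2) := by
    have hpr : Continuous (fun p : ℝ × R3 × R3 => ((p.1, p.2.1) : ℝ × R3)) := by fun_prop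
    have h2 : Continuous (fun p : ℝ × R3 × R3 => E p.1 p.2.1) := hE.comp hpr
    have h3 : Continuous (fun p : ℝ × R3 × R3 => B p.1 p.2.1) := hB.comp hpr
    have hu : Continuous (fun p : ℝ × R3 × R3 => relVel p.2.2) :=
      (contDiff_relVel (n := 0)).continuous.comp (by fun_prop)
    exact h2.add ((contDiff_cross3 (n := 0)).continuous.comp (hu.prodMk h3))
  have h5 : Tendsto (fun s => lor E B s (X s) (p s)) (𝓝[>] (0 : ℝ))
      (𝓝 (lor E B 0 (X 0) (p 0))) :=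
    (hlc.tendsto ((0, X 0, p 0) : ℝ × R3 × R3)).comp (h4.prodMk_nhds (h3.prodMk_nhds h2))
  refine h5.congr' ?_
  filter_upwards [Ioo_mem_nhdsGT hT] with s hs
  exact (hc.dp s hs).deriv.symm

/-- Every characteristic in the sense of `IsChar` is a trajectory of the flow. -/
theorem isChar_eq (hE : ContDiff ℝ ∞ (fun p : ℝ × R3 => E p.1 p.2))
    (hB : ContDiff ℝ ∞ (fun p : ℝ × R3 => B p.1 p.2)) (hc : IsChar T f E B X p) {t : ℝ}
    (ht : t ∈ Ico 0 T) : (X t, p t) = Zf E B t (X 0, p 0) := by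
  have hI : LocForce ⊤ (lor E B) := locForce_lor hE hB
  have h1 : LocForce 1 (lor E B) := hI.mono le_top
  have hT : 0 < T := ht.1.trans_lt ht.2
  refine eq_Ξu h1 (fun r hr => ?_) (fun r hr => ?_)
  · rw [uIcc_of_le ht.1] at hr ⊢
    rcases hr.1.eq_or_lt with h0 | h0
    · rw [← h0]
      exact (derivX0 hT hc).mono Icc_subset_Ici_self
    · exact (hc.dX r ⟨h0, hr.2.trans_lt ht.2⟩).hasDerivWithinAt
  · rw [uIcc_of_le ht.1] at hr ⊢
    rcases hr.1.eq_or_lt with h0 | h0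
    · rw [← h0]
      exact (derivp0 hT hE.continuous hB.continuous hc).mono Icc_subset_Ici_self
    · exact (hc.dp r ⟨h0, hr.2.trans_lt ht.2⟩).hasDerivWithinAt




/-- Bounded initial data of all characteristics. -/
lemma isChar_init (hT : 0 < T) (h : IsClassicalSolutionOn T f₀ E₀ B₀ f E B) :
    ∃ R : ℝ, 0 ≤ R ∧ ∀ X p : ℝ → R3, IsChar T f E B X p → ‖X 0‖ ≤ R ∧ ‖p 0‖ ≤ R := by
  obtain ⟨R, hR⟩ := h.2.2.2.2.2.2.2.1 0 le_rfl hT
  refine ⟨max R 0, le_max_right _ _, fun X p hc => ⟨?_, ?_⟩⟩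
  · by_contra hcon
    rw [not_le] at hcon
    exact hc.supp (hR 0 ⟨le_rfl, le_rfl⟩ _ _ (Or.inl ((le_max_left _ _).trans_lt hcon)))
  · by_contra hcon
    rw [not_le] at hcon
    exact hc.supp (hR 0 ⟨le_rfl, le_rfl⟩ _ _ (Or.inr ((le_max_left _ _).trans_lt hcon)))

/-- On `[0,t]`, `t < T`, the momenta of all characteristics are uniformly Lipschitz. -/
theorem isChar_lip (hT : 0 < T) (h : IsClassicalSolutionOn T f₀ E₀ B₀ f E B)
    (hE : ContDiff ℝ ∞ (fun p : ℝ × R3 => E p.1 p.2))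
    (hB : ContDiff ℝ ∞ (fun p : ℝ × R3 => B p.1 p.2)) (t : ℝ) (ht : t < T) :
    ∃ C : ℝ, 0 ≤ C ∧ ∀ X p : ℝ → R3, IsChar T f E B X p → ∀ s ∈ Icc 0 t, ∀ s' ∈ Icc 0 t,
      ‖p s - p s'‖ ≤ C * |s - s'| := by
  have hI : LocForce ⊤ (lor E B) := locForce_lor hE hB
  have h1 : LocForce 1 (lor E B) := hI.mono le_top
  obtain ⟨R, hR0, hR⟩ := isChar_init hT h
  obtain ⟨C, hC0, hC⟩ := exists_bound_EB hE.continuous hB.continuous t (R + t)
  refine ⟨C, hC0, fun X p hc s hs s' hs' => ?_⟩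
  have hIT : ∀ r ∈ Icc 0 t, r ∈ Ico 0 T := fun r hr => ⟨hr.1, hr.2.trans_lt ht⟩
  have e : ∀ r ∈ Icc 0 t, p r = (Ξu (lor E B) r 0 (X 0, p 0)).2 := fun r hr =>
    congrArg Prod.snd (isChar_eq hE hB hc (hIT r hr))
  rw [e s hs, e s' hs']
  have h2 := (convex_Icc 0 t).norm_image_sub_le_of_norm_hasDerivWithin_le (C := C)
    (f := fun r => (Ξu (lor E B) r 0 (X 0, p 0)).2)
    (fun r _ => (hasDerivAt_Ξu_snd h1 r 0 (X 0, p 0)).hasDerivWithinAt)
    (fun r hr => ?_) hs' hs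
  · simpa [Real.norm_eq_abs] using h2
  · refine (norm_lor_le E B _ _ _).trans (hC r ⟨by linarith [hr.1, hr.2], hr.2⟩ _ ?_)
    have h3 := norm_Ξu_fst_le h1 r 0 (X 0, p 0)
    rw [abs_zero, abs_of_nonneg hr.1] at h3
    have h4 := (hR X p hc).1
    simp only at h3
    linarith [hr.2]

theorem lipP (hT : 0 < T) (h : IsClassicalSolutionOn T f₀ E₀ B₀ f E B)
    (hE : ContDiff ℝ ∞ (fun p : ℝ × R3 => E p.1 p.2))
    (hB : ContDiff ℝ ∞ (fun p : ℝ × R3 => B p.1 p.2)) : LipP T f E B := by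
  refine ⟨fun t ht => ?_, ?_⟩
  · obtain ⟨C, _, hC⟩ := isChar_lip hT h hE hB t ht
    exact ⟨C, fun ξ s hs s' hs' => hC ξ.1.1 ξ.1.2 ξ.2 s hs s' hs'⟩
  · obtain ⟨R, _, hR⟩ := isChar_init hT h
    exact ⟨R, fun ξ => (hR ξ.1.1 ξ.1.2 ξ.2).2⟩

lemma contDiff_Zf (hE : ContDiff ℝ ∞ (fun p : ℝ × R3 => E p.1 p.2))
    (hB : ContDiff ℝ ∞ (fun p : ℝ × R3 => B p.1 p.2)) :
    ContDiff ℝ ∞ (fun p : ℝ × R3 × R3 => Zf E B p.1 p.2) := by
  have hI : LocForce ⊤ (lor E B) := locForce_lor hE hB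
  have h4 : ContDiff ℝ ∞ (fun q : ℝ × (R3 × R3) => ((q.1, 0, q.2) : ℝ × ℝ × (R3 × R3))) :=
    contDiff_fst.prodMk (contDiff_const.prodMk contDiff_snd)
  have h5 := ContDiff.comp (g := fun q : ℝ × ℝ × (R3 × R3) => Ξu (lor E B) q.1 q.2.1 q.2.2)
      (f := fun q : ℝ × (R3 × R3) => ((q.1, 0, q.2) : ℝ × ℝ × (R3 × R3)))
      (contDiff_Ξu_joint le_top hI) h4
  exact h5

lemma contDiff_Zi (hE : ContDiff ℝ ∞ (fun p : ℝ × R3 => E p.1 p.2))
    (hB : ContDiff ℝ ∞ (fun p : ℝ × R3 => B p.1 p.2)) :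
    ContDiff ℝ ∞ (fun p : ℝ × R3 × R3 => Zi E B p.1 p.2) := by
  have hI : LocForce ⊤ (lor E B) := locForce_lor hE hB
  have h4 : ContDiff ℝ ∞ (fun q : ℝ × (R3 × R3) => ((0, q.1, q.2) : ℝ × ℝ × (R3 × R3))) :=
    contDiff_const.prodMk (contDiff_fst.prodMk contDiff_snd)
  have h5 := ContDiff.comp (g := fun q : ℝ × ℝ × (R3 × R3) => Ξu (lor E B) q.1 q.2.1 q.2.2)
      (f := fun q : ℝ × (R3 × R3) => ((0, q.1, q.2) : ℝ × ℝ × (R3 × R3)))
      (contDiff_Ξu_joint le_top hI) h4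
  exact h5

lemma continuous_Zf (hE : ContDiff ℝ ∞ (fun p : ℝ × R3 => E p.1 p.2))
    (hB : ContDiff ℝ ∞ (fun p : ℝ × R3 => B p.1 p.2)) :
    Continuous (fun p : ℝ × R3 × R3 => Zf E B p.1 p.2) := (contDiff_Zf hE hB).continuous

lemma continuous_Zi (hE : ContDiff ℝ ∞ (fun p : ℝ × R3 => E p.1 p.2))
    (hB : ContDiff ℝ ∞ (fun p : ℝ × R3 => B p.1 p.2)) :
    Continuous (fun p : ℝ × R3 × R3 => Zi E B p.1 p.2) := (contDiff_Zi hE hB).continuous

/-- The label flow of a smooth solution. -/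
theorem exists_labelFlow (hT : 0 < T) (h : IsClassicalSolutionOn T f₀ E₀ B₀ f E B)
    (hf : ContDiff ℝ ∞ (fun p : ℝ × R3 × R3 => f p.1 p.2.1 p.2.2))
    (hE : ContDiff ℝ ∞ (fun p : ℝ × R3 => E p.1 p.2))
    (hB : ContDiff ℝ ∞ (fun p : ℝ × R3 => B p.1 p.2)) :
    ∃ (Zf Zi : ℝ → R3 × R3 → R3 × R3) (a : ℝ → R3 × R3 → R3 × R3), CM.LFlow T a Zf Zi ∧
      (∀ τ w, (a τ w).1 = relVel w.2) ∧
      (∀ z : R3 × R3, f 0 z.1 z.2 ≠ 0 →
        IsChar T f E B (fun t => (Zf t z).1) (fun t => (Zf t z).2)) ∧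
      (∀ t ∈ Ico 0 T, ∀ w : R3 × R3, f t w.1 w.2 = f 0 (Zi t w).1 (Zi t w).2) ∧
      (∀ t : ℝ, MeasurePreserving (Zf t) volume volume) ∧
      (∀ t : ℝ, MeasurePreserving (Zi t) volume volume) ∧
      Continuous (fun p : ℝ × R3 × R3 => Zf p.1 p.2) ∧
      Continuous (fun p : ℝ × R3 × R3 => Zi p.1 p.2) := by
  have hI : LocForce ⊤ (lor E B) := locForce_lor hE hB
  have h1 : LocForce 1 (lor E B) := hI.mono le_top
  have h2 : LocForce 2 (lor E B) := hI.mono le_top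
  have h0T : (0 : ℝ) ∈ Ico 0 T := ⟨le_rfl, hT⟩
  refine ⟨Zf E B, Zi E B, av E B, lFlow T hE hB, fun τ w => rfl, fun z hz => ?_,
    fun t ht w => ?_, fun t => measurePreserving_Ξu h2 (div3_lor E B) t 0,
    fun t => measurePreserving_Ξu h2 (div3_lor E B) 0 t, ?_, ?_⟩
  · exact isChar_Ξu hT h hf hE hB h0T hz
  · have h3 := const_char h hf hE hB h0T ht t w
    rw [Ξu_self h1] at h3
    exact h3
  · exact continuous_Zf hE hB
  · exact continuous_Zi hE hB

end Crest.Agent.R106.FlowSol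
end
end

-- ▼ part R106/FlowTo

/-!
Row 106, module FLOW: characteristics of a solution of the class `SolTo` / `Mom.SmoothSol`
(fields smooth on `(-∞,T) × R3`, blow-up at `T` allowed): flow for all times `< T`, Liouville,
constancy of the density, `CharP`, label flow.
-/

set_option autoImplicit false
set_option linter.unusedSectionVars false

open Set Filter Topology MeasureTheory
open scoped ContDiff
open Crest.AnalysisR.VecCalc3 Crest.AnalysisR.PDE.RVM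

noncomputable section

namespace Crest.Agent.R106.FlowTo

open Crest.Agent.R106.Flow Crest.Agent.R106.Mom
open Crest.Agent.R106.GSR (lor)

/-- Field with clamped time. -/
def Ec (T T' : ℝ) (E : ℝ → R3 → R3) (t : ℝ) : R3 → R3 := E (Clamp.sig T' T t)

variable {T : ℝ} {E B : ℝ → R3 → R3}

lemma contDiff_Ec (hE : ContDiffOn ℝ ∞ (fun p : ℝ × R3 => E p.1 p.2) (Iio T ×ˢ univ)) {T' : ℝ}
    (h : T' < T) : ContDiff ℝ ∞ (fun p : ℝ × R3 => Ec T T' E p.1 p.2) :=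
  Clamp.contDiff_clamp h (F := fun p : ℝ × R3 => E p.1 p.2) hE

/-- Lorentz force with clamped time. -/
def Fc (E B : ℝ → R3 → R3) (T T' : ℝ) : ℝ → R3 → R3 → R3 := lor (Ec T T' E) (Ec T T' B)

lemma Fc_eq {T' : ℝ} (h : T' < T) {t : ℝ} (ht : t ≤ T') (x v : R3) :
    Fc E B T T' t x v = lor E B t x v := by
  simp [Fc, lor, Ec, Clamp.sig_eq h ht]

lemma div3_Fc (T' : ℝ) (t : ℝ) (x v : R3) : div3 (Fc E B T T' t x) v = 0 :=
  FlowSol.div3_lor _ _ t x v

section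
variable (hE : ContDiffOn ℝ ∞ (fun p : ℝ × R3 => E p.1 p.2) (Iio T ×ˢ univ))
  (hB : ContDiffOn ℝ ∞ (fun p : ℝ × R3 => B p.1 p.2) (Iio T ×ˢ univ))
include hE hB

lemma locForce_Fc {T' : ℝ} (h : T' < T) : LocForce ⊤ (Fc E B T T') :=
  FlowSol.locForce_lor (contDiff_Ec hE h) (contDiff_Ec hB h)

lemma locForce1_Fc {T' : ℝ} (h : T' < T) : LocForce 1 (Fc E B T T') :=
  (locForce_Fc hE hB h).mono le_top

lemma Ξu_Fc_eq {T₁ T₂ : ℝ} (h1 : T₁ < T) (h2 : T₂ < T) {s t : ℝ} (hs1 : s ≤ T₁) (ht1 : t ≤ T₁)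
    (hs2 : s ≤ T₂) (ht2 : t ≤ T₂) (z : R3 × R3) :
    Ξu (Fc E B T T₁) s t z = Ξu (Fc E B T T₂) s t z := by
  have f1 := locForce1_Fc hE hB h1
  have f2 := locForce1_Fc hE hB h2
  have hr1 : ∀ r ∈ uIcc t s, r ≤ T₁ := fun r hr => hr.2.trans (max_le ht1 hs1)
  have hr2 : ∀ r ∈ uIcc t s, r ≤ T₂ := fun r hr => hr.2.trans (max_le ht2 hs2)
  have h3 := eq_Ξu f2 (X := fun r => (Ξu (Fc E B T T₁) r t z).1)
    (V := fun r => (Ξu (Fc E B T T₁) r t z).2) (s := s) (t := t)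
    (fun r _ => (hasDerivAt_Ξu_fst f1 r t z).hasDerivWithinAt)
    (fun r hr => by
      have h4 := hasDerivAt_Ξu_snd f1 r t z
      rw [Fc_eq h1 (hr1 r hr)] at h4
      rw [Fc_eq h2 (hr2 r hr)]
      exact h4.hasDerivWithinAt)
  simp only [Ξu_self f1, Prod.mk.eta] at h3
  exact h3

end

/-- Characteristic map of the fields: state at time `s` of the characteristic which is at `z` at
time `t` (`s, t < T`). -/
def Ξt (E B : ℝ → R3 → R3) (T s t : ℝ) (z : R3 × R3) : R3 × R3 :=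
  Ξu (Fc E B T ((max s t + T) / 2)) s t z

section
variable (hE : ContDiffOn ℝ ∞ (fun p : ℝ × R3 => E p.1 p.2) (Iio T ×ˢ univ))
  (hB : ContDiffOn ℝ ∞ (fun p : ℝ × R3 => B p.1 p.2) (Iio T ×ˢ univ))
include hE hB

omit hE hB in
lemma mid_lt {s t : ℝ} (hs : s < T) (ht : t < T) : (max s t + T) / 2 < T := by
  have := max_lt hs ht
  linarith

omit hE hB in
lemma left_lt_mid {s t : ℝ} (hs : s < T) (ht : t < T) : s < (max s t + T) / 2 := by
  have h1 := max_lt hs ht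
  have h2 := le_max_left s t
  linarith

omit hE hB in
lemma right_lt_mid {s t : ℝ} (hs : s < T) (ht : t < T) : t < (max s t + T) / 2 := by
  have h1 := max_lt hs ht
  have h2 := le_max_right s t
  linarith

lemma Ξt_eq {T' : ℝ} (h : T' < T) {s t : ℝ} (hs : s ≤ T') (ht : t ≤ T') (z : R3 × R3) :
    Ξt E B T s t z = Ξu (Fc E B T T') s t z :=
  Ξu_Fc_eq hE hB (mid_lt (hs.trans_lt h) (ht.trans_lt h)) h
    (left_lt_mid (hs.trans_lt h) (ht.trans_lt h)).le (right_lt_mid (hs.trans_lt h)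
      (ht.trans_lt h)).le hs ht z

lemma Ξt_self {t : ℝ} (ht : t < T) (z : R3 × R3) : Ξt E B T t t z = z :=
  Ξu_self (locForce1_Fc hE hB (mid_lt ht ht)) t z

theorem hasDerivAt_Ξt {s t : ℝ} (hs : s < T) (ht : t < T) (z : R3 × R3) :
    HasDerivAt (fun r => Ξt E B T r t z)
      (relVel (Ξt E B T s t z).2, lor E B s (Ξt E B T s t z).1 (Ξt E B T s t z).2) s := by
  set T' := (max s t + T) / 2 with hT'
  have h0 : T' < T := mid_lt hs ht
  have h1 := hasDerivAt_Ξu (locForce1_Fc hE hB h0) s t z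
  rw [Fc_eq h0 (left_lt_mid hs ht).le, ← Ξt_eq hE hB h0 (left_lt_mid hs ht).le
    (right_lt_mid hs ht).le] at h1
  refine h1.congr_of_eventuallyEq ?_
  filter_upwards [isOpen_Iio.mem_nhds (left_lt_mid hs ht)] with r hr
  exact Ξt_eq hE hB h0 (le_of_lt hr) (right_lt_mid hs ht).le z

lemma hasDerivAt_Ξt_fst {s t : ℝ} (hs : s < T) (ht : t < T) (z : R3 × R3) :
    HasDerivAt (fun r => (Ξt E B T r t z).1) (relVel (Ξt E B T s t z).2) s :=
  (ContinuousLinearMap.fst ℝ R3 R3).hasFDerivAt.comp_hasDerivAt s (hasDerivAt_Ξt hE hB hs ht z)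

lemma hasDerivAt_Ξt_snd {s t : ℝ} (hs : s < T) (ht : t < T) (z : R3 × R3) :
    HasDerivAt (fun r => (Ξt E B T r t z).2)
      (lor E B s (Ξt E B T s t z).1 (Ξt E B T s t z).2) s :=
  (ContinuousLinearMap.snd ℝ R3 R3).hasFDerivAt.comp_hasDerivAt s (hasDerivAt_Ξt hE hB hs ht z)

/-- Group law. -/
theorem Ξt_Ξt {r s t : ℝ} (hr : r < T) (hs : s < T) (ht : t < T) (z : R3 × R3) :
    Ξt E B T r s (Ξt E B T s t z) = Ξt E B T r t z := by
  set T' := (max (max r s) t + T) / 2 with hT'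
  have h1 : max (max r s) t < T := max_lt (max_lt hr hs) ht
  have h0 : T' < T := by rw [hT']; linarith
  have h2 : max (max r s) t < T' := by rw [hT']; linarith
  have hr' : r ≤ T' := ((le_max_left r s).trans (le_max_left _ _)).trans h2.le
  have hs' : s ≤ T' := ((le_max_right r s).trans (le_max_left _ _)).trans h2.le
  have ht' : t ≤ T' := (le_max_right _ _).trans h2.le
  rw [Ξt_eq hE hB h0 hr' hs', Ξt_eq hE hB h0 hs' ht', Ξt_eq hE hB h0 hr' ht',
    Ξu_Ξu (locForce1_Fc hE hB h0)]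

/-- Uniqueness of characteristics. -/
theorem eq_Ξt {X V : ℝ → R3} {s t : ℝ} (hs : s < T) (ht : t < T)
    (hX : ∀ r ∈ uIcc t s, HasDerivWithinAt X (relVel (V r)) (uIcc t s) r)
    (hV : ∀ r ∈ uIcc t s, HasDerivWithinAt V (lor E B r (X r) (V r)) (uIcc t s) r) :
    (X s, V s) = Ξt E B T s t (X t, V t) := by
  set T' := (max s t + T) / 2 with hT'
  have h0 : T' < T := mid_lt hs ht
  have h1 := eq_Ξu (locForce1_Fc hE hB h0) hX (fun r hr => by
    rw [Fc_eq h0 (hr.2.trans (max_le (right_lt_mid hs ht).le (left_lt_mid hs ht).le))]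
    exact hV r hr)
  rw [Ξt_eq hE hB h0 (left_lt_mid hs ht).le (right_lt_mid hs ht).le]
  exact h1

/-- Joint smoothness at all times `< T`. -/
theorem contDiffAt_Ξt {s t : ℝ} (hs : s < T) (ht : t < T) (z : R3 × R3) :
    ContDiffAt ℝ ∞ (fun q : ℝ × ℝ × (R3 × R3) => Ξt E B T q.1 q.2.1 q.2.2) (s, t, z) := by
  set T' := (max s t + T) / 2 with hT'
  have h0 : T' < T := mid_lt hs ht
  have h1 : ContDiffAt ℝ ∞ (fun q : ℝ × ℝ × (R3 × R3) => Ξu (Fc E B T T') q.1 q.2.1 q.2.2)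
      (s, t, z) := (contDiff_Ξu_joint le_top (locForce_Fc hE hB h0)).contDiffAt
  refine h1.congr_of_eventuallyEq ?_
  have hopen : IsOpen (Iio T' ×ˢ Iio T' ×ˢ (univ : Set (R3 × R3))) :=
    isOpen_Iio.prod (isOpen_Iio.prod isOpen_univ)
  filter_upwards [hopen.mem_nhds ⟨left_lt_mid hs ht, right_lt_mid hs ht, mem_univ _⟩] with q hq
  exact Ξt_eq hE hB h0 (le_of_lt hq.1) (le_of_lt hq.2.1) q.2.2


/-- Liouville. -/
theorem det_Ξt {s t : ℝ} (hs : s < T) (ht : t < T) (z : R3 × R3) :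
    (fderiv ℝ (Ξt E B T s t) z).det = 1 :=
  det_Ξu ((locForce_Fc hE hB (mid_lt hs ht)).mono le_top) (div3_Fc _) s t z

theorem measurePreserving_Ξt {s t : ℝ} (hs : s < T) (ht : t < T) :
    MeasurePreserving (Ξt E B T s t) (volume : Measure (R3 × R3)) volume :=
  measurePreserving_Ξu ((locForce_Fc hE hB (mid_lt hs ht)).mono le_top) (div3_Fc _) s t



end

/-! ### label flow -/

/-- State at time `t` of the particle with label (state at time zero) `z`. -/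
def Zf (E B : ℝ → R3 → R3) (T t : ℝ) (z : R3 × R3) : R3 × R3 := Ξt E B T t 0 z

/-- Inverse label flow. -/
def Zi (E B : ℝ → R3 → R3) (T t : ℝ) (z : R3 × R3) : R3 × R3 := Ξt E B T 0 t z

section
variable (hE : ContDiffOn ℝ ∞ (fun p : ℝ × R3 => E p.1 p.2) (Iio T ×ˢ univ))
  (hB : ContDiffOn ℝ ∞ (fun p : ℝ × R3 => B p.1 p.2) (Iio T ×ˢ univ))
include hE hB

lemma contDiffOn_Zf (hT : 0 < T) :
    ContDiffOn ℝ ∞ (fun p : ℝ × R3 × R3 => Zf E B T p.1 p.2) (Iio T ×ˢ univ) := by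
  intro q hq
  have h4 : ContDiff ℝ ∞ (fun q : ℝ × (R3 × R3) => ((q.1, 0, q.2) : ℝ × ℝ × (R3 × R3))) :=
    contDiff_fst.prodMk (contDiff_const.prodMk contDiff_snd)
  have h5 := ContDiffAt.comp (g := fun q : ℝ × ℝ × (R3 × R3) => Ξt E B T q.1 q.2.1 q.2.2)
      (f := fun q : ℝ × (R3 × R3) => ((q.1, 0, q.2) : ℝ × ℝ × (R3 × R3))) q
      (contDiffAt_Ξt hE hB hq.1 hT q.2) h4.contDiffAt
  exact h5.contDiffWithinAt

lemma contDiffOn_Zi (hT : 0 < T) :
    ContDiffOn ℝ ∞ (fun p : ℝ × R3 × R3 => Zi E B T p.1 p.2) (Iio T ×ˢ univ) := by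
  intro q hq
  have h4 : ContDiff ℝ ∞ (fun q : ℝ × (R3 × R3) => ((0, q.1, q.2) : ℝ × ℝ × (R3 × R3))) :=
    contDiff_const.prodMk (contDiff_fst.prodMk contDiff_snd)
  have h5 := ContDiffAt.comp (g := fun q : ℝ × ℝ × (R3 × R3) => Ξt E B T q.1 q.2.1 q.2.2)
      (f := fun q : ℝ × (R3 × R3) => ((0, q.1, q.2) : ℝ × ℝ × (R3 × R3))) q
      (contDiffAt_Ξt hE hB hT hq.1 q.2) h4.contDiffAt
  exact h5.contDiffWithinAt

lemma lFlow (hT : 0 < T) : CM.LFlow T (FlowSol.av E B) (Zf E B T) (Zi E B T) := by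
  refine ⟨fun z => Ξt_self hE hB hT z, fun τ hτ z => ?_, fun τ hτ w => ?_, fun z => ?_,
    fun τ hτ z => hasDerivAt_Ξt hE hB hτ.2 hT z, fun τ w => norm_relVel_lt _, fun τ hτ w => ?_,
    fun τ hτ w => ?_⟩
  · rw [Zi, Zf, Ξt_Ξt hE hB hT hτ.2 hT, Ξt_self hE hB hT]
  · rw [Zi, Zf, Ξt_Ξt hE hB hτ.2 hT hτ.2, Ξt_self hE hB hτ.2]
  · exact fun τ hτ => (hasDerivAt_Ξt hE hB hτ.2 hT z).continuousAt.continuousWithinAt
  · have hm : ((τ, w) : ℝ × (R3 × R3)) ∈ Iio T ×ˢ (univ : Set (R3 × R3)) := ⟨hτ.2, mem_univ _⟩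
    exact ((contDiffOn_Zi hE hB hT).contDiffAt ((isOpen_Iio.prod isOpen_univ).mem_nhds
      hm)).differentiableAt (by simp)
  · have h4 : fderiv ℝ (Zi E B T τ) w = fderiv ℝ (Ξt E B T 0 τ) w := rfl
    rw [h4, det_Ξt hE hB hT hτ.2, abs_one]

end

/-! ### solutions -/

variable {f₀ : R3 → R3 → ℝ} {E₀ B₀ : R3 → R3} {f : ℝ → R3 → R3 → ℝ}

/-- The density is constant along characteristics. -/
theorem const_char (h : SolTo T f₀ E₀ B₀ f E B) {s t r : ℝ} (hs : s ∈ Ico 0 T)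
    (ht : t ∈ Ico 0 T) (hr : r < T) (z : R3 × R3) :
    f t (Ξt E B T t r z).1 (Ξt E B T t r z).2 = f s (Ξt E B T s r z).1 (Ξt E B T s r z).2 := by
  have hE := h.hE
  have hB := h.hB
  set T' := (max (max r s) t + T) / 2 with hT'
  have h1 : max (max r s) t < T := max_lt (max_lt hr hs.2) ht.2
  have h0 : T' < T := by rw [hT']; linarith
  have h2 : max (max r s) t < T' := by rw [hT']; linarith
  have hr' : r < T' := ((le_max_left r s).trans (le_max_left _ _)).trans_lt h2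
  have hs' : s < T' := ((le_max_right r s).trans (le_max_left _ _)).trans_lt h2
  have ht' : t < T' := (le_max_right _ _).trans_lt h2
  rw [Ξt_eq hE hB h0 ht'.le hr'.le, Ξt_eq hE hB h0 hs'.le hr'.le]
  have hsub : Ico 0 T' ×ˢ (univ : Set (R3 × R3)) ⊆ Iio T ×ˢ univ :=
    fun p hp => ⟨hp.1.2.trans h0, mem_univ _⟩
  refine const_of_transportu (locForce1_Fc hE hB h0) (c := 0) (d := T')
    (h.hf.continuousOn.mono hsub) (fun τ hτ x v => ?_) (fun τ hτ x v => ?_)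
    ⟨hs.1, hs'⟩ ⟨ht.1, ht'⟩ r z
  · exact (h.f_at (hτ.2.trans h0) x v).differentiableAt (by simp)
  · rw [← (h.eqs hτ.1 (hτ.2.trans h0) x).1 v]
    simp only [Fc_eq h0 hτ.2.le]
    rfl

/-- A characteristic of the flow that meets the support at some time of `[0,T)`. -/
theorem isChar_Ξt (h : SolTo T f₀ E₀ B₀ f E B) {t : ℝ} (ht : t ∈ Ico 0 T)
    {z : R3 × R3} (hz : f t z.1 z.2 ≠ 0) :
    IsChar T f E B (fun s => (Ξt E B T s t z).1) (fun s => (Ξt E B T s t z).2) := by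
  have hE := h.hE
  have hB := h.hB
  have hT : 0 < T := ht.1.trans_lt ht.2
  refine ⟨fun s hs => (hasDerivAt_Ξt_fst hE hB hs.2 ht.2 z).continuousAt.continuousWithinAt,
    fun s hs => (hasDerivAt_Ξt_snd hE hB hs.2 ht.2 z).continuousAt.continuousWithinAt,
    fun s hs => hasDerivAt_Ξt_fst hE hB hs.2 ht.2 z,
    fun s hs => hasDerivAt_Ξt_snd hE hB hs.2 ht.2 z, ?_⟩
  have h2 := const_char h ⟨le_rfl, hT⟩ ht ht.2 z
  rw [Ξt_self hE hB ht.2] at h2
  rw [← h2]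
  exact hz

theorem charP (h : SolTo T f₀ E₀ B₀ f E B) : CharP T f E B := by
  intro t ht x v hne
  refine ⟨⟨(fun s => (Ξt E B T s t (x, v)).1, fun s => (Ξt E B T s t (x, v)).2),
    isChar_Ξt h ht hne⟩, ?_, ?_⟩
  · simp [Ξt_self h.hE h.hB ht.2]
  · simp [Ξt_self h.hE h.hB ht.2]

lemma solTo_of_smoothSol (h : Mom.SmoothSol T f₀ E₀ B₀ f E B) : SolTo T f₀ E₀ B₀ f E B :=
  ⟨h.sol, h.smf, h.smE, h.smB⟩

/-- node CharP for the class of the new part. -/
theorem charP_smoothSol (h : Mom.SmoothSol T f₀ E₀ B₀ f E B) : CharP T f E B :=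
  charP (solTo_of_smoothSol h)

/-! ### characteristics in the sense of `IsChar` -/

variable {X p : ℝ → R3}

lemma isChar_derivp0 (hT : 0 < T)
    (hE : ContDiffOn ℝ ∞ (fun p : ℝ × R3 => E p.1 p.2) (Iio T ×ˢ univ))
    (hB : ContDiffOn ℝ ∞ (fun p : ℝ × R3 => B p.1 p.2) (Iio T ×ˢ univ))
    (hc : IsChar T f E B X p) :
    HasDerivWithinAt p (lor E B 0 (X 0) (p 0)) (Ici 0) 0 := by
  have h0 : (0 : ℝ) ∈ Ico 0 T := ⟨le_rfl, hT⟩
  refine hasDerivWithinAt_Ici_of_tendsto_deriv (s := Ioo 0 T)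
    (fun s hs => (hc.dp s hs).differentiableAt.differentiableWithinAt)
    ((hc.cp 0 h0).mono Ioo_subset_Ico_self) (Ioo_mem_nhdsGT hT) ?_
  have hle : 𝓝[>] (0 : ℝ) ≤ 𝓝[Ico 0 T] 0 := nhdsWithin_le_iff.2 (Filter.mem_of_superset
        (Ioo_mem_nhdsGT hT) Ioo_subset_Ico_self)
  have h2 : Tendsto p (𝓝[>] (0 : ℝ)) (𝓝 (p 0)) := (hc.cp 0 h0).tendsto.mono_left hle
  have h3 : Tendsto X (𝓝[>] (0 : ℝ)) (𝓝 (X 0)) := (hc.cX 0 h0).tendsto.mono_left hle
  have h4 : Tendsto (fun s : ℝ => s) (𝓝[>] (0 : ℝ)) (𝓝 0) := nhdsWithin_le_nhds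
  have hTm : T / 2 < T := by linarith
  have hlc : Continuous (fun q : ℝ × R3 × R3 => Fc E B T (T / 2) q.1 q.2.1 q.2.2) :=
    (locForce_Fc hE hB hTm).smooth.continuous
  have h5 : Tendsto (fun s => Fc E B T (T / 2) s (X s) (p s)) (𝓝[>] (0 : ℝ))
      (𝓝 (Fc E B T (T / 2) 0 (X 0) (p 0))) :=
    (hlc.tendsto ((0, X 0, p 0) : ℝ × R3 × R3)).comp (h4.prodMk_nhds (h3.prodMk_nhds h2))
  rw [Fc_eq hTm (by linarith)] at h5
  refine h5.congr' ?_
  filter_upwards [Ioo_mem_nhdsGT (show (0 : ℝ) < T / 2 by linarith)] with s hs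
  rw [Fc_eq hTm hs.2.le]
  exact (hc.dp s ⟨hs.1, hs.2.trans hTm⟩).deriv.symm

/-- Every characteristic in the sense of `IsChar` is a trajectory of the label flow. -/
theorem isChar_eq (hE : ContDiffOn ℝ ∞ (fun p : ℝ × R3 => E p.1 p.2) (Iio T ×ˢ univ))
    (hB : ContDiffOn ℝ ∞ (fun p : ℝ × R3 => B p.1 p.2) (Iio T ×ˢ univ))
    (hc : IsChar T f E B X p) {t : ℝ} (ht : t ∈ Ico 0 T) :
    (X t, p t) = Zf E B T t (X 0, p 0) := by
  have hT : 0 < T := ht.1.trans_lt ht.2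
  refine eq_Ξt hE hB ht.2 hT (fun r hr => ?_) (fun r hr => ?_)
  · rw [uIcc_of_le ht.1] at hr ⊢
    rcases hr.1.eq_or_lt with h0 | h0
    · rw [← h0]
      exact (FlowSol.derivX0 hT hc).mono Icc_subset_Ici_self
    · exact (hc.dX r ⟨h0, hr.2.trans_lt ht.2⟩).hasDerivWithinAt
  · rw [uIcc_of_le ht.1] at hr ⊢
    rcases hr.1.eq_or_lt with h0 | h0
    · rw [← h0]
      exact (isChar_derivp0 hT hE hB hc).mono Icc_subset_Ici_self
    · exact (hc.dp r ⟨h0, hr.2.trans_lt ht.2⟩).hasDerivWithinAt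



/-- The label flow of a solution of the class `SolTo`. -/
theorem exists_labelFlow (hT : 0 < T) (h : SolTo T f₀ E₀ B₀ f E B) :
    ∃ (Zf Zi : ℝ → R3 × R3 → R3 × R3) (a : ℝ → R3 × R3 → R3 × R3), CM.LFlow T a Zf Zi ∧
      (∀ τ w, a τ w = (relVel w.2, lor E B τ w.1 w.2)) ∧
      (∀ X p : ℝ → R3, IsChar T f E B X p → ∀ t ∈ Ico 0 T, (X t, p t) = Zf t (X 0, p 0)) ∧
      (∀ z : R3 × R3, f 0 z.1 z.2 ≠ 0 →
        IsChar T f E B (fun t => (Zf t z).1) (fun t => (Zf t z).2)) ∧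
      (∀ t ∈ Ico 0 T, ∀ w : R3 × R3, f t w.1 w.2 = f 0 (Zi t w).1 (Zi t w).2) ∧
      (∀ t ∈ Ico 0 T, MeasurePreserving (Zf t) volume volume) ∧
      (∀ t ∈ Ico 0 T, MeasurePreserving (Zi t) volume volume) ∧
      ContDiffOn ℝ ∞ (fun p : ℝ × R3 × R3 => Zf p.1 p.2) (Iio T ×ˢ univ) ∧
      ContDiffOn ℝ ∞ (fun p : ℝ × R3 × R3 => Zi p.1 p.2) (Iio T ×ˢ univ) := by
  have hE := h.hE
  have hB := h.hB
  have h0T : (0 : ℝ) ∈ Ico 0 T := ⟨le_rfl, hT⟩
  refine ⟨Zf E B T, Zi E B T, FlowSol.av E B, lFlow hE hB hT, fun τ w => rfl,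
    fun X p hc t ht => isChar_eq hE hB hc ht, fun z hz => isChar_Ξt h h0T hz,
    fun t ht w => ?_, fun t ht => measurePreserving_Ξt hE hB ht.2 hT,
    fun t ht => measurePreserving_Ξt hE hB hT ht.2, contDiffOn_Zf hE hB hT,
    contDiffOn_Zi hE hB hT⟩
  have h3 := const_char h h0T ht ht.2 w
  rw [Ξt_self hE hB ht.2] at h3
  exact h3

end Crest.Agent.R106.FlowTo
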