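import Crest.Agent.R106.GsrMom

-- ▼ part R106/GsrKer
section

set_option autoImplicit false

open MeasureTheory Set Filter Topology Metric
open Crest.AnalysisR.VecCalc3 Crest.AnalysisR.PDE.RVM
open scoped InnerProductSpace ContDiff

noncomputable section

namespace Crest.Agent.R106.GSR

/-! ### positivity of `ε = 1 - n·v` -/

theorem inner_relVel_lt {n : R3} (hn : ‖n‖ = 1) (p : R3) : ⟪n, relVel p⟫_ℝ < 1 := by
  have h := real_inner_le_norm n (relVel p)
  rw [hn, one_mul] at h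
  linarith [norm_relVel_lt p]

theorem eps_pos {n : R3} (hn : ‖n‖ = 1) (p : R3) : 0 < 1 - ⟪n, relVel p⟫_ℝ := by
  linarith [inner_relVel_lt hn p]

theorem eps_ge {n : R3} (hn : ‖n‖ = 1) (p : R3) : (2 * gam p ^ 2)⁻¹ ≤ 1 - ⟪n, relVel p⟫_ℝ := by
  have h := real_inner_le_norm n (relVel p)
  rw [hn, one_mul] at h
  have h1 := norm_sq_relVel p
  have h2 := norm_relVel_lt p
  have h3 := norm_nonneg (relVel p)
  have h4 : (2 * gam p ^ 2)⁻¹ = ((gam p)⁻¹) ^ 2 / 2 := by rw [mul_inv, inv_pow]; ring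
  rw [h4]
  nlinarith

/-! ### the kernels before integration by parts -/

/-- `(n - v)_i / (1 - n·v)` -/
def kE (n : R3) (i : Fin 3) (p : R3) : ℝ := (n i - relVel p i) / (1 - ⟪n, relVel p⟫_ℝ)

/-- `(n × (n - v))_i / (1 - n·v)` -/
def kB (n : R3) (i : Fin 3) (p : R3) : ℝ :=
  (cross3 n (n - relVel p)) i / (1 - ⟪n, relVel p⟫_ℝ)

theorem cross3_0 (a b : R3) : cross3 a b 0 = a 1 * b 2 - a 2 * b 1 := rfl
theorem cross3_1 (a b : R3) : cross3 a b 1 = a 2 * b 0 - a 0 * b 2 := rfl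
theorem cross3_2 (a b : R3) : cross3 a b 2 = a 0 * b 1 - a 1 * b 0 := rfl

theorem hasFDerivAt_eps (n p : R3) :
    HasFDerivAt (fun p => 1 - ⟪n, relVel p⟫_ℝ) (-((innerSL ℝ n).comp (fderiv ℝ relVel p))) p := by
  have hd : DifferentiableAt ℝ relVel p := (contDiff_relVel.differentiable (by simp)) p
  exact ((innerSL ℝ n).hasFDerivAt.comp p hd.hasFDerivAt).const_sub 1

theorem hasFDerivAt_comp_relVel (p : R3) (i : Fin 3) :
    HasFDerivAt (fun p => relVel p i) (fderiv ℝ (fun p => relVel p i) p) p :=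
  ((contDiff_relVel_comp i).differentiable (by simp) p).hasFDerivAt

theorem contDiff_eps (n : R3) : ContDiff ℝ ∞ fun p => 1 - ⟪n, relVel p⟫_ℝ :=
  contDiff_const.sub ((innerSL ℝ n).contDiff.comp contDiff_relVel)

theorem contDiff_kE {n : R3} (hn : ‖n‖ = 1) (i : Fin 3) : ContDiff ℝ ∞ (kE n i) :=
  (contDiff_const.sub (contDiff_relVel_comp i)).div (contDiff_eps n) fun p => (eps_pos hn p).ne'

theorem contDiff_cross_relVel (n : R3) (i : Fin 3) :
    ContDiff ℝ ∞ fun p => cross3 n (n - relVel p) i := by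
  have key : ∀ (a b : Fin 3) (c d : ℝ),
      ContDiff ℝ ∞ fun p => c * (n a - relVel p a) - d * (n b - relVel p b) := fun a b c d =>
    (contDiff_const.mul (contDiff_const.sub (contDiff_relVel_comp a))).sub
      (contDiff_const.mul (contDiff_const.sub (contDiff_relVel_comp b)))
  fin_cases i
  · exact key 2 1 _ _
  · exact key 0 2 _ _
  · exact key 1 0 _ _

theorem contDiff_kB {n : R3} (hn : ‖n‖ = 1) (i : Fin 3) : ContDiff ℝ ∞ (kB n i) :=
  (contDiff_cross_relVel n i).div (contDiff_eps n) fun p => (eps_pos hn p).ne'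

theorem fderiv_quot {N D : R3 → ℝ} {N' D' : R3 →L[ℝ] ℝ} {p : R3} (h1 : HasFDerivAt N N' p)
    (h2 : HasFDerivAt D D' p) (hD : D p ≠ 0) (w : R3) :
    fderiv ℝ (fun p => N p / D p) p w = ((D p) ^ 2)⁻¹ * (N' w * D p - N p * D' w) := by
  have h3 : HasFDerivAt (fun p => (D p)⁻¹) ((-(D p ^ 2)⁻¹) • D') p :=
    (hasDerivAt_inv hD).comp_hasFDerivAt p h2
  have h4 : HasFDerivAt (fun p => N p / D p) _ p := h1.mul h3
  rw [h4.fderiv]
  simp only [smul_apply, add_apply, smul_eq_mul]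
  field_simp
  ring

theorem fderiv_kE {n : R3} (hn : ‖n‖ = 1) (i : Fin 3) (p w : R3) :
    fderiv ℝ (kE n i) p w = ((1 - ⟪n, relVel p⟫_ℝ) ^ 2)⁻¹ *
      (⟪n, acc p w⟫_ℝ * (n i - relVel p i) - (1 - ⟪n, relVel p⟫_ℝ) * acc p w i) := by
  have h1 := (hasFDerivAt_comp_relVel p i).const_sub (n i)
  have h2 := hasFDerivAt_eps n p
  have h3 := fderiv_quot h1 h2 (eps_pos hn p).ne' w
  have h4 : fderiv ℝ (kE n i) p w = _ := h3
  rw [h4]
  simp only [neg_apply, ContinuousLinearMap.comp_apply,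
    innerSL_apply_apply, fderiv_relVel, fderiv_relVel_comp]
  ring

theorem fderiv_cross_relVel (n : R3) (i : Fin 3) (p w : R3) :
    fderiv ℝ (fun p => cross3 n (n - relVel p) i) p w = - cross3 n (acc p w) i := by
  have key : ∀ (a b : Fin 3) (c d : ℝ),
      fderiv ℝ (fun p => c * (n a - relVel p a) - d * (n b - relVel p b)) p w
        = -(c * acc p w a - d * acc p w b) := by
    intro a b c d
    have h1 := ((hasFDerivAt_comp_relVel p a).const_sub (n a)).const_mul c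
    have h2 := ((hasFDerivAt_comp_relVel p b).const_sub (n b)).const_mul d
    have h3 : HasFDerivAt (fun p => c * (n a - relVel p a) - d * (n b - relVel p b)) _ p :=
      h1.sub h2
    rw [h3.fderiv]
    simp only [sub_apply, smul_apply, neg_apply, fderiv_relVel_comp, smul_eq_mul]
    ring
  fin_cases i
  · exact key 2 1 _ _
  · exact key 0 2 _ _
  · exact key 1 0 _ _

theorem fderiv_kB {n : R3} (hn : ‖n‖ = 1) (i : Fin 3) (p w : R3) :
    fderiv ℝ (kB n i) p w = ((1 - ⟪n, relVel p⟫_ℝ) ^ 2)⁻¹ *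
      (⟪n, acc p w⟫_ℝ * cross3 n (n - relVel p) i
        - (1 - ⟪n, relVel p⟫_ℝ) * cross3 n (acc p w) i) := by
  have h1 : HasFDerivAt (fun p => cross3 n (n - relVel p) i)
      (fderiv ℝ (fun p => cross3 n (n - relVel p) i) p) p :=
    ((contDiff_cross_relVel n i).differentiable (by simp) p).hasFDerivAt
  have h2 := hasFDerivAt_eps n p
  have h3 := fderiv_quot h1 h2 (eps_pos hn p).ne' w
  have h4 : fderiv ℝ (kB n i) p w = _ := h3
  rw [h4]
  simp only [neg_apply, ContinuousLinearMap.comp_apply,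
    innerSL_apply_apply, fderiv_relVel, fderiv_cross_relVel]
  ring

theorem eS_apply (n p a : R3) (R : ℝ) (i : Fin 3) :
    eS n p a R i = ((1 - ⟪n, relVel p⟫_ℝ) ^ 2 * R)⁻¹ *
      (⟪n, a⟫_ℝ * (n i - relVel p i) - (1 - ⟪n, relVel p⟫_ℝ) * a i) := rfl

theorem eT_apply (n p : R3) (R : ℝ) (i : Fin 3) :
    eT n p R i = ((gam p) ^ 2 * (1 - ⟪n, relVel p⟫_ℝ) ^ 2 * R ^ 2)⁻¹ * (n i - relVel p i) := rfl

theorem cross_eS_apply (n p a : R3) (R : ℝ) (i : Fin 3) :
    cross3 n (eS n p a R) i = ((1 - ⟪n, relVel p⟫_ℝ) ^ 2 * R)⁻¹ *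
      (⟪n, a⟫_ℝ * cross3 n (n - relVel p) i - (1 - ⟪n, relVel p⟫_ℝ) * cross3 n a i) := by
  fin_cases i
  · show cross3 n (eS n p a R) 0 = _ * (_ * cross3 n (n - relVel p) 0 - _ * cross3 n a 0)
    rw [cross3_0, cross3_0, cross3_0, eS_apply, eS_apply]
    simp only [PiLp.sub_apply]
    ring
  · show cross3 n (eS n p a R) 1 = _ * (_ * cross3 n (n - relVel p) 1 - _ * cross3 n a 1)
    rw [cross3_1, cross3_1, cross3_1, eS_apply, eS_apply]
    simp only [PiLp.sub_apply]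
    ring
  · show cross3 n (eS n p a R) 2 = _ * (_ * cross3 n (n - relVel p) 2 - _ * cross3 n a 2)
    rw [cross3_2, cross3_2, cross3_2, eS_apply, eS_apply]
    simp only [PiLp.sub_apply]
    ring

theorem cross_eT_apply (n p : R3) (R : ℝ) (i : Fin 3) :
    cross3 n (eT n p R) i = ((gam p) ^ 2 * (1 - ⟪n, relVel p⟫_ℝ) ^ 2 * R ^ 2)⁻¹ *
      cross3 n (n - relVel p) i := by
  fin_cases i
  · show cross3 n (eT n p R) 0 = _ * cross3 n (n - relVel p) 0
    rw [cross3_0, cross3_0, eT_apply, eT_apply]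
    simp only [PiLp.sub_apply]
    ring
  · show cross3 n (eT n p R) 1 = _ * cross3 n (n - relVel p) 1
    rw [cross3_1, cross3_1, eT_apply, eT_apply]
    simp only [PiLp.sub_apply]
    ring
  · show cross3 n (eT n p R) 2 = _ * cross3 n (n - relVel p) 2
    rw [cross3_2, cross3_2, eT_apply, eT_apply]
    simp only [PiLp.sub_apply]
    ring

/-- **integration by parts in momentum, electric kernel** -/
theorem ibp_E {n : R3} (hn : ‖n‖ = 1) (i : Fin 3) {R : ℝ} (hR : R ≠ 0) {φ : R3 → ℝ}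
    (hφ : ContDiff ℝ 1 φ) (hc : HasCompactSupport φ) (E B : R3) :
    ∫ p, (kE n i p / R) * fderiv ℝ φ p (lorF E B p)
      = - ∫ p, φ p * eS n p (acc p (lorF E B p)) R i := by
  have h1 : ContDiff ℝ 1 fun p => kE n i p / R :=
    ((contDiff_kE hn i).of_le (by simp)).div_const R
  rw [ibp h1 hφ hc E B]
  congr 1
  refine integral_congr_ae (Eventually.of_forall fun p => ?_)
  dsimp only
  congr 1
  have h2 : fderiv ℝ (fun p => kE n i p / R) p = R⁻¹ • fderiv ℝ (kE n i) p := by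
    have h3 := (((contDiff_kE hn i).differentiable (by simp)) p).hasFDerivAt.mul_const R⁻¹
    simp only [div_eq_mul_inv]
    exact h3.fderiv
  rw [h2, smul_apply, fderiv_kE hn, eS_apply, smul_eq_mul]
  have h5 := (eps_pos hn p).ne'
  field_simp

/-- **integration by parts in momentum, magnetic kernel** -/
theorem ibp_B {n : R3} (hn : ‖n‖ = 1) (i : Fin 3) {R : ℝ} (hR : R ≠ 0) {φ : R3 → ℝ}
    (hφ : ContDiff ℝ 1 φ) (hc : HasCompactSupport φ) (E B : R3) :
    ∫ p, (kB n i p / R) * fderiv ℝ φ p (lorF E B p)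
      = - ∫ p, φ p * cross3 n (eS n p (acc p (lorF E B p)) R) i := by
  have h1 : ContDiff ℝ 1 fun p => kB n i p / R :=
    ((contDiff_kB hn i).of_le (by simp)).div_const R
  rw [ibp h1 hφ hc E B]
  congr 1
  refine integral_congr_ae (Eventually.of_forall fun p => ?_)
  dsimp only
  congr 1
  have h2 : fderiv ℝ (fun p => kB n i p / R) p = R⁻¹ • fderiv ℝ (kB n i) p := by
    have h3 := (((contDiff_kB hn i).differentiable (by simp)) p).hasFDerivAt.mul_const R⁻¹
    simp only [div_eq_mul_inv]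
    exact h3.fderiv
  rw [h2, smul_apply, fderiv_kB hn, cross_eS_apply, smul_eq_mul]
  have h5 := (eps_pos hn p).ne'
  field_simp

end Crest.Agent.R106.GSR
end
end

-- ▼ part R106/GsrInt

set_option autoImplicit false

open MeasureTheory Set Filter Topology Metric
open Crest.AnalysisR.VecCalc3 Crest.AnalysisR.PDE.RVM
open scoped InnerProductSpace ContDiff

noncomputable section

namespace Crest.Agent.R106.GSR

/-! ### bounds -/

theorem norm_n_sub_le {n : R3} (hn : ‖n‖ = 1) (p : R3) : ‖n - relVel p‖ ≤ 2 := by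
  have := norm_sub_le n (relVel p)
  have := norm_relVel_lt p
  linarith

theorem eps_sq_inv_le {n : R3} (hn : ‖n‖ = 1) (p : R3) :
    ((1 - ⟪n, relVel p⟫_ℝ) ^ 2)⁻¹ ≤ 4 * gam p ^ 4 := by
  have h1 := eps_ge hn p
  have h2 := gam_pos p
  have h3 : 0 < (2 * gam p ^ 2)⁻¹ := by positivity
  have h4 : ((2 * gam p ^ 2)⁻¹) ^ 2 ≤ (1 - ⟪n, relVel p⟫_ℝ) ^ 2 := by gcongr
  calc ((1 - ⟪n, relVel p⟫_ℝ) ^ 2)⁻¹ ≤ (((2 * gam p ^ 2)⁻¹) ^ 2)⁻¹ :=
        inv_anti₀ (by positivity) h4
    _ = 4 * gam p ^ 4 := by rw [inv_pow, inv_inv]; ring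

theorem norm_eT_le {n : R3} (hn : ‖n‖ = 1) (p : R3) {R : ℝ} (hR : 0 < R) :
    ‖eT n p R‖ ≤ 8 * gam p ^ 2 * (R ^ 2)⁻¹ := by
  unfold eT
  have h1 := eps_sq_inv_le hn p
  have h2 := gam_pos p
  have h3 := norm_n_sub_le hn p
  have h5 := eps_pos hn p
  rw [norm_smul, norm_inv, Real.norm_eq_abs, abs_of_pos (by positivity), mul_inv, mul_inv]
  calc (gam p ^ 2)⁻¹ * ((1 - ⟪n, relVel p⟫_ℝ) ^ 2)⁻¹ * (R ^ 2)⁻¹ * ‖n - relVel p‖
      ≤ (gam p ^ 2)⁻¹ * (4 * gam p ^ 4) * (R ^ 2)⁻¹ * 2 := by gcongr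
    _ = 8 * gam p ^ 2 * (R ^ 2)⁻¹ := by field_simp; ring


theorem norm_eS_le {n : R3} (hn : ‖n‖ = 1) (p a : R3) {R : ℝ} (hR : 0 < R) :
    ‖eS n p a R‖ ≤ 16 * gam p ^ 4 * ‖a‖ * R⁻¹ := by
  unfold eS
  have h1 := eps_sq_inv_le hn p
  have h3 := norm_n_sub_le hn p
  have h5 := eps_pos hn p
  have h6 : 1 - ⟪n, relVel p⟫_ℝ ≤ 2 := by
    have h := abs_real_inner_le_norm n (relVel p)
    rw [hn, one_mul] at h
    have h7 := (abs_le.1 h).1
    linarith [norm_relVel_lt p]
  have h7 : |⟪n, a⟫_ℝ| ≤ ‖a‖ := by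
    have h := abs_real_inner_le_norm n a
    rwa [hn, one_mul] at h
  have h8 : ‖⟪n, a⟫_ℝ • (n - relVel p) - (1 - ⟪n, relVel p⟫_ℝ) • a‖ ≤ 4 * ‖a‖ := by
    refine (norm_sub_le _ _).trans ?_
    rw [norm_smul, norm_smul, Real.norm_eq_abs, Real.norm_eq_abs, abs_of_pos h5]
    have := mul_le_mul h7 h3 (norm_nonneg _) (norm_nonneg a)
    have := mul_le_mul_of_nonneg_right h6 (norm_nonneg a)
    linarith
  rw [norm_smul, norm_inv, Real.norm_eq_abs, abs_of_pos (by positivity), mul_inv]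
  have h9 := gam_pos p
  calc ((1 - ⟪n, relVel p⟫_ℝ) ^ 2)⁻¹ * R⁻¹ *
        ‖⟪n, a⟫_ℝ • (n - relVel p) - (1 - ⟪n, relVel p⟫_ℝ) • a‖
      ≤ (4 * gam p ^ 4) * R⁻¹ * (4 * ‖a‖) := by gcongr
    _ = 16 * gam p ^ 4 * ‖a‖ * R⁻¹ := by ring

theorem norm_cross3_le (a b : R3) : ‖cross3 a b‖ ≤ ‖a‖ * ‖b‖ := by
  have h1 : ‖cross3 a b‖ ^ 2 ≤ (‖a‖ * ‖b‖) ^ 2 := by
    rw [mul_pow, EuclideanSpace.real_norm_sq_eq, EuclideanSpace.real_norm_sq_eq,
      EuclideanSpace.real_norm_sq_eq, Fin.sum_univ_three, Fin.sum_univ_three, Fin.sum_univ_three,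
      cross3_0, cross3_1, cross3_2]
    nlinarith [sq_nonneg (a 0 * b 0 + a 1 * b 1 + a 2 * b 2)]
  exact abs_le_of_sq_le_sq' h1 (by positivity) |>.2

/-! ### the unit vector -/

/-- unit vector from the source point `y` to the test point `x` -/
def nv (x y : R3) : R3 := ‖x - y‖⁻¹ • (x - y)

theorem norm_nv {x y : R3} (h : y ≠ x) : ‖nv x y‖ = 1 := by
  have h1 : 0 < ‖x - y‖ := norm_pos_iff.2 (sub_ne_zero.2 h.symm)
  unfold nv
  rw [norm_smul, norm_inv, norm_norm, inv_mul_cancel₀ h1.ne']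

theorem continuousOn_nv (x : R3) :
    ContinuousOn (fun q : R3 × R3 => nv x q.1) ({x}ᶜ ×ˢ univ) := by
  have h1 : Continuous fun q : R3 × R3 => ‖x - q.1‖ := by fun_prop
  have h2 : Continuous fun q : R3 × R3 => x - q.1 := by fun_prop
  have h3 : ContinuousOn (fun q : R3 × R3 => ‖x - q.1‖⁻¹) ({x}ᶜ ×ˢ univ) := by
    refine h1.continuousOn.inv₀ ?_
    rintro ⟨y, p⟩ ⟨hy, -⟩
    exact norm_ne_zero_iff.2 (sub_ne_zero.2 (Ne.symm hy))
  exact h3.smul h2.continuousOn

theorem continuousOn_eps (x : R3) :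
    ContinuousOn (fun q : R3 × R3 => 1 - ⟪nv x q.1, relVel q.2⟫_ℝ) ({x}ᶜ ×ˢ univ) :=
  continuousOn_const.sub ((continuousOn_nv x).inner
    ((contDiff_relVel.continuous.comp continuous_snd).continuousOn))

theorem continuousOn_eT (x : R3) :
    ContinuousOn (fun q : R3 × R3 => eT (nv x q.1) q.2 ‖x - q.1‖) ({x}ᶜ ×ˢ univ) := by
  unfold eT
  have hg : Continuous fun q : R3 × R3 => gam q.2 := contDiff_gam.continuous.comp continuous_snd
  have hv : Continuous fun q : R3 × R3 => relVel q.2 :=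
    contDiff_relVel.continuous.comp continuous_snd
  have h4 : ContinuousOn (fun q : R3 × R3 => gam q.2 ^ 2 * (1 - ⟪nv x q.1, relVel q.2⟫_ℝ) ^ 2 *
      ‖x - q.1‖ ^ 2) ({x}ᶜ ×ˢ univ) :=
    ((hg.continuousOn.pow 2).mul ((continuousOn_eps x).pow 2)).mul
      (by fun_prop : Continuous fun q : R3 × R3 => ‖x - q.1‖ ^ 2).continuousOn
  refine (h4.inv₀ ?_).smul ((continuousOn_nv x).sub hv.continuousOn)
  rintro ⟨y, p⟩ ⟨hy, -⟩
  have h1 := gam_pos p
  have h2 := eps_pos (norm_nv hy) p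
  have h3 : 0 < ‖x - y‖ := norm_pos_iff.2 (sub_ne_zero.2 (Ne.symm hy))
  dsimp only
  positivity

theorem continuousOn_eS (x : R3) {a : R3 × R3 → R3} (ha : ContinuousOn a ({x}ᶜ ×ˢ univ)) :
    ContinuousOn (fun q : R3 × R3 => eS (nv x q.1) q.2 (a q) ‖x - q.1‖) ({x}ᶜ ×ˢ univ) := by
  unfold eS
  have hv : Continuous fun q : R3 × R3 => relVel q.2 :=
    contDiff_relVel.continuous.comp continuous_snd
  have h4 : ContinuousOn (fun q : R3 × R3 => (1 - ⟪nv x q.1, relVel q.2⟫_ℝ) ^ 2 * ‖x - q.1‖)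
      ({x}ᶜ ×ˢ univ) :=
    ((continuousOn_eps x).pow 2).mul
      (by fun_prop : Continuous fun q : R3 × R3 => ‖x - q.1‖).continuousOn
  have h5 : ContinuousOn (fun q : R3 × R3 => ⟪nv x q.1, a q⟫_ℝ) ({x}ᶜ ×ˢ univ) :=
    (continuousOn_nv x).inner ha
  refine (h4.inv₀ ?_).smul ((h5.smul ((continuousOn_nv x).sub hv.continuousOn)).sub
      ((continuousOn_eps x).smul ha))
  rintro ⟨y, p⟩ ⟨hy, -⟩
  have h2 := eps_pos (norm_nv hy) p
  have h3 : 0 < ‖x - y‖ := norm_pos_iff.2 (sub_ne_zero.2 (Ne.symm hy))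
  dsimp only
  positivity

theorem continuous_cross3 {X : Type*} [TopologicalSpace X] {a b : X → R3} {s : Set X}
    (ha : ContinuousOn a s) (hb : ContinuousOn b s) :
    ContinuousOn (fun q => cross3 (a q) (b q)) s := by
  have hc : ∀ {c : X → R3}, ContinuousOn c s → ∀ i, ContinuousOn (fun q => c q i) s :=
    fun hc i => ((EuclideanSpace.proj (𝕜 := ℝ) i).continuous.comp_continuousOn hc)
  unfold cross3
  refine (PiLp.continuous_toLp 2 _).comp_continuousOn (continuousOn_pi.2 fun i => ?_)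
  fin_cases i
  · exact ((hc ha 1).mul (hc hb 2)).sub ((hc ha 2).mul (hc hb 1))
  · exact ((hc ha 2).mul (hc hb 0)).sub ((hc ha 0).mul (hc hb 2))
  · exact ((hc ha 0).mul (hc hb 1)).sub ((hc ha 1).mul (hc hb 0))

theorem continuous_acc {E B : ℝ → R3 → R3} (hE : Continuous fun q : ℝ × R3 => E q.1 q.2)
    (hB : Continuous fun q : ℝ × R3 => B q.1 q.2) (t : ℝ) (x : R3) :
    Continuous fun q : R3 × R3 => acc q.2 (lor E B (t - ‖x - q.1‖) q.1 q.2) := by
  have hg : Continuous fun q : R3 × R3 => gam q.2 := contDiff_gam.continuous.comp continuous_snd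
  have hv : Continuous fun q : R3 × R3 => relVel q.2 :=
    contDiff_relVel.continuous.comp continuous_snd
  have hm : Continuous fun q : R3 × R3 => ((t - ‖x - q.1‖, q.1) : ℝ × R3) := by fun_prop
  have hE' : Continuous fun q : R3 × R3 => E (t - ‖x - q.1‖) q.1 := hE.comp hm
  have hB' : Continuous fun q : R3 × R3 => B (t - ‖x - q.1‖) q.1 := hB.comp hm
  have hF : Continuous fun q : R3 × R3 => lor E B (t - ‖x - q.1‖) q.1 q.2 := by
    unfold lor
    refine hE'.add ?_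
    rw [← continuousOn_univ]
    exact continuous_cross3 hv.continuousOn hB'.continuousOn
  have hi : Continuous fun q : R3 × R3 =>
      ⟪relVel q.2, lor E B (t - ‖x - q.1‖) q.1 q.2⟫_ℝ := hv.inner hF
  unfold acc
  exact (hg.inv₀ fun q => (gam_pos q.2).ne').smul (hF.sub (hi.smul hv))

/-! ### integrability -/

/-- the measure `dy dp` on the base of the backward cone -/
def cone (x : R3) (t : ℝ) : Measure (R3 × R3) := (volume.restrict (ball x t)).prod volume

theorem integrableOn_inv_sq (x : R3) (t : ℝ) :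
    Integrable (fun y : R3 => (‖x - y‖ ^ 2)⁻¹) (volume.restrict (ball x t)) := by
  have h0 : IntegrableOn (fun z : R3 => (‖z‖ ^ 2)⁻¹) (ball (0 : R3) t) := by
    rw [integrableOn_fun_norm_addHaar (μ := (volume : Measure R3)) (f := fun r => (r ^ 2)⁻¹)]
    have hd : Module.finrank ℝ R3 - 1 = 2 := by simp
    rw [hd]
    refine IntegrableOn.congr_fun (f := fun _ => (1 : ℝ)) ?_ ?_ measurableSet_Ioo
    · exact (integrableOn_const_iff (by simp)).2 (Or.inr (by simp))
    · intro r hr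
      have hr0 : r ≠ 0 := hr.1.ne'
      simp only [smul_eq_mul]
      field_simp
  have h1 := (Measure.measurePreserving_sub_left (volume : Measure R3) x).integrableOn_comp_preimage
    (Homeomorph.subLeft x).measurableEmbedding (f := fun z : R3 => (‖z‖ ^ 2)⁻¹) (s := ball 0 t)
  have h2 := h1.2 h0
  have h3 : (fun y => x - y) ⁻¹' ball (0 : R3) t = ball x t := by
    ext y
    rw [mem_preimage, mem_ball_zero_iff, mem_ball, dist_comm, dist_eq_norm]
  rw [h3] at h2
  exact h2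

theorem cone_eq (x : R3) (t : ℝ) :
    cone x t = (volume : Measure (R3 × R3)).restrict ((ball x t \ {x}) ×ˢ univ) := by
  unfold cone
  have h1 : (volume : Measure R3).restrict (ball x t)
      = (volume : Measure R3).restrict (ball x t \ {x}) := by
    refine Measure.restrict_congr_set ?_
    have : ({x}ᶜ : Set R3) =ᵐ[volume] univ := by
      rw [ae_eq_univ, compl_compl]; simp
    have h2 := (ae_eq_refl (ball x t)).inter this
    rw [inter_univ] at h2
    exact h2.symm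
  rw [h1, Measure.volume_eq_prod, ← Measure.prod_restrict, Measure.restrict_univ]

theorem integrable_cone {G : Type*} [NormedAddCommGroup G] [NormedSpace ℝ G]
    [SecondCountableTopology G] {h : R3 × R3 → G} {x : R3} {t C P : ℝ}
    (hc : ContinuousOn h ({x}ᶜ ×ˢ univ))
    (hb : ∀ y ∈ ball x t, y ≠ x → ∀ p : R3, ‖p‖ ≤ P → ‖h (y, p)‖ ≤ C * (‖x - y‖ ^ 2)⁻¹)
    (hs : ∀ y ∈ ball x t, ∀ p : R3, P < ‖p‖ → h (y, p) = 0) : Integrable h (cone x t) := by
  have hmeas : AEStronglyMeasurable h (cone x t) := by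
    rw [cone_eq]
    refine (hc.mono ?_).aestronglyMeasurable
      ((measurableSet_ball.diff (measurableSet_singleton x)).prod MeasurableSet.univ)
    exact prod_mono (fun y hy => hy.2) (subset_univ _)
  have hg : Integrable (fun q : R3 × R3 => (|C| * (‖x - q.1‖ ^ 2)⁻¹) *
      (closedBall (0 : R3) P).indicator (fun _ => (1 : ℝ)) q.2) (cone x t) := by
    refine Integrable.mul_prod ((integrableOn_inv_sq x t).const_mul |C|) ?_
    exact (integrable_indicator_iff measurableSet_closedBall).2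
      ((integrableOn_const_iff (by simp)).2 (Or.inr measure_closedBall_lt_top))
  refine hg.mono' hmeas ?_
  rw [cone_eq]
  filter_upwards [ae_restrict_mem ((measurableSet_ball.diff
    (measurableSet_singleton x)).prod MeasurableSet.univ)] with q hq
  obtain ⟨y, p⟩ := q
  have hy : y ∈ ball x t := hq.1.1
  have hyx : y ≠ x := hq.1.2
  by_cases hp : ‖p‖ ≤ P
  · rw [indicator_of_mem (by rwa [mem_closedBall_zero_iff]), mul_one]
    exact (hb y hy hyx p hp).trans (mul_le_mul_of_nonneg_right (le_abs_self C) (by positivity))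
  · rw [hs y hy p (not_le.1 hp), norm_zero]
    refine mul_nonneg (by positivity) ?_
    exact indicator_nonneg (fun _ _ => zero_le_one) _

/-! ### solutions -/

section Sol

variable {f : ℝ → R3 → R3 → ℝ} {E B : ℝ → R3 → R3}

theorem mem_times {x y : R3} {t : ℝ} (hy : y ∈ ball x t) : t - ‖x - y‖ ∈ Icc 0 t := by
  rw [mem_ball, dist_comm, dist_eq_norm] at hy
  exact ⟨by linarith, by linarith [norm_nonneg (x - y)]⟩

theorem exists_bound_f (hf : Continuous (unc f)) (t P : ℝ) (x : R3) :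
    ∃ M : ℝ, 0 ≤ M ∧ ∀ y ∈ ball x t, ∀ p : R3, ‖p‖ ≤ P → |f (t - ‖x - y‖) y p| ≤ M := by
  obtain ⟨M, hM⟩ := (isCompact_Icc.prod ((isCompact_closedBall x t).prod
    (isCompact_closedBall (0 : R3) P))).exists_bound_of_continuousOn
    (s := Icc (0 : ℝ) t ×ˢ closedBall x t ×ˢ closedBall (0 : R3) P) hf.continuousOn
  refine ⟨|M|, abs_nonneg _, fun y hy p hp => ?_⟩
  have h := hM (t - ‖x - y‖, y, p) ⟨mem_times hy, ball_subset_closedBall hy, by simpa using hp⟩
  exact h.trans (le_abs_self M)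

theorem exists_bound_acc (hE : Continuous fun q : ℝ × R3 => E q.1 q.2)
    (hB : Continuous fun q : ℝ × R3 => B q.1 q.2) (t P : ℝ) (x : R3) :
    ∃ M : ℝ, 0 ≤ M ∧ ∀ y ∈ ball x t, ∀ p : R3, ‖p‖ ≤ P →
      ‖acc p (lor E B (t - ‖x - y‖) y p)‖ ≤ M := by
  obtain ⟨M, hM⟩ := ((isCompact_closedBall x t).prod
    (isCompact_closedBall (0 : R3) P)).exists_bound_of_continuousOn
    (continuous_acc hE hB t x).continuousOn
  refine ⟨|M|, abs_nonneg _, fun y hy p hp => ?_⟩
  have h := hM (y, p) ⟨ball_subset_closedBall hy, by simpa using hp⟩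
  exact h.trans (le_abs_self M)

theorem gam_le {p : R3} {P : ℝ} (hp : ‖p‖ ≤ P) : gam p ^ 2 ≤ 1 + P ^ 2 := by
  rw [gam_sq]
  have := norm_nonneg p
  gcongr

/-- integrability of the `e_T`-part -/
theorem integrable_eT (hf : Continuous (unc f)) {t P : ℝ}
    (hs : ∀ s ∈ Icc 0 t, ∀ y p, P < ‖p‖ → f s y p = 0) (x : R3) :
    Integrable (fun q : R3 × R3 => f (t - ‖x - q.1‖) q.1 q.2 • eT (nv x q.1) q.2 ‖x - q.1‖)
      (cone x t) := by
  obtain ⟨M, hM0, hM⟩ := exists_bound_f hf t P x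
  have hfc : Continuous fun q : R3 × R3 => f (t - ‖x - q.1‖) q.1 q.2 :=
    hf.comp (by fun_prop : Continuous fun q : R3 × R3 =>
      ((t - ‖x - q.1‖, q.1, q.2) : ℝ × R3 × R3))
  refine integrable_cone (C := M * (8 * (1 + P ^ 2))) (P := P)
    (hfc.continuousOn.smul (continuousOn_eT x)) (fun y hy hyx p hp => ?_) fun y hy p hp => ?_
  · have h1 := norm_eT_le (norm_nv hyx) p (norm_pos_iff.2 (sub_ne_zero.2 (Ne.symm hyx)))
    have h2 := hM y hy p hp
    have h3 := gam_le hp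
    dsimp only
    rw [norm_smul, Real.norm_eq_abs]
    calc |f (t - ‖x - y‖) y p| * ‖eT (nv x y) p ‖x - y‖‖
        ≤ M * (8 * (1 + P ^ 2) * (‖x - y‖ ^ 2)⁻¹) := by
          refine mul_le_mul h2 (h1.trans ?_) (norm_nonneg _) hM0
          gcongr
      _ = M * (8 * (1 + P ^ 2)) * (‖x - y‖ ^ 2)⁻¹ := by ring
  · dsimp only
    rw [hs _ (mem_times hy) y p hp, zero_smul]

/-- integrability of the `e_S`-part -/
theorem integrable_eS (hf : Continuous (unc f)) (hE : Continuous fun q : ℝ × R3 => E q.1 q.2)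
    (hB : Continuous fun q : ℝ × R3 => B q.1 q.2) {t P : ℝ}
    (hs : ∀ s ∈ Icc 0 t, ∀ y p, P < ‖p‖ → f s y p = 0) (x : R3) :
    Integrable (fun q : R3 × R3 => f (t - ‖x - q.1‖) q.1 q.2 •
      eS (nv x q.1) q.2 (acc q.2 (lor E B (t - ‖x - q.1‖) q.1 q.2)) ‖x - q.1‖) (cone x t) := by
  obtain ⟨M, hM0, hM⟩ := exists_bound_f hf t P x
  obtain ⟨A, hA0, hA⟩ := exists_bound_acc hE hB t P x
  have hfc : Continuous fun q : R3 × R3 => f (t - ‖x - q.1‖) q.1 q.2 :=
    hf.comp (by fun_prop : Continuous fun q : R3 × R3 =>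
      ((t - ‖x - q.1‖, q.1, q.2) : ℝ × R3 × R3))
  refine integrable_cone (C := M * (16 * (1 + P ^ 2) ^ 2 * A * |t|)) (P := P)
    (hfc.continuousOn.smul (continuousOn_eS x (continuous_acc hE hB t x).continuousOn))
    (fun y hy hyx p hp => ?_) fun y hy p hp => ?_
  · have h0 : 0 < ‖x - y‖ := norm_pos_iff.2 (sub_ne_zero.2 (Ne.symm hyx))
    have h1 := norm_eS_le (norm_nv hyx) p (acc p (lor E B (t - ‖x - y‖) y p)) h0
    have h2 := hM y hy p hp
    have h3 := gam_le hp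
    have h4 := hA y hy p hp
    have h5 : ‖x - y‖ ≤ |t| := by
      have := (mem_times hy).1
      linarith [le_abs_self t]
    have h6 : ‖x - y‖⁻¹ ≤ |t| * (‖x - y‖ ^ 2)⁻¹ := by
      have h7 : ‖x - y‖⁻¹ = ‖x - y‖ * (‖x - y‖ ^ 2)⁻¹ := by field_simp
      rw [h7]
      gcongr
    have h8 : gam p ^ 4 ≤ (1 + P ^ 2) ^ 2 := by
      have : gam p ^ 4 = (gam p ^ 2) ^ 2 := by ring
      rw [this]
      have := gam_pos p
      gcongr
    dsimp only
    rw [norm_smul, Real.norm_eq_abs]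
    calc |f (t - ‖x - y‖) y p| * ‖eS (nv x y) p (acc p (lor E B (t - ‖x - y‖) y p)) ‖x - y‖‖
        ≤ M * (16 * (1 + P ^ 2) ^ 2 * A * (|t| * (‖x - y‖ ^ 2)⁻¹)) := by
          refine mul_le_mul h2 (h1.trans ?_) (norm_nonneg _) hM0
          gcongr
      _ = M * (16 * (1 + P ^ 2) ^ 2 * A * |t|) * (‖x - y‖ ^ 2)⁻¹ := by ring
  · dsimp only
    rw [hs _ (mem_times hy) y p hp, zero_smul]

/-- `n × ·` preserves integrability on the cone -/
theorem integrable_cross {h : R3 × R3 → R3} {x : R3} {t : ℝ} (hh : Integrable h (cone x t)) :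
    Integrable (fun q => cross3 (nv x q.1) (h q)) (cone x t) := by
  have hm : AEStronglyMeasurable (fun q => cross3 (nv x q.1) (h q)) (cone x t) := by
    have hn : AEStronglyMeasurable (fun q : R3 × R3 => nv x q.1) (cone x t) := by
      rw [cone_eq]
      refine ((continuousOn_nv x).mono ?_).aestronglyMeasurable
        ((measurableSet_ball.diff (measurableSet_singleton x)).prod MeasurableSet.univ)
      exact prod_mono (fun y hy => hy.2) (subset_univ _)
    have hc : Continuous fun q : R3 × R3 => cross3 q.1 q.2 := by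
      rw [← continuousOn_univ]
      exact continuous_cross3 continuous_fst.continuousOn continuous_snd.continuousOn
    exact hc.comp_aestronglyMeasurable (hn.prodMk hh.aestronglyMeasurable)
  refine hh.norm.mono' hm ?_
  rw [cone_eq]
  filter_upwards [ae_restrict_mem ((measurableSet_ball.diff
    (measurableSet_singleton x)).prod MeasurableSet.univ)] with q hq
  have h1 := norm_cross3_le (nv x q.1) (h q)
  rwa [norm_nv hq.1.2, one_mul] at h1

end Sol

end Crest.Agent.R106.GSR
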