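import Mathlib
import Crest.Prelude.Def_VecCalc3
import Crest.Prelude.Def_VlasovMaxwell

/-!
# Row 106 (S0140): FROZEN TOP INTERFACE v2 (helper913 16:25, captain helper124 16:24: SmoothSol and
# TruncEx are `ContDiff` on ALL of ℝ, MomBound is uniform in `T' ≤ T`).

`S0140  <=  Uniq + TruncEx + MomBound`   (node GLUE, helper18).

* `Uniq`     : helper756.
* `TruncEx`  : standard part (sub-captain 775, note 12365):
               global smooth solution of the momentum-truncated system, stated WITHOUT mentioning the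
               truncated force.
* `MomBound` : new part (captain 124, architect 268).
-/

set_option autoImplicit false
open MeasureTheory Set
open scoped ContDiff
open Crest.AnalysisR.VecCalc3 Crest.AnalysisR.PDE.RVM

namespace Crest.Agent.R106

/-- Smooth solution on `[0, T)` in the class of the statement; the three functions are `C^∞` on all
of `ℝ × ℝ³ (× ℝ³)` (outside `[0, T)` they solve nothing in general). -/
def SmoothSol (T : ℝ) (f₀ : R3 → R3 → ℝ) (E₀ B₀ : R3 → R3)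
    (f : ℝ → R3 → R3 → ℝ) (E B : ℝ → R3 → R3) : Prop :=
  IsClassicalSolutionOn T f₀ E₀ B₀ f E B ∧
  ContDiff ℝ ∞ (fun p : ℝ × R3 × R3 => f p.1 p.2.1 p.2.2) ∧
  ContDiff ℝ ∞ (fun p : ℝ × R3 => E p.1 p.2) ∧
  ContDiff ℝ ∞ (fun p : ℝ × R3 => B p.1 p.2)

/-- Uniqueness in the class of the statement (helper756). -/
def Uniq : Prop :=
  ∀ (T : ℝ) (f₀ : R3 → R3 → ℝ) (E₀ B₀ : R3 → R3)
    (f : ℝ → R3 → R3 → ℝ) (E B : ℝ → R3 → R3) (f' : ℝ → R3 → R3 → ℝ) (E' B' : ℝ → R3 → R3),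
    IsClassicalSolutionOn T f₀ E₀ B₀ f E B → IsClassicalSolutionOn T f₀ E₀ B₀ f' E' B' →
    ∀ t ∈ Ico 0 T, f' t = f t ∧ E' t = E t ∧ B' t = B t


/-- Global smooth solutions of the system truncated at momentum `P`. The truncated force does not
appear: it only matters that the five equations hold at every time at which the momentum support is
inside the ball of radius `P`, and that the momentum support moves with bounded speed. -/
def TruncEx : Prop :=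
  ∀ (f₀ : R3 → R3 → ℝ) (E₀ B₀ : R3 → R3), IsAdmissibleDatum f₀ E₀ B₀ → ∀ P : ℝ, 0 < P →
    ∃ (f : ℝ → R3 → R3 → ℝ) (E B : ℝ → R3 → R3),
      ContDiff ℝ ∞ (fun p : ℝ × R3 × R3 => f p.1 p.2.1 p.2.2) ∧
      ContDiff ℝ ∞ (fun p : ℝ × R3 => E p.1 p.2) ∧
      ContDiff ℝ ∞ (fun p : ℝ × R3 => B p.1 p.2) ∧
      f 0 = f₀ ∧ E 0 = E₀ ∧ B 0 = B₀ ∧
      (∀ t : ℝ, 0 < t → (∀ x v : R3, P < ‖v‖ → f t x v = 0) →
        ∀ x : R3, EquationsHoldAt f E B t x) ∧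
      (∀ T : ℝ, ∃ R : ℝ, ∀ t ∈ Icc 0 T, ∀ x v : R3, (R < ‖x‖ ∨ R < ‖v‖) → f t x v = 0) ∧
      (∀ T : ℝ, ∀ t ∈ Ico 0 T, MemLp (E t) 2 ∧ MemLp (B t) 2 ∧
        Filter.Tendsto (fun s => eLpNorm (E s - E t) 2 volume) (nhdsWithin t (Ico 0 T)) (nhds 0) ∧
        Filter.Tendsto (fun s => eLpNorm (B s - B t) 2 volume) (nhdsWithin t (Ico 0 T)) (nhds 0)) ∧
      (∀ T : ℝ, ∃ C : ℝ, ∀ s t m : ℝ, 0 ≤ s → s ≤ t → t ≤ T →
        (∀ x v : R3, m < ‖v‖ → f s x v = 0) →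
        ∀ x v : R3, m + C * (t - s) < ‖v‖ → f t x v = 0)

/-- The statement S0140 as a Prop (node GLUE: `glue : Uniq → TruncEx → MomBound → Goal`). -/
def Goal : Prop :=
  ∀ (f₀ : R3 → R3 → ℝ) (E₀ B₀ : R3 → R3), IsAdmissibleDatum f₀ E₀ B₀ →
    ∃ f : ℝ → R3 → R3 → ℝ, ∃ E B : ℝ → R3 → R3,
      (∀ T : ℝ, 0 < T → IsClassicalSolutionOn T f₀ E₀ B₀ f E B) ∧
      ContDiffOn ℝ ∞ (fun p : ℝ × R3 × R3 => f p.1 p.2.1 p.2.2) (Ici 0 ×ˢ univ) ∧
      ContDiffOn ℝ ∞ (fun p : ℝ × R3 => E p.1 p.2) (Ici 0 ×ˢ univ) ∧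
      ContDiffOn ℝ ∞ (fun p : ℝ × R3 => B p.1 p.2) (Ici 0 ×ˢ univ) ∧
      ∀ T : ℝ, 0 < T → ∀ (f' : ℝ → R3 → R3 → ℝ) (E' B' : ℝ → R3 → R3),
        IsClassicalSolutionOn T f₀ E₀ B₀ f' E' B' →
        ∀ t ∈ Ico 0 T, f' t = f t ∧ E' t = E t ∧ B' t = B t

end Crest.Agent.R106
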