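import Mathlib
import Crest.Prelude.Def_VecCalc3
import Crest.Agent.R106.GSRDefs

-- ▼ part R106/GsrTip
section

set_option autoImplicit false

open MeasureTheory Set Filter Topology Metric
open Crest.AnalysisR.VecCalc3
open scoped ContDiff RealInnerProductSpace

namespace Crest.Agent.R106.Gsr

/-- standard basis vector -/
noncomputable abbrev e (k : Fin 3) : R3 := EuclideanSpace.single k (1 : ℝ)

lemma integrable_of_bound {F : R3 → ℝ} {C ρ : ℝ} (hc : ContinuousOn F {0}ᶜ)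
    (hs : ∀ z, ρ < ‖z‖ → F z = 0) (hb : ∀ z, z ≠ 0 → |F z| ≤ C / ‖z‖ ^ 2) : Integrable F := by
  have hm : AEStronglyMeasurable F volume := by
    have h1 : AEStronglyMeasurable F (volume.restrict ({0}ᶜ : Set R3)) :=
      hc.aestronglyMeasurable (measurableSet_singleton (0 : R3)).compl
    rwa [restrict_compl_singleton] at h1
  have h2 : IntegrableOn (fun z : R3 => (fun r : ℝ => C / r ^ 2) ‖z‖) (ball (0 : R3) (ρ + 1)) volume := by
    refine (integrableOn_fun_norm_addHaar (volume : Measure R3) (f := fun r : ℝ => C / r ^ 2) (r := ρ + 1)).2 ?_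
    have h3 : IntegrableOn (fun _ : ℝ => C) (Ioo 0 (ρ + 1)) := by
      apply integrableOn_const
      · rw [Real.volume_Ioo]; exact ENNReal.ofReal_ne_top
      · simp
    refine h3.congr_fun ?_ measurableSet_Ioo
    intro y hy
    have hy0 : y ≠ 0 := hy.1.ne'
    simp only [finrank_euclideanSpace, Fintype.card_fin, smul_eq_mul]
    norm_num
    field_simp
  have h3 : Integrable ((ball (0 : R3) (ρ + 1)).indicator (fun z : R3 => C / ‖z‖ ^ 2)) := by
    rw [integrable_indicator_iff measurableSet_ball]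
    exact h2
  refine h3.mono' hm ?_
  have h0 : ∀ᵐ z : R3, z ≠ 0 := by
    have : ({0}ᶜ : Set R3) ∈ ae (volume : Measure R3) := by
      rw [mem_ae_iff, compl_compl]; exact measure_singleton _
    exact this
  filter_upwards [h0] with z hz
  by_cases hzr : ‖z‖ < ρ + 1
  · rw [indicator_of_mem (by simpa using hzr)]
    exact hb z hz
  · rw [indicator_of_notMem (by simpa using hzr), hs z (by linarith [not_lt.1 hzr])]
    simp

/-- cut-off: `0` for `‖z‖ ≤ 1`, `1` for `‖z‖² ≥ 2`. -/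
noncomputable def cut (z : R3) : ℝ := Real.smoothTransition (‖z‖ ^ 2 - 1)

lemma cut_contDiff {n : ℕ∞} : ContDiff ℝ n cut := by
  unfold cut
  exact Real.smoothTransition.contDiff.comp ((contDiff_norm_sq ℝ).sub contDiff_const)

lemma cut_zero {z : R3} (hz : ‖z‖ ≤ 1) : cut z = 0 := by
  unfold cut
  apply Real.smoothTransition.zero_of_nonpos
  nlinarith [norm_nonneg z]

lemma cut_one {z : R3} (hz : 2 ≤ ‖z‖ ^ 2) : cut z = 1 := by
  unfold cut
  apply Real.smoothTransition.one_of_one_le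
  linarith

lemma cut_nonneg (z : R3) : 0 ≤ cut z := Real.smoothTransition.nonneg _
lemma cut_le_one (z : R3) : cut z ≤ 1 := Real.smoothTransition.le_one _

/-- `ψ k = ∂_k cut` -/
noncomputable def psi (k : Fin 3) (z : R3) : ℝ := fderiv ℝ cut z (e k)

lemma psi_eq (k : Fin 3) (z : R3) :
    psi k z = deriv Real.smoothTransition (‖z‖ ^ 2 - 1) * (2 * z k) := by
  unfold psi
  have h1 : HasFDerivAt (fun z : R3 => ‖z‖ ^ 2 - 1) (2 • (innerSL ℝ) z) z :=
    (hasStrictFDerivAt_norm_sq z).hasFDerivAt.sub_const 1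
  have h2 : HasDerivAt Real.smoothTransition (deriv Real.smoothTransition (‖z‖ ^ 2 - 1)) (‖z‖ ^ 2 - 1) :=
    ((Real.smoothTransition.contDiff (n := 1)).differentiable (by norm_num)).differentiableAt.hasDerivAt
  have h3 := h2.comp_hasFDerivAt z h1
  have h4 : HasFDerivAt cut (deriv Real.smoothTransition (‖z‖ ^ 2 - 1) • 2 • (innerSL ℝ) z) z := h3
  rw [h4.fderiv]
  simp [EuclideanSpace.inner_single_right]

lemma psi_continuous (k : Fin 3) : Continuous (psi k) := by
  unfold psi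
  exact ((cut_contDiff (n := 1)).continuous_fderiv (by norm_num)).clm_apply continuous_const

lemma psi_zero_of_lt {k : Fin 3} {z : R3} (hz : ‖z‖ < 1) : psi k z = 0 := by
  unfold psi
  have : cut =ᶠ[𝓝 z] fun _ => 0 := by
    have : {w : R3 | ‖w‖ < 1} ∈ 𝓝 z := (isOpen_lt continuous_norm continuous_const).mem_nhds hz
    filter_upwards [this] with w hw using cut_zero (le_of_lt hw)
  rw [this.fderiv_eq]; simp

lemma psi_zero_of_gt {k : Fin 3} {z : R3} (hz : 2 < ‖z‖) : psi k z = 0 := by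
  unfold psi
  have : cut =ᶠ[𝓝 z] fun _ => 1 := by
    have : {w : R3 | 2 < ‖w‖} ∈ 𝓝 z := (isOpen_lt continuous_const continuous_norm).mem_nhds hz
    filter_upwards [this] with w hw
    exact cut_one (by nlinarith [show (2:ℝ) < ‖w‖ from hw])
  rw [this.fderiv_eq]; simp

lemma integrable_cutoff_mul {F G : R3 → ℝ} {δ ρ : ℝ} (hδ : 0 < δ) (hF : Continuous F)
    (hF0 : ∀ z, ‖z‖ < δ → F z = 0) (hG : ContinuousOn G {0}ᶜ) (hs : ∀ z, ρ < ‖z‖ → G z = 0) :
    Integrable (fun z => F z * G z) := by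
  have hcont : Continuous (fun z => F z * G z) := by
    rw [continuous_iff_continuousAt]
    intro z
    by_cases hz : z = 0
    · subst hz
      have : (fun z => F z * G z) =ᶠ[𝓝 (0 : R3)] fun _ => 0 := by
        have : {w : R3 | ‖w‖ < δ} ∈ 𝓝 (0 : R3) :=
          (isOpen_lt continuous_norm continuous_const).mem_nhds (by simpa using hδ)
        filter_upwards [this] with w hw
        rw [hF0 w hw, zero_mul]
      exact ContinuousAt.congr continuousAt_const this.symm
    · exact hF.continuousAt.mul (hG.continuousAt (isOpen_compl_singleton.mem_nhds hz))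
  apply hcont.integrable_of_hasCompactSupport
  apply HasCompactSupport.intro (isCompact_closedBall (0 : R3) ρ)
  intro z hz
  rw [hs z (by simpa using hz), mul_zero]

/-- The divergence lemma with a tip. -/
theorem tip {Φ : Fin 3 → R3 → ℝ} {D : R3 → ℝ} {Φ0 : Fin 3 → R3 → ℝ} {C ρ : ℝ}
    (hΦ : ∀ k, ContDiffOn ℝ 1 (Φ k) {0}ᶜ)
    (hs : ∀ k z, ρ < ‖z‖ → Φ k z = 0)
    (hb : ∀ k z, z ≠ 0 → |Φ k z| ≤ C / ‖z‖ ^ 2)
    (hD : ∀ z, z ≠ 0 → ∑ k, fderiv ℝ (Φ k) z (e k) = D z)
    (hDi : Integrable D)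
    (hlim : ∀ k ζ, ζ ≠ 0 → Tendsto (fun ε : ℝ => ε ^ 2 * Φ k (ε • ζ)) (𝓝[>] 0) (𝓝 (Φ0 k ζ))) :
    ∫ z, D z = - ∑ k, ∫ ζ, psi k ζ * Φ0 k ζ := by
  have hdiff : ∀ k z, z ≠ 0 → DifferentiableAt ℝ (Φ k) z := fun k z hz =>
    ((hΦ k).contDiffAt (isOpen_compl_singleton.mem_nhds hz)).differentiableAt (by norm_num)
  have hcd : ∀ k, ContinuousOn (fun z => fderiv ℝ (Φ k) z (e k)) {0}ᶜ := fun k =>
    ((hΦ k).continuousOn_fderiv_of_isOpen isOpen_compl_singleton (by norm_num)).clm_apply continuousOn_const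
  have hsd : ∀ k z, ρ < ‖z‖ → fderiv ℝ (Φ k) z (e k) = 0 := by
    intro k z hz
    have : Φ k =ᶠ[𝓝 z] fun _ => 0 := by
      have : {w : R3 | ρ < ‖w‖} ∈ 𝓝 z := (isOpen_lt continuous_const continuous_norm).mem_nhds hz
      filter_upwards [this] with w hw using hs k w hw
    rw [this.fderiv_eq]; simp
  -- identity at level ε
  have hid : ∀ ε : ℝ, 0 < ε → ∫ z, cut (ε⁻¹ • z) * D z = - ∑ k, ∫ ζ, psi k ζ * (ε ^ 2 * Φ k (ε • ζ)) := by
    intro ε hε
    have hce : ContDiff ℝ 1 (fun z : R3 => cut (ε⁻¹ • z)) :=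
      (cut_contDiff (n := 1)).comp (contDiff_const_smul _)
    have hcd' : ∀ (k : Fin 3) (z : R3), fderiv ℝ (fun z : R3 => cut (ε⁻¹ • z)) z (e k) = ε⁻¹ * psi k (ε⁻¹ • z) := by
      intro k z
      have h1 : HasFDerivAt (fun z : R3 => ε⁻¹ • z) (ε⁻¹ • ContinuousLinearMap.id ℝ R3) z :=
        (hasFDerivAt_id z).const_smul ε⁻¹
      have h2 : HasFDerivAt cut (fderiv ℝ cut (ε⁻¹ • z)) (ε⁻¹ • z) :=
        ((cut_contDiff (n := 1)).differentiable (by norm_num)).differentiableAt.hasFDerivAt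
      have h3 := h2.comp z h1
      have h4 : HasFDerivAt (fun z : R3 => cut (ε⁻¹ • z)) ((fderiv ℝ cut (ε⁻¹ • z)).comp (ε⁻¹ • ContinuousLinearMap.id ℝ R3)) z := h3
      rw [h4.fderiv]
      simp [psi]
    have hcz : ∀ z : R3, ‖z‖ < ε → cut (ε⁻¹ • z) = 0 := by
      intro z hz
      apply cut_zero
      rw [norm_smul, norm_inv, Real.norm_of_nonneg hε.le]
      rw [inv_mul_le_iff₀ hε]; linarith
    have hpz : ∀ (k : Fin 3) (z : R3), ‖z‖ < ε → ε⁻¹ * psi k (ε⁻¹ • z) = 0 := by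
      intro k z hz
      rw [psi_zero_of_lt, mul_zero]
      rw [norm_smul, norm_inv, Real.norm_of_nonneg hε.le]
      rw [inv_mul_lt_iff₀ hε]; linarith
    have hI1 : ∀ k, Integrable (fun z => cut (ε⁻¹ • z) * fderiv ℝ (Φ k) z (e k)) := fun k =>
      integrable_cutoff_mul hε hce.continuous hcz (hcd k) (hsd k)
    have hI2 : ∀ k, Integrable (fun z => (ε⁻¹ * psi k (ε⁻¹ • z)) * Φ k z) := fun k =>
      integrable_cutoff_mul hε (continuous_const.mul ((psi_continuous k).comp (continuous_const_smul _))) (hpz k)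
        (hΦ k).continuousOn (hs k)
    have hI3 : ∀ k, Integrable (fun z => cut (ε⁻¹ • z) * Φ k z) := fun k =>
      integrable_cutoff_mul hε hce.continuous hcz (hΦ k).continuousOn (hs k)
    have hibp : ∀ k, ∫ z, cut (ε⁻¹ • z) * fderiv ℝ (Φ k) z (e k) = - ∫ z, (ε⁻¹ * psi k (ε⁻¹ • z)) * Φ k z := by
      intro k
      have := integral_mul_fderiv_eq_neg_fderiv_mul_of_integrable (μ := (volume : Measure R3))
        (f := fun z : R3 => cut (ε⁻¹ • z)) (g := Φ k) (v := e k)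
        (by simpa only [hcd'] using hI2 k) (hI1 k) (hI3 k)
        (fun z _ => (hce.differentiable (by norm_num)).differentiableAt)
        (fun z hz => by
          apply hdiff
          rintro rfl
          have : (0 : R3) ∉ tsupport (fun z : R3 => cut (ε⁻¹ • z)) := by
            rw [notMem_tsupport_iff_eventuallyEq]
            have : {w : R3 | ‖w‖ < ε} ∈ 𝓝 (0 : R3) :=
              (isOpen_lt continuous_norm continuous_const).mem_nhds (by simpa using hε)
            filter_upwards [this] with w hw using hcz w hw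
          exact this hz)
      rw [this]
      simp only [hcd']
    have hsum : ∫ z, cut (ε⁻¹ • z) * D z = ∑ k, ∫ z, cut (ε⁻¹ • z) * fderiv ℝ (Φ k) z (e k) := by
      rw [← integral_finsetSum _ (fun k _ => hI1 k)]
      apply integral_congr_ae
      have h0 : ∀ᵐ z : R3, z ≠ 0 := by
        have : ({0}ᶜ : Set R3) ∈ ae (volume : Measure R3) := by
          rw [mem_ae_iff, compl_compl]; exact measure_singleton _
        exact this
      filter_upwards [h0] with z hz
      rw [← hD z hz, Finset.mul_sum]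
    rw [hsum, ← Finset.sum_neg_distrib]
    apply Finset.sum_congr rfl
    intro k _
    rw [hibp k]
    congr 1
    have hsc := Measure.integral_comp_smul (volume : Measure R3)
      (fun z : R3 => (ε⁻¹ * psi k (ε⁻¹ • z)) * Φ k z) ε
    have hfr : Module.finrank ℝ R3 = 3 := by simp
    rw [hfr] at hsc
    have habs : |(ε ^ 3)⁻¹| = (ε ^ 3)⁻¹ := abs_of_pos (by positivity)
    rw [habs] at hsc
    have : ∫ z, (ε⁻¹ * psi k (ε⁻¹ • z)) * Φ k z = ε ^ 3 * ∫ x, (ε⁻¹ * psi k (ε⁻¹ • ε • x)) * Φ k (ε • x) := by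
      rw [hsc, smul_eq_mul, ← mul_assoc, mul_inv_cancel₀ (by positivity), one_mul]
    rw [this, ← integral_const_mul]
    congr 1
    ext ζ
    rw [smul_smul, inv_mul_cancel₀ hε.ne', one_smul]
    field_simp
  -- limits
  have hL : Tendsto (fun ε : ℝ => ∫ z, cut (ε⁻¹ • z) * D z) (𝓝[>] 0) (𝓝 (∫ z, D z)) := by
    apply tendsto_integral_filter_of_dominated_convergence (fun z => ‖D z‖)
    · filter_upwards [self_mem_nhdsWithin] with ε hε
      exact (((cut_contDiff (n := 1)).continuous.comp (continuous_const_smul _)).aestronglyMeasurable).mul hDi.1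
    · filter_upwards [self_mem_nhdsWithin] with ε hε
      filter_upwards with z
      rw [norm_mul]
      have : ‖cut (ε⁻¹ • z)‖ ≤ 1 := by
        rw [Real.norm_of_nonneg (cut_nonneg _)]; exact cut_le_one _
      nlinarith [norm_nonneg (D z)]
    · exact hDi.norm
    · have h0 : ∀ᵐ z : R3, z ≠ 0 := by
        have : ({0}ᶜ : Set R3) ∈ ae (volume : Measure R3) := by
          rw [mem_ae_iff, compl_compl]; exact measure_singleton _
        exact this
      filter_upwards [h0] with z hz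
      have hz' : 0 < ‖z‖ := norm_pos_iff.2 hz
      have : ∀ᶠ ε : ℝ in 𝓝[>] 0, cut (ε⁻¹ • z) * D z = D z := by
        have : Ioo (0 : ℝ) (‖z‖ / 2) ∈ 𝓝[>] (0 : ℝ) := Ioo_mem_nhdsGT (by positivity)
        filter_upwards [this] with ε hε
        rw [cut_one, one_mul]
        rw [norm_smul, norm_inv, Real.norm_of_nonneg hε.1.le]
        have h1 : 2 ≤ ε⁻¹ * ‖z‖ := by
          rw [le_inv_mul_iff₀ hε.1]; linarith [hε.2]
        nlinarith
      exact tendsto_const_nhds.congr' (by filter_upwards [this] with ε h using h.symm)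
  have hR : Tendsto (fun ε : ℝ => - ∑ k, ∫ ζ, psi k ζ * (ε ^ 2 * Φ k (ε • ζ))) (𝓝[>] 0)
      (𝓝 (- ∑ k, ∫ ζ, psi k ζ * Φ0 k ζ)) := by
    apply Tendsto.neg
    apply tendsto_finsetSum
    intro k _
    apply tendsto_integral_filter_of_dominated_convergence (fun ζ => |psi k ζ| * |C|)
    · filter_upwards [self_mem_nhdsWithin] with ε hε
      have hε' : (0:ℝ) < ε := hε
      apply Continuous.aestronglyMeasurable
      rw [continuous_iff_continuousAt]
      intro z
      by_cases hz : z = 0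
      · subst hz
        have : (fun z => psi k z * (ε ^ 2 * Φ k (ε • z))) =ᶠ[𝓝 (0 : R3)] fun _ => 0 := by
          have : {w : R3 | ‖w‖ < 1} ∈ 𝓝 (0 : R3) :=
            (isOpen_lt continuous_norm continuous_const).mem_nhds (by simp)
          filter_upwards [this] with w hw
          rw [psi_zero_of_lt hw, zero_mul]
        exact ContinuousAt.congr continuousAt_const this.symm
      · apply (psi_continuous k).continuousAt.mul
        apply continuousAt_const.mul
        have h1 : ContinuousAt (Φ k) (ε • z) :=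
          (hdiff k (ε • z) (smul_ne_zero hε'.ne' hz)).continuousAt
        exact ContinuousAt.comp (f := fun z : R3 => ε • z) (g := Φ k) h1 (continuous_const_smul ε).continuousAt
    · filter_upwards [self_mem_nhdsWithin] with ε hε
      have hε' : (0:ℝ) < ε := hε
      filter_upwards with ζ
      by_cases hζ : ‖ζ‖ < 1
      · rw [psi_zero_of_lt hζ]; simp
      · have hζ1 : 1 ≤ ‖ζ‖ := not_lt.1 hζ
        rw [norm_mul, Real.norm_eq_abs]
        apply mul_le_mul_of_nonneg_left _ (abs_nonneg _)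
        rw [Real.norm_eq_abs, abs_mul, abs_of_pos (by positivity : (0:ℝ) < ε ^ 2)]
        have hne : ε • ζ ≠ 0 := smul_ne_zero hε'.ne' (by rintro rfl; simp at hζ1; linarith)
        have h1 := hb k _ hne
        rw [norm_smul, Real.norm_of_nonneg hε'.le] at h1
        have h2 : |Φ k (ε • ζ)| ≤ |C| / (ε * ‖ζ‖) ^ 2 := h1.trans (by gcongr; exact le_abs_self C)
        calc ε ^ 2 * |Φ k (ε • ζ)| ≤ ε ^ 2 * (|C| / (ε * ‖ζ‖) ^ 2) := by gcongr
          _ = |C| / ‖ζ‖ ^ 2 := by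
              have : ‖ζ‖ ≠ 0 := by positivity
              field_simp
          _ ≤ |C| / 1 := by
              gcongr
              nlinarith
          _ = |C| := by simp
    · apply Integrable.mul_const
      apply Continuous.integrable_of_hasCompactSupport ((psi_continuous k).abs)
      apply HasCompactSupport.intro (isCompact_closedBall (0 : R3) 2)
      intro z hz
      rw [psi_zero_of_gt (by simpa using hz), abs_zero]
    · have h0 : ∀ᵐ z : R3, z ≠ 0 := by
        have : ({0}ᶜ : Set R3) ∈ ae (volume : Measure R3) := by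
          rw [mem_ae_iff, compl_compl]; exact measure_singleton _
        exact this
      filter_upwards [h0] with z hz
      exact (hlim k z hz).const_mul _
  have heq : (fun ε : ℝ => ∫ z, cut (ε⁻¹ • z) * D z) =ᶠ[𝓝[>] 0]
      fun ε : ℝ => - ∑ k, ∫ ζ, psi k ζ * (ε ^ 2 * Φ k (ε • ζ)) := by
    filter_upwards [self_mem_nhdsWithin] with ε hε using hid ε hε
  exact tendsto_nhds_unique (hL.congr' heq) hR

end Crest.Agent.R106.Gsr
end

-- ▼ part R106/GsrCalc
section

set_option autoImplicit false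

open MeasureTheory Set Filter Topology Metric
open Crest.AnalysisR.VecCalc3
open scoped ContDiff RealInnerProductSpace

namespace Crest.Agent.R106.Gsr

open Crest.Agent.R106.GSR (pt px box)

/-- the retarded point `(t - |z|, x + z)` -/
noncomputable def ret (t : ℝ) (x z : R3) : ℝ × R3 := (t - ‖z‖, x + z)

/-- `ω_i = z_i / |z|` -/
noncomputable def om (i : Fin 3) (z : R3) : ℝ := z i * ‖z‖⁻¹

lemma norm_sq_eq (z : R3) : ‖z‖ ^ 2 = ∑ i, z i ^ 2 := by
  rw [EuclideanSpace.norm_sq_eq]; simp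

lemma sum_om_sq {z : R3} (hz : z ≠ 0) : ∑ i, om i z ^ 2 = 1 := by
  have h1 : ‖z‖ ≠ 0 := norm_ne_zero_iff.2 hz
  have h2 := norm_sq_eq z
  simp only [om, mul_pow, ← Finset.sum_mul]
  rw [← h2]
  field_simp

lemma abs_om_le (i : Fin 3) (z : R3) : |om i z| ≤ 1 := by
  by_cases hz : z = 0
  · subst hz; simp [om]
  have h1 := sum_om_sq hz
  have h2 : om i z ^ 2 ≤ 1 := by
    rw [← h1]
    exact Finset.single_le_sum (f := fun i => om i z ^ 2) (fun i _ => sq_nonneg _) (Finset.mem_univ i)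
  exact abs_le_one_iff_mul_self_le_one.2 (by nlinarith)

lemma om_smul (i : Fin 3) (z : R3) {c : ℝ} (hc : 0 < c) : om i (c • z) = om i z := by
  unfold om
  rw [norm_smul, Real.norm_of_nonneg hc.le]
  simp only [PiLp.smul_apply, smul_eq_mul, mul_inv]
  field_simp


lemma hasDerivAt_line (z : R3) (k : Fin 3) : HasDerivAt (fun s : ℝ => z + s • e k) (e k) 0 := by
  have h := ((hasDerivAt_id (0:ℝ)).smul_const (e k)).const_add z
  simpa using h

lemma hasDerivAt_coord (i k : Fin 3) (z : R3) :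
    HasDerivAt (fun s : ℝ => (z + s • e k) i) (if i = k then (1:ℝ) else 0) 0 := by
  have h1 : HasFDerivAt (fun w : R3 => w i) (EuclideanSpace.proj i : R3 →L[ℝ] ℝ) (z + (0:ℝ) • e k) :=
    (EuclideanSpace.proj i : R3 →L[ℝ] ℝ).hasFDerivAt
  have h2 := h1.comp_hasDerivAt (0:ℝ) (hasDerivAt_line z k)
  have h3 : HasDerivAt (fun s : ℝ => (z + s • e k) i) ((EuclideanSpace.proj i : R3 →L[ℝ] ℝ) (e k)) 0 := h2
  convert! h3 using 1
  simp [e, Pi.single_apply]

lemma hasFDerivAt_norm {z : R3} (hz : z ≠ 0) :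
    HasFDerivAt (fun w : R3 => ‖w‖) (‖z‖⁻¹ • (innerSL ℝ z)) z := by
  have h1 : ‖z‖ ≠ 0 := norm_ne_zero_iff.2 hz
  have h2 := (hasStrictFDerivAt_norm_sq z).hasFDerivAt.sqrt (by positivity)
  have h3 : (fun w : R3 => √(‖w‖ ^ 2)) = fun w => ‖w‖ := by
    ext w; exact Real.sqrt_sq (norm_nonneg w)
  rw [h3] at h2
  convert! h2 using 1
  rw [Real.sqrt_sq (norm_nonneg z)]
  ext w
  simp
  field_simp

lemma hasDerivAt_norm {z : R3} (hz : z ≠ 0) (k : Fin 3) :
    HasDerivAt (fun s : ℝ => ‖z + s • e k‖) (om k z) 0 := by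
  have h1 : HasFDerivAt (fun w : R3 => ‖w‖) (‖z‖⁻¹ • (innerSL ℝ z)) (z + (0:ℝ) • e k) := by
    simpa using hasFDerivAt_norm hz
  have h2 := h1.comp_hasDerivAt (0:ℝ) (hasDerivAt_line z k)
  have h3 : HasDerivAt (fun s : ℝ => ‖z + s • e k‖) ((‖z‖⁻¹ • (innerSL ℝ z)) (e k)) 0 := h2
  convert! h3 using 1
  simp [om, e, EuclideanSpace.inner_single_right, mul_comm]

lemma hasDerivAt_rho {z : R3} (hz : z ≠ 0) (k : Fin 3) :
    HasDerivAt (fun s : ℝ => ‖z + s • e k‖⁻¹) (-(‖z‖⁻¹ ^ 2 * om k z)) 0 := by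
  have h1 : ‖z‖ ≠ 0 := norm_ne_zero_iff.2 hz
  have h := (hasDerivAt_norm hz k).inv (by simpa using h1)
  convert! h using 1
  simp
  field_simp

lemma hasDerivAt_om {z : R3} (hz : z ≠ 0) (i k : Fin 3) :
    HasDerivAt (fun s : ℝ => om i (z + s • e k))
      (‖z‖⁻¹ * ((if i = k then (1:ℝ) else 0) - om i z * om k z)) 0 := by
  have h := (hasDerivAt_coord i k z).mul (hasDerivAt_rho hz k)
  convert! h using 1
  simp only [om, zero_smul, add_zero]
  split_ifs <;> ring

lemma hasFDerivAt_ret (t : ℝ) (x : R3) {z : R3} (hz : z ≠ 0) :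
    HasFDerivAt (ret t x) ((-(‖z‖⁻¹ • (innerSL ℝ z))).prod (ContinuousLinearMap.id ℝ R3)) z := by
  unfold ret
  have h1 : HasFDerivAt (fun w : R3 => t - ‖w‖) (-(‖z‖⁻¹ • (innerSL ℝ z))) z := by
    simpa using (hasFDerivAt_norm hz).const_sub t
  have h2 : HasFDerivAt (fun w : R3 => x + w) (ContinuousLinearMap.id ℝ R3) z :=
    (hasFDerivAt_id z).const_add x
  exact h1.prodMk h2

lemma hasDerivAt_ret {F : ℝ × R3 → ℝ} {t : ℝ} {x z : R3} (hz : z ≠ 0) (k : Fin 3)
    (hF : DifferentiableAt ℝ F (ret t x z)) :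
    HasDerivAt (fun s : ℝ => F (ret t x (z + s • e k)))
      (px k F (ret t x z) - om k z * pt F (ret t x z)) 0 := by
  have h1 : HasFDerivAt (fun w => F (ret t x w))
      ((fderiv ℝ F (ret t x z)).comp ((-(‖z‖⁻¹ • (innerSL ℝ z))).prod (ContinuousLinearMap.id ℝ R3)))
      (z + (0:ℝ) • e k) := by
    have h0 : z + (0:ℝ) • e k = z := by simp
    rw [h0]
    exact hF.hasFDerivAt.comp z (hasFDerivAt_ret t x hz)
  have h2 := h1.comp_hasDerivAt (0:ℝ) (hasDerivAt_line z k)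
  have h3 : HasDerivAt (fun s : ℝ => F (ret t x (z + s • e k)))
    (((fderiv ℝ F (ret t x z)).comp ((-(‖z‖⁻¹ • (innerSL ℝ z))).prod (ContinuousLinearMap.id ℝ R3))) (e k)) 0 := h2
  convert! h3 using 1
  unfold px pt
  have h4 : ((-(‖z‖⁻¹ • (innerSL ℝ z))).prod (ContinuousLinearMap.id ℝ R3)) (e k)
      = ((0 : ℝ), e k) - om k z • ((1 : ℝ), (0 : R3)) := by
    ext
    · simp [om, e, EuclideanSpace.inner_single_right, mul_comm]
    · simp
  rw [ContinuousLinearMap.comp_apply, h4, map_sub, map_smul, smul_eq_mul]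

/-- transfer of line derivatives to `fderiv` -/
lemma fderiv_eq_of_line {Φ : R3 → ℝ} {z : R3} {k : Fin 3} {d : ℝ} (hd : DifferentiableAt ℝ Φ z)
    (h : HasDerivAt (fun s : ℝ => Φ (z + s • e k)) d 0) : fderiv ℝ Φ z (e k) = d := by
  have h1 : HasLineDerivAt ℝ Φ d z (e k) := h
  have h2 := hd.hasFDerivAt.hasLineDerivAt (e k)
  exact h2.unique h1

lemma contDiffOn_norm {n : ℕ∞} : ContDiffOn ℝ n (fun z : R3 => ‖z‖) {0}ᶜ := fun z hz =>
  (contDiffAt_norm ℝ (by simpa using hz)).contDiffWithinAt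

lemma contDiffOn_rho {n : ℕ∞} : ContDiffOn ℝ n (fun z : R3 => ‖z‖⁻¹) {0}ᶜ :=
  contDiffOn_norm.inv (fun z hz => norm_ne_zero_iff.2 (by simpa using hz))

lemma contDiffOn_om {n : ℕ∞} (i : Fin 3) : ContDiffOn ℝ n (om i) {0}ᶜ := by
  unfold om
  have h1 : ContDiff ℝ n (fun z : R3 => z i) := (EuclideanSpace.proj i : R3 →L[ℝ] ℝ).contDiff
  exact h1.contDiffOn.mul contDiffOn_rho

lemma contDiffOn_ret {n : ℕ∞} (t : ℝ) (x : R3) : ContDiffOn ℝ n (ret t x) {0}ᶜ := by
  unfold ret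
  exact (contDiffOn_const.sub contDiffOn_norm).prodMk (contDiff_const.add contDiff_id).contDiffOn

lemma continuous_ret (t : ℝ) (x : R3) : Continuous (ret t x) := by
  unfold ret; fun_prop



/-- symmetry of second derivatives -/
lemma px_pt_comm {u : ℝ × R3 → ℝ} (hu : ContDiff ℝ 2 u) (k : Fin 3) (q : ℝ × R3) :
    px k (pt u) q = pt (px k u) q := by
  unfold px pt
  have hs : IsSymmSndFDerivAt ℝ u q := by
    apply hu.contDiffAt.isSymmSndFDerivAt
    simp
  have hd : DifferentiableAt ℝ (fderiv ℝ u) q :=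
    ((hu.fderiv_right (m := 1) (by norm_num)).differentiable (by norm_num)).differentiableAt
  have h1 : ∀ a : ℝ × R3, HasFDerivAt (fun q => fderiv ℝ u q a)
      ((ContinuousLinearMap.apply ℝ ℝ a).comp (fderiv ℝ (fderiv ℝ u) q)) q := fun a =>
    (ContinuousLinearMap.apply ℝ ℝ a).hasFDerivAt.comp q hd.hasFDerivAt
  rw [(h1 (1, 0)).fderiv, (h1 (0, EuclideanSpace.single k 1)).fderiv]
  simp only [ContinuousLinearMap.comp_apply, ContinuousLinearMap.apply_apply]
  exact hs _ _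

end Crest.Agent.R106.Gsr
end

-- ▼ part R106/GsrCone
section

set_option autoImplicit false

open MeasureTheory Set Filter Topology Metric
open Crest.AnalysisR.VecCalc3
open scoped ContDiff RealInnerProductSpace

namespace Crest.Agent.R106.Gsr

open Crest.Agent.R106.GSR (pt px box)

/-- the retarded function of a zero-past function vanishes for `|z| > t` -/
lemma ret_zero {F : ℝ × R3 → ℝ} (h0 : ∀ τ ≤ 0, ∀ y, F (τ, y) = 0) {t : ℝ} {x z : R3} (hz : t ≤ ‖z‖) :
    F (ret t x z) = 0 := h0 _ (by simpa using hz) _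

lemma px_zero {F : ℝ × R3 → ℝ} (h0 : ∀ τ ≤ 0, ∀ y, F (τ, y) = 0) (hF : ContDiff ℝ 1 F) (k : Fin 3) :
    ∀ τ ≤ 0, ∀ y, px k F (τ, y) = 0 := by
  intro τ hτ y
  unfold px
  have h1 : HasDerivAt (fun s : ℝ => F ((τ, y) + s • ((0 : ℝ), EuclideanSpace.single k (1:ℝ))))
      (fderiv ℝ F (τ, y) (0, EuclideanSpace.single k 1)) 0 :=
    ((hF.differentiable (by norm_num)).differentiableAt.hasFDerivAt.hasLineDerivAt _)
  have h2 : HasDerivAt (fun s : ℝ => F ((τ, y) + s • ((0 : ℝ), EuclideanSpace.single k (1:ℝ)))) 0 0 := by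
    have : (fun s : ℝ => F ((τ, y) + s • ((0 : ℝ), EuclideanSpace.single k (1:ℝ)))) = fun _ => 0 := by
      ext s
      simp [h0 τ hτ]
    rw [this]; exact hasDerivAt_const _ _
  exact h1.unique h2

lemma pt_zero {F : ℝ × R3 → ℝ} (h0 : ∀ τ ≤ 0, ∀ y, F (τ, y) = 0) (hF : ContDiff ℝ 1 F) :
    ∀ τ ≤ 0, ∀ y, pt F (τ, y) = 0 := by
  intro τ hτ y
  have hc : Continuous (fun s : ℝ => pt F (s, y)) :=
    (show Continuous (pt F) from ((hF.continuous_fderiv (by norm_num)).clm_apply continuous_const)).comp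
      (by fun_prop)
  have hlt : ∀ s < 0, pt F (s, y) = 0 := by
    intro s hs
    unfold pt
    have : F =ᶠ[𝓝 (s, y)] fun _ => 0 := by
      have : {q : ℝ × R3 | q.1 < 0} ∈ 𝓝 (s, y) := (isOpen_lt continuous_fst continuous_const).mem_nhds hs
      filter_upwards [this] with q hq
      exact h0 q.1 (le_of_lt hq) q.2
    rw [this.fderiv_eq]; simp
  rcases hτ.lt_or_eq with h | h
  · exact hlt τ h
  · subst h
    have h1 : Tendsto (fun s : ℝ => pt F (s, y)) (𝓝[<] 0) (𝓝 (pt F (0, y))) :=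
      hc.continuousAt.tendsto.mono_left nhdsWithin_le_nhds
    have h2 : Tendsto (fun s : ℝ => pt F (s, y)) (𝓝[<] 0) (𝓝 0) := by
      apply tendsto_const_nhds.congr'
      filter_upwards [self_mem_nhdsWithin] with s hs using (hlt s hs).symm
    exact tendsto_nhds_unique h1 h2

/-- bound of a retarded zero-past function -/
lemma ret_bound {F : ℝ × R3 → ℝ} (h0 : ∀ τ ≤ 0, ∀ y, F (τ, y) = 0) (hF : Continuous F) (t : ℝ) (x : R3) :
    ∃ M, 0 ≤ M ∧ ∀ z, |F (ret t x z)| ≤ M := by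
  have hc : Continuous fun z => F (ret t x z) := hF.comp (continuous_ret t x)
  have h1 : HasCompactSupport fun z => F (ret t x z) := by
    apply HasCompactSupport.intro (isCompact_closedBall (0 : R3) |t|)
    intro z hz
    apply ret_zero h0
    have : |t| < ‖z‖ := by simpa using hz
    exact (le_abs_self t).trans this.le
  obtain ⟨M, hM⟩ := hc.bounded_above_of_compact_support h1
  exact ⟨max M 0, le_max_right _ _, fun z => (hM z).trans (le_max_left _ _)⟩

lemma contDiff_comp_ret {F : ℝ × R3 → ℝ} {n : ℕ∞} (hF : ContDiff ℝ n F) (t : ℝ) (x : R3) :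
    ContDiffOn ℝ n (fun z => F (ret t x z)) {0}ᶜ := hF.comp_contDiffOn (contDiffOn_ret t x)

lemma rho_le {t : ℝ} {z : R3} (hz : z ≠ 0) (ht : ‖z‖ ≤ t) : ‖z‖⁻¹ ≤ t / ‖z‖ ^ 2 := by
  have h1 : 0 < ‖z‖ := norm_pos_iff.2 hz
  rw [le_div_iff₀ (by positivity)]
  calc ‖z‖⁻¹ * ‖z‖ ^ 2 = ‖z‖ := by field_simp
    _ ≤ t := ht

lemma integrable_cutoff_mul' {F G : R3 → ℝ} {δ ρ : ℝ} (hδ : 0 < δ) (hF : Continuous F)
    (hF0 : ∀ z, ‖z‖ < δ → F z = 0) (hs : ∀ z, ρ < ‖z‖ → F z = 0) (hG : ContinuousOn G {0}ᶜ) :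
    Integrable (fun z => F z * G z) := by
  have hcont : Continuous (fun z => F z * G z) := by
    rw [continuous_iff_continuousAt]
    intro z
    by_cases hz : z = 0
    · subst hz
      have : (fun z => F z * G z) =ᶠ[𝓝 (0 : R3)] fun _ => 0 := by
        have : {w : R3 | ‖w‖ < δ} ∈ 𝓝 (0 : R3) :=
          (isOpen_lt continuous_norm continuous_const).mem_nhds (by simpa using hδ)
        filter_upwards [this] with w hw
        rw [hF0 w hw, zero_mul]
      exact ContinuousAt.congr continuousAt_const this.symm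
    · exact hF.continuousAt.mul (hG.continuousAt (isOpen_compl_singleton.mem_nhds hz))
  apply hcont.integrable_of_hasCompactSupport
  apply HasCompactSupport.intro (isCompact_closedBall (0 : R3) ρ)
  intro z hz
  rw [hs z (by simpa using hz), zero_mul]

lemma integral_psi_newton :
    ∑ k, ∫ ζ : R3, psi k ζ * (‖ζ‖⁻¹ ^ 2 * om k ζ) = 4 * Real.pi := by
  have hdc : Continuous (deriv Real.smoothTransition) :=
    (Real.smoothTransition.contDiff (n := 1)).continuous_deriv (by norm_num)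
  have hpt : ∀ ζ : R3, ∑ k, psi k ζ * (‖ζ‖⁻¹ ^ 2 * om k ζ)
      = (fun r : ℝ => deriv Real.smoothTransition (r ^ 2 - 1) * (2 * r⁻¹)) ‖ζ‖ := by
    intro ζ
    by_cases hz : ζ = 0
    · subst hz; simp [psi_eq, om]
    have h1 : ‖ζ‖ ≠ 0 := norm_ne_zero_iff.2 hz
    have h2 := norm_sq_eq ζ
    simp only [psi_eq, om, Fin.sum_univ_three] at h2 ⊢
    have h3 : deriv Real.smoothTransition (‖ζ‖ ^ 2 - 1) * (2 * ζ 0) * (‖ζ‖⁻¹ ^ 2 * (ζ 0 * ‖ζ‖⁻¹)) +
          deriv Real.smoothTransition (‖ζ‖ ^ 2 - 1) * (2 * ζ 1) * (‖ζ‖⁻¹ ^ 2 * (ζ 1 * ‖ζ‖⁻¹)) +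
        deriv Real.smoothTransition (‖ζ‖ ^ 2 - 1) * (2 * ζ 2) * (‖ζ‖⁻¹ ^ 2 * (ζ 2 * ‖ζ‖⁻¹))
        = deriv Real.smoothTransition (‖ζ‖ ^ 2 - 1) * 2 * ‖ζ‖⁻¹ ^ 3 * (ζ 0 ^ 2 + ζ 1 ^ 2 + ζ 2 ^ 2) := by ring
    rw [h3, ← h2]
    field_simp
  have hint : ∀ k : Fin 3, Integrable fun ζ : R3 => psi k ζ * (‖ζ‖⁻¹ ^ 2 * om k ζ) := by
    intro k
    apply integrable_cutoff_mul' (δ := 1) (ρ := 2) one_pos (psi_continuous k) (fun z hz => psi_zero_of_lt hz)
      (fun z hz => psi_zero_of_gt hz)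
    exact ((contDiffOn_rho (n := 0)).continuousOn.pow 2).mul (contDiffOn_om (n := 0) k).continuousOn
  rw [← integral_finsetSum _ (fun k _ => hint k)]
  simp_rw [hpt]
  rw [integral_fun_norm_addHaar (volume : Measure R3) (fun r : ℝ => deriv Real.smoothTransition (r ^ 2 - 1) * (2 * r⁻¹))]
  have hvol : (volume : Measure R3).real (ball 0 1) = Real.pi * 4 / 3 := by
    rw [Measure.real, EuclideanSpace.volume_ball_fin_three]
    simp
    positivity
  rw [hvol]
  have hfr : Module.finrank ℝ R3 = 3 := by simp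
  rw [hfr]
  have hI : ∫ y in Ioi (0 : ℝ), y ^ (3 - 1) • (deriv Real.smoothTransition (y ^ 2 - 1) * (2 * y⁻¹)) = 1 := by
    have h1 : ∫ y in Ioi (0 : ℝ), deriv Real.smoothTransition (y ^ 2 - 1) * (2 * y) = 1 - Real.smoothTransition (0 ^ 2 - 1) := by
      apply integral_Ioi_of_hasDerivAt_of_tendsto' (f := fun y : ℝ => Real.smoothTransition (y ^ 2 - 1))
      · intro y _
        have h2 : HasDerivAt Real.smoothTransition (deriv Real.smoothTransition (y ^ 2 - 1)) (y ^ 2 - 1) :=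
          ((Real.smoothTransition.contDiff (n := 1)).differentiable (by norm_num)).differentiableAt.hasDerivAt
        have h3 : HasDerivAt (fun y : ℝ => y ^ 2 - 1) (2 * y) y := by
          simpa using (hasDerivAt_pow 2 y).sub_const 1
        exact h2.comp y h3
      · apply Integrable.integrableOn
        apply Continuous.integrable_of_hasCompactSupport
        · exact (hdc.comp (by fun_prop)).mul (by fun_prop)
        · apply HasCompactSupport.intro (isCompact_closedBall (0 : ℝ) 2)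
          intro y hy
          have hy' : 2 < |y| := by simpa using hy
          have h4 : 1 < y ^ 2 - 1 := by nlinarith [sq_abs y, abs_nonneg y]
          have h5 : Real.smoothTransition =ᶠ[𝓝 (y ^ 2 - 1)] fun _ => 1 := by
            filter_upwards [Ioi_mem_nhds h4] with w hw
            exact Real.smoothTransition.one_of_one_le (le_of_lt hw)
          rw [h5.deriv_eq]; simp
      · apply tendsto_const_nhds.congr'
        filter_upwards [eventually_ge_atTop 2] with y hy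
        exact (Real.smoothTransition.one_of_one_le (by nlinarith)).symm
    rw [Real.smoothTransition.zero_of_nonpos (by norm_num), sub_zero] at h1
    refine Eq.trans ?_ h1
    apply setIntegral_congr_fun measurableSet_Ioi
    intro y hy
    have : y ≠ 0 := (ne_of_gt hy)
    simp only [smul_eq_mul]
    norm_num
    field_simp
  rw [hI]
  simp only [smul_eq_mul, nsmul_eq_mul]
  norm_num
  ring

/-- mild singularity: no contribution of the tip -/
theorem tip_zero {Φ : Fin 3 → R3 → ℝ} {D : R3 → ℝ} {C ρ : ℝ}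
    (hΦ : ∀ k, ContDiffOn ℝ 1 (Φ k) {0}ᶜ)
    (hs : ∀ k z, ρ < ‖z‖ → Φ k z = 0)
    (hb : ∀ k z, z ≠ 0 → |Φ k z| ≤ C * ‖z‖⁻¹)
    (hD : ∀ z, z ≠ 0 → ∑ k, fderiv ℝ (Φ k) z (e k) = D z)
    (hDi : Integrable D) : ∫ z, D z = 0 := by
  have hC : ∀ k z, z ≠ 0 → |Φ k z| ≤ (|C| * |ρ|) / ‖z‖ ^ 2 := by
    intro k z hz
    have h1 : 0 < ‖z‖ := norm_pos_iff.2 hz
    by_cases h : ρ < ‖z‖
    · rw [hs k z h, abs_zero]; positivity
    · calc |Φ k z| ≤ C * ‖z‖⁻¹ := hb k z hz
        _ ≤ |C| * (|ρ| / ‖z‖ ^ 2) := by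
            gcongr
            · exact le_abs_self C
            · exact rho_le hz ((not_lt.1 h).trans (le_abs_self ρ))
        _ = _ := by ring
  rw [tip (Φ0 := fun _ _ => 0) hΦ hs hC hD hDi]
  · simp
  · intro k ζ hζ
    have h1 : 0 < ‖ζ‖ := norm_pos_iff.2 hζ
    apply squeeze_zero_norm' (a := fun ε => ε * (|C| * ‖ζ‖⁻¹))
    · filter_upwards [self_mem_nhdsWithin] with ε hε
      have hε' : (0:ℝ) < ε := hε
      have h2 := hb k (ε • ζ) (smul_ne_zero hε'.ne' hζ)
      rw [norm_smul, Real.norm_of_nonneg hε'.le] at h2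
      rw [Real.norm_eq_abs, abs_mul, abs_of_pos (by positivity : (0:ℝ) < ε ^ 2)]
      calc ε ^ 2 * |Φ k (ε • ζ)| ≤ ε ^ 2 * (|C| * (ε * ‖ζ‖)⁻¹) := by
            gcongr
            exact h2.trans (by gcongr; exact le_abs_self C)
        _ = _ := by field_simp
    · have : Tendsto (fun ε : ℝ => ε * (|C| * ‖ζ‖⁻¹)) (𝓝 0) (𝓝 (0 * (|C| * ‖ζ‖⁻¹))) :=
        (continuous_id.mul continuous_const).tendsto 0
      rw [zero_mul] at this
      exact this.mono_left nhdsWithin_le_nhds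

lemma px_contDiff2 {u : ℝ × R3 → ℝ} (hu : ContDiff ℝ 2 u) (k : Fin 3) : ContDiff ℝ 1 (px k u) := by
  unfold px
  exact (hu.fderiv_right (m := 1) (by norm_num)).clm_apply contDiff_const

lemma pt_contDiff2 {u : ℝ × R3 → ℝ} (hu : ContDiff ℝ 2 u) : ContDiff ℝ 1 (pt u) := by
  unfold pt
  exact (hu.fderiv_right (m := 1) (by norm_num)).clm_apply contDiff_const

/-- Kirchhoff's formula in volume form for functions vanishing in the past. -/
theorem kirchhoff {u : ℝ × R3 → ℝ} (hu : ContDiff ℝ 2 u) (h0 : ∀ τ ≤ 0, ∀ y, u (τ, y) = 0)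
    (t : ℝ) (x : R3) :
    ∫ z, ‖z‖⁻¹ * box u (ret t x z) = 4 * Real.pi * u (t, x) := by
  have hu1 : ContDiff ℝ 1 u := hu.of_le (by norm_num)
  have hpx : ∀ k, ContDiff ℝ 1 (px k u) := fun k => px_contDiff2 hu k
  have hpt : ContDiff ℝ 1 (pt u) := pt_contDiff2 hu
  have hpx0 : ∀ k, ∀ τ ≤ 0, ∀ y, px k u (τ, y) = 0 := fun k => px_zero h0 hu1 k
  have hpt0 : ∀ τ ≤ 0, ∀ y, pt u (τ, y) = 0 := pt_zero h0 hu1
  have hdpx : ∀ (k : Fin 3) (q), DifferentiableAt ℝ (px k u) q := fun k q =>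
    ((hpx k).differentiable (by norm_num)).differentiableAt
  have hdpt : ∀ q, DifferentiableAt ℝ (pt u) q := fun q =>
    (hpt.differentiable (by norm_num)).differentiableAt
  have hdu : ∀ q, DifferentiableAt ℝ u q := fun q =>
    (hu1.differentiable (by norm_num)).differentiableAt
  let Φ : Fin 3 → R3 → ℝ := fun k z =>
    -(‖z‖⁻¹ * (px k u (ret t x z) + om k z * pt u (ret t x z))) - ‖z‖⁻¹ ^ 2 * om k z * u (ret t x z)
  have hΦ : ∀ k, ContDiffOn ℝ 1 (Φ k) {0}ᶜ := by
    intro k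
    exact ((contDiffOn_rho (n := 1)).mul ((contDiff_comp_ret (n := 1) (hpx k) t x).add
      ((contDiffOn_om (n := 1) k).mul (contDiff_comp_ret (n := 1) hpt t x)))).neg.sub
      ((((contDiffOn_rho (n := 1)).pow 2).mul (contDiffOn_om (n := 1) k)).mul (contDiff_comp_ret (n := 1) hu1 t x))
  have hline : ∀ (k : Fin 3) (z : R3), z ≠ 0 → HasDerivAt (fun s : ℝ => Φ k (z + s • e k))
      (-(-(‖z‖⁻¹ ^ 2 * om k z) * (px k u (ret t x z) + om k z * pt u (ret t x z))
        + ‖z‖⁻¹ * ((px k (px k u) (ret t x z) - om k z * pt (px k u) (ret t x z))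
          + (‖z‖⁻¹ * (1 - om k z * om k z) * pt u (ret t x z)
            + om k z * (px k (pt u) (ret t x z) - om k z * pt (pt u) (ret t x z)))))
        - (((2 * ‖z‖⁻¹ * -(‖z‖⁻¹ ^ 2 * om k z)) * om k z + ‖z‖⁻¹ ^ 2 * (‖z‖⁻¹ * (1 - om k z * om k z))) * u (ret t x z)
          + ‖z‖⁻¹ ^ 2 * om k z * (px k u (ret t x z) - om k z * pt u (ret t x z)))) 0 := by
    intro k z hz
    have hr := hasDerivAt_rho hz k
    have ho := hasDerivAt_om hz k k
    have h1 := hasDerivAt_ret (F := px k u) (t := t) (x := x) hz k (hdpx k _)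
    have h2 := hasDerivAt_ret (F := pt u) (t := t) (x := x) hz k (hdpt _)
    have h3 := hasDerivAt_ret (F := u) (t := t) (x := x) hz k (hdu _)
    have hmain := ((hr.mul (h1.add (ho.mul h2))).neg).sub ((((hr.pow 2).mul ho)).mul h3)
    convert! hmain using 1
    simp
  have hD : ∀ z, z ≠ 0 → ∑ k, fderiv ℝ (Φ k) z (e k) = ‖z‖⁻¹ * box u (ret t x z) := by
    intro z hz
    have h1 : ∀ k, fderiv ℝ (Φ k) z (e k) = _ := fun k =>
      fderiv_eq_of_line (((hΦ k).contDiffAt (isOpen_compl_singleton.mem_nhds hz)).differentiableAt (by norm_num)) (hline k z hz)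
    simp only [h1]
    have ho := sum_om_sq hz
    have hc := fun k => px_pt_comm hu k (ret t x z)
    unfold box
    simp only [Fin.sum_univ_three, hc] at ho ⊢
    linear_combination ((‖z‖⁻¹) * pt (pt u) (ret t x z) + 3 * ‖z‖⁻¹ ^ 2 * pt u (ret t x z) + 3 * ‖z‖⁻¹ ^ 3 * u (ret t x z)) * ho
  have hbox0 : ∀ τ ≤ 0, ∀ y, box u (τ, y) = 0 := by
    intro τ hτ y
    unfold box
    rw [pt_zero hpt0 hpt τ hτ y]
    simp [fun k => px_zero (hpx0 k) (hpx k) k τ hτ y]
  have hboxc : Continuous (box u) := by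
    have h1 : ∀ {F : ℝ × R3 → ℝ} (k : Fin 3), ContDiff ℝ 1 F → Continuous (px k F) := fun k hF =>
      (hF.continuous_fderiv (by norm_num)).clm_apply continuous_const
    have h2 : Continuous (pt (pt u)) := (hpt.continuous_fderiv (by norm_num)).clm_apply continuous_const
    exact h2.sub (continuous_finsetSum _ fun k _ => h1 k (hpx k))
  obtain ⟨M1, hM1, hb1⟩ := ret_bound hbox0 hboxc t x
  have hMx : ∀ k, ∃ M, 0 ≤ M ∧ ∀ z, |px k u (ret t x z)| ≤ M := fun k =>
    ret_bound (hpx0 k) (hpx k).continuous t x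
  obtain ⟨M2, hM2, hb2⟩ := ret_bound hpt0 hpt.continuous t x
  obtain ⟨M3, hM3, hb3⟩ := ret_bound h0 hu.continuous t x
  have hDi : Integrable (fun z : R3 => ‖z‖⁻¹ * box u (ret t x z)) := by
    apply integrable_of_bound (C := |t| * M1) (ρ := t)
    · exact (contDiffOn_rho (n := 0)).continuousOn.mul (hboxc.comp (continuous_ret t x)).continuousOn
    · intro z hz; rw [ret_zero hbox0 hz.le, mul_zero]
    · intro z hz
      by_cases h : t < ‖z‖
      · rw [ret_zero hbox0 h.le, mul_zero, abs_zero]; positivity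
      · rw [abs_mul, abs_inv, abs_norm]
        calc ‖z‖⁻¹ * |box u (ret t x z)| ≤ (|t| / ‖z‖ ^ 2) * M1 := by
              gcongr
              · exact rho_le hz ((not_lt.1 h).trans (le_abs_self t))
              · exact hb1 z
          _ = _ := by ring
  have hs : ∀ k z, t < ‖z‖ → Φ k z = 0 := by
    intro k z hz
    simp only [Φ, ret_zero (hpx0 k) hz.le, ret_zero hpt0 hz.le, ret_zero h0 hz.le]
    ring
  have hbd : ∀ k, ∃ C, 0 ≤ C ∧ ∀ z, z ≠ 0 → |Φ k z| ≤ C / ‖z‖ ^ 2 := by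
    intro k
    obtain ⟨M, hM, hb⟩ := hMx k
    refine ⟨|t| * (M + M2) + M3, by positivity, ?_⟩
    intro z hz
    by_cases h : t < ‖z‖
    · rw [hs k z h, abs_zero]; positivity
    · have hr : ‖z‖⁻¹ ≤ |t| / ‖z‖ ^ 2 := rho_le hz ((not_lt.1 h).trans (le_abs_self t))
      have ho := abs_om_le k z
      have hzp : 0 < ‖z‖ := norm_pos_iff.2 hz
      have e1 : |‖z‖⁻¹ * (px k u (ret t x z) + om k z * pt u (ret t x z))| ≤ (|t| / ‖z‖ ^ 2) * (M + M2) := by
        rw [abs_mul, abs_inv, abs_norm]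
        gcongr
        refine (abs_add_le _ _).trans (add_le_add (hb z) ?_)
        rw [abs_mul]
        calc |om k z| * |pt u (ret t x z)| ≤ 1 * M2 := by gcongr; exact hb2 z
          _ = M2 := one_mul _
      have e2 : |‖z‖⁻¹ ^ 2 * om k z * u (ret t x z)| ≤ M3 / ‖z‖ ^ 2 := by
        rw [abs_mul, abs_mul, abs_of_nonneg (by positivity : (0:ℝ) ≤ ‖z‖⁻¹ ^ 2)]
        calc ‖z‖⁻¹ ^ 2 * |om k z| * |u (ret t x z)| ≤ ‖z‖⁻¹ ^ 2 * 1 * M3 := by gcongr; exact hb3 z
          _ = _ := by field_simp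
      calc |Φ k z| ≤ |-(‖z‖⁻¹ * (px k u (ret t x z) + om k z * pt u (ret t x z)))| + |‖z‖⁻¹ ^ 2 * om k z * u (ret t x z)| :=
            abs_sub _ _
        _ ≤ (|t| / ‖z‖ ^ 2) * (M + M2) + M3 / ‖z‖ ^ 2 := by rw [abs_neg]; exact add_le_add e1 e2
        _ = _ := by ring
  choose Cb hCb0 hCb using hbd
  have hC : ∀ k z, z ≠ 0 → |Φ k z| ≤ (∑ k, Cb k) / ‖z‖ ^ 2 := by
    intro k z hz
    refine (hCb k z hz).trans ?_
    gcongr
    exact Finset.single_le_sum (fun i _ => hCb0 i) (Finset.mem_univ k)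
  rw [tip (Φ0 := fun k ζ => - (‖ζ‖⁻¹ ^ 2 * om k ζ * u (t, x))) hΦ hs hC hD hDi]
  · have h1 : ∀ k, ∫ ζ : R3, psi k ζ * -(‖ζ‖⁻¹ ^ 2 * om k ζ * u (t, x))
        = - ((∫ ζ : R3, psi k ζ * (‖ζ‖⁻¹ ^ 2 * om k ζ)) * u (t, x)) := by
      intro k
      rw [← integral_mul_const, ← integral_neg]
      congr 1; ext ζ; ring
    simp only [h1, Finset.sum_neg_distrib, neg_neg]
    rw [← Finset.sum_mul, integral_psi_newton]
  · intro k ζ hζ
    have hζp : 0 < ‖ζ‖ := norm_pos_iff.2 hζ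
    have hret : Tendsto (fun ε : ℝ => ret t x (ε • ζ)) (𝓝[>] 0) (𝓝 (t, x)) := by
      have h1 : Continuous fun ε : ℝ => ret t x (ε • ζ) := (continuous_ret t x).comp (by fun_prop)
      have h2 := h1.tendsto 0
      have h3 : ret t x ((0:ℝ) • ζ) = (t, x) := by simp [ret]
      rw [h3] at h2
      exact h2.mono_left nhdsWithin_le_nhds
    have hid : Tendsto (fun ε : ℝ => ε) (𝓝[>] (0:ℝ)) (𝓝 0) := tendsto_id.mono_left nhdsWithin_le_nhds
    have hlim1 : Tendsto (fun ε : ℝ => -(ε * (‖ζ‖⁻¹ * (px k u (ret t x (ε • ζ)) + om k ζ * pt u (ret t x (ε • ζ)))))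
        - ‖ζ‖⁻¹ ^ 2 * om k ζ * u (ret t x (ε • ζ))) (𝓝[>] 0)
        (𝓝 (-(0 * (‖ζ‖⁻¹ * (px k u (t, x) + om k ζ * pt u (t, x)))) - ‖ζ‖⁻¹ ^ 2 * om k ζ * u (t, x))) := by
      apply Tendsto.sub
      · apply Tendsto.neg
        apply hid.mul
        apply Tendsto.const_mul
        apply Tendsto.add
        · exact ((hpx k).continuous.tendsto _).comp hret
        · exact ((hpt.continuous.tendsto _).comp hret).const_mul _
      · exact ((hu.continuous.tendsto _).comp hret).const_mul _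
    have h4 : -(0 * (‖ζ‖⁻¹ * (px k u (t, x) + om k ζ * pt u (t, x)))) - ‖ζ‖⁻¹ ^ 2 * om k ζ * u (t, x)
        = -(‖ζ‖⁻¹ ^ 2 * om k ζ * u (t, x)) := by ring
    rw [h4] at hlim1
    refine hlim1.congr' ?_
    filter_upwards [self_mem_nhdsWithin] with ε hε
    have hε' : (0:ℝ) < ε := hε
    simp only [Φ]
    rw [om_smul k ζ hε', norm_smul, Real.norm_of_nonneg hε'.le]
    field_simp

/-- `a · ω` -/
noncomputable def sdot (a z : R3) : ℝ := ∑ i, a i * om i z

lemma hasDerivAt_sdot (a : R3) {z : R3} (hz : z ≠ 0) (k : Fin 3) :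
    HasDerivAt (fun s : ℝ => sdot a (z + s • e k)) (‖z‖⁻¹ * (a k - sdot a z * om k z)) 0 := by
  have h : HasDerivAt (fun s : ℝ => sdot a (z + s • e k))
      (∑ i, a i * (‖z‖⁻¹ * ((if i = k then (1:ℝ) else 0) - om i z * om k z))) 0 := by
    unfold sdot
    apply HasDerivAt.fun_sum
    intro i _
    exact (hasDerivAt_om hz i k).const_mul (a i)
  convert! h using 1
  unfold sdot
  fin_cases k <;> simp [Fin.sum_univ_three] <;> ring

lemma contDiffOn_sdot {n : ℕ∞} (a : R3) : ContDiffOn ℝ n (sdot a) {0}ᶜ := by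
  unfold sdot
  exact ContDiffOn.sum fun i _ => contDiffOn_const.mul (contDiffOn_om i)

lemma abs_sdot_le (a z : R3) : |sdot a z| ≤ ‖a‖ := by
  by_cases hz : z = 0
  · subst hz; simp [sdot, om]
  have h1 : sdot a z = ⟪a, z⟫ * ‖z‖⁻¹ := by
    unfold sdot om
    rw [PiLp.inner_apply]
    simp only [Fin.sum_univ_three]
    simp
    ring
  have hzp : 0 < ‖z‖ := norm_pos_iff.2 hz
  rw [h1, abs_mul, abs_inv, abs_norm, mul_inv_le_iff₀ hzp]
  exact abs_real_inner_le_norm a z

/-- `m = 1 + v·ω` -/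
noncomputable def mm (v z : R3) : ℝ := 1 + sdot v z

lemma mm_pos {v : R3} (hv : ‖v‖ < 1) (z : R3) : 0 < mm v z := by
  have := abs_sdot_le v z
  unfold mm
  linarith [neg_abs_le (sdot v z)]

lemma mm_ge {v : R3} (z : R3) : 1 - ‖v‖ ≤ mm v z := by
  have := abs_sdot_le v z
  unfold mm
  linarith [neg_abs_le (sdot v z)]

/-- `κ = c·(ω + v)` -/
noncomputable def kap (v c z : R3) : ℝ := sdot c z + ∑ i, c i * v i

lemma cone_kernel_integrable {F : ℝ × R3 → ℝ} (h0 : ∀ τ ≤ 0, ∀ y, F (τ, y) = 0) (hF : Continuous F)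
    (t : ℝ) (x : R3) {K : R3 → ℝ} {C : ℝ} (hK : ContinuousOn K {0}ᶜ) (hKb : ∀ z, z ≠ 0 → |K z| ≤ C * ‖z‖⁻¹ ^ 2) :
    Integrable (fun z => K z * F (ret t x z)) := by
  obtain ⟨M, hM, hb⟩ := ret_bound h0 hF t x
  apply integrable_of_bound (C := C * M) (ρ := t)
  · exact hK.mul (hF.comp (continuous_ret t x)).continuousOn
  · intro z hz; rw [ret_zero h0 hz.le, mul_zero]
  · intro z hz
    rw [abs_mul]
    calc |K z| * |F (ret t x z)| ≤ (C * ‖z‖⁻¹ ^ 2) * M :=
          mul_le_mul (hKb z hz) (hb z) (abs_nonneg _) ((abs_nonneg _).trans (hKb z hz))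
      _ = _ := by field_simp

lemma cone_kernel_integrable' {F : ℝ × R3 → ℝ} (h0 : ∀ τ ≤ 0, ∀ y, F (τ, y) = 0) (hF : Continuous F)
    (t : ℝ) (x : R3) {K : R3 → ℝ} {C : ℝ} (hK : ContinuousOn K {0}ᶜ) (hKb : ∀ z, z ≠ 0 → |K z| ≤ C * ‖z‖⁻¹) :
    Integrable (fun z => K z * F (ret t x z)) := by
  obtain ⟨M, hM, hb⟩ := ret_bound h0 hF t x
  apply integrable_of_bound (C := |C| * |t| * M) (ρ := t)
  · exact hK.mul (hF.comp (continuous_ret t x)).continuousOn
  · intro z hz; rw [ret_zero h0 hz.le, mul_zero]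
  · intro z hz
    by_cases h : t < ‖z‖
    · rw [ret_zero h0 h.le, mul_zero, abs_zero]; positivity
    · rw [abs_mul]
      have hr : ‖z‖⁻¹ ≤ |t| / ‖z‖ ^ 2 := rho_le hz ((not_lt.1 h).trans (le_abs_self t))
      calc |K z| * |F (ret t x z)| ≤ (|C| * (|t| / ‖z‖ ^ 2)) * M := by
            apply mul_le_mul _ (hb z) (abs_nonneg _) (by positivity)
            refine (hKb z hz).trans ?_
            gcongr
            exact le_abs_self C
        _ = _ := by ring

/-- The cone integration by parts (Glassey--Strauss), combined form with integrability. -/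
theorem cone_ibp_aux {g : ℝ × R3 → ℝ} (hg : ContDiff ℝ 1 g) (h0 : ∀ τ ≤ 0, ∀ y, g (τ, y) = 0)
    {v : R3} (hv : ‖v‖ < 1) (c : R3) (t : ℝ) (x : R3) :
    Integrable (fun z => ‖z‖⁻¹ * (∑ i, c i * px i g (ret t x z) + (∑ i, c i * v i) * pt g (ret t x z))) ∧
    Integrable (fun z => (kap v c z * (1 - ‖v‖ ^ 2) * (mm v z)⁻¹ ^ 2 * ‖z‖⁻¹ ^ 2) * g (ret t x z)) ∧
    Integrable (fun z => (kap v c z * (mm v z)⁻¹ * ‖z‖⁻¹) * (pt g (ret t x z) + ∑ i, v i * px i g (ret t x z))) ∧
    ∫ z, (‖z‖⁻¹ * (∑ i, c i * px i g (ret t x z) + (∑ i, c i * v i) * pt g (ret t x z))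
      - (kap v c z * (1 - ‖v‖ ^ 2) * (mm v z)⁻¹ ^ 2 * ‖z‖⁻¹ ^ 2) * g (ret t x z)
      - (kap v c z * (mm v z)⁻¹ * ‖z‖⁻¹) * (pt g (ret t x z) + ∑ i, v i * px i g (ret t x z))) = 0 := by
  have hpxc : ∀ k, Continuous (px k g) := fun k => (hg.continuous_fderiv (by norm_num)).clm_apply continuous_const
  have hptc : Continuous (pt g) := (hg.continuous_fderiv (by norm_num)).clm_apply continuous_const
  have hpx0 : ∀ k, ∀ τ ≤ 0, ∀ y, px k g (τ, y) = 0 := fun k => px_zero h0 hg k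
  have hpt0 : ∀ τ ≤ 0, ∀ y, pt g (τ, y) = 0 := pt_zero h0 hg
  have hdg : ∀ q, DifferentiableAt ℝ g q := fun q => (hg.differentiable (by norm_num)).differentiableAt
  have hmne : ∀ z, mm v z ≠ 0 := fun z => (mm_pos hv z).ne'
  have hmC : ∀ {n : ℕ∞}, ContDiffOn ℝ n (mm v) {0}ᶜ := fun {n} => contDiffOn_const.add (contDiffOn_sdot v)
  have hmiC : ∀ {n : ℕ∞}, ContDiffOn ℝ n (fun z => (mm v z)⁻¹) {0}ᶜ := fun {n} => hmC.inv (fun z _ => hmne z)
  have hkC : ∀ {n : ℕ∞}, ContDiffOn ℝ n (kap v c) {0}ᶜ := fun {n} => (contDiffOn_sdot c).add contDiffOn_const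
  let Φ : Fin 3 → R3 → ℝ := fun k z => ‖z‖⁻¹ * (c k - kap v c z * (mm v z)⁻¹ * v k) * g (ret t x z)
  have hΦ : ∀ k, ContDiffOn ℝ 1 (Φ k) {0}ᶜ := fun k =>
    ((contDiffOn_rho (n := 1)).mul (contDiffOn_const.sub ((hkC.mul hmiC).mul contDiffOn_const))).mul
      (contDiff_comp_ret (n := 1) hg t x)
  have hline : ∀ (k : Fin 3) (z : R3), z ≠ 0 → HasDerivAt (fun s : ℝ => Φ k (z + s • e k))
      ((-(‖z‖⁻¹ ^ 2 * om k z) * (c k - kap v c z * (mm v z)⁻¹ * v k)
        + ‖z‖⁻¹ * (-((‖z‖⁻¹ * (c k - sdot c z * om k z) * (mm v z)⁻¹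
          + kap v c z * (-(‖z‖⁻¹ * (v k - sdot v z * om k z)) * (mm v z)⁻¹ ^ 2)) * v k))) * g (ret t x z)
        + ‖z‖⁻¹ * (c k - kap v c z * (mm v z)⁻¹ * v k) * (px k g (ret t x z) - om k z * pt g (ret t x z))) 0 := by
    intro k z hz
    have hr := hasDerivAt_rho hz k
    have hm : HasDerivAt (fun s : ℝ => mm v (z + s • e k)) (‖z‖⁻¹ * (v k - sdot v z * om k z)) 0 :=
      (hasDerivAt_sdot v hz k).const_add 1
    have hk : HasDerivAt (fun s : ℝ => kap v c (z + s • e k)) (‖z‖⁻¹ * (c k - sdot c z * om k z)) 0 :=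
      (hasDerivAt_sdot c hz k).add_const _
    have hmi := hm.inv (by simpa using hmne z)
    have h3 := hasDerivAt_ret (F := g) (t := t) (x := x) hz k (hdg _)
    have hmain := (hr.mul (((hk.mul hmi).mul_const (v k)).const_sub (c k))).mul h3
    convert! hmain using 1
    simp
    field_simp
    simp
  have hD : ∀ z, z ≠ 0 → ∑ k, fderiv ℝ (Φ k) z (e k)
      = ‖z‖⁻¹ * (∑ i, c i * px i g (ret t x z) + (∑ i, c i * v i) * pt g (ret t x z))
        - (kap v c z * (1 - ‖v‖ ^ 2) * (mm v z)⁻¹ ^ 2 * ‖z‖⁻¹ ^ 2) * g (ret t x z)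
        - (kap v c z * (mm v z)⁻¹ * ‖z‖⁻¹) * (pt g (ret t x z) + ∑ i, v i * px i g (ret t x z)) := by
    intro z hz
    have h1 : ∀ k, fderiv ℝ (Φ k) z (e k) = _ := fun k =>
      fderiv_eq_of_line (((hΦ k).contDiffAt (isOpen_compl_singleton.mem_nhds hz)).differentiableAt (by norm_num)) (hline k z hz)
    simp only [h1]
    have hm : (1 + sdot v z) * (mm v z)⁻¹ = 1 := mul_inv_cancel₀ (hmne z)
    rw [norm_sq_eq v]
    have hsv : sdot v z = v 0 * om 0 z + v 1 * om 1 z + v 2 * om 2 z := by simp [sdot, Fin.sum_univ_three]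
    have hsc : sdot c z = c 0 * om 0 z + c 1 * om 1 z + c 2 * om 2 z := by simp [sdot, Fin.sum_univ_three]
    unfold kap
    generalize hmi : (mm v z)⁻¹ = mi at *
    simp only [Fin.sum_univ_three]
    rw [hsc]
    rw [hsv] at hm ⊢
    linear_combination (‖z‖⁻¹ ^ 2 * g (ret t x z) * ((c 0 * om 0 z + c 1 * om 1 z + c 2 * om 2 z + (c 0 * v 0 + c 1 * v 1 + c 2 * v 2)) * mi * (1 - (v 0 * om 0 z + v 1 * om 1 z + v 2 * om 2 z)) + (c 0 * om 0 z + c 1 * om 1 z + c 2 * om 2 z)) + ‖z‖⁻¹ * pt g (ret t x z) * (c 0 * om 0 z + c 1 * om 1 z + c 2 * om 2 z + (c 0 * v 0 + c 1 * v 1 + c 2 * v 2))) * hm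
  have hF1c : Continuous (fun q : ℝ × R3 => ∑ i, c i * px i g q + (∑ i, c i * v i) * pt g q) :=
    (continuous_finsetSum _ fun i _ => continuous_const.mul (hpxc i)).add (continuous_const.mul hptc)
  have hF3c : Continuous (fun q : ℝ × R3 => pt g q + ∑ i, v i * px i g q) :=
    hptc.add (continuous_finsetSum _ fun i _ => continuous_const.mul (hpxc i))
  have hF1z : ∀ τ ≤ 0, ∀ y, (fun q : ℝ × R3 => ∑ i, c i * px i g q + (∑ i, c i * v i) * pt g q) (τ, y) = 0 := by
    intro τ hτ y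
    simp [fun i => hpx0 i τ hτ y, hpt0 τ hτ y]
  have hF3z : ∀ τ ≤ 0, ∀ y, (fun q : ℝ × R3 => pt g q + ∑ i, v i * px i g q) (τ, y) = 0 := by
    intro τ hτ y
    simp [fun i => hpx0 i τ hτ y, hpt0 τ hτ y]
  have hv1 : 0 < 1 - ‖v‖ := by linarith
  have hmi_le : ∀ z, (mm v z)⁻¹ ≤ (1 - ‖v‖)⁻¹ := fun z => inv_anti₀ hv1 (mm_ge z)
  have hmi_nn : ∀ z, 0 ≤ (mm v z)⁻¹ := fun z => inv_nonneg.2 (mm_pos hv z).le
  have hkb : ∀ z, |kap v c z| ≤ ‖c‖ + |∑ i, c i * v i| := fun z =>
    (abs_add_le _ _).trans (add_le_add (abs_sdot_le c z) le_rfl)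
  set κ0 : ℝ := ‖c‖ + |∑ i, c i * v i| with hκ0
  have hκ0n : 0 ≤ κ0 := by positivity
  have hI1 : Integrable (fun z => ‖z‖⁻¹ * (∑ i, c i * px i g (ret t x z) + (∑ i, c i * v i) * pt g (ret t x z))) :=
    cone_kernel_integrable' (F := fun q : ℝ × R3 => ∑ i, c i * px i g q + (∑ i, c i * v i) * pt g q)
      hF1z hF1c t x (K := fun z => ‖z‖⁻¹) (C := 1) (contDiffOn_rho (n := 0)).continuousOn
      (fun z _ => by rw [abs_inv, abs_norm, one_mul])
  have hI2 : Integrable (fun z => (kap v c z * (1 - ‖v‖ ^ 2) * (mm v z)⁻¹ ^ 2 * ‖z‖⁻¹ ^ 2) * g (ret t x z)) := by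
    apply cone_kernel_integrable h0 hg.continuous t x (C := κ0 * |1 - ‖v‖ ^ 2| * (1 - ‖v‖)⁻¹ ^ 2)
    · exact (((hkC (n := 0)).continuousOn.mul continuousOn_const).mul ((hmiC (n := 0)).continuousOn.pow 2)).mul
        ((contDiffOn_rho (n := 0)).continuousOn.pow 2)
    · intro z _
      rw [abs_mul, abs_mul, abs_mul, abs_of_nonneg (pow_nonneg (hmi_nn z) 2),
        abs_of_nonneg (by positivity : (0:ℝ) ≤ ‖z‖⁻¹ ^ 2)]
      have := hmi_nn z
      gcongr
      · exact hkb z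
      · exact mm_ge z
  have hI3 : Integrable (fun z => (kap v c z * (mm v z)⁻¹ * ‖z‖⁻¹) * (pt g (ret t x z) + ∑ i, v i * px i g (ret t x z))) := by
    apply cone_kernel_integrable' (F := fun q : ℝ × R3 => pt g q + ∑ i, v i * px i g q)
      hF3z hF3c t x (K := fun z => kap v c z * (mm v z)⁻¹ * ‖z‖⁻¹) (C := κ0 * (1 - ‖v‖)⁻¹)
    · exact ((hkC (n := 0)).continuousOn.mul (hmiC (n := 0)).continuousOn).mul (contDiffOn_rho (n := 0)).continuousOn
    · intro z _
      rw [abs_mul, abs_mul, abs_of_nonneg (hmi_nn z), abs_inv, abs_norm]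
      have := hmi_nn z
      gcongr
      · exact hkb z
      · exact mm_ge z
  have hz := tip_zero (C := (∑ k, ((|c k| + κ0 * (1 - ‖v‖)⁻¹ * |v k|))) * Classical.choose (ret_bound h0 hg.continuous t x))
    (ρ := t) hΦ
    (fun k z hz => by simp only [Φ, ret_zero h0 hz.le, mul_zero])
    (fun k z hz => by
      obtain ⟨hM0, hM⟩ := Classical.choose_spec (ret_bound h0 hg.continuous t x)
      set M := Classical.choose (ret_bound h0 hg.continuous t x)
      simp only [Φ]
      rw [abs_mul, abs_mul, abs_inv, abs_norm]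
      have e1 : |c k - kap v c z * (mm v z)⁻¹ * v k| ≤ |c k| + κ0 * (1 - ‖v‖)⁻¹ * |v k| := by
        refine (abs_sub _ _).trans (add_le_add le_rfl ?_)
        rw [abs_mul, abs_mul, abs_of_nonneg (hmi_nn z)]
        have := hmi_nn z
        gcongr
        · exact hkb z
        · exact mm_ge z
      have e2 : |c k| + κ0 * (1 - ‖v‖)⁻¹ * |v k| ≤ ∑ k, (|c k| + κ0 * (1 - ‖v‖)⁻¹ * |v k|) :=
        Finset.single_le_sum (f := fun k => |c k| + κ0 * (1 - ‖v‖)⁻¹ * |v k|) (fun i _ => by positivity) (Finset.mem_univ k)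
      calc ‖z‖⁻¹ * |c k - kap v c z * (mm v z)⁻¹ * v k| * |g (ret t x z)|
          ≤ ‖z‖⁻¹ * (∑ k, (|c k| + κ0 * (1 - ‖v‖)⁻¹ * |v k|)) * M := by
            gcongr
            · exact e1.trans e2
            · exact hM z
        _ = _ := by ring)
    hD ((hI1.sub hI2).sub hI3)
  exact ⟨hI1, hI2, hI3, hz⟩


end Crest.Agent.R106.Gsr
end

-- ▼ part R106/GsrTheta

set_option autoImplicit false

open MeasureTheory Set Filter Topology Metric
open Crest.AnalysisR.VecCalc3
open scoped ContDiff RealInnerProductSpace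

namespace Crest.Agent.R106.Gsr

open Crest.Agent.R106.GSR (pt px box)

/-- time cut-off: `0` for `τ ≤ 0`, `1` for `τ ≥ h`. -/
noncomputable def th (h τ : ℝ) : ℝ := Real.smoothTransition (τ / h)

/-- derivative of the cut-off -/
noncomputable def th' (h τ : ℝ) : ℝ := deriv (th h) τ

lemma th_contDiff (h : ℝ) {n : ℕ∞} : ContDiff ℝ n (th h) := by
  unfold th
  exact Real.smoothTransition.contDiff.comp (contDiff_id.div_const h)

lemma th'_contDiff (h : ℝ) {n : ℕ∞} : ContDiff ℝ n (th' h) := by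
  have h1 : ContDiff ℝ ∞ (th h) := th_contDiff h
  exact ((contDiff_infty_iff_deriv.1 h1).2).of_le (by exact_mod_cast le_top)

lemma th_hasDerivAt (h τ : ℝ) : HasDerivAt (th h) (th' h τ) τ :=
  ((th_contDiff h (n := 1)).differentiable (by norm_num)).differentiableAt.hasDerivAt

lemma th_zero {h τ : ℝ} (hh : 0 < h) (hτ : τ ≤ 0) : th h τ = 0 :=
  Real.smoothTransition.zero_of_nonpos (div_nonpos_of_nonpos_of_nonneg hτ hh.le)

lemma th_one {h τ : ℝ} (hh : 0 < h) (hτ : h ≤ τ) : th h τ = 1 :=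
  Real.smoothTransition.one_of_one_le ((one_le_div hh).2 hτ)

lemma th_nonneg (h τ : ℝ) : 0 ≤ th h τ := Real.smoothTransition.nonneg _
lemma th_le_one (h τ : ℝ) : th h τ ≤ 1 := Real.smoothTransition.le_one _

lemma th_mono {h : ℝ} (hh : 0 < h) : Monotone (th h) := fun a b hab =>
  Real.smoothTransition.monotone (by gcongr)

lemma th'_nonneg {h : ℝ} (hh : 0 < h) (τ : ℝ) : 0 ≤ th' h τ := (th_mono hh).deriv_nonneg

lemma th'_continuous (h : ℝ) : Continuous (th' h) := (th'_contDiff h (n := 0)).continuous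

lemma th'_zero {h τ : ℝ} (hh : 0 < h) (hτ : τ ≤ 0) : th' h τ = 0 := by
  have hlt : ∀ s < 0, th' h s = 0 := by
    intro s hs
    have : th h =ᶠ[𝓝 s] fun _ => 0 := by
      filter_upwards [Iio_mem_nhds hs] with w hw using th_zero hh (le_of_lt hw)
    unfold th'
    rw [this.deriv_eq]; simp
  rcases hτ.lt_or_eq with h1 | h1
  · exact hlt τ h1
  · subst h1
    have h2 : Tendsto (th' h) (𝓝[<] 0) (𝓝 (th' h 0)) :=
      (th'_continuous h).continuousAt.tendsto.mono_left nhdsWithin_le_nhds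
    have h3 : Tendsto (th' h) (𝓝[<] 0) (𝓝 0) := by
      apply tendsto_const_nhds.congr'
      filter_upwards [self_mem_nhdsWithin] with s hs using (hlt s hs).symm
    exact tendsto_nhds_unique h2 h3

lemma th'_zero' {h τ : ℝ} (hh : 0 < h) (hτ : h < τ) : th' h τ = 0 := by
  have : th h =ᶠ[𝓝 τ] fun _ => 1 := by
    filter_upwards [Ioi_mem_nhds hτ] with w hw using th_one hh (le_of_lt hw)
  unfold th'
  rw [this.deriv_eq]; simp

/-- `∫ r⁻¹ ∂_t W = ∫ r⁻¹ ω·∇W + r⁻² W` on the cone -/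
theorem pt_ibp {W : ℝ × R3 → ℝ} (hW : ContDiff ℝ 1 W) (h0 : ∀ τ ≤ 0, ∀ y, W (τ, y) = 0)
    (t : ℝ) (x : R3) :
    ∫ z, ‖z‖⁻¹ * pt W (ret t x z)
      = ∫ z, (‖z‖⁻¹ * ∑ k, om k z * px k W (ret t x z) + ‖z‖⁻¹ ^ 2 * W (ret t x z)) := by
  have hpxc : ∀ k, Continuous (px k W) := fun k => (hW.continuous_fderiv (by norm_num)).clm_apply continuous_const
  have hptc : Continuous (pt W) := (hW.continuous_fderiv (by norm_num)).clm_apply continuous_const
  have hpx0 : ∀ k, ∀ τ ≤ 0, ∀ y, px k W (τ, y) = 0 := fun k => px_zero h0 hW k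
  have hpt0 : ∀ τ ≤ 0, ∀ y, pt W (τ, y) = 0 := pt_zero h0 hW
  have hdW : ∀ q, DifferentiableAt ℝ W q := fun q => (hW.differentiable (by norm_num)).differentiableAt
  let Φ : Fin 3 → R3 → ℝ := fun k z => ‖z‖⁻¹ * om k z * W (ret t x z)
  have hΦ : ∀ k, ContDiffOn ℝ 1 (Φ k) {0}ᶜ := fun k =>
    ((contDiffOn_rho (n := 1)).mul (contDiffOn_om (n := 1) k)).mul (contDiff_comp_ret (n := 1) hW t x)
  have hD : ∀ z, z ≠ 0 → ∑ k, fderiv ℝ (Φ k) z (e k)
      = (‖z‖⁻¹ * ∑ k, om k z * px k W (ret t x z) + ‖z‖⁻¹ ^ 2 * W (ret t x z)) - ‖z‖⁻¹ * pt W (ret t x z) := by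
    intro z hz
    have hline : ∀ k, HasDerivAt (fun s : ℝ => Φ k (z + s • e k))
        ((-(‖z‖⁻¹ ^ 2 * om k z) * om k z + ‖z‖⁻¹ * (‖z‖⁻¹ * (1 - om k z * om k z))) * W (ret t x z)
          + ‖z‖⁻¹ * om k z * (px k W (ret t x z) - om k z * pt W (ret t x z))) 0 := by
      intro k
      have hmain := ((hasDerivAt_rho hz k).mul (hasDerivAt_om hz k k)).mul
        (hasDerivAt_ret (F := W) (t := t) (x := x) hz k (hdW _))
      convert! hmain using 1
      simp
    have h1 : ∀ k, fderiv ℝ (Φ k) z (e k) = _ := fun k =>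
      fderiv_eq_of_line (((hΦ k).contDiffAt (isOpen_compl_singleton.mem_nhds hz)).differentiableAt (by norm_num)) (hline k)
    simp only [h1]
    have ho := sum_om_sq hz
    simp only [Fin.sum_univ_three] at ho ⊢
    linear_combination (-2 * ‖z‖⁻¹ ^ 2 * W (ret t x z) - ‖z‖⁻¹ * pt W (ret t x z)) * ho
  have hI1 : Integrable (fun z => ‖z‖⁻¹ * pt W (ret t x z)) :=
    cone_kernel_integrable' hpt0 hptc t x (K := fun z => ‖z‖⁻¹) (C := 1) (contDiffOn_rho (n := 0)).continuousOn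
      (fun z _ => by rw [abs_inv, abs_norm, one_mul])
  have hI2 : Integrable (fun z => ‖z‖⁻¹ ^ 2 * W (ret t x z)) :=
    cone_kernel_integrable h0 hW.continuous t x (K := fun z => ‖z‖⁻¹ ^ 2) (C := 1)
      ((contDiffOn_rho (n := 0)).continuousOn.pow 2)
      (fun z _ => by rw [abs_of_nonneg (by positivity), one_mul])
  have hI3 : Integrable (fun z => ‖z‖⁻¹ * ∑ k, om k z * px k W (ret t x z)) := by
    have h1 : ∀ k, Integrable (fun z => (‖z‖⁻¹ * om k z) * px k W (ret t x z)) := fun k =>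
      cone_kernel_integrable' (hpx0 k) (hpxc k) t x (C := 1)
        ((contDiffOn_rho (n := 0)).mul (contDiffOn_om (n := 0) k)).continuousOn
        (fun z _ => by
          rw [abs_mul, abs_inv, abs_norm, one_mul]
          exact mul_le_of_le_one_right (by positivity) (abs_om_le k z))
    have h2 := integrable_finsetSum Finset.univ (fun k _ => h1 k)
    refine h2.congr (Eventually.of_forall fun z => ?_)
    simp only [Finset.mul_sum, mul_assoc]
  obtain ⟨M, hM0, hM⟩ := ret_bound h0 hW.continuous t x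
  have hz := tip_zero (C := M) (ρ := t) hΦ
    (fun k z hz => by simp only [Φ, ret_zero h0 hz.le, mul_zero])
    (fun k z hz => by
      simp only [Φ]
      rw [abs_mul, abs_mul, abs_inv, abs_norm]
      calc ‖z‖⁻¹ * |om k z| * |W (ret t x z)| ≤ ‖z‖⁻¹ * 1 * M := by
            gcongr
            · exact abs_om_le k z
            · exact hM z
        _ = _ := by ring)
    hD ((hI3.add hI2).sub hI1)
  have hz2 := integral_sub (hI3.add hI2) hI1
  simp only [Pi.add_apply] at hz2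
  rw [hz2] at hz
  linarith

lemma pt_mul {a b : ℝ × R3 → ℝ} {q : ℝ × R3} (ha : DifferentiableAt ℝ a q) (hb : DifferentiableAt ℝ b q) :
    pt (fun q => a q * b q) q = pt a q * b q + a q * pt b q := by
  unfold pt
  rw [fderiv_fun_mul ha hb]
  simp
  ring

lemma px_mul {a b : ℝ × R3 → ℝ} {q : ℝ × R3} (ha : DifferentiableAt ℝ a q) (hb : DifferentiableAt ℝ b q) (k : Fin 3) :
    px k (fun q => a q * b q) q = px k a q * b q + a q * px k b q := by
  unfold px
  rw [fderiv_fun_mul ha hb]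
  simp
  ring

lemma hasFDerivAt_time {φ : ℝ → ℝ} {φ' : ℝ} {q : ℝ × R3} (h : HasDerivAt φ φ' q.1) :
    HasFDerivAt (fun q : ℝ × R3 => φ q.1) (φ' • ContinuousLinearMap.fst ℝ ℝ R3) q := by
  have h1 : HasFDerivAt (fun q : ℝ × R3 => q.1) (ContinuousLinearMap.fst ℝ ℝ R3) q := hasFDerivAt_fst
  exact h.comp_hasFDerivAt q h1

lemma pt_time {φ : ℝ → ℝ} {φ' : ℝ} {q : ℝ × R3} (h : HasDerivAt φ φ' q.1) :
    pt (fun q : ℝ × R3 => φ q.1) q = φ' := by
  unfold pt
  rw [(hasFDerivAt_time h).fderiv]; simp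

lemma px_time {φ : ℝ → ℝ} {φ' : ℝ} {q : ℝ × R3} (h : HasDerivAt φ φ' q.1) (k : Fin 3) :
    px k (fun q : ℝ × R3 => φ q.1) q = 0 := by
  unfold px
  rw [(hasFDerivAt_time h).fderiv]; simp

/-- Kirchhoff's formula with a time cut-off. -/
theorem kirchhoff_theta {u : ℝ × R3 → ℝ} (hu : ContDiff ℝ 2 u) {h t : ℝ} (hh : 0 < h) (ht : h ≤ t) (x : R3) :
    4 * Real.pi * u (t, x) = (∫ z, ‖z‖⁻¹ * (th h (t - ‖z‖) * box u (ret t x z)))
      + ∫ z, th' h (t - ‖z‖) * (‖z‖⁻¹ * (pt u (ret t x z) + ∑ k, om k z * px k u (ret t x z))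
          + ‖z‖⁻¹ ^ 2 * u (ret t x z)) := by
  have hu1 : ContDiff ℝ 1 u := hu.of_le (by norm_num)
  have hpx : ∀ k, ContDiff ℝ 1 (px k u) := fun k => px_contDiff2 hu k
  have hpt : ContDiff ℝ 1 (pt u) := pt_contDiff2 hu
  have hdu : ∀ q, DifferentiableAt ℝ u q := fun q => (hu1.differentiable (by norm_num)).differentiableAt
  have hdpx : ∀ (k : Fin 3) (q), DifferentiableAt ℝ (px k u) q := fun k q =>
    ((hpx k).differentiable (by norm_num)).differentiableAt
  have hdpt : ∀ q, DifferentiableAt ℝ (pt u) q := fun q =>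
    (hpt.differentiable (by norm_num)).differentiableAt
  have hthC : ∀ {n : ℕ∞}, ContDiff ℝ n (fun q : ℝ × R3 => th h q.1) := fun {n} => (th_contDiff h).comp contDiff_fst
  have hthC' : ∀ {n : ℕ∞}, ContDiff ℝ n (fun q : ℝ × R3 => th' h q.1) := fun {n} => (th'_contDiff h).comp contDiff_fst
  have hdth : ∀ q : ℝ × R3, DifferentiableAt ℝ (fun q : ℝ × R3 => th h q.1) q := fun q =>
    ((hthC (n := 1)).differentiable (by norm_num)).differentiableAt
  have hdth' : ∀ q : ℝ × R3, DifferentiableAt ℝ (fun q : ℝ × R3 => th' h q.1) q := fun q =>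
    ((hthC' (n := 1)).differentiable (by norm_num)).differentiableAt
  have hth'd : ∀ τ, HasDerivAt (th' h) (deriv (th' h) τ) τ := fun τ =>
    ((th'_contDiff h (n := 1)).differentiable (by norm_num)).differentiableAt.hasDerivAt
  set U : ℝ × R3 → ℝ := fun q => th h q.1 * u q with hU
  set W : ℝ × R3 → ℝ := fun q => th' h q.1 * u q with hW
  have hUC : ContDiff ℝ 2 U := (hthC (n := 2)).mul hu
  have hWC : ContDiff ℝ 1 W := (hthC' (n := 1)).mul hu1
  have hU0 : ∀ τ ≤ 0, ∀ y, U (τ, y) = 0 := fun τ hτ y => by simp [hU, th_zero hh hτ]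
  have hW0 : ∀ τ ≤ 0, ∀ y, W (τ, y) = 0 := fun τ hτ y => by simp [hW, th'_zero hh hτ]
  have hptU : pt U = fun q => th' h q.1 * u q + th h q.1 * pt u q := by
    ext q
    rw [hU, pt_mul (hdth q) (hdu q), pt_time (th_hasDerivAt h q.1)]
  have hpxU : ∀ k, px k U = fun q => th h q.1 * px k u q := by
    intro k
    ext q
    rw [hU, px_mul (hdth q) (hdu q), px_time (th_hasDerivAt h q.1), zero_mul, zero_add]
  have hboxU : ∀ q, box U q = th h q.1 * box u q + th' h q.1 * pt u q + pt W q := by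
    intro q
    unfold box
    rw [hptU]
    have h1 : pt (fun q => th' h q.1 * u q + th h q.1 * pt u q) q
        = pt W q + pt (fun q => th h q.1 * pt u q) q := by
      unfold pt
      have hd1 : DifferentiableAt ℝ W q := (hdth' q).mul (hdu q)
      have hd2 : DifferentiableAt ℝ (fun q => th h q.1 * pt u q) q := (hdth q).mul (hdpt q)
      have := fderiv_fun_add hd1 hd2
      have e1 : fderiv ℝ (fun q => th' h q.1 * u q + th h q.1 * (fderiv ℝ u q) (1, 0)) q
        = fderiv ℝ W q + fderiv ℝ (fun q => th h q.1 * pt u q) q := this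
      rw [e1]; rfl
    rw [h1, pt_mul (hdth q) (hdpt q), pt_time (th_hasDerivAt h q.1)]
    have h2 : ∀ k, px k (px k U) q = th h q.1 * px k (px k u) q := by
      intro k
      rw [hpxU k, px_mul (hdth q) (hdpx k q), px_time (th_hasDerivAt h q.1), zero_mul, zero_add]
    simp only [h2, Fin.sum_univ_three]
    ring
  have hK := kirchhoff hUC hU0 t x
  have hUt : U (t, x) = u (t, x) := by simp [hU, th_one hh ht]
  rw [hUt] at hK
  rw [← hK]
  -- integrability
  have hrho : ContinuousOn (fun z : R3 => ‖z‖⁻¹) {0}ᶜ := (contDiffOn_rho (n := 0)).continuousOn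
  have hboxc : Continuous (box u) := by
    have h1 : ∀ {F : ℝ × R3 → ℝ} (k : Fin 3), ContDiff ℝ 1 F → Continuous (px k F) := fun k hF =>
      (hF.continuous_fderiv (by norm_num)).clm_apply continuous_const
    have h2 : Continuous (pt (pt u)) := (hpt.continuous_fderiv (by norm_num)).clm_apply continuous_const
    exact h2.sub (continuous_finsetSum _ fun k _ => h1 k (hpx k))
  have hI1 : Integrable (fun z => ‖z‖⁻¹ * (th h (t - ‖z‖) * box u (ret t x z))) :=
    cone_kernel_integrable' (F := fun q => th h q.1 * box u q) (fun τ hτ y => by simp [th_zero hh hτ])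
      ((hthC (n := 0)).continuous.mul hboxc) t x (C := 1) hrho (fun z _ => by rw [abs_inv, abs_norm, one_mul])
  have hI2 : Integrable (fun z => ‖z‖⁻¹ * (th' h (t - ‖z‖) * pt u (ret t x z))) :=
    cone_kernel_integrable' (F := fun q => th' h q.1 * pt u q) (fun τ hτ y => by simp [th'_zero hh hτ])
      ((hthC' (n := 0)).continuous.mul hpt.continuous) t x (C := 1) hrho (fun z _ => by rw [abs_inv, abs_norm, one_mul])
  have hptWc : Continuous (pt W) := (hWC.continuous_fderiv (by norm_num)).clm_apply continuous_const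
  have hI3 : Integrable (fun z => ‖z‖⁻¹ * pt W (ret t x z)) :=
    cone_kernel_integrable' (pt_zero hW0 hWC) hptWc t x (C := 1) hrho (fun z _ => by rw [abs_inv, abs_norm, one_mul])
  have hI4 : Integrable (fun z => ‖z‖⁻¹ ^ 2 * W (ret t x z)) :=
    cone_kernel_integrable hW0 hWC.continuous t x (K := fun z => ‖z‖⁻¹ ^ 2) (C := 1)
      (hrho.pow 2) (fun z _ => by rw [abs_of_nonneg (by positivity), one_mul])
  have hpxW : ∀ k q, px k W q = th' h q.1 * px k u q := by
    intro k q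
    rw [hW, px_mul (hdth' q) (hdu q), px_time (hth'd q.1), zero_mul, zero_add]
  have hI5 : Integrable (fun z => ‖z‖⁻¹ * ∑ k, om k z * px k W (ret t x z)) := by
    have h1 : ∀ k, Integrable (fun z => (‖z‖⁻¹ * om k z) * px k W (ret t x z)) := fun k =>
      cone_kernel_integrable' (px_zero hW0 hWC k) ((hWC.continuous_fderiv (by norm_num)).clm_apply continuous_const) t x (C := 1)
        ((contDiffOn_rho (n := 0)).mul (contDiffOn_om (n := 0) k)).continuousOn
        (fun z _ => by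
          rw [abs_mul, abs_inv, abs_norm, one_mul]
          exact mul_le_of_le_one_right (by positivity) (abs_om_le k z))
    have h2 := integrable_finsetSum Finset.univ (fun k _ => h1 k)
    refine h2.congr (Eventually.of_forall fun z => ?_)
    simp only [Finset.mul_sum, mul_assoc]
  have hsplit : ∫ z, ‖z‖⁻¹ * box U (ret t x z)
      = (∫ z, ‖z‖⁻¹ * (th h (t - ‖z‖) * box u (ret t x z))) + (∫ z, ‖z‖⁻¹ * (th' h (t - ‖z‖) * pt u (ret t x z)))
        + ∫ z, ‖z‖⁻¹ * pt W (ret t x z) := by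
    have a1 := integral_add hI1 hI2
    have a2 := integral_add (hI1.add hI2) hI3
    simp only [Pi.add_apply] at a1 a2
    rw [← a1, ← a2]
    congr 1
    ext z
    rw [hboxU]
    simp only [ret]
    ring
  have a3 := integral_add hI2 (hI5.add hI4)
  simp only [Pi.add_apply] at a3
  rw [hsplit, pt_ibp hWC hW0 t x, add_assoc, ← a3]
  congr 1
  congr 1
  ext z
  simp only [hpxW]
  simp only [hW, ret, Fin.sum_univ_three]
  ring

/-- the total mass of the data layer -/
theorem layer_mass {h t : ℝ} (hh : 0 < h) (ht : h < t) :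
    Integrable (fun z : R3 => th' h (t - ‖z‖) * (‖z‖⁻¹ + ‖z‖⁻¹ ^ 2)) ∧
    ∫ z : R3, th' h (t - ‖z‖) * (‖z‖⁻¹ + ‖z‖⁻¹ ^ 2) ≤ 4 * Real.pi * (t + 1) := by
  have hcont : Continuous fun r : ℝ => th' h (t - r) := (th'_continuous h).comp (by fun_prop)
  have ht0 : 0 < t := by linarith
  constructor
  · apply integrable_of_bound (C := (t + 1) * (Classical.choose ((isCompact_Icc (a := (0:ℝ)) (b := t)).exists_bound_of_continuousOn hcont.continuousOn))) (ρ := t)
    · exact (hcont.comp continuous_norm).continuousOn.mul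
        ((contDiffOn_rho (n := 0)).continuousOn.add ((contDiffOn_rho (n := 0)).continuousOn.pow 2))
    · intro z hz; rw [th'_zero hh (by linarith), zero_mul]
    · intro z hz
      have hM := Classical.choose_spec ((isCompact_Icc (a := (0:ℝ)) (b := t)).exists_bound_of_continuousOn hcont.continuousOn)
      set M := Classical.choose ((isCompact_Icc (a := (0:ℝ)) (b := t)).exists_bound_of_continuousOn hcont.continuousOn)
      have hzp : 0 < ‖z‖ := norm_pos_iff.2 hz
      have hM0 : 0 ≤ M := (norm_nonneg _).trans (hM 0 ⟨le_rfl, by linarith⟩)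
      by_cases hzt : t < ‖z‖
      · rw [th'_zero hh (by linarith), zero_mul, abs_zero]; positivity
      · have hr := rho_le hz (not_lt.1 hzt)
        rw [abs_mul, abs_of_nonneg (by positivity : (0:ℝ) ≤ ‖z‖⁻¹ + ‖z‖⁻¹ ^ 2)]
        have h1 : |th' h (t - ‖z‖)| ≤ M := hM ‖z‖ ⟨norm_nonneg _, not_lt.1 hzt⟩
        calc |th' h (t - ‖z‖)| * (‖z‖⁻¹ + ‖z‖⁻¹ ^ 2) ≤ M * (t / ‖z‖ ^ 2 + 1 / ‖z‖ ^ 2) := by
              gcongr
              rw [inv_pow, one_div]
          _ = _ := by ring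
  · rw [integral_fun_norm_addHaar (volume : Measure R3) (fun r : ℝ => th' h (t - r) * (r⁻¹ + r⁻¹ ^ 2))]
    have hvol : (volume : Measure R3).real (ball 0 1) = Real.pi * 4 / 3 := by
      rw [Measure.real, EuclideanSpace.volume_ball_fin_three]
      simp
      positivity
    rw [hvol]
    have hfr : Module.finrank ℝ R3 = 3 := by simp
    rw [hfr]
    have hI : ∫ y in Ioi (0 : ℝ), y ^ (3 - 1) • (th' h (t - y) * (y⁻¹ + y⁻¹ ^ 2)) ≤ t + 1 := by
      have e1 : ∫ y in Ioi (0 : ℝ), y ^ (3 - 1) • (th' h (t - y) * (y⁻¹ + y⁻¹ ^ 2))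
          = ∫ y in (0:ℝ)..t, th' h (t - y) * (y + 1) := by
        rw [intervalIntegral.integral_of_le (by linarith)]
        rw [← integral_indicator measurableSet_Ioi, ← integral_indicator measurableSet_Ioc]
        congr 1
        ext y
        by_cases hy0 : 0 < y
        · by_cases hyt : y ≤ t
          · rw [indicator_of_mem (show y ∈ Ioi (0:ℝ) from hy0), indicator_of_mem (show y ∈ Ioc 0 t from ⟨hy0, hyt⟩)]
            simp only [smul_eq_mul]
            norm_num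
            field_simp
          · rw [indicator_of_mem (show y ∈ Ioi (0:ℝ) from hy0), indicator_of_notMem (fun hm => hyt hm.2)]
            have hty : t - y ≤ 0 := by linarith [not_le.1 hyt]
            simp [th'_zero hh hty]
        · rw [indicator_of_notMem (show y ∉ Ioi (0:ℝ) from hy0), indicator_of_notMem (show y ∉ Ioc (0:ℝ) t from fun hm => hy0 hm.1)]
      rw [e1]
      have e2 : ∫ y in (0:ℝ)..t, th' h (t - y) * (y + 1) ≤ ∫ y in (0:ℝ)..t, th' h (t - y) * (t + 1) := by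
        apply intervalIntegral.integral_mono_on (by linarith)
        · exact (hcont.mul (by fun_prop)).intervalIntegrable _ _
        · exact (hcont.mul (by fun_prop)).intervalIntegrable _ _
        · intro y hy
          have := th'_nonneg hh (t - y)
          have := hy.2
          gcongr
      refine e2.trans ?_
      rw [intervalIntegral.integral_mul_const]
      have e3 : ∫ y in (0:ℝ)..t, th' h (t - y) = 1 := by
        rw [intervalIntegral.integral_comp_sub_left (fun s => th' h s) t]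
        simp only [sub_self, sub_zero]
        rw [intervalIntegral.integral_eq_sub_of_hasDerivAt (f := th h) (fun s _ => th_hasDerivAt h s)
          ((th'_continuous h).intervalIntegrable _ _)]
        rw [th_one hh ht.le, th_zero hh le_rfl, sub_zero]
      rw [e3, one_mul]
    simp only [smul_eq_mul, nsmul_eq_mul] at hI ⊢
    have hp := Real.pi_pos
    calc ((3:ℕ):ℝ) * (Real.pi * 4 / 3 * ∫ y in Ioi (0 : ℝ), y ^ (3 - 1) * (th' h (t - y) * (y⁻¹ + y⁻¹ ^ 2)))
        ≤ ((3:ℕ):ℝ) * (Real.pi * 4 / 3 * (t + 1)) := by gcongr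
      _ = _ := by norm_num; ring

end Crest.Agent.R106.Gsr
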