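import Mathlib
import Crest.Prelude.Def_VecCalc3
import Crest.Prelude.Def_VlasovMaxwell
import Crest.Agent.R106.Main0
import Crest.Agent.R106.SolTo
import Crest.Agent.R106.MomIface
import Crest.Agent.R106.MixNoColl

-- ▼ part R106/Glue
section

/-!
Row 106 (S0140), node GLUE: `glue : Uniq → TruncEx → MomBound → Goal` (interface `R106.Main0`).
-/

set_option autoImplicit false
open MeasureTheory Set Filter
open scoped ContDiff Topology
open Crest.AnalysisR.VecCalc3 Crest.AnalysisR.PDE.RVM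

namespace Crest.Agent.R106.Glue

/-- The triple is smooth on `[0, T)` (one-sided at `0`). -/
def SmoothOn (T : ℝ) (f : ℝ → R3 → R3 → ℝ) (E B : ℝ → R3 → R3) : Prop :=
  ContDiffOn ℝ ∞ (fun p : ℝ × R3 × R3 => f p.1 p.2.1 p.2.2) (Set.Ico 0 T ×ˢ Set.univ) ∧
  ContDiffOn ℝ ∞ (fun p : ℝ × R3 => E p.1 p.2) (Set.Ico 0 T ×ˢ Set.univ) ∧
  ContDiffOn ℝ ∞ (fun p : ℝ × R3 => B p.1 p.2) (Set.Ico 0 T ×ˢ Set.univ)

variable {T T' : ℝ} {f₀ : R3 → R3 → ℝ} {E₀ B₀ : R3 → R3}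
  {f f' : ℝ → R3 → R3 → ℝ} {E B E' B' : ℝ → R3 → R3}

theorem SmoothOn.mono (h : SmoothOn T f E B) (hT : T' ≤ T) : SmoothOn T' f E B := by
  obtain ⟨h1, h2, h3⟩ := h
  exact ⟨h1.mono (prod_mono (Ico_subset_Ico_right hT) le_rfl),
    h2.mono (prod_mono (Ico_subset_Ico_right hT) le_rfl),
    h3.mono (prod_mono (Ico_subset_Ico_right hT) le_rfl)⟩

/-- Restriction of a classical solution to a shorter time interval. -/
theorem classical_mono (h : IsClassicalSolutionOn T f₀ E₀ B₀ f E B) (hT : T' ≤ T) :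
    IsClassicalSolutionOn T' f₀ E₀ B₀ f E B := by
  obtain ⟨h1, h2, h3, h4, h5, h6, h7, h8, h9⟩ := h
  refine ⟨h1.mono (prod_mono (Ico_subset_Ico_right hT) le_rfl),
    h2.mono (prod_mono (Ico_subset_Ico_right hT) le_rfl),
    h3.mono (prod_mono (Ico_subset_Ico_right hT) le_rfl), h4, h5, h6,
    fun t ht0 htT => h7 t ht0 (htT.trans_le hT), fun s hs0 hsT => h8 s hs0 (hsT.trans_le hT),
    fun t ht => ?_⟩
  obtain ⟨a, b, c, d⟩ := h9 t (Ico_subset_Ico_right hT ht)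
  exact ⟨a, b, c.mono_left (nhdsWithin_mono _ (Ico_subset_Ico_right hT)),
    d.mono_left (nhdsWithin_mono _ (Ico_subset_Ico_right hT))⟩

/-- A triple which coincides on `[0, T)` with a classical solution is a classical solution. -/
theorem classical_congr (h : IsClassicalSolutionOn T f₀ E₀ B₀ f E B) (hT : 0 < T)
    (hf : ∀ t ∈ Ico 0 T, f' t = f t) (hE : ∀ t ∈ Ico 0 T, E' t = E t)
    (hB : ∀ t ∈ Ico 0 T, B' t = B t) : IsClassicalSolutionOn T f₀ E₀ B₀ f' E' B' := by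
  obtain ⟨h1, h2, h3, h4, h5, h6, h7, h8, h9⟩ := h
  have h0 : (0 : ℝ) ∈ Ico (0 : ℝ) T := ⟨le_rfl, hT⟩
  refine ⟨h1.congr fun p hp => ?_, h2.congr fun p hp => ?_, h3.congr fun p hp => ?_,
    (hf 0 h0).trans h4, (hE 0 h0).trans h5, (hB 0 h0).trans h6, ?_, ?_, ?_⟩
  · simp only [hf p.1 hp.1]
  · simp only [hE p.1 hp.1]
  · simp only [hB p.1 hp.1]
  · intro t ht0 htT x
    obtain ⟨e1, e2, e3, e4, e5⟩ := h7 t ht0 htT x
    have htm : t ∈ Ico 0 T := ⟨ht0.le, htT⟩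
    have hnh : Ico 0 T ∈ 𝓝 t := Ico_mem_nhds ht0 htT
    have hfe : ∀ᶠ s in 𝓝 t, f' s = f s := by
      filter_upwards [hnh] with s hs using hf s hs
    have hEe : ∀ᶠ s in 𝓝 t, E' s = E s := by
      filter_upwards [hnh] with s hs using hE s hs
    have hBe : ∀ᶠ s in 𝓝 t, B' s = B s := by
      filter_upwards [hnh] with s hs using hB s hs
    refine ⟨fun v => ?_, fun i => ?_, fun i => ?_, ?_, ?_⟩
    · have := e1 v
      rw [hf t htm, hE t htm, hB t htm]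
      rw [show deriv (fun s => f' s x v) t = deriv (fun s => f s x v) t from
        Filter.EventuallyEq.deriv_eq (by filter_upwards [hfe] with s hs; rw [hs])]
      exact this
    · have := e2 i
      unfold currentDensity at this ⊢
      rw [hf t htm, hB t htm]
      rw [show deriv (fun s => E' s x i) t = deriv (fun s => E s x i) t from
        Filter.EventuallyEq.deriv_eq (by filter_upwards [hEe] with s hs; rw [hs])]
      exact this
    · have := e3 i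
      rw [hE t htm]
      rw [show deriv (fun s => B' s x i) t = deriv (fun s => B s x i) t from
        Filter.EventuallyEq.deriv_eq (by filter_upwards [hBe] with s hs; rw [hs])]
      exact this
    · unfold chargeDensity at e4 ⊢
      rw [hf t htm, hE t htm]
      exact e4
    · rw [hB t htm]
      exact e5
  · intro s hs0 hsT
    obtain ⟨R, hR⟩ := h8 s hs0 hsT
    refine ⟨R, fun t ht x v hxv => ?_⟩
    rw [hf t ⟨ht.1, ht.2.trans_lt hsT⟩]
    exact hR t ht x v hxv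
  · intro t ht
    obtain ⟨a, b, c, d⟩ := h9 t ht
    rw [hE t ht, hB t ht]
    refine ⟨a, b, c.congr' ?_, d.congr' ?_⟩
    · filter_upwards [self_mem_nhdsWithin] with s hs
      rw [hE s hs]
    · filter_upwards [self_mem_nhdsWithin] with s hs
      rw [hB s hs]

/-- Gluing: smooth classical solutions on every `[0, T)` and uniqueness give a global one. -/
theorem glue_of_exists
    (hex : ∀ T : ℝ, 0 < T → ∃ f : ℝ → R3 → R3 → ℝ, ∃ E B : ℝ → R3 → R3,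
      IsClassicalSolutionOn T f₀ E₀ B₀ f E B ∧ SmoothOn T f E B)
    (huniq : ∀ (T : ℝ) (f : ℝ → R3 → R3 → ℝ) (E B : ℝ → R3 → R3)
      (f' : ℝ → R3 → R3 → ℝ) (E' B' : ℝ → R3 → R3),
      IsClassicalSolutionOn T f₀ E₀ B₀ f E B → IsClassicalSolutionOn T f₀ E₀ B₀ f' E' B' →
      ∀ t ∈ Ico 0 T, f' t = f t ∧ E' t = E t ∧ B' t = B t) :
    ∃ f : ℝ → R3 → R3 → ℝ, ∃ E B : ℝ → R3 → R3,
      (∀ T : ℝ, 0 < T → IsClassicalSolutionOn T f₀ E₀ B₀ f E B) ∧
      ContDiffOn ℝ ∞ (fun p : ℝ × R3 × R3 => f p.1 p.2.1 p.2.2) (Set.Ici 0 ×ˢ Set.univ) ∧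
      ContDiffOn ℝ ∞ (fun p : ℝ × R3 => E p.1 p.2) (Set.Ici 0 ×ˢ Set.univ) ∧
      ContDiffOn ℝ ∞ (fun p : ℝ × R3 => B p.1 p.2) (Set.Ici 0 ×ˢ Set.univ) ∧
      ∀ T : ℝ, 0 < T → ∀ (f' : ℝ → R3 → R3 → ℝ) (E' B' : ℝ → R3 → R3),
        IsClassicalSolutionOn T f₀ E₀ B₀ f' E' B' →
        ∀ t ∈ Set.Ico 0 T, f' t = f t ∧ E' t = E t ∧ B' t = B t := by
  have hpos : ∀ n : ℕ, (0 : ℝ) < (n : ℝ) + 1 := fun n => by positivity
  choose F EE BB hcl hsm using fun n : ℕ => hex ((n : ℝ) + 1) (hpos n)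
  -- compatibility
  have hcomp : ∀ (m : ℕ) (t : ℝ), t ∈ Ico (0 : ℝ) ((m : ℝ) + 1) →
      F ⌊t⌋₊ t = F m t ∧ EE ⌊t⌋₊ t = EE m t ∧ BB ⌊t⌋₊ t = BB m t := by
    intro m t ht
    have h1 : t < (⌊t⌋₊ : ℝ) + 1 := Nat.lt_floor_add_one t
    have h2 : (⌊t⌋₊ : ℝ) ≤ m := by
      have : ⌊t⌋₊ < m + 1 := by
        rw [Nat.floor_lt ht.1]; push_cast; exact ht.2
      exact_mod_cast Nat.lt_succ_iff.mp this
    have h3 := classical_mono (hcl m) (by linarith : (⌊t⌋₊ : ℝ) + 1 ≤ (m : ℝ) + 1)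
    exact huniq _ _ _ _ _ _ _ h3 (hcl ⌊t⌋₊) t ⟨ht.1, h1⟩
  have hglob : ∀ T : ℝ, 0 < T → IsClassicalSolutionOn T f₀ E₀ B₀
      (fun t => F ⌊t⌋₊ t) (fun t => EE ⌊t⌋₊ t) (fun t => BB ⌊t⌋₊ t) := by
    intro T hT
    obtain ⟨m, hm⟩ := exists_nat_ge T
    refine classical_mono (T := (m : ℝ) + 1) ?_ (by linarith)
    exact classical_congr (hcl m) (hpos m) (fun t ht => (hcomp m t ht).1)
      (fun t ht => (hcomp m t ht).2.1) (fun t ht => (hcomp m t ht).2.2)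
  refine ⟨fun t => F ⌊t⌋₊ t, fun t => EE ⌊t⌋₊ t, fun t => BB ⌊t⌋₊ t, hglob, ?_, ?_, ?_, ?_⟩
  · intro p hp
    have hp0 : 0 ≤ p.1 := hp.1
    set m : ℕ := ⌊p.1⌋₊ with hm
    have hlt : p.1 < (m : ℝ) + 1 := Nat.lt_floor_add_one _
    have h1 := (hsm m).1 p ⟨⟨hp0, hlt⟩, mem_univ _⟩
    have h2 : ContDiffWithinAt ℝ ∞ (fun p : ℝ × R3 × R3 => F ⌊p.1⌋₊ p.1 p.2.1 p.2.2)
        (Ico 0 ((m : ℝ) + 1) ×ˢ univ) p := by
      refine h1.congr (fun q hq => ?_) ?_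
      · rw [(hcomp m q.1 hq.1).1]
      · rw [(hcomp m p.1 ⟨hp0, hlt⟩).1]
    refine h2.mono_of_mem_nhdsWithin ?_
    have : (Ici (0 : ℝ) ×ˢ (univ : Set (R3 × R3))) ∩ {q | q.1 < (m : ℝ) + 1} ⊆
        Ico 0 ((m : ℝ) + 1) ×ˢ univ := fun q hq => ⟨⟨hq.1.1, hq.2⟩, mem_univ _⟩
    refine mem_of_superset (inter_mem self_mem_nhdsWithin (mem_nhdsWithin_of_mem_nhds ?_)) this
    exact (isOpen_lt continuous_fst continuous_const).mem_nhds hlt
  · intro p hp
    have hp0 : 0 ≤ p.1 := hp.1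
    set m : ℕ := ⌊p.1⌋₊ with hm
    have hlt : p.1 < (m : ℝ) + 1 := Nat.lt_floor_add_one _
    have h1 := (hsm m).2.1 p ⟨⟨hp0, hlt⟩, mem_univ _⟩
    have h2 : ContDiffWithinAt ℝ ∞ (fun p : ℝ × R3 => EE ⌊p.1⌋₊ p.1 p.2)
        (Ico 0 ((m : ℝ) + 1) ×ˢ univ) p := by
      refine h1.congr (fun q hq => ?_) ?_
      · rw [(hcomp m q.1 hq.1).2.1]
      · rw [(hcomp m p.1 ⟨hp0, hlt⟩).2.1]
    refine h2.mono_of_mem_nhdsWithin ?_
    have : (Ici (0 : ℝ) ×ˢ (univ : Set R3)) ∩ {q | q.1 < (m : ℝ) + 1} ⊆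
        Ico 0 ((m : ℝ) + 1) ×ˢ univ := fun q hq => ⟨⟨hq.1.1, hq.2⟩, mem_univ _⟩
    refine mem_of_superset (inter_mem self_mem_nhdsWithin (mem_nhdsWithin_of_mem_nhds ?_)) this
    exact (isOpen_lt continuous_fst continuous_const).mem_nhds hlt
  · intro p hp
    have hp0 : 0 ≤ p.1 := hp.1
    set m : ℕ := ⌊p.1⌋₊ with hm
    have hlt : p.1 < (m : ℝ) + 1 := Nat.lt_floor_add_one _
    have h1 := (hsm m).2.2 p ⟨⟨hp0, hlt⟩, mem_univ _⟩
    have h2 : ContDiffWithinAt ℝ ∞ (fun p : ℝ × R3 => BB ⌊p.1⌋₊ p.1 p.2)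
        (Ico 0 ((m : ℝ) + 1) ×ˢ univ) p := by
      refine h1.congr (fun q hq => ?_) ?_
      · rw [(hcomp m q.1 hq.1).2.2]
      · rw [(hcomp m p.1 ⟨hp0, hlt⟩).2.2]
    refine h2.mono_of_mem_nhdsWithin ?_
    have : (Ici (0 : ℝ) ×ˢ (univ : Set R3)) ∩ {q | q.1 < (m : ℝ) + 1} ⊆
        Ico 0 ((m : ℝ) + 1) ×ˢ univ := fun q hq => ⟨⟨hq.1.1, hq.2⟩, mem_univ _⟩
    refine mem_of_superset (inter_mem self_mem_nhdsWithin (mem_nhdsWithin_of_mem_nhds ?_)) this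
    exact (isOpen_lt continuous_fst continuous_const).mem_nhds hlt
  · intro T hT f' E' B' h' t ht
    exact huniq T _ _ _ _ _ _ (hglob T hT) h' t ht

/-- The clauses of `TruncEx` for one triple give a classical solution as long as the momentum
support stays in the ball of radius `P`. -/
theorem classical_of_trunc {P : ℝ} (hf : ContDiff ℝ ∞ (fun p : ℝ × R3 × R3 => f p.1 p.2.1 p.2.2))
    (hE : ContDiff ℝ ∞ (fun p : ℝ × R3 => E p.1 p.2))
    (hB : ContDiff ℝ ∞ (fun p : ℝ × R3 => B p.1 p.2))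
    (hf0 : f 0 = f₀) (hE0 : E 0 = E₀) (hB0 : B 0 = B₀)
    (heq : ∀ t : ℝ, 0 < t → (∀ x v : R3, P < ‖v‖ → f t x v = 0) →
        ∀ x : R3, EquationsHoldAt f E B t x)
    (hsupp : ∀ T : ℝ, ∃ R : ℝ, ∀ t ∈ Icc 0 T, ∀ x v : R3, (R < ‖x‖ ∨ R < ‖v‖) → f t x v = 0)
    (hL2 : ∀ T : ℝ, ∀ t ∈ Ico 0 T, MemLp (E t) 2 ∧ MemLp (B t) 2 ∧
        Filter.Tendsto (fun s => eLpNorm (E s - E t) 2 volume) (nhdsWithin t (Ico 0 T)) (nhds 0) ∧
        Filter.Tendsto (fun s => eLpNorm (B s - B t) 2 volume) (nhdsWithin t (Ico 0 T)) (nhds 0))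
    (hP : ∀ t ∈ Ico 0 T', ∀ x v : R3, P < ‖v‖ → f t x v = 0) :
    SmoothSol T' f₀ E₀ B₀ f E B := by
  refine ⟨⟨(hf.of_le (by exact_mod_cast le_top)).contDiffOn,
    (hE.of_le (by exact_mod_cast le_top)).contDiffOn,
    (hB.of_le (by exact_mod_cast le_top)).contDiffOn, hf0, hE0, hB0, ?_,
    fun s _ _ => hsupp s, hL2 T'⟩, hf, hE, hB⟩
  intro t ht0 htT x
  exact heq t ht0 (hP t ⟨ht0.le, htT⟩) x


end Crest.Agent.R106.Glue

namespace Crest.Agent.R106


end Crest.Agent.R106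
end

-- ▼ part R106/Glue1
section

/-!
Row 106 (S0140): second form of node GLUE, for a momentum bound PER SOLUTION:
`glue1 : Uniq → TruncEx → MomBound1 → Goal` (helper913).
The solution given to `MomBound1` is `C^∞` on the open set `(-∞, T) × ..`.
-/

set_option autoImplicit false
open MeasureTheory Set Filter
open scoped ContDiff Topology
open Crest.AnalysisR.VecCalc3 Crest.AnalysisR.PDE.RVM

namespace Crest.Agent.R106

namespace Glue1

open Glue

variable {T T' : ℝ} {f₀ : R3 → R3 → ℝ} {E₀ B₀ : R3 → R3}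
  {f f' : ℝ → R3 → R3 → ℝ} {E B E' B' : ℝ → R3 → R3}

theorem solTo_mono (h : SolTo T f₀ E₀ B₀ f E B) (hT : T' ≤ T) : SolTo T' f₀ E₀ B₀ f E B :=
  ⟨classical_mono h.1 hT, h.2.1.mono (prod_mono (Iio_subset_Iio hT) le_rfl),
    h.2.2.1.mono (prod_mono (Iio_subset_Iio hT) le_rfl),
    h.2.2.2.mono (prod_mono (Iio_subset_Iio hT) le_rfl)⟩

/-- smoothness of a glued function -/
theorem glue_smooth {X V Y : Type*} [NormedAddCommGroup X] [NormedSpace ℝ X]
    [NormedAddCommGroup V] [NormedSpace ℝ V] (ev : Y → X → V) {g : ℝ → Y} {G : ℕ → ℝ → Y}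
    {Tn : ℕ → ℝ} {Ts : ℝ} (hpos : 0 < Tn 0) (hcov : ∀ t < Ts, ∃ n, t < Tn n)
    (hsm : ∀ n, ContDiffOn ℝ ∞ (fun p : ℝ × X => ev (G n p.1) p.2) (Iio (Tn n) ×ˢ univ))
    (hA : ∀ n, ∀ t ∈ Ico 0 (Tn n), g t = G n t) (hneg : ∀ t < 0, g t = G 0 t) :
    ContDiffOn ℝ ∞ (fun p : ℝ × X => ev (g p.1) p.2) (Iio Ts ×ˢ univ) := by
  intro p hp
  apply ContDiffAt.contDiffWithinAt
  have key : ∀ (n : ℕ) (U : Set ℝ), IsOpen U → p.1 ∈ U → U ⊆ Iio (Tn n) →
      (∀ t ∈ U, g t = G n t) → ContDiffAt ℝ ∞ (fun p : ℝ × X => ev (g p.1) p.2) p := by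
    intro n U hU hpU hUT hg
    have h1 : ContDiffAt ℝ ∞ (fun p : ℝ × X => ev (G n p.1) p.2) p :=
      (hsm n).contDiffAt ((isOpen_Iio.prod isOpen_univ).mem_nhds ⟨hUT hpU, mem_univ _⟩)
    refine h1.congr_of_eventuallyEq ?_
    filter_upwards [(hU.prod isOpen_univ).mem_nhds ⟨hpU, mem_univ _⟩] with q hq
    rw [hg q.1 hq.1]
  by_cases h0 : p.1 < Tn 0
  · refine key 0 (Iio (Tn 0)) isOpen_Iio h0 le_rfl (fun t ht => ?_)
    rcases lt_or_ge t 0 with h | h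
    · exact hneg t h
    · exact hA 0 t ⟨h, ht⟩
  · push Not at h0
    obtain ⟨n, hn⟩ := hcov p.1 hp.1
    exact key n (Ioo 0 (Tn n)) isOpen_Ioo ⟨hpos.trans_le h0, hn⟩ (fun t ht => ht.2)
      (fun t ht => hA n t ⟨ht.1.le, ht.2⟩)

/-- a triple which is a classical solution on every shorter interval and smooth is a classical
solution -/
theorem classical_of_lt {Ts : ℝ} (hTs : 0 < Ts)
    (h : ∀ T, 0 < T → T < Ts → IsClassicalSolutionOn T f₀ E₀ B₀ f E B)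
    (hf : ContDiffOn ℝ ∞ (fun p : ℝ × R3 × R3 => f p.1 p.2.1 p.2.2) (Iio Ts ×ˢ univ))
    (hE : ContDiffOn ℝ ∞ (fun p : ℝ × R3 => E p.1 p.2) (Iio Ts ×ˢ univ))
    (hB : ContDiffOn ℝ ∞ (fun p : ℝ × R3 => B p.1 p.2) (Iio Ts ×ˢ univ)) :
    IsClassicalSolutionOn Ts f₀ E₀ B₀ f E B := by
  have hsub : Ico (0 : ℝ) Ts ⊆ Iio Ts := fun t ht => ht.2
  have h1 : (1 : WithTop ℕ∞) ≤ ∞ := by exact_mod_cast le_top
  obtain ⟨-, -, -, a4, a5, a6, -, -, -⟩ := h (Ts / 2) (by linarith) (by linarith)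
  refine ⟨(hf.of_le h1).mono (prod_mono hsub le_rfl), (hE.of_le h1).mono (prod_mono hsub le_rfl),
    (hB.of_le h1).mono (prod_mono hsub le_rfl), a4, a5, a6, ?_, ?_, ?_⟩
  · intro t ht0 htT x
    have := h ((t + Ts) / 2) (by linarith) (by linarith)
    exact this.2.2.2.2.2.2.1 t ht0 (by linarith) x
  · intro s hs0 hsT
    have := h ((s + Ts) / 2) (by linarith) (by linarith)
    exact this.2.2.2.2.2.2.2.1 s hs0 (by linarith)
  · intro t ht
    have ht2 : t < (t + Ts) / 2 := by linarith [ht.2]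
    obtain ⟨a, b, c, d⟩ :=
      (h ((t + Ts) / 2) (by linarith [ht.1]) (by linarith [ht.2])).2.2.2.2.2.2.2.2 t ⟨ht.1, ht2⟩
    have hnh : nhdsWithin t (Ico 0 Ts) = nhdsWithin t (Ico 0 ((t + Ts) / 2)) := by
      refine nhdsWithin_eq_nhdsWithin (s := Iio ((t + Ts) / 2)) ht2 isOpen_Iio ?_
      ext r
      simp only [mem_inter_iff, mem_Ico, mem_Iio]
      constructor
      · rintro ⟨⟨h1, h2⟩, h3⟩
        exact ⟨⟨h1, h3⟩, h3⟩
      · rintro ⟨⟨h1, h2⟩, h3⟩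
        exact ⟨⟨h1, by linarith [ht.2]⟩, h3⟩
    rw [hnh]
    exact ⟨a, b, c, d⟩

/-- gluing up to a finite time -/
theorem glue_to {Ts : ℝ} (hTs : 0 < Ts) (hU : Uniq)
    (hex : ∀ T : ℝ, 0 < T → T < Ts → ∃ f : ℝ → R3 → R3 → ℝ, ∃ E B : ℝ → R3 → R3,
      SolTo T f₀ E₀ B₀ f E B) :
    ∃ f : ℝ → R3 → R3 → ℝ, ∃ E B : ℝ → R3 → R3, SolTo Ts f₀ E₀ B₀ f E B := by
  set Tn : ℕ → ℝ := fun n => Ts - Ts / ((n : ℝ) + 2) with hTn
  have hTn_pos : ∀ n, 0 < Tn n := by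
    intro n
    have h2 : (0 : ℝ) < (n : ℝ) + 2 := by positivity
    simp only [hTn, sub_pos]
    rw [div_lt_iff₀ h2]
    nlinarith [(Nat.cast_nonneg n : (0 : ℝ) ≤ n)]
  have hTn_lt : ∀ n, Tn n < Ts := by
    intro n
    have h2 : (0 : ℝ) < (n : ℝ) + 2 := by positivity
    have : 0 < Ts / ((n : ℝ) + 2) := by positivity
    simp only [hTn]
    linarith
  choose F EE BB hsol using fun n : ℕ => hex (Tn n) (hTn_pos n) (hTn_lt n)
  set idx : ℝ → ℕ := fun t => ⌊Ts / (Ts - t)⌋₊ with hidx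
  have hidx_lt : ∀ t, t < Ts → t < Tn (idx t) := by
    intro t ht
    have h1 : Ts / (Ts - t) < (idx t : ℝ) + 1 := Nat.lt_floor_add_one _
    have h3 : 0 < Ts - t := by linarith
    have h2 : (0 : ℝ) < (idx t : ℝ) + 2 := by positivity
    rw [div_lt_iff₀ h3] at h1
    simp only [hTn]
    have h4 : Ts / ((idx t : ℝ) + 2) < Ts - t := by
      rw [div_lt_iff₀ h2]
      nlinarith
    linarith
  have hidx_neg : ∀ t, t < 0 → idx t = 0 := by
    intro t ht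
    simp only [hidx]
    rw [Nat.floor_eq_zero, div_lt_one (by linarith)]
    linarith
  have hA : ∀ n, ∀ t ∈ Ico 0 (Tn n),
      F (idx t) t = F n t ∧ EE (idx t) t = EE n t ∧ BB (idx t) t = BB n t := by
    intro n t ht
    have h1 := hidx_lt t (ht.2.trans (hTn_lt n))
    exact hU (min (Tn n) (Tn (idx t))) _ _ _ _ _ _ _ _ _
      (classical_mono (hsol n).1 (min_le_left _ _))
      (classical_mono (hsol (idx t)).1 (min_le_right _ _)) t ⟨ht.1, lt_min ht.2 h1⟩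
  have hcov : ∀ t < Ts, ∃ n, t < Tn n := fun t ht => ⟨idx t, hidx_lt t ht⟩
  have hf := glue_smooth (X := R3 × R3) (V := ℝ) (fun (φ : R3 → R3 → ℝ) q => φ q.1 q.2)
    (g := fun t => F (idx t) t) (G := F) (Tn := Tn) (Ts := Ts) (hTn_pos 0) hcov
    (fun n => (hsol n).2.1) (fun n t ht => (hA n t ht).1)
    (fun t ht => by simp only [hidx_neg t ht])
  have hE := glue_smooth (X := R3) (V := R3) (fun (φ : R3 → R3) q => φ q)
    (g := fun t => EE (idx t) t) (G := EE) (Tn := Tn) (Ts := Ts) (hTn_pos 0) hcov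
    (fun n => (hsol n).2.2.1) (fun n t ht => (hA n t ht).2.1)
    (fun t ht => by simp only [hidx_neg t ht])
  have hB := glue_smooth (X := R3) (V := R3) (fun (φ : R3 → R3) q => φ q)
    (g := fun t => BB (idx t) t) (G := BB) (Tn := Tn) (Ts := Ts) (hTn_pos 0) hcov
    (fun n => (hsol n).2.2.2) (fun n t ht => (hA n t ht).2.2)
    (fun t ht => by simp only [hidx_neg t ht])
  refine ⟨fun t => F (idx t) t, fun t => EE (idx t) t, fun t => BB (idx t) t, ?_, hf, hE, hB⟩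
  refine classical_of_lt hTs (fun T hT0 hT => ?_) hf hE hB
  have h1 := hidx_lt T hT
  exact classical_mono (classical_congr (hsol (idx T)).1 (hTn_pos _)
    (fun t ht => (hA _ t ht).1) (fun t ht => (hA _ t ht).2.1) (fun t ht => (hA _ t ht).2.2)) h1.le

/-- Existence of solutions on every interval. -/
theorem exists_solTo (hU : Uniq) (hTr : TruncEx) (hMB : MomBound1)
    (hadm : IsAdmissibleDatum f₀ E₀ B₀) :
    ∀ T : ℝ, 0 < T → ∃ f : ℝ → R3 → R3 → ℝ, ∃ E B : ℝ → R3 → R3, SolTo T f₀ E₀ B₀ f E B := by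
  -- momentum support of the datum
  obtain ⟨P₀, hP₀⟩ : ∃ P₀ : ℝ, ∀ x v : R3, P₀ < ‖v‖ → f₀ x v = 0 := by
    obtain ⟨R, hR⟩ := (hadm.2.2.1.isCompact).isBounded.exists_norm_le
    refine ⟨R, fun x v hv => ?_⟩
    by_contra hne
    have h1 : (x, v) ∈ tsupport (Function.uncurry f₀) := subset_tsupport _ hne
    have h2 : ‖v‖ ≤ R := (norm_snd_le (x, v)).trans (hR _ h1)
    linarith
  -- one step: if the momenta are bounded by `M'` on `[0, Ts)` for every solution there,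
  -- then there is a solution past `Ts`
  have step : ∀ Ts : ℝ, 0 ≤ Ts → ∀ M' : ℝ, P₀ ≤ M' → 0 ≤ M' →
      (∀ T', 0 < T' → T' ≤ Ts → ∀ (f : ℝ → R3 → R3 → ℝ) (E B : ℝ → R3 → R3),
        IsClassicalSolutionOn T' f₀ E₀ B₀ f E B →
        ∀ t ∈ Ico 0 T', ∀ x v : R3, M' < ‖v‖ → f t x v = 0) →
      ∃ T', Ts < T' ∧ ∃ f : ℝ → R3 → R3 → ℝ, ∃ E B : ℝ → R3 → R3, SolTo T' f₀ E₀ B₀ f E B := by
    intro Ts hTs M' hPM' hM'0 hbd
    obtain ⟨f, E, B, hf, hE, hB, hf0, hE0, hB0, heq, hsupp, hL2, hgr⟩ :=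
      hTr f₀ E₀ B₀ hadm (M' + 1) (by linarith)
    obtain ⟨L₀, hL₀⟩ := hgr (Ts + 1)
    set L : ℝ := max L₀ 2 with hL
    have hLpos : 0 < L := lt_of_lt_of_le two_pos (le_max_right _ _)
    have hgrow : ∀ t t' : ℝ, 0 ≤ t → t ≤ t' → t' ≤ Ts + 1 → ∀ m : ℝ,
        (∀ x v : R3, m < ‖v‖ → f t x v = 0) →
        ∀ x v : R3, m + L * (t' - t) < ‖v‖ → f t' x v = 0 := by
      intro t t' h0 h1 h2 m hm x v hv
      refine hL₀ t t' m h0 h1 h2 hm x v (lt_of_le_of_lt ?_ hv)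
      have : L₀ * (t' - t) ≤ L * (t' - t) :=
        mul_le_mul_of_nonneg_right (le_max_left _ _) (sub_nonneg.mpr h1)
      linarith
    set δ : ℝ := 1 / (2 * L) with hδ
    have hδpos : 0 < δ := by positivity
    have hLδ : L * (2 * δ) = 1 := by rw [hδ]; field_simp
    have hδ1 : δ ≤ 1 / 4 := by
      rw [hδ]
      have : (2 : ℝ) ≤ L := le_max_right _ _
      apply one_div_le_one_div_of_le (by norm_num) (by linarith)
    have hsol : ∀ T', (∀ t ∈ Ico 0 T', ∀ x v : R3, M' + 1 < ‖v‖ → f t x v = 0) →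
        SolTo T' f₀ E₀ B₀ f E B := by
      intro T' h
      have h1 := classical_of_trunc (P := M' + 1) hf hE hB hf0 hE0 hB0 heq hsupp hL2 h
      exact ⟨h1.1, hf.contDiffOn, hE.contDiffOn, hB.contDiffOn⟩
    have key : ∀ n : ℕ, ∀ t ∈ Icc 0 Ts, t ≤ n * δ → t < Ts ∨ n = 0 →
        ∀ x v : R3, M' < ‖v‖ → f t x v = 0 := by
      intro n
      induction n with
      | zero =>
        intro t ht htn _ x v hv
        have : t = 0 := le_antisymm (by simpa using htn) ht.1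
        subst this
        rw [hf0]
        exact hP₀ x v (lt_of_le_of_lt hPM' hv)
      | succ n ih =>
        intro t ht htn hlt x v hv
        have hlt : t < Ts := by
          rcases hlt with h | h
          · exact h
          · exact absurd h (Nat.succ_ne_zero n)
        have hsup : ∀ s ∈ Ico 0 (min Ts ((n + 2 : ℕ) * δ)), ∀ x v : R3, M' + 1 < ‖v‖ →
            f s x v = 0 := by
          intro s hs x v hv
          have hs1 : s < Ts := hs.2.trans_le (min_le_left _ _)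
          have hs2 : s < (n + 2 : ℕ) * δ := hs.2.trans_le (min_le_right _ _)
          by_cases hc : s ≤ n * δ
          · exact ih s ⟨hs.1, hs1.le⟩ hc (Or.inl hs1) x v (by linarith)
          · push Not at hc
            have hn0 : (0 : ℝ) ≤ n * δ := by positivity
            refine hgrow (n * δ) s hn0 hc.le (by linarith) M'
              (fun x v hv => ih (n * δ) ⟨hn0, (hc.trans hs1).le⟩ le_rfl
                (Or.inl (hc.trans hs1)) x v hv) x v ?_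
            have h1 : s - n * δ ≤ 2 * δ := by
              push_cast at hs2; linarith
            have h2 : L * (s - n * δ) ≤ L * (2 * δ) := mul_le_mul_of_nonneg_left h1 hLpos.le
            rw [hLδ] at h2
            linarith
        have hpos : 0 < min Ts ((n + 2 : ℕ) * δ) :=
          lt_min (lt_of_le_of_lt ht.1 hlt) (by positivity)
        have h3 : t < (n + 2 : ℕ) * δ := by
          push_cast at htn ⊢
          nlinarith
        exact hbd _ hpos (min_le_left _ _) f E B (hsol _ hsup).1 t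
          ⟨ht.1, lt_min hlt h3⟩ x v hv
    have hall : ∀ t ∈ Ico 0 Ts, ∀ x v : R3, M' < ‖v‖ → f t x v = 0 := by
      intro t ht
      obtain ⟨n, hn⟩ := exists_nat_ge (t / δ)
      exact key n t ⟨ht.1, ht.2.le⟩ (by rwa [div_le_iff₀ hδpos] at hn) (Or.inl ht.2)
    have hzero : ∀ x v : R3, M' < ‖v‖ → f 0 x v = 0 := by
      intro x v hv
      rw [hf0]
      exact hP₀ x v (lt_of_le_of_lt hPM' hv)
    refine ⟨Ts + δ, by linarith, f, E, B, hsol _ ?_⟩
    intro t ht x v hv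
    -- a time before `Ts` at distance at most `2 δ`
    by_cases hc : t < Ts
    · exact hall t ⟨ht.1, hc⟩ x v (by linarith)
    · push Not at hc
      have hs : ∃ s, 0 ≤ s ∧ s ≤ t ∧ t - s ≤ 2 * δ ∧ ∀ x v : R3, M' < ‖v‖ → f s x v = 0 := by
        by_cases hd : Ts ≤ δ
        · exact ⟨0, le_rfl, ht.1, by linarith [ht.2], hzero⟩
        · push Not at hd
          exact ⟨Ts - δ, by linarith, by linarith, by linarith [ht.2],
            hall _ ⟨by linarith, by linarith⟩⟩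
      obtain ⟨s, hs0, hst, hsd, hsz⟩ := hs
      refine hgrow s t hs0 hst (by linarith [ht.2]) M' hsz x v ?_
      have h2 : L * (t - s) ≤ L * (2 * δ) := mul_le_mul_of_nonneg_left hsd hLpos.le
      rw [hLδ] at h2
      linarith
  -- the set of good times
  by_contra hcon
  push Not at hcon
  obtain ⟨Tb, hTb, hno⟩ := hcon
  set S : Set ℝ := {T | 0 < T ∧ ∃ f : ℝ → R3 → R3 → ℝ, ∃ E B : ℝ → R3 → R3,
    SolTo T f₀ E₀ B₀ f E B} with hS
  have hSb : ∀ T ∈ S, T < Tb := by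
    intro T hT
    by_contra hc
    push Not at hc
    obtain ⟨-, f, E, B, h⟩ := hT
    exact hno f E B (solTo_mono h hc)
  obtain ⟨T1, hT1, hT1S⟩ : ∃ T', 0 < T' ∧ ∃ f : ℝ → R3 → R3 → ℝ, ∃ E B : ℝ → R3 → R3,
      SolTo T' f₀ E₀ B₀ f E B := by
    obtain ⟨T', h1, h2⟩ := step 0 le_rfl (max P₀ 0) (le_max_left _ _) (le_max_right _ _)
      (fun T' h0 h1 => absurd h0 (not_lt.mpr h1))
    exact ⟨T', h1, h2⟩
  have hne : S.Nonempty := ⟨T1, hT1, hT1S⟩
  have hbdd : BddAbove S := ⟨Tb, fun T hT => (hSb T hT).le⟩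
  set Ts := sSup S with hTs
  have hTspos : 0 < Ts := hT1.trans_le (le_csSup hbdd ⟨hT1, hT1S⟩)
  have hlow : ∀ T : ℝ, 0 < T → T < Ts → ∃ f : ℝ → R3 → R3 → ℝ, ∃ E B : ℝ → R3 → R3,
      SolTo T f₀ E₀ B₀ f E B := by
    intro T hT hTT
    obtain ⟨T2, hT2, hlt⟩ := exists_lt_of_lt_csSup hne hTT
    obtain ⟨-, f, E, B, h⟩ := hT2
    exact ⟨f, E, B, solTo_mono h hlt.le⟩
  obtain ⟨f, E, B, hsolTs⟩ := glue_to hTspos hU hlow
  obtain ⟨M, hM⟩ := hMB Ts hTspos f₀ E₀ B₀ hadm f E B hsolTs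
  obtain ⟨T3, hT3, h3⟩ := step Ts hTspos.le (max (max M P₀) 0)
    ((le_max_right _ _).trans (le_max_left _ _)) (le_max_right _ _)
    (by
      intro T' hT'0 hT' f' E' B' h' t ht x v hv
      have h1 := hU T' _ _ _ _ _ _ _ _ _ (classical_mono hsolTs.1 hT') h' t ht
      rw [h1.1]
      exact hM t ⟨ht.1, ht.2.trans_le hT'⟩ x v
        (lt_of_le_of_lt ((le_max_left _ _).trans (le_max_left _ _)) hv))
  have : T3 ∈ S := ⟨hTspos.trans hT3, h3⟩
  have := le_csSup hbdd this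
  linarith

end Glue1

/-- Node GLUE for the momentum bound per solution. -/
theorem glue1 (hU : Uniq) (hTr : TruncEx) (hMB : MomBound1) : Goal := by
  intro f₀ E₀ B₀ hadm
  refine Glue.glue_of_exists (fun T hT => ?_) (fun T f E B f' E' B' h h' => ?_)
  · obtain ⟨f, E, B, h, h1, h2, h3⟩ := Glue1.exists_solTo hU hTr hMB hadm T hT
    have hsub : Ico (0 : ℝ) T ⊆ Iio T := fun t ht => ht.2
    exact ⟨f, E, B, h, h1.mono (prod_mono hsub le_rfl), h2.mono (prod_mono hsub le_rfl),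
      h3.mono (prod_mono hsub le_rfl)⟩
  · exact hU T f₀ E₀ B₀ f E B f' E' B' h h'

/-- alias (name used by helper18) -/
theorem Glue1.glue1 (hU : Uniq) (hTr : TruncEx) (hMB : MomBound1) : Goal :=
  Crest.Agent.R106.glue1 hU hTr hMB

end Crest.Agent.R106
end

-- ▼ part R106/MomTop
section

set_option autoImplicit false

open MeasureTheory Set Filter Topology
open Crest.AnalysisR.VecCalc3 Crest.AnalysisR.PDE.RVM
open scoped ContDiff

namespace Crest.Agent.R106.Mom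

/-- all nodes for one solution -/
structure Nodes (T : ℝ) (f : ℝ → R3 → R3 → ℝ) (E B : ℝ → R3 → R3) : Prop where
  mix : MixP T f E B
  ft : FtP T f E B
  occA : OccA T f E B
  occB : OccB T f E B
  occC : OccC T f E B
  coreA : CoreA T f E B
  coreB : CoreB T f E B
  fsrc : FsrcP E B
  occD : OccD T f E B
  loc : LocP T f E B
  bsmall : BsmallP T f E B
  abs : AbsP T f E B
  lip : LipP T f E B
  char : CharP T f E B

theorem momBound1_of
    (h : ∀ (T : ℝ) (f₀ : R3 → R3 → ℝ) (E₀ B₀ : R3 → R3) (f : ℝ → R3 → R3 → ℝ) (E B : ℝ → R3 → R3),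
      Mom.SmoothSol T f₀ E₀ B₀ f E B → Nodes T f E B) : MomBound1 := by
  intro T hT f₀ E₀ B₀ hadm f E B hsol
  have N := h T f₀ E₀ B₀ f E B ⟨hT, hadm, hsol.1, hsol.2.1, hsol.2.2.1, hsol.2.2.2⟩
  exact momBd_of hT N.mix N.ft N.occA N.occB N.occC N.coreA N.coreB N.fsrc N.occD N.loc N.bsmall
    N.abs N.lip N.char

end Crest.Agent.R106.Mom
end

-- ▼ part R106/HSmall

set_option autoImplicit false

open MeasureTheory Set Filter Topology Metric
open Crest.AnalysisR.VecCalc3 Crest.AnalysisR.PDE.RVM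
open scoped InnerProductSpace ENNReal ContDiff

noncomputable section

namespace Crest.Agent.R106.HSmall

open Crest.Agent.R106.GSR (gam acc lor)
open Crest.Agent.R106.Mom

/-! ### elementary vector facts -/

theorem norm_cross3_le (a b : R3) : ‖cross3 a b‖ ≤ ‖a‖ * ‖b‖ := by
  have h : ‖cross3 a b‖ ^ 2 ≤ (‖a‖ * ‖b‖) ^ 2 := by
    rw [mul_pow, EuclideanSpace.norm_sq_eq, EuclideanSpace.norm_sq_eq, EuclideanSpace.norm_sq_eq]
    simp only [Fin.sum_univ_three, Real.norm_eq_abs, sq_abs, cross3]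
    simp only [Matrix.cons_val_zero, Matrix.cons_val_one, Matrix.cons_val]
    nlinarith [sq_nonneg (a 0 * b 0 + a 1 * b 1 + a 2 * b 2)]
  exact le_of_sq_le_sq h (by positivity)

theorem gam_pos (v : R3) : 0 < gam v := Real.sqrt_pos.mpr (by positivity)

theorem one_le_gam (v : R3) : 1 ≤ gam v := Real.one_le_sqrt.mpr (by nlinarith [sq_nonneg ‖v‖])

theorem gam_sq (v : R3) : gam v ^ 2 = 1 + ‖v‖ ^ 2 := Real.sq_sqrt (by positivity)

theorem norm_lt_gam (v : R3) : ‖v‖ < gam v :=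
  Real.lt_sqrt_of_sq_lt (by linarith)

theorem gam_le_one_add (v : R3) : gam v ≤ 1 + ‖v‖ :=
  Real.sqrt_le_iff.mpr ⟨by positivity, by nlinarith [norm_nonneg v]⟩

theorem relVel_eq (v : R3) : relVel v = (gam v)⁻¹ • v := rfl

theorem norm_relVel (v : R3) : ‖relVel v‖ = ‖v‖ / gam v := by
  rw [relVel_eq, norm_smul, norm_inv, Real.norm_eq_abs, abs_of_pos (gam_pos v)]
  field_simp

theorem norm_relVel_lt (v : R3) : ‖relVel v‖ < 1 := by
  rw [norm_relVel, div_lt_one (gam_pos v)]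
  exact norm_lt_gam v

theorem one_sub_norm_relVel (v : R3) : 1 / (2 * gam v ^ 2) ≤ 1 - ‖relVel v‖ := by
  have h1 := gam_pos v
  have h2 := norm_lt_gam v
  have h3 := gam_sq v
  have h4 := norm_nonneg v
  rw [norm_relVel, div_le_iff₀ (by positivity)]
  have : (1 - ‖v‖ / gam v) * (2 * gam v ^ 2) = 2 * gam v * (gam v - ‖v‖) := by
    field_simp
  rw [this]
  nlinarith

theorem one_sub_inner_relVel {n : R3} (hn : ‖n‖ ≤ 1) (v : R3) :
    1 / (2 * gam v ^ 2) ≤ 1 - ⟪n, relVel v⟫_ℝ ∧ 1 - ⟪n, relVel v⟫_ℝ ≤ 2 := by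
  have h1 := abs_real_inner_le_norm n (relVel v)
  have h2 := one_sub_norm_relVel v
  have h3 := (norm_relVel_lt v).le
  have h4 : ‖n‖ * ‖relVel v‖ ≤ ‖relVel v‖ := by nlinarith [norm_nonneg (relVel v)]
  have h5 := (abs_le.mp (h1.trans h4))
  constructor <;> linarith [h5.1, h5.2]

theorem norm_lor_le (E B : ℝ → R3 → R3) (t : ℝ) (x p : R3) :
    ‖lor E B t x p‖ ≤ ‖E t x‖ + ‖B t x‖ := by
  unfold lor
  refine (norm_add_le _ _).trans (add_le_add le_rfl ((norm_cross3_le _ _).trans ?_))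
  have := (norm_relVel_lt p).le
  nlinarith [norm_nonneg (B t x)]

/-! ### bounds of the solution on compact time intervals -/

section Sol

variable {T : ℝ} {f₀ : R3 → R3 → ℝ} {E₀ B₀ : R3 → R3} {f : ℝ → R3 → R3 → ℝ} {E B : ℝ → R3 → R3}

theorem exists_field_bound (h : IsClassicalSolutionOn T f₀ E₀ B₀ f E B) {T' : ℝ}
    (hT' : T' < T) (R : ℝ) :
    ∃ M : ℝ, 0 ≤ M ∧ ∀ t ∈ Icc 0 T', ∀ x : R3, ‖x‖ ≤ R → ‖E t x‖ ≤ M ∧ ‖B t x‖ ≤ M := by
  have hc : IsCompact (Icc (0 : ℝ) T' ×ˢ closedBall (0 : R3) R) :=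
    isCompact_Icc.prod (isCompact_closedBall _ _)
  have hsub : Icc (0 : ℝ) T' ×ˢ closedBall (0 : R3) R ⊆ Ico 0 T ×ˢ univ :=
    prod_mono (fun t ht => ⟨ht.1, ht.2.trans_lt hT'⟩) (subset_univ _)
  obtain ⟨M1, hM1⟩ := hc.exists_bound_of_continuousOn (h.2.1.continuousOn.mono hsub)
  obtain ⟨M2, hM2⟩ := hc.exists_bound_of_continuousOn (h.2.2.1.continuousOn.mono hsub)
  refine ⟨max 0 (max M1 M2), le_max_left _ _, fun t ht x hx => ?_⟩
  have hm : ((t, x) : ℝ × R3) ∈ Icc (0 : ℝ) T' ×ˢ closedBall (0 : R3) R :=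
    ⟨ht, by simpa using hx⟩
  exact ⟨(hM1 _ hm).trans ((le_max_left _ _).trans (le_max_right _ _)),
    (hM2 _ hm).trans ((le_max_right _ _).trans (le_max_right _ _))⟩

theorem exists_f_bound (h : IsClassicalSolutionOn T f₀ E₀ B₀ f E B) {T' : ℝ}
    (h0 : 0 ≤ T') (hT' : T' < T) :
    ∃ M R : ℝ, 0 ≤ M ∧ 0 ≤ R ∧ (∀ t ∈ Icc 0 T', ∀ x v : R3, f t x v ≤ M) ∧
      ∀ t ∈ Icc 0 T', ∀ x v : R3, (R < ‖x‖ ∨ R < ‖v‖) → f t x v = 0 := by
  obtain ⟨R, hR⟩ := h.2.2.2.2.2.2.2.1 T' h0 hT'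
  have hc : IsCompact (Icc (0 : ℝ) T' ×ˢ (closedBall (0 : R3) R ×ˢ closedBall (0 : R3) R)) :=
    isCompact_Icc.prod ((isCompact_closedBall _ _).prod (isCompact_closedBall _ _))
  have hsub : Icc (0 : ℝ) T' ×ˢ (closedBall (0 : R3) R ×ˢ closedBall (0 : R3) R) ⊆
      Ico 0 T ×ˢ univ :=
    prod_mono (fun t ht => ⟨ht.1, ht.2.trans_lt hT'⟩) (subset_univ _)
  obtain ⟨M, hM⟩ := hc.exists_bound_of_continuousOn (h.1.continuousOn.mono hsub)
  refine ⟨max 0 M, max 0 R, le_max_left _ _, le_max_left _ _, fun t ht x v => ?_,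
    fun t ht x v hxv => ?_⟩
  · by_cases hxv : R < ‖x‖ ∨ R < ‖v‖
    · rw [hR t ht x v hxv]; exact le_max_left _ _
    · push Not at hxv
      have hm : ((t, x, v) : ℝ × R3 × R3) ∈
          Icc (0 : ℝ) T' ×ˢ (closedBall (0 : R3) R ×ˢ closedBall (0 : R3) R) :=
        ⟨ht, by simpa using hxv.1, by simpa using hxv.2⟩
      exact (le_abs_self _).trans ((hM _ hm).trans (le_max_right _ _))
  · exact hR t ht x v (hxv.imp (fun h => (le_max_right _ _).trans_lt h)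
      (fun h => (le_max_right _ _).trans_lt h))

/-- Lipschitz bound along a curve that is differentiable in the open interval. -/
theorem norm_sub_le_of_deriv {φ φ' : ℝ → R3} {C : ℝ} {a b : ℝ} (hab : a ≤ b)
    (hc : ContinuousOn φ (Icc a b)) (hd : ∀ s ∈ Ioo a b, HasDerivAt φ (φ' s) s)
    (hC : ∀ s ∈ Ioo a b, ‖φ' s‖ ≤ C) : ‖φ b - φ a‖ ≤ C * (b - a) := by
  rcases hab.eq_or_lt with rfl | hab
  · simp
  have key : ∀ s ∈ Ioo a b, ∀ t ∈ Ioo a b, ‖φ t - φ s‖ ≤ C * ‖t - s‖ := by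
    intro s hs t ht
    exact Convex.norm_image_sub_le_of_norm_hasDerivWithin_le
      (fun x hx => (hd x hx).hasDerivWithinAt) hC (convex_Ioo a b) hs ht
  have hcl : closure (Ioo a b) = Icc a b := closure_Ioo hab.ne
  -- fix t, let s → a
  have h1 : ∀ t ∈ Ioo a b, ‖φ t - φ a‖ ≤ C * ‖t - a‖ := by
    intro t ht
    have l1 : Tendsto (fun s => ‖φ t - φ s‖) (𝓝[Ioo a b] a) (𝓝 ‖φ t - φ a‖) := by
      have : Tendsto φ (𝓝[Ioo a b] a) (𝓝 (φ a)) :=
        (hc a (left_mem_Icc.mpr hab.le)).mono_left (nhdsWithin_mono _ Ioo_subset_Icc_self)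
      exact (tendsto_const_nhds.sub this).norm
    have l2 : Tendsto (fun s => C * ‖t - s‖) (𝓝[Ioo a b] a) (𝓝 (C * ‖t - a‖)) := by
      have : Continuous (fun s : ℝ => C * ‖t - s‖) := by fun_prop
      exact (this.tendsto a).mono_left nhdsWithin_le_nhds
    have : (𝓝[Ioo a b] a).NeBot := by
      rw [← mem_closure_iff_nhdsWithin_neBot, hcl]; exact left_mem_Icc.mpr hab.le
    exact le_of_tendsto_of_tendsto l1 l2
      (eventually_mem_nhdsWithin.mono fun s hs => key s hs t ht)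
  have l1 : Tendsto (fun t => ‖φ t - φ a‖) (𝓝[Ioo a b] b) (𝓝 ‖φ b - φ a‖) := by
    have : Tendsto φ (𝓝[Ioo a b] b) (𝓝 (φ b)) :=
      (hc b (right_mem_Icc.mpr hab.le)).mono_left (nhdsWithin_mono _ Ioo_subset_Icc_self)
    exact (this.sub tendsto_const_nhds).norm
  have l2 : Tendsto (fun t => C * ‖t - a‖) (𝓝[Ioo a b] b) (𝓝 (C * ‖b - a‖)) := by
    have : Continuous (fun t : ℝ => C * ‖t - a‖) := by fun_prop
    exact (this.tendsto b).mono_left nhdsWithin_le_nhds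
  have : (𝓝[Ioo a b] b).NeBot := by
    rw [← mem_closure_iff_nhdsWithin_neBot, hcl]; exact right_mem_Icc.mpr hab.le
  have := le_of_tendsto_of_tendsto l1 l2 (eventually_mem_nhdsWithin.mono h1)
  rwa [Real.norm_of_nonneg (sub_nonneg.mpr hab.le)] at this

/-- characteristics starting in the support stay in a fixed ball, and so does their momentum -/
theorem char_bounds (hT : 0 < T) (h : IsClassicalSolutionOn T f₀ E₀ B₀ f E B) {T' : ℝ}
    (h0 : 0 ≤ T') (hT' : T' < T) :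
    ∃ RX RP M : ℝ, 0 ≤ RX ∧ 0 ≤ RP ∧ 0 ≤ M ∧ ∀ X p : ℝ → R3, IsChar T f E B X p →
      ∀ s ∈ Icc 0 T', ‖X s‖ ≤ RX ∧ ‖p s‖ ≤ RP ∧ ‖lor E B s (X s) (p s)‖ ≤ M := by
  obtain ⟨-, R0, -, hR0, -, hsupp⟩ := exists_f_bound h le_rfl hT
  obtain ⟨M, hM0, hM⟩ := exists_field_bound h hT' (R0 + T')
  refine ⟨R0 + T', R0 + 2 * M * T', 2 * M, by positivity, by positivity, by positivity,
    fun X p hXp s hs => ?_⟩
  have hst : s < T := hs.2.trans_lt hT'
  -- starting point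
  have hstart : ‖X 0‖ ≤ R0 ∧ ‖p 0‖ ≤ R0 := by
    by_contra hcon
    apply hXp.supp
    apply hsupp 0 ⟨le_rfl, le_rfl⟩
    by_contra hh
    push Not at hh
    exact hcon hh
  -- positions
  have hX : ∀ t ∈ Icc 0 s, ‖X t‖ ≤ R0 + T' := by
    intro t ht
    have htT : t < T := ht.2.trans_lt hst
    have h1 : ‖X t - X 0‖ ≤ 1 * (t - 0) :=
      norm_sub_le_of_deriv ht.1
        (hXp.cX.mono fun r hr => ⟨hr.1, hr.2.trans_lt htT⟩)
        (fun r hr => hXp.dX r ⟨hr.1, hr.2.trans htT⟩) (fun r _ => (norm_relVel_lt _).le)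
    have h2 : ‖X t‖ ≤ ‖X 0‖ + ‖X t - X 0‖ := by
      calc ‖X t‖ = ‖X 0 + (X t - X 0)‖ := by congr 1; abel
        _ ≤ _ := norm_add_le _ _
    linarith [hstart.1, ht.2, hs.2]
  have hF : ∀ t ∈ Icc 0 s, ‖lor E B t (X t) (p t)‖ ≤ 2 * M := by
    intro t ht
    have := hM t ⟨ht.1, ht.2.trans hs.2⟩ (X t) (hX t ht)
    linarith [norm_lor_le E B t (X t) (p t), this.1, this.2]
  have hp : ‖p s - p 0‖ ≤ 2 * M * (s - 0) :=
    norm_sub_le_of_deriv hs.1 (hXp.cp.mono fun r hr => ⟨hr.1, hr.2.trans_lt hst⟩)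
      (fun r hr => hXp.dp r ⟨hr.1, hr.2.trans hst⟩) (fun r hr => hF r ⟨hr.1.le, hr.2.le⟩)
  have h2 : ‖p s‖ ≤ ‖p 0‖ + ‖p s - p 0‖ := by
    calc ‖p s‖ = ‖p 0 + (p s - p 0)‖ := by congr 1; abel
      _ ≤ _ := norm_add_le _ _
  refine ⟨hX s ⟨hs.1, le_rfl⟩, ?_, hF s ⟨hs.1, le_rfl⟩⟩
  have : 2 * M * (s - 0) ≤ 2 * M * T' := by
    apply mul_le_mul_of_nonneg_left _ (by positivity); linarith [hs.2]
  linarith [hstart.2]


/-- node `LipP` of `MomIface`. -/
theorem lipP (hT : 0 < T) (h : IsClassicalSolutionOn T f₀ E₀ B₀ f E B) : LipP T f E B := by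
  refine ⟨fun t ht => ?_, ?_⟩
  · rcases lt_or_ge t 0 with h0 | h0
    · refine ⟨0, fun ξ s hs => ?_⟩
      exact absurd (hs.1.trans hs.2) (not_le.mpr h0)
    · obtain ⟨RX, RP, M, -, -, hM0, hb⟩ := char_bounds hT h h0 ht
      refine ⟨M, fun ξ => ?_⟩
      have key : ∀ s ∈ Icc 0 t, ∀ s' ∈ Icc 0 t, s ≤ s' → ‖mom ξ s' - mom ξ s‖ ≤ M * (s' - s) := by
        intro s hs s' hs' hss
        exact norm_sub_le_of_deriv hss
          (ξ.2.cp.mono fun r hr => ⟨hs.1.trans hr.1, (hr.2.trans hs'.2).trans_lt ht⟩)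
          (fun r hr => ξ.2.dp r ⟨hs.1.trans_lt hr.1, (hr.2.trans_le hs'.2).trans ht⟩)
          (fun r hr => (hb ξ.1.1 ξ.1.2 ξ.2 r
            ⟨hs.1.trans hr.1.le, hr.2.le.trans hs'.2⟩).2.2)
      intro s hs s' hs'
      rcases le_total s s' with hss | hss
      · rw [norm_sub_rev, abs_sub_comm, abs_of_nonneg (sub_nonneg.mpr hss)]
        exact key s hs s' hs' hss
      · rw [abs_of_nonneg (sub_nonneg.mpr hss)]
        exact key s' hs' s hs hss
  · obtain ⟨RX, RP, M, -, -, hM0, hb⟩ := char_bounds hT h le_rfl hT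
    exact ⟨RP, fun ξ => (hb ξ.1.1 ξ.1.2 ξ.2 0 ⟨le_rfl, le_rfl⟩).2.1⟩

end Sol

/-! ### the kernels on a bounded region -/

section Kernel

variable {G d e g R : ℝ}

theorem inv_le_of_half {G e : ℝ} (hG : 1 ≤ G) (he : 1 / (2 * G ^ 2) ≤ e) : e⁻¹ ≤ 2 * G ^ 2 := by
  have h1 : 0 < 1 / (2 * G ^ 2) := by positivity
  calc e⁻¹ ≤ (1 / (2 * G ^ 2))⁻¹ := inv_anti₀ h1 he
    _ = 2 * G ^ 2 := by rw [one_div, inv_inv]

theorem sqrt_mul_le_two (hd0 : 0 ≤ d) (hd : d ≤ 2) (he : e ≤ 2) : √(d * e) ≤ 2 := by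
  rw [Real.sqrt_le_left (by norm_num)]
  nlinarith

theorem sqrt_le_two (hd : d ≤ 2) : √d ≤ 2 := by
  rw [Real.sqrt_le_left (by norm_num)]; linarith

theorem quad_le (hG : 1 ≤ G) (hd1 : 1 / (2 * G ^ 2) ≤ d) (hd : d ≤ 2)
    (he1 : 1 / (2 * G ^ 2) ≤ e) (he : e ≤ 2) (hg : 1 ≤ g) (hR : 0 < R) :
    (e + √(d * e)) / (g ^ 2 * e ^ 2 * R ^ 2) ≤ 16 * G ^ 4 / R ^ 2 := by
  have hpos : 0 < 1 / (2 * G ^ 2) := by positivity
  have he0 : 0 < e := hpos.trans_le he1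
  have hd0 : 0 < d := hpos.trans_le hd1
  have h1 := inv_le_of_half hG he1
  have h2 := sqrt_mul_le_two hd0.le hd he
  have h3 : (g ^ 2)⁻¹ ≤ 1 := inv_le_one_of_one_le₀ (by nlinarith)
  have h4 : (e⁻¹) ^ 2 ≤ (2 * G ^ 2) ^ 2 := pow_le_pow_left₀ (by positivity) h1 2
  have h5 : (e + √(d * e)) / (g ^ 2 * e ^ 2 * R ^ 2)
      = (e + √(d * e)) * (g ^ 2)⁻¹ * (e⁻¹) ^ 2 / R ^ 2 := by
    field_simp
  rw [h5]
  refine div_le_div_of_nonneg_right ?_ (by positivity)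
  calc (e + √(d * e)) * (g ^ 2)⁻¹ * (e⁻¹) ^ 2 ≤ (2 + 2) * 1 * (2 * G ^ 2) ^ 2 := by
        gcongr
    _ = 16 * G ^ 4 := by ring

theorem lin_le (hG : 1 ≤ G) (hd : d ≤ 2) (he1 : 1 / (2 * G ^ 2) ≤ e) (hg : 1 ≤ g) (hR : 0 < R)
    {S F M : ℝ} (hS : R ≤ S) (hF0 : 0 ≤ F) (hF : F ≤ M) :
    √d / (g * e * R) * F ≤ 4 * G ^ 2 * S * M / R ^ 2 := by
  have hpos : 0 < 1 / (2 * G ^ 2) := by positivity
  have he0 : 0 < e := hpos.trans_le he1
  have h1 := inv_le_of_half hG he1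
  have h2 := sqrt_le_two hd
  have h3 : g⁻¹ ≤ 1 := inv_le_one_of_one_le₀ hg
  have h5 : √d / (g * e * R) * F = √d * g⁻¹ * e⁻¹ * R * F / R ^ 2 := by
    field_simp
  rw [h5]
  refine div_le_div_of_nonneg_right ?_ (by positivity)
  have hS0 : 0 ≤ S := hR.le.trans hS
  calc √d * g⁻¹ * e⁻¹ * R * F ≤ 2 * 1 * (2 * G ^ 2) * S * M := by
        gcongr
    _ = 4 * G ^ 2 * S * M := by ring

theorem kcut_le (hG : 1 ≤ G) (hd1 : 1 / (2 * G ^ 2) ≤ d) (he1 : 1 / (2 * G ^ 2) ≤ e)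
    {D : ℝ} (hD : D ≤ 2) : kcut d e D R ≤ 2 * G / R ^ 2 := by
  have h1 := inv_le_of_half hG (le_min hd1 he1)
  have hpos : 0 < 1 / (2 * G ^ 2) := by positivity
  have hm : 0 < min d e := hpos.trans_le (le_min hd1 he1)
  unfold kcut
  gcongr
  rw [Real.sqrt_le_left (by positivity), div_eq_mul_inv]
  calc D * (min d e)⁻¹ ≤ 2 * (2 * G ^ 2) := by gcongr
    _ = (2 * G) ^ 2 := by ring

end Kernel

/-! ### the `hden` bound -/

/-- constant in the bound of `hden` -/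
def Ck (G S M : ℝ) : ℝ := 2 * (16 * G ^ 4 + 4 * G ^ 2 * S * M) + 2 * G

theorem Ck_pos {G S M : ℝ} (hG : 1 ≤ G) (hS : 0 ≤ S) (hM : 0 ≤ M) : 0 < Ck G S M := by
  unfold Ck; positivity

theorem norm_nn_le (X : ℝ → R3) (s : ℝ) (y : R3) : ‖nn X s y‖ ≤ 1 := by
  unfold nn
  rw [norm_smul, norm_inv, norm_norm]
  rcases eq_or_ne (‖X s - y‖) 0 with h | h
  · simp [h]
  · rw [inv_mul_cancel₀ h]

theorem half_mono {G g : ℝ} (hg : 1 ≤ g) (hgG : g ≤ G) {e : ℝ} (he : 1 / (2 * g ^ 2) ≤ e) :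
    1 / (2 * G ^ 2) ≤ e := by
  refine le_trans ?_ he
  apply one_div_le_one_div_of_le (by positivity)
  gcongr

theorem hden_le {E B : ℝ → R3 → R3} {lam Qs : ℝ} {X p : ℝ → R3} {s : ℝ} {q : R3 × R3}
    {G S M : ℝ} (hGp : gam (p s) ≤ G) (hGq : gam q.2 ≤ G)
    (hR : 0 < Rr X s q.1) (hS : Rr X s q.1 ≤ S)
    (hF : Fsrc E B X s q ≤ M) (hFt : Ftest E B X p s ≤ M) :
    hden E B lam Qs X p s q ≤ Ck G S M / Rr X s q.1 ^ 2 := by
  have g1 := one_le_gam q.2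
  have G1 := one_le_gam (p s)
  have hG : 1 ≤ G := g1.trans hGq
  have hn := norm_nn_le X s q.1
  obtain ⟨hd1, hd⟩ := one_sub_inner_relVel hn (p s)
  obtain ⟨he1, he⟩ := one_sub_inner_relVel hn q.2
  obtain ⟨-, hD⟩ := one_sub_inner_relVel (norm_relVel_lt (p s)).le q.2
  have hd1' := half_mono G1 hGp hd1
  have he1' := half_mono g1 hGq he1
  have hF0 : 0 ≤ Fsrc E B X s q := norm_nonneg _
  have hFt0 : 0 ≤ Ftest E B X p s := norm_nonneg _
  have hS0 : 0 ≤ S := hR.le.trans hS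
  have hM0 : 0 ≤ M := hF0.trans hF
  -- single kernels
  have b1 : kT (dl X p s q.1) (ep X s q.1 q.2) (gam q.2) (Rr X s q.1)
      ≤ 16 * G ^ 4 / Rr X s q.1 ^ 2 := quad_le hG hd1' hd he1' he g1 hR
  have b2 : kS (dl X p s q.1) (ep X s q.1 q.2) (gam q.2) (Rr X s q.1) * Fsrc E B X s q
      ≤ 4 * G ^ 2 * S * M / Rr X s q.1 ^ 2 := lin_le hG hd he1' g1 hR hS hF0 hF
  have b3 : kGam (dl X p s q.1) (ep X s q.1 q.2) (gam (p s)) (Rr X s q.1)
      ≤ 16 * G ^ 4 / Rr X s q.1 ^ 2 := by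
    have := quad_le (d := ep X s q.1 q.2) (e := dl X p s q.1) hG he1' he hd1' hd G1 hR
    unfold kGam
    rwa [mul_comm (dl X p s q.1) (ep X s q.1 q.2)]
  have b4 : kC (dl X p s q.1) (ep X s q.1 q.2) (gam (p s)) (Rr X s q.1) * Ftest E B X p s
      ≤ 4 * G ^ 2 * S * M / Rr X s q.1 ^ 2 := lin_le hG he hd1' G1 hR hS hFt0 hFt
  have b5 : kcut (dl X p s q.1) (ep X s q.1 q.2) (Dd p s q.2) (Rr X s q.1)
      ≤ 2 * G / Rr X s q.1 ^ 2 := kcut_le hG hd1' he1' hD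
  have hR2 : 0 < Rr X s q.1 ^ 2 := by positivity
  have n1 : 0 ≤ 16 * G ^ 4 / Rr X s q.1 ^ 2 := by positivity
  have n2 : 0 ≤ 4 * G ^ 2 * S * M / Rr X s q.1 ^ 2 := by positivity
  have n3 : 0 ≤ 2 * G / Rr X s q.1 ^ 2 := by positivity
  have hsum : Ck G S M / Rr X s q.1 ^ 2 =
      (16 * G ^ 4 / Rr X s q.1 ^ 2 + 4 * G ^ 2 * S * M / Rr X s q.1 ^ 2)
      + (16 * G ^ 4 / Rr X s q.1 ^ 2 + 4 * G ^ 2 * S * M / Rr X s q.1 ^ 2)
      + 2 * G / Rr X s q.1 ^ 2 := by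
    unfold Ck; ring
  rw [hsum]
  unfold hden
  refine add_le_add (add_le_add ?_ ?_) ?_
  · split_ifs
    · exact add_le_add b1 b2
    · positivity
  · split_ifs
    · exact add_le_add b3 b4
    · positivity
  · split_ifs
    · exact b5
    · positivity

/-! ### the singular integral -/

theorem lintegral_ball_inv_sq (x : R3) {s S : ℝ} (hs : s ≤ S) :
    ∫⁻ y in ball x s, (‖x - y‖ₑ⁻¹) ^ 2 ≤ ∫⁻ z in ball (0 : R3) S, (‖z‖ₑ⁻¹) ^ 2 := by
  rw [← lintegral_indicator measurableSet_ball, ← lintegral_indicator measurableSet_ball]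
  have h1 : ∀ y, (ball x s).indicator (fun y => (‖x - y‖ₑ⁻¹) ^ 2) y
      ≤ (ball (0 : R3) S).indicator (fun z => (‖z‖ₑ⁻¹) ^ 2) (x - y) := by
    intro y
    by_cases hy : y ∈ ball x s
    · have h2 : x - y ∈ ball (0 : R3) S := by
        rw [mem_ball, dist_comm, dist_eq_norm] at hy
        rw [mem_ball_zero_iff]
        linarith
      rw [indicator_of_mem hy, indicator_of_mem h2]
    · rw [indicator_of_notMem hy]; positivity
  calc _ ≤ ∫⁻ y, (ball (0 : R3) S).indicator (fun z => (‖z‖ₑ⁻¹) ^ 2) (x - y) := lintegral_mono h1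
    _ = _ := lintegral_sub_left_eq_self _ x

/-- domination of the cone measure -/
theorem kap_le {f : ℝ → R3 → R3 → ℝ} {X : ℝ → R3} {s T' Mf RP : ℝ} (hs : s ∈ Icc 0 T')
    (hf : ∀ t ∈ Icc 0 T', ∀ x v : R3, f t x v ≤ Mf)
    (hsupp : ∀ t ∈ Icc 0 T', ∀ x v : R3, RP < ‖v‖ → f t x v = 0) :
    kap f X s ≤ ENNReal.ofReal Mf •
      (volume : Measure (R3 × R3)).restrict (ball (X s) s ×ˢ closedBall (0 : R3) RP) := by
  have hms : MeasurableSet ((univ : Set R3) ×ˢ closedBall (0 : R3) RP) :=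
    MeasurableSet.univ.prod measurableSet_closedBall
  have hmb : MeasurableSet (ball (X s) s ×ˢ (univ : Set R3)) :=
    measurableSet_ball.prod MeasurableSet.univ
  have h1 : kap f X s ≤ ((volume : Measure (R3 × R3)).restrict (ball (X s) s ×ˢ univ)).withDensity
      (((univ : Set R3) ×ˢ closedBall (0 : R3) RP).indicator (fun _ => ENNReal.ofReal Mf)) := by
    apply withDensity_mono
    filter_upwards [ae_restrict_mem hmb] with q hq
    have hq1 : ‖X s - q.1‖ < s := by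
      have := hq.1
      rwa [mem_ball, dist_comm, dist_eq_norm] at this
    have hret : ret X s q.1 ∈ Icc 0 T' := by
      unfold ret
      constructor
      · linarith
      · linarith [norm_nonneg (X s - q.1), hs.2]
    by_cases hq2 : q.2 ∈ closedBall (0 : R3) RP
    · rw [indicator_of_mem (show q ∈ (univ : Set R3) ×ˢ closedBall (0 : R3) RP from ⟨mem_univ _, hq2⟩)]
      exact ENNReal.ofReal_le_ofReal (hf _ hret _ _)
    · rw [mem_closedBall_zero_iff, not_le] at hq2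
      rw [hsupp _ hret _ _ hq2]
      simp
  refine h1.trans ?_
  rw [withDensity_indicator hms, withDensity_const, Measure.restrict_restrict hms]
  refine le_of_eq ?_
  congr 2
  ext q
  simp only [mem_inter_iff, mem_prod, mem_univ, true_and, and_true]
  tauto

section Sol2

variable {T : ℝ} {f₀ : R3 → R3 → ℝ} {E₀ B₀ : R3 → R3} {f : ℝ → R3 → R3 → ℝ} {E B : ℝ → R3 → R3}

theorem locP (hT : 0 < T) (h : IsClassicalSolutionOn T f₀ E₀ B₀ f E B) : LocP T f E B := by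
  intro T' h0 hT'
  obtain ⟨RX, RP, M, hRX, hRP, hM0, hb⟩ := char_bounds hT h h0 hT'
  obtain ⟨Mf, Rf, hMf, hRf, hf, hsupp⟩ := exists_f_bound h h0 hT'
  obtain ⟨M2, hM20, hM2⟩ := exists_field_bound h hT' (RX + T')
  set G : ℝ := 1 + max RP Rf with hG
  set Mm : ℝ := max M (2 * M2) with hMm
  set J : ℝ≥0∞ := ∫⁻ z in ball (0 : R3) T', (‖z‖ₑ⁻¹) ^ 2 with hJ
  have hJt : J < ⊤ := Crest.Agent.R106.Mix.lintegral_inv_enorm_pow_lt_top 2 le_rfl T'
  have hG1 : 1 ≤ G := by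
    have : 0 ≤ max RP Rf := hRP.trans (le_max_left _ _)
    linarith
  have hMm0 : 0 ≤ Mm := hM0.trans (le_max_left _ _)
  have hCk0 : 0 < Ck G T' Mm := Ck_pos hG1 h0 hMm0
  have hCk : 0 ≤ Ck G T' Mm := hCk0.le
  set K : ℝ≥0∞ := 1 + ENNReal.ofReal Mf * (ENNReal.ofReal (Ck G T' Mm) *
    (J * volume (closedBall (0 : R3) Rf))) with hK
  have hKt : K ≠ ⊤ := by
    rw [hK]
    refine ENNReal.add_ne_top.mpr ⟨ENNReal.one_ne_top, ?_⟩
    exact ENNReal.mul_ne_top ENNReal.ofReal_ne_top (ENNReal.mul_ne_top ENNReal.ofReal_ne_top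
      (ENNReal.mul_ne_top hJt.ne measure_closedBall_lt_top.ne))
  refine ⟨K.toReal, ENNReal.toReal_nonneg, fun X p hXp lam Qs _ _ s hs => ?_⟩
  rw [ENNReal.ofReal_toReal hKt, hK]
  unfold hh
  refine add_le_add le_rfl ?_
  obtain ⟨b1, b2, b3⟩ := hb X p hXp s hs
  have hGp : gam (p s) ≤ G := by
    refine (gam_le_one_add _).trans ?_
    have := le_max_left RP Rf
    linarith
  calc ∫⁻ q, ENNReal.ofReal (hden E B lam Qs X p s q) ∂(kap f X s)
      ≤ ∫⁻ q, ENNReal.ofReal (hden E B lam Qs X p s q) ∂(ENNReal.ofReal Mf •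
        (volume : Measure (R3 × R3)).restrict (ball (X s) s ×ˢ closedBall (0 : R3) Rf)) :=
        lintegral_mono' (kap_le hs hf (fun t ht x v hv => hsupp t ht x v (Or.inr hv))) le_rfl
    _ = ENNReal.ofReal Mf * ∫⁻ q in ball (X s) s ×ˢ closedBall (0 : R3) Rf,
          ENNReal.ofReal (hden E B lam Qs X p s q) := by
        rw [lintegral_smul_measure, smul_eq_mul]
    _ ≤ ENNReal.ofReal Mf * ∫⁻ q in ball (X s) s ×ˢ closedBall (0 : R3) Rf,
          ENNReal.ofReal (Ck G T' Mm) * (‖X s - q.1‖ₑ⁻¹) ^ 2 := by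
        gcongr ENNReal.ofReal Mf * ?_
        apply setLIntegral_mono (by fun_prop)
        intro q hq
        have hq1 : ‖X s - q.1‖ < s := by
          have := hq.1
          rwa [mem_ball, dist_comm, dist_eq_norm] at this
        have hq2 : ‖q.2‖ ≤ Rf := by simpa using hq.2
        rcases eq_or_ne (‖X s - q.1‖) 0 with hz | hz
        · have hz' : ‖X s - q.1‖ₑ = 0 := by
            rw [enorm_eq_zero]; exact norm_eq_zero.mp hz
          rw [hz']
          simp [ENNReal.mul_top, hCk0]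
        · have hR : 0 < Rr X s q.1 := lt_of_le_of_ne (norm_nonneg _) (Ne.symm hz)
          have hret : ret X s q.1 ∈ Icc 0 T' := by
            unfold ret
            constructor
            · linarith
            · linarith [norm_nonneg (X s - q.1), hs.2]
          have hy : ‖q.1‖ ≤ RX + T' := by
            have : ‖q.1‖ ≤ ‖X s‖ + ‖X s - q.1‖ := by
              calc ‖q.1‖ = ‖X s - (X s - q.1)‖ := by congr 1; abel
                _ ≤ _ := norm_sub_le _ _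
            linarith [hs.2]
          have hFs : Fsrc E B X s q ≤ Mm := by
            have h1 := norm_lor_le E B (ret X s q.1) q.1 q.2
            obtain ⟨h2, h3⟩ := hM2 _ hret _ hy
            unfold Fsrc
            exact (h1.trans (by linarith)).trans (le_max_right _ _)
          have hgq : gam q.2 ≤ G := by
            refine (gam_le_one_add _).trans ?_
            have := le_max_right RP Rf
            linarith
          have hmain := hden_le (lam := lam) (Qs := Qs) (S := T') hGp hgq hR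
            (hq1.le.trans hs.2) hFs (b3.trans (le_max_left _ _))
          calc ENNReal.ofReal (hden E B lam Qs X p s q)
              ≤ ENNReal.ofReal (Ck G T' Mm / Rr X s q.1 ^ 2) := ENNReal.ofReal_le_ofReal hmain
            _ = ENNReal.ofReal (Ck G T' Mm) * (‖X s - q.1‖ₑ⁻¹) ^ 2 := by
                rw [div_eq_mul_inv, ENNReal.ofReal_mul hCk, ← inv_pow,
                  ENNReal.ofReal_pow (inv_nonneg.mpr hR.le), ENNReal.ofReal_inv_of_pos hR]
                congr 3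
                rw [Rr, ofReal_norm]
    _ = ENNReal.ofReal Mf * (ENNReal.ofReal (Ck G T' Mm) *
          ((∫⁻ y in ball (X s) s, (‖X s - y‖ₑ⁻¹) ^ 2) * volume (closedBall (0 : R3) Rf))) := by
        congr 1
        rw [lintegral_const_mul _ (by fun_prop)]
        congr 1
        rw [Measure.volume_eq_prod, ← Measure.prod_restrict, lintegral_prod _ (by fun_prop)]
        simp only [lintegral_const, Measure.restrict_apply_univ]
        rw [lintegral_mul_const _ (by fun_prop)]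
    _ ≤ _ := by
        gcongr
        exact lintegral_ball_inv_sq (X s) hs.2

end Sol2

end Crest.Agent.R106.HSmall
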