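/- Row 106, node ITER-B0/B1 (helper562): pure real analysis of the uniform bounds. -/
import Mathlib

set_option autoImplicit false
open MeasureTheory Set intervalIntegral

namespace Crest.Agent.R106.IterNum

/-- the fixed-point majorant of `m ↦ C (1 + |∫_0^t m|)` -/
noncomputable def mst (C t : ℝ) : ℝ := C * Real.exp (C * |t|)

theorem continuous_mst (C : ℝ) : Continuous (mst C) := by
  unfold mst; fun_prop

theorem mst_nonneg {C : ℝ} (hC : 0 ≤ C) (t : ℝ) : 0 ≤ mst C t :=
  mul_nonneg hC (Real.exp_pos _).le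

theorem mst_even (C t : ℝ) : mst C (-t) = mst C t := by simp [mst]

theorem integral_mst_pos (C : ℝ) {t : ℝ} (ht : 0 ≤ t) :
    ∫ s in (0:ℝ)..t, mst C s = Real.exp (C * t) - 1 := by
  have h1 : ∫ s in (0:ℝ)..t, mst C s = ∫ s in (0:ℝ)..t, C * Real.exp (C * s) := by
    apply intervalIntegral.integral_congr
    intro s hs
    rw [uIcc_of_le ht] at hs
    simp only [mst, abs_of_nonneg hs.1]
  rw [h1]
  have h2 : ∀ s ∈ uIcc 0 t, HasDerivAt (fun s => Real.exp (C * s)) (C * Real.exp (C * s)) s := by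
    intro s _
    have h3 : HasDerivAt (fun s : ℝ => C * s) C s := by
      simpa using (hasDerivAt_id s).const_mul C
    simpa [mul_comm] using h3.exp
  rw [integral_eq_sub_of_hasDerivAt h2 ((by fun_prop : Continuous fun s : ℝ =>
    C * Real.exp (C * s)).intervalIntegrable _ _)]
  simp

theorem abs_integral_even {m : ℝ → ℝ} (hm : ∀ t, m (-t) = m t) (t : ℝ) :
    |∫ s in (0:ℝ)..t, m s| = |∫ s in (0:ℝ)..|t|, m s| := by
  rcases le_total 0 t with h | h
  · rw [abs_of_nonneg h]
  · rw [abs_of_nonpos h]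
    have h1 : ∫ s in (0:ℝ)..(-t), m s = ∫ s in (0:ℝ)..(-t), m (-s) := by
      simp only [hm]
    rw [h1, intervalIntegral.integral_comp_neg]
    simp only [neg_neg, neg_zero]
    rw [intervalIntegral.integral_symm, abs_neg]

theorem abs_integral_mst {C : ℝ} (hC : 0 ≤ C) (t : ℝ) :
    |∫ s in (0:ℝ)..t, mst C s| = Real.exp (C * |t|) - 1 := by
  rw [abs_integral_even (mst_even C), integral_mst_pos C (abs_nonneg t)]
  apply abs_of_nonneg
  have : 0 ≤ C * |t| := by positivity
  linarith [Real.one_le_exp this]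

theorem mst_fix {C : ℝ} (hC : 0 ≤ C) (t : ℝ) :
    C * (1 + |∫ s in (0:ℝ)..t, mst C s|) = mst C t := by
  rw [abs_integral_mst hC, mst]; ring

theorem mst_le {C T t : ℝ} (hC : 0 ≤ C) (ht : t ∈ Icc (-T) T) :
    mst C t ≤ C * Real.exp (C * T) := by
  have : |t| ≤ T := abs_le.2 ht
  unfold mst
  gcongr




end Crest.Agent.R106.IterNum
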