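import Mathlib

/-!
# Row 106, node MIX-B (helper633)

One source: cut-offs `chi1`, `chi2`, `chi3`, their product `chi`, the derivative of `chi * G` along
the retarded pair (parametrised by the test time `s`), and the pointwise bound of the error `W`.
-/

set_option autoImplicit false

namespace Crest.Agent.R106.Mix

open Real

/-! ### Smooth cut-offs -/

theorem exists_st_bound : ∃ C : ℝ, 1 ≤ C ∧ ∀ x, |deriv Real.smoothTransition x| ≤ C := by
  have hc : Continuous (deriv Real.smoothTransition) :=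
    (Real.smoothTransition.contDiff (n := 1)).continuous_deriv le_rfl
  obtain ⟨M, hM⟩ := (isCompact_Icc (a := (0:ℝ)) (b := 1)).exists_bound_of_continuousOn hc.continuousOn
  refine ⟨max M 1, le_max_right _ _, fun x => ?_⟩
  rcases lt_or_ge x 0 with hx | hx
  · have : deriv Real.smoothTransition x = 0 := by
      have h : Real.smoothTransition =ᶠ[nhds x] fun _ => (0:ℝ) := by
        filter_upwards [Iio_mem_nhds hx] with y hy
        exact Real.smoothTransition.zero_of_nonpos (le_of_lt hy)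
      rw [h.deriv_eq]; simp
    rw [this]; simp
  · rcases lt_or_ge 1 x with hx1 | hx1
    · have : deriv Real.smoothTransition x = 0 := by
        have h : Real.smoothTransition =ᶠ[nhds x] fun _ => (1:ℝ) := by
          filter_upwards [Ioi_mem_nhds hx1] with y hy
          exact Real.smoothTransition.one_of_one_le (le_of_lt hy)
        rw [h.deriv_eq]; simp
      rw [this]; simp
    · exact (hM x ⟨hx, hx1⟩).trans (le_max_left _ _)

/-- a fixed bound of the derivative of the transition function. -/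
noncomputable def stC : ℝ := Classical.choose exists_st_bound

theorem one_le_stC : 1 ≤ stC := (Classical.choose_spec exists_st_bound).1
theorem abs_deriv_st_le (x : ℝ) : |deriv Real.smoothTransition x| ≤ stC :=
  (Classical.choose_spec exists_st_bound).2 x

theorem hasDerivAt_st (x : ℝ) :
    HasDerivAt Real.smoothTransition (deriv Real.smoothTransition x) x :=
  ((Real.smoothTransition.contDiff (n := 1)).differentiable (by norm_num) x).hasDerivAt

theorem deriv_st_of_nonpos {x : ℝ} (hx : x ≤ 0) : deriv Real.smoothTransition x = 0 := by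
  have h : IsLocalMin Real.smoothTransition x := by
    filter_upwards with y
    rw [Real.smoothTransition.zero_of_nonpos hx]
    exact Real.smoothTransition.nonneg y
  exact h.deriv_eq_zero

theorem deriv_st_of_one_le {x : ℝ} (hx : 1 ≤ x) : deriv Real.smoothTransition x = 0 := by
  have h : IsLocalMax Real.smoothTransition x := by
    filter_upwards with y
    rw [Real.smoothTransition.one_of_one_le hx]
    exact Real.smoothTransition.le_one y
  exact h.deriv_eq_zero

/-- `1` for `q <= 1/2`, `0` for `q >= 2`. -/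
noncomputable def chi1 (q : ℝ) : ℝ := 1 - Real.smoothTransition ((2 * q - 1) / 3)
/-- `0` for `q <= 1/2`, `1` for `q >= 1`. -/
noncomputable def chi2 (q : ℝ) : ℝ := Real.smoothTransition (2 * q - 1)

noncomputable def dchi1 (q : ℝ) : ℝ := -(deriv Real.smoothTransition ((2 * q - 1) / 3) * (2 / 3))
noncomputable def dchi2 (q : ℝ) : ℝ := deriv Real.smoothTransition (2 * q - 1) * 2

theorem hasDerivAt_chi1 (q : ℝ) : HasDerivAt chi1 (dchi1 q) q := by
  have h1 : HasDerivAt (fun q : ℝ => (2 * q - 1) / 3) (2 / 3) q := by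
    have := (((hasDerivAt_id q).const_mul 2).sub_const 1).div_const 3
    simpa using this
  have h2 := (hasDerivAt_st ((2 * q - 1) / 3)).comp q h1
  exact h2.const_sub 1

theorem hasDerivAt_chi2 (q : ℝ) : HasDerivAt chi2 (dchi2 q) q := by
  have h1 : HasDerivAt (fun q : ℝ => 2 * q - 1) 2 q := by
    have := ((hasDerivAt_id q).const_mul 2).sub_const 1
    simpa using this
  exact (hasDerivAt_st (2 * q - 1)).comp q h1


theorem chi1_nonneg (q : ℝ) : 0 ≤ chi1 q := by
  have := Real.smoothTransition.le_one ((2 * q - 1) / 3); unfold chi1; linarith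
theorem chi1_le_one (q : ℝ) : chi1 q ≤ 1 := by
  have := Real.smoothTransition.nonneg ((2 * q - 1) / 3); unfold chi1; linarith
theorem chi2_nonneg (q : ℝ) : 0 ≤ chi2 q := Real.smoothTransition.nonneg _
theorem chi2_le_one (q : ℝ) : chi2 q ≤ 1 := Real.smoothTransition.le_one _

theorem chi1_eq_zero {q : ℝ} (h : 2 ≤ q) : chi1 q = 0 := by
  unfold chi1; rw [Real.smoothTransition.one_of_one_le (by linarith)]; ring
theorem chi1_eq_one {q : ℝ} (h : q ≤ 1 / 2) : chi1 q = 1 := by
  unfold chi1; rw [Real.smoothTransition.zero_of_nonpos (by linarith)]; ring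
theorem chi2_eq_zero {q : ℝ} (h : q ≤ 1 / 2) : chi2 q = 0 :=
  Real.smoothTransition.zero_of_nonpos (by linarith)
theorem chi2_eq_one {q : ℝ} (h : 1 ≤ q) : chi2 q = 1 :=
  Real.smoothTransition.one_of_one_le (by linarith)


theorem dchi1_eq_zero {q : ℝ} (h : ¬ (1 / 2 < q ∧ q < 2)) : dchi1 q = 0 := by
  unfold dchi1
  by_cases h1 : 1 / 2 < q
  · have h2 : 2 ≤ q := by
      by_contra hh; exact h ⟨h1, lt_of_not_ge hh⟩
    rw [deriv_st_of_one_le (by linarith)]; ring
  · rw [deriv_st_of_nonpos (by linarith [not_lt.mp h1])]; ring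

theorem dchi2_eq_zero {q : ℝ} (h : ¬ (1 / 2 < q ∧ q < 1)) : dchi2 q = 0 := by
  unfold dchi2
  by_cases h1 : 1 / 2 < q
  · have h2 : 1 ≤ q := by
      by_contra hh; exact h ⟨h1, lt_of_not_ge hh⟩
    rw [deriv_st_of_one_le (by linarith)]; ring
  · rw [deriv_st_of_nonpos (by linarith [not_lt.mp h1])]; ring


theorem abs_dchi1_le (q : ℝ) : |dchi1 q| ≤ stC := by
  unfold dchi1
  rw [abs_neg, abs_mul]
  have h1 := abs_deriv_st_le ((2 * q - 1) / 3)
  have h2 : |(2 / 3 : ℝ)| ≤ 1 := by rw [abs_of_pos] <;> norm_num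
  calc _ ≤ stC * 1 := mul_le_mul h1 h2 (abs_nonneg _) (by linarith [one_le_stC])
    _ = stC := mul_one _

theorem abs_dchi2_le (q : ℝ) : |dchi2 q| ≤ 2 * stC := by
  unfold dchi2
  rw [abs_mul]
  have h1 := abs_deriv_st_le (2 * q - 1)
  have h2 : |(2 : ℝ)| = 2 := abs_of_pos (by norm_num)
  rw [h2]; linarith


/-! ### The kernels -/

/-- `k_T`. -/
noncomputable def kT (ga de ep R : ℝ) : ℝ := (ep + √(de * ep)) / (ga ^ 2 * ep ^ 2 * R ^ 2)
/-- `k_S`. -/
noncomputable def kS (ga de ep R : ℝ) : ℝ := √de / (ga * ep * R)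
/-- `k_G` (boundary density). -/
noncomputable def kG (de ep R : ℝ) : ℝ := √(ep / de) / R
/-- `k_Gamma`. -/
noncomputable def kGam (Ga de ep R : ℝ) : ℝ := (de + √(de * ep)) / (Ga ^ 2 * de ^ 2 * R ^ 2)
/-- `k_C`. -/
noncomputable def kC (Ga de ep R : ℝ) : ℝ := √ep / (Ga * de * R)
/-- `k_cut` in the three zones. -/
noncomputable def kcut (de ep D R : ℝ) : ℝ :=
  (if 4 * ep ≤ de then √(de / ep) else if 4 * de ≤ ep then √(ep / de) else √(D / de)) / R ^ 2

/-- the cut-off `chi1 (eps/(lam delta^2)) * chi2 (gamma/Qs)`. -/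
noncomputable def chi (lam Qs de ep ga : ℝ) : ℝ := chi1 (ep / (lam * de ^ 2)) * chi2 (ga / Qs)

/-- the region `supp (1 - chi)`. -/
def Ereg (lam Qs de ep ga : ℝ) : Prop := lam * de ^ 2 / 2 < ep ∨ ga < Qs
/-- the region `supp chi`. -/
def Creg (lam Qs de ep ga : ℝ) : Prop := ep < 2 * lam * de ^ 2 ∧ Qs / 2 < ga
/-- the region where `chi1` varies. -/
def Breg (lam Qs de ep ga : ℝ) : Prop :=
  lam * de ^ 2 / 2 < ep ∧ ep < 2 * lam * de ^ 2 ∧ Qs / 2 < ga

theorem chi_nonneg (lam Qs de ep ga : ℝ) : 0 ≤ chi lam Qs de ep ga :=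
  mul_nonneg (chi1_nonneg _) (chi2_nonneg _)

theorem chi_le_one (lam Qs de ep ga : ℝ) : chi lam Qs de ep ga ≤ 1 :=
  mul_le_one₀ (chi1_le_one _) (chi2_nonneg _) (chi2_le_one _)

theorem chi_eq_zero {lam Qs de ep ga : ℝ} (hl : 0 < lam) (hQ : 0 < Qs) (hde : 0 < de)
    (h : ¬ Creg lam Qs de ep ga) : chi lam Qs de ep ga = 0 := by
  unfold Creg at h
  unfold chi
  have hp : 0 < lam * de ^ 2 := by positivity
  by_cases h1 : ep < 2 * lam * de ^ 2
  · have h2 : ga ≤ Qs / 2 := by
      by_contra hh; exact h ⟨h1, not_le.mp hh⟩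
    rw [chi2_eq_zero (by rw [div_le_iff₀ hQ]; linarith)]; ring
  · rw [chi1_eq_zero (by rw [le_div_iff₀ hp]; linarith [not_lt.mp h1])]; ring

theorem chi_eq_one {lam Qs de ep ga : ℝ} (hl : 0 < lam) (hQ : 0 < Qs) (hde : 0 < de)
    (h : ¬ Ereg lam Qs de ep ga) : chi lam Qs de ep ga = 1 := by
  unfold Ereg at h
  push Not at h
  unfold chi
  have hp : 0 < lam * de ^ 2 := by positivity
  rw [chi1_eq_one (by rw [div_le_iff₀ hp]; linarith [h.1]),
    chi2_eq_one (by rw [le_div_iff₀ hQ]; linarith [h.2])]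
  ring


/-! ### The geometric rate -/

theorem le_of_sq_le_sq' {x y : ℝ} (h : x ^ 2 ≤ y ^ 2) (hy : 0 ≤ y) : x ≤ y :=
  (abs_le_of_sq_le_sq' h hy).2

theorem lt_of_sq_lt_sq' {x y : ℝ} (h : x ^ 2 < y ^ 2) (hy : 0 ≤ y) : x < y :=
  lt_of_pow_lt_pow_left₀ 2 hy h

/-- `R * (geometric part of d/dtau log(eps/delta^2))`. -/
noncomputable def brk (de ep D gi Gi : ℝ) : ℝ :=
  3 * D / de - gi / ep + ep / de - 1 - 2 * ep * Gi / de ^ 2

theorem brk_bound {de ep D gi Gi : ℝ} (hde : 0 < de) (hep : 0 < ep) (hD0 : 0 ≤ D)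
    (hD : D ≤ (√de + √ep) ^ 2) (hg0 : 0 ≤ gi) (hg1 : gi ≤ 2 * ep) (hg2 : gi ≤ 2 * D)
    (hG0 : 0 ≤ Gi) (hG1 : Gi ≤ 2 * de) (hG2 : Gi ≤ 2 * D)
    (hdiff : |ep - de| ≤ 2 * √(de * D) + D) :
    √(de / ep) * |brk de ep D gi Gi| ≤
      200 * (if 4 * ep ≤ de then √(de / ep) else if 4 * de ≤ ep then √(ep / de)
        else √(D / de)) := by
  set a := √de with ha
  set b := √ep with hb
  have ha0 : 0 < a := Real.sqrt_pos.mpr hde
  have hb0 : 0 < b := Real.sqrt_pos.mpr hep
  have hda : de = a ^ 2 := (Real.sq_sqrt hde.le).symm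
  have hdb : ep = b ^ 2 := (Real.sq_sqrt hep.le).symm
  have hab : √(de / ep) = a / b := by rw [Real.sqrt_div hde.le]
  have hba : √(ep / de) = b / a := by rw [Real.sqrt_div hep.le]
  set r := √D with hr
  have hr0 : 0 ≤ r := Real.sqrt_nonneg _
  have hDr : D = r ^ 2 := (Real.sq_sqrt hD0).symm
  have hDa : √(D / de) = r / a := by rw [Real.sqrt_div hD0]
  have hdD : √(de * D) = a * r := by rw [Real.sqrt_mul hde.le]
  rw [hab, hba, hDa]
  rw [hdD] at hdiff
  clear_value a b r
  subst hda hdb hDr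
  have hab0 : 0 < a / b := by positivity
  have hrab : r ≤ a + b := by
    have := abs_le_of_sq_le_sq' hD (by positivity)
    exact this.2
  -- bounds of the five terms
  have e1 : |brk (a ^ 2) (b ^ 2) (r ^ 2) gi Gi| ≤
      3 * r ^ 2 / a ^ 2 + gi / b ^ 2 + |b ^ 2 - a ^ 2| / a ^ 2 + 2 * b ^ 2 * Gi / (a ^ 2) ^ 2 := by
    unfold brk
    have h1 : 3 * r ^ 2 / a ^ 2 - gi / b ^ 2 + b ^ 2 / a ^ 2 - 1 - 2 * b ^ 2 * Gi / (a ^ 2) ^ 2
        = 3 * r ^ 2 / a ^ 2 - gi / b ^ 2 + (b ^ 2 - a ^ 2) / a ^ 2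
          - 2 * b ^ 2 * Gi / (a ^ 2) ^ 2 := by
      field_simp
      ring
    rw [h1]
    have t1 : 0 ≤ 3 * r ^ 2 / a ^ 2 := by positivity
    have t2 : 0 ≤ gi / b ^ 2 := by positivity
    have t4 : 0 ≤ 2 * b ^ 2 * Gi / (a ^ 2) ^ 2 := by positivity
    have t3 : |(b ^ 2 - a ^ 2) / a ^ 2| = |b ^ 2 - a ^ 2| / a ^ 2 := by
      rw [abs_div, abs_of_pos (show (0:ℝ) < a ^ 2 by positivity)]
    rw [← t3]
    have t5 := abs_le.mp (le_refl |(b ^ 2 - a ^ 2) / a ^ 2|)
    rw [abs_le]
    constructor <;> linarith [t5.1, t5.2]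
  refine (mul_le_mul_of_nonneg_left e1 hab0.le).trans ?_
  split_ifs with h1 h2
  · -- zone 1 : 2 b <= a
    have hab2 : 2 * b ≤ a :=
      le_of_sq_le_sq' (by have : (2 * b) ^ 2 = 4 * b ^ 2 := by ring
                          linarith) ha0.le
    have x1 : 3 * r ^ 2 / a ^ 2 ≤ 7 := by
      rw [div_le_iff₀ (by positivity)]
      have h5 : r ^ 2 ≤ (3 / 2 * a) ^ 2 := pow_le_pow_left₀ hr0 (by linarith) 2
      have h6 : (3 / 2 * a) ^ 2 = 9 / 4 * a ^ 2 := by ring
      have h7 : 0 ≤ a ^ 2 := by positivity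
      linarith
    have x2 : gi / b ^ 2 ≤ 2 := by
      rw [div_le_iff₀ (by positivity)]; linarith
    have hb2 : 0 < b ^ 2 := by positivity
    have x3 : |b ^ 2 - a ^ 2| / a ^ 2 ≤ 1 := by
      rw [div_le_iff₀ (by positivity), abs_le]; constructor <;> linarith
    have x4 : 2 * b ^ 2 * Gi / (a ^ 2) ^ 2 ≤ 1 := by
      rw [div_le_iff₀ (by positivity)]
      have h5 : 2 * b ^ 2 * Gi ≤ 2 * b ^ 2 * (2 * a ^ 2) :=
        mul_le_mul_of_nonneg_left hG1 (by positivity)
      have h6 : 4 * b ^ 2 * a ^ 2 ≤ a ^ 2 * a ^ 2 :=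
        mul_le_mul_of_nonneg_right h1 (by positivity)
      have h7 : (a ^ 2) ^ 2 = a ^ 2 * a ^ 2 := by ring
      rw [h7]
      linarith
    have : a / b * (3 * r ^ 2 / a ^ 2 + gi / b ^ 2 + |b ^ 2 - a ^ 2| / a ^ 2
        + 2 * b ^ 2 * Gi / (a ^ 2) ^ 2) ≤ a / b * 11 :=
      mul_le_mul_of_nonneg_left (by linarith) hab0.le
    linarith
  · -- zone 2 : 2 a <= b
    have hab2 : 2 * a ≤ b :=
      le_of_sq_le_sq' (by have : (2 * a) ^ 2 = 4 * a ^ 2 := by ring
                          linarith) hb0.le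
    have hb2 : 0 < b ^ 2 := by positivity
    have ha2 : 0 < a ^ 2 := by positivity
    set w := b ^ 2 / a ^ 2 with hw
    have hw0 : 0 < w := by positivity
    have hw4 : 4 ≤ w := by
      rw [hw, le_div_iff₀ (by positivity)]; linarith
    have x1 : 3 * r ^ 2 / a ^ 2 ≤ 7 * w := by
      rw [hw, div_le_iff₀ (by positivity), mul_assoc, div_mul_cancel₀ _ (by positivity)]
      have h5 : r ^ 2 ≤ (3 / 2 * b) ^ 2 := pow_le_pow_left₀ hr0 (by linarith) 2
      have h6 : (3 / 2 * b) ^ 2 = 9 / 4 * b ^ 2 := by ring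
      linarith
    have x2 : gi / b ^ 2 ≤ w := by
      have : gi / b ^ 2 ≤ 2 := by
        rw [div_le_iff₀ (by positivity)]; linarith
      linarith
    have x3 : |b ^ 2 - a ^ 2| / a ^ 2 ≤ w := by
      rw [hw]
      apply div_le_div_of_nonneg_right _ (by positivity)
      rw [abs_le]; constructor <;> linarith
    have x4 : 2 * b ^ 2 * Gi / (a ^ 2) ^ 2 ≤ 4 * w := by
      rw [hw, div_le_iff₀ (by positivity)]
      have e : 4 * (b ^ 2 / a ^ 2) * (a ^ 2) ^ 2 = 4 * b ^ 2 * a ^ 2 := by field_simp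
      rw [e]
      have h5 : 2 * b ^ 2 * Gi ≤ 2 * b ^ 2 * (2 * a ^ 2) :=
        mul_le_mul_of_nonneg_left hG1 (by positivity)
      linarith
    have hfin : a / b * w = b / a := by rw [hw]; field_simp
    have : a / b * (3 * r ^ 2 / a ^ 2 + gi / b ^ 2 + |b ^ 2 - a ^ 2| / a ^ 2
        + 2 * b ^ 2 * Gi / (a ^ 2) ^ 2) ≤ a / b * (13 * w) :=
      mul_le_mul_of_nonneg_left (by linarith) hab0.le
    have h3 : a / b * (13 * w) = 13 * (b / a) := by rw [← hfin]; ring
    have h4 : 0 < b / a := by positivity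
    linarith
  · -- zone 3
    have h1' : a < 2 * b := lt_of_sq_lt_sq' (by
      have : (2 * b) ^ 2 = 4 * b ^ 2 := by ring
      linarith [not_le.mp h1]) (by positivity)
    have h2' : b < 2 * a := lt_of_sq_lt_sq' (by
      have : (2 * a) ^ 2 = 4 * a ^ 2 := by ring
      linarith [not_le.mp h2]) (by positivity)
    have ha2 : 0 < a ^ 2 := by positivity
    have hb2 : 0 < b ^ 2 := by positivity
    set w := r / a with hw
    have hw0 : 0 ≤ w := by positivity
    have hrw : r = w * a := by rw [hw]; field_simp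
    have hw3 : w ≤ 3 := by
      rw [hw, div_le_iff₀ ha0]; linarith
    have x1 : 3 * r ^ 2 / a ^ 2 ≤ 9 * w := by
      have h5 : 3 * r ^ 2 / a ^ 2 = 3 * (w * w) := by rw [hw]; field_simp
      have h6 : w * w ≤ 3 * w := mul_le_mul_of_nonneg_right hw3 hw0
      rw [h5]; linarith
    have x2 : gi / b ^ 2 ≤ 24 * w := by
      rw [div_le_iff₀ (by positivity)]
      have e : 24 * w * b ^ 2 ≥ 2 * r ^ 2 := by
        rw [hrw]
        have h4 : w ^ 2 ≤ 3 * w := by
          have := mul_le_mul_of_nonneg_right hw3 hw0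
          have e2 : w ^ 2 = w * w := sq w
          linarith
        have h5 : a ^ 2 ≤ 4 * b ^ 2 := by linarith [not_le.mp h1]
        have h6 : (w * a) ^ 2 ≤ (3 * w) * (4 * b ^ 2) := by
          rw [mul_pow]
          exact mul_le_mul h4 h5 (by positivity) (by positivity)
        have h7 : 24 * w * b ^ 2 = 2 * ((3 * w) * (4 * b ^ 2)) := by ring
        linarith
      linarith
    have x3 : |b ^ 2 - a ^ 2| / a ^ 2 ≤ 5 * w := by
      rw [div_le_iff₀ (by positivity)]
      refine hdiff.trans ?_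
      rw [hrw]
      have h5 := mul_nonneg (mul_nonneg hw0 ha2.le) (sub_nonneg.mpr hw3)
      have h6 : w * a ^ 2 * (3 - w) = 3 * w * a ^ 2 - (w * a) ^ 2 := by ring
      have h7 : 2 * (a * (w * a)) = 2 * w * a ^ 2 := by ring
      rw [h6] at h5
      linarith
    have x4 : 2 * b ^ 2 * Gi / (a ^ 2) ^ 2 ≤ 48 * w := by
      rw [div_le_iff₀ (by positivity)]
      have h5 : b ^ 2 ≤ 4 * a ^ 2 := by linarith [not_le.mp h2]
      have h6 : 2 * b ^ 2 * Gi ≤ 2 * (4 * a ^ 2) * (2 * r ^ 2) := by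
        apply mul_le_mul _ hG2 hG0 (by positivity)
        linarith
      refine h6.trans ?_
      rw [hrw]
      have h4 : w ^ 2 ≤ 3 * w := by
        have := mul_le_mul_of_nonneg_right hw3 hw0
        have e2 : w ^ 2 = w * w := sq w
        linarith
      have h7 : 2 * (4 * a ^ 2) * (2 * (w * a) ^ 2) = 16 * (w ^ 2 * (a ^ 2) ^ 2) := by ring
      have h8 := mul_le_mul_of_nonneg_right h4 (show (0:ℝ) ≤ (a ^ 2) ^ 2 by positivity)
      have h9 : 48 * w * (a ^ 2) ^ 2 = 16 * (3 * w * (a ^ 2) ^ 2) := by ring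
      rw [h7, h9]
      linarith
    have hab3 : a / b ≤ 2 := by rw [div_le_iff₀ hb0]; linarith
    calc a / b * (3 * r ^ 2 / a ^ 2 + gi / b ^ 2 + |b ^ 2 - a ^ 2| / a ^ 2
        + 2 * b ^ 2 * Gi / (a ^ 2) ^ 2) ≤ 2 * (86 * w) :=
          mul_le_mul hab3 (by linarith) (by positivity) (by norm_num)
      _ ≤ 200 * w := by linarith

theorem brk_kcut {de ep D gi Gi R : ℝ} (hde : 0 < de) (hep : 0 < ep) (hD0 : 0 ≤ D)
    (hD : D ≤ (√de + √ep) ^ 2) (hg0 : 0 ≤ gi) (hg1 : gi ≤ 2 * ep) (hg2 : gi ≤ 2 * D)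
    (hG0 : 0 ≤ Gi) (hG1 : Gi ≤ 2 * de) (hG2 : Gi ≤ 2 * D)
    (hdiff : |ep - de| ≤ 2 * √(de * D) + D) (hR : 0 < R) :
    √(de / ep) / R * (|brk de ep D gi Gi| / R) ≤ 200 * kcut de ep D R := by
  have h := brk_bound hde hep hD0 hD hg0 hg1 hg2 hG0 hG1 hG2 hdiff
  have e1 : √(de / ep) / R * (|brk de ep D gi Gi| / R)
      = (√(de / ep) * |brk de ep D gi Gi|) / R ^ 2 := by field_simp
  rw [e1]
  unfold kcut
  rw [← mul_div_assoc]
  exact div_le_div_of_nonneg_right h (by positivity)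

/-! ### The derivative of `chi * G` along the pair -/

/-- the derivative in `s` of `chi` along the pair: `Ld` is `d/ds log(eps/delta^2)` and `gdot` is
`d gamma/ds`. -/
noncomputable def dchi (lam Qs de ep ga Ld gdot : ℝ) : ℝ :=
  dchi1 (ep / (lam * de ^ 2)) * (ep / (lam * de ^ 2) * Ld) * chi2 (ga / Qs)
    + chi1 (ep / (lam * de ^ 2)) * (dchi2 (ga / Qs) * (gdot / Qs))

theorem hasDerivAt_chi {lam Qs : ℝ} (hl : 0 < lam) {de ep ga : ℝ → ℝ}
    {s de' ep' ga' : ℝ} (hde0 : 0 < de s) (hep0 : 0 < ep s)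
    (hde : HasDerivAt de de' s) (hep : HasDerivAt ep ep' s) (hga : HasDerivAt ga ga' s) :
    HasDerivAt (fun t => chi lam Qs (de t) (ep t) (ga t))
      (dchi lam Qs (de s) (ep s) (ga s) (ep' / ep s - 2 * de' / de s) ga') s := by
  have hq : HasDerivAt (fun t => ep t / (lam * de t ^ 2))
      (ep s / (lam * de s ^ 2) * (ep' / ep s - 2 * de' / de s)) s := by
    have h0 : HasDerivAt (fun t => lam * de t ^ 2) (lam * (2 * de s * de')) s := by
      refine (((hde.fun_pow 2).const_mul lam)).congr_deriv ?_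
      norm_num
    have h1 := hep.fun_div h0 (by positivity)
    refine h1.congr_deriv ?_
    field_simp
  have h1 := (hasDerivAt_chi1 (ep s / (lam * de s ^ 2))).comp s hq
  have h2 := (hasDerivAt_chi2 (ga s / Qs)).comp s (hga.div_const Qs)
  have h3 := h1.mul h2
  exact h3

/-- the remainder `W` of the conjugate identity multiplied by the cut-off. -/
noncomputable def Wrem {E : Type*} [AddCommGroup E] [Module ℝ E]
    (lam Qs de ep ga Ld gdot : ℝ) (G KC' : E) : E :=
  chi lam Qs de ep ga • ((de / ep) • KC') - dchi lam Qs de ep ga Ld gdot • G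

theorem hasDerivAt_chi_smul {E : Type*} [NormedAddCommGroup E] [NormedSpace ℝ E]
    {lam Qs : ℝ} (hl : 0 < lam) {de ep ga : ℝ → ℝ} {G : ℝ → E}
    {s de' ep' ga' : ℝ} {K KC' : E} (hde0 : 0 < de s) (hep0 : 0 < ep s)
    (hde : HasDerivAt de de' s) (hep : HasDerivAt ep ep' s) (hga : HasDerivAt ga ga' s)
    (hG : HasDerivAt G ((ep s)⁻¹ • K - (de s / ep s) • KC') s) :
    HasDerivAt (fun t => chi lam Qs (de t) (ep t) (ga t) • G t)
      (chi lam Qs (de s) (ep s) (ga s) • ((ep s)⁻¹ • K)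
        - Wrem lam Qs (de s) (ep s) (ga s) (ep' / ep s - 2 * de' / de s) ga' (G s) KC') s := by
  have h1 := (hasDerivAt_chi (Qs := Qs) hl hde0 hep0 hde hep hga).smul hG
  refine h1.congr_deriv ?_
  unfold Wrem
  rw [smul_sub]
  abel

theorem dchi_eq_zero_of_not_Creg {lam Qs de ep ga Ld gdot : ℝ} (hl : 0 < lam) (hQ : 0 < Qs)
    (hde : 0 < de) (h : ¬ Creg lam Qs de ep ga) : dchi lam Qs de ep ga Ld gdot = 0 := by
  unfold Creg at h
  unfold dchi
  have hp : 0 < lam * de ^ 2 := by positivity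
  by_cases h1 : ep < 2 * lam * de ^ 2
  · have h2 : ga ≤ Qs / 2 := by
      by_contra hh; exact h ⟨h1, not_le.mp hh⟩
    have h3 : ga / Qs ≤ 1 / 2 := by rw [div_le_iff₀ hQ]; linarith
    rw [chi2_eq_zero h3, dchi2_eq_zero (by intro hh; linarith [hh.1])]; ring
  · have h3 : 2 ≤ ep / (lam * de ^ 2) := by rw [le_div_iff₀ hp]; linarith [not_lt.mp h1]
    rw [chi1_eq_zero h3, dchi1_eq_zero (by intro hh; linarith [hh.2])]; ring

theorem Wrem_eq_zero_of_not_Creg {E : Type*} [AddCommGroup E] [Module ℝ E]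
    {lam Qs de ep ga Ld gdot : ℝ} {G KC' : E} (hl : 0 < lam) (hQ : 0 < Qs)
    (hde : 0 < de) (h : ¬ Creg lam Qs de ep ga) : Wrem lam Qs de ep ga Ld gdot G KC' = 0 := by
  unfold Wrem
  rw [chi_eq_zero hl hQ hde h, dchi_eq_zero_of_not_Creg hl hQ hde h]; simp

open Classical in
/-- **The bound of the remainder.** -/
theorem ep_norm_Wrem_le {E : Type*} [NormedAddCommGroup E] [NormedSpace ℝ E]
    {lam Qs : ℝ} (hl : 0 < lam) (hQ : 0 < Qs) {de ep ga D R gi Gi nA na gd Ga Fs Ft CG cn : ℝ}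
    {G KC' : E} (hde : 0 < de) (hep : 0 < ep) (hep2 : ep ≤ 2) (hga : 0 < ga) (hGa : 0 < Ga)
    (hR : 0 < R) (hD0 : 0 ≤ D)
    (hD : D ≤ (√de + √ep) ^ 2) (hg0 : 0 ≤ gi) (hg1 : gi ≤ 2 * ep) (hg2 : gi ≤ 2 * D)
    (hG0 : 0 ≤ Gi) (hG1 : Gi ≤ 2 * de) (hG2 : Gi ≤ 2 * D)
    (hdiff : |ep - de| ≤ 2 * √(de * D) + D)
    (hFs : 0 ≤ Fs) (hFt : 0 ≤ Ft) (hCG : 0 ≤ CG) (hcn : 0 ≤ cn)
    (hna : |na| ≤ cn * (√ep * Fs / ga)) (hnA : |nA| ≤ cn * (√de * Ft / Ga)) (hgd : |gd| ≤ Fs)
    (hGn : ‖G‖ ≤ CG / (√(de * ep) * R)) :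
    ep * ‖Wrem lam Qs de ep ga
        (((D - gi * de / ep - ep + de) / R - de / ep * na) / ep
          - 2 * ((Gi - de - D * de / ep + de ^ 2 / ep) / R - nA) / de)
        (de / ep * gd) G KC'‖ ≤
      (if Creg lam Qs de ep ga then de * ‖KC'‖ else 0)
      + CG * stC * ((if Breg lam Qs de ep ga then
          400 * kcut de ep D R + 2 * cn * (kS ga de ep R * Fs) + 4 * cn * (kC Ga de ep R * Ft)
          else 0)
        + (if Creg lam Qs de ep ga ∧ Ereg lam Qs de ep ga then 4 * (kS ga de ep R * Fs) else 0)) := by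
  have hst := one_le_stC
  by_cases hC : Creg lam Qs de ep ga
  swap
  · rw [Wrem_eq_zero_of_not_Creg hl hQ hde hC, norm_zero, mul_zero, if_neg hC,
      if_neg (fun h : Breg lam Qs de ep ga => hC ⟨h.2.1, h.2.2⟩), if_neg (fun h => hC h.1)]
    simp
  rw [if_pos hC]
  have hsq : √(de * ep) = √de * √ep := Real.sqrt_mul hde.le _
  set a := √de with ha
  set b := √ep with hb
  have ha0 : 0 < a := Real.sqrt_pos.mpr hde
  have hb0 : 0 < b := Real.sqrt_pos.mpr hep
  have hda : de = a ^ 2 := (Real.sq_sqrt hde.le).symm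
  have hdb : ep = b ^ 2 := (Real.sq_sqrt hep.le).symm
  have hab : √(de / ep) = a / b := by rw [Real.sqrt_div hde.le]
  set Λ : ℝ := brk de ep D gi Gi / R - na / ep + 2 * ep * nA / de ^ 2 with hΛ
  have hLd : ((D - gi * de / ep - ep + de) / R - de / ep * na) / ep
          - 2 * ((Gi - de - D * de / ep + de ^ 2 / ep) / R - nA) / de = de / ep * Λ := by
    rw [hΛ]; unfold brk
    field_simp
    ring
  rw [hLd]
  -- bound of `de * |Λ| * ‖G‖`
  have hΛb : de * |Λ| * ‖G‖ ≤ CG * (200 * kcut de ep D R + cn * (kS ga de ep R * Fs)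
      + 2 * cn * (kC Ga de ep R * Ft)) := by
    have h1 : |Λ| ≤ |brk de ep D gi Gi| / R + |na| / ep + 2 * ep * |nA| / de ^ 2 := by
      have e1 : |brk de ep D gi Gi / R| = |brk de ep D gi Gi| / R := by
        rw [abs_div, abs_of_pos hR]
      have e2 : |na / ep| = |na| / ep := by rw [abs_div, abs_of_pos hep]
      have e3 : |2 * ep * nA / de ^ 2| = 2 * ep * |nA| / de ^ 2 := by
        rw [abs_div, abs_mul, abs_of_pos (show (0:ℝ) < 2 * ep by positivity),
          abs_of_pos (show (0:ℝ) < de ^ 2 by positivity)]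
      rw [hΛ, ← e1, ← e2, ← e3]
      calc _ ≤ |brk de ep D gi Gi / R - na / ep| + |2 * ep * nA / de ^ 2| := abs_add_le _ _
        _ ≤ _ := by gcongr; exact abs_sub _ _
    have h2 : de * ‖G‖ ≤ CG * (a / b / R) := by
      calc de * ‖G‖ ≤ de * (CG / (√(de * ep) * R)) := mul_le_mul_of_nonneg_left hGn hde.le
        _ = CG * (a / b / R) := by
          rw [hsq, hda]; field_simp
    have h3 : a / b / R * (|brk de ep D gi Gi| / R) ≤ 200 * kcut de ep D R := by
      have := brk_kcut (R := R) hde hep hD0 hD hg0 hg1 hg2 hG0 hG1 hG2 hdiff hR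
      rwa [hab] at this
    have h4 : a / b / R * (|na| / ep) ≤ cn * (kS ga de ep R * Fs) := by
      calc a / b / R * (|na| / ep) ≤ a / b / R * (cn * (b * Fs / ga) / ep) := by gcongr
        _ = cn * (kS ga de ep R * Fs) := by
          unfold kS; rw [← ha, hdb]; field_simp
    have h5 : a / b / R * (2 * ep * |nA| / de ^ 2) ≤ 2 * cn * (kC Ga de ep R * Ft) := by
      calc a / b / R * (2 * ep * |nA| / de ^ 2)
          ≤ a / b / R * (2 * ep * (cn * (a * Ft / Ga)) / de ^ 2) := by gcongr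
        _ = 2 * cn * (kC Ga de ep R * Ft) := by
          unfold kC; rw [← hb, hda, hdb]; field_simp
    calc de * |Λ| * ‖G‖ = (de * ‖G‖) * |Λ| := by ring
      _ ≤ CG * (a / b / R) * (|brk de ep D gi Gi| / R + |na| / ep + 2 * ep * |nA| / de ^ 2) :=
          mul_le_mul h2 h1 (abs_nonneg _) (by positivity)
      _ = CG * (a / b / R * (|brk de ep D gi Gi| / R) + a / b / R * (|na| / ep)
            + a / b / R * (2 * ep * |nA| / de ^ 2)) := by ring
      _ ≤ _ := by gcongr
  have hkS : 0 ≤ kS ga de ep R * Fs := by unfold kS; positivity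
  have hkC : 0 ≤ kC Ga de ep R * Ft := by unfold kC; positivity
  have hkcut : 0 ≤ kcut de ep D R := by
    unfold kcut
    apply div_nonneg _ (by positivity)
    split_ifs <;> exact Real.sqrt_nonneg _
  have hp : 0 < lam * de ^ 2 := by positivity
  set q := ep / (lam * de ^ 2) with hq
  have hq0 : 0 < q := by positivity
  have hq2 : q < 2 := by rw [hq, div_lt_iff₀ hp]; linarith [hC.1]
  -- first part of dchi
  have hT1 : ep * |dchi1 q * (q * (de / ep * Λ)) * chi2 (ga / Qs)| * ‖G‖ ≤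
      CG * stC * (if Breg lam Qs de ep ga then
          400 * kcut de ep D R + 2 * cn * (kS ga de ep R * Fs) + 4 * cn * (kC Ga de ep R * Ft)
          else 0) := by
    by_cases hB : Breg lam Qs de ep ga
    · rw [if_pos hB, abs_mul, abs_mul, abs_mul, abs_mul, abs_of_pos hq0,
        abs_of_pos (show (0:ℝ) < de / ep by positivity), abs_of_nonneg (chi2_nonneg _)]
      calc ep * (|dchi1 q| * (q * (de / ep * |Λ|)) * chi2 (ga / Qs)) * ‖G‖
          = (|dchi1 q| * q * chi2 (ga / Qs)) * (de * |Λ| * ‖G‖) := by field_simp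
        _ ≤ (stC * 2 * 1) * (CG * (200 * kcut de ep D R + cn * (kS ga de ep R * Fs)
              + 2 * cn * (kC Ga de ep R * Ft))) := by
            apply mul_le_mul _ hΛb (by positivity) (by positivity)
            apply mul_le_mul _ (chi2_le_one _) (chi2_nonneg _) (by positivity)
            exact mul_le_mul (abs_dchi1_le _) hq2.le hq0.le (by positivity)
        _ = _ := by ring
    · rw [if_neg hB]
      have : dchi1 q = 0 := by
        apply dchi1_eq_zero
        rintro ⟨h1, h2⟩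
        apply hB
        refine ⟨?_, hC.1, hC.2⟩
        rw [hq, lt_div_iff₀ hp] at h1
        linarith
      rw [this]; simp
  have hT2 : ep * |chi1 q * (dchi2 (ga / Qs) * (de / ep * gd / Qs))| * ‖G‖ ≤
      CG * stC * (if Creg lam Qs de ep ga ∧ Ereg lam Qs de ep ga then
        4 * (kS ga de ep R * Fs) else 0) := by
    by_cases hE : ga < Qs
    · rw [if_pos ⟨hC, Or.inr hE⟩, abs_mul, abs_mul, abs_div, abs_mul,
        abs_of_nonneg (chi1_nonneg _), abs_of_pos (show (0:ℝ) < de / ep by positivity),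
        abs_of_pos hQ]
      have hb2 : b ≤ 2 := by
        have : b ^ 2 ≤ 2 ^ 2 := by rw [← hdb]; linarith
        exact le_of_sq_le_sq' this (by norm_num)
      calc ep * (chi1 q * (|dchi2 (ga / Qs)| * (de / ep * |gd| / Qs))) * ‖G‖
          = chi1 q * |dchi2 (ga / Qs)| * ((de * ‖G‖) * (|gd| / Qs)) := by field_simp
        _ ≤ 1 * (2 * stC) * ((CG * (a / b / R)) * (Fs / ga)) := by
            have h2 : de * ‖G‖ ≤ CG * (a / b / R) := by
              calc de * ‖G‖ ≤ de * (CG / (√(de * ep) * R)) := mul_le_mul_of_nonneg_left hGn hde.le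
                _ = CG * (a / b / R) := by
                  rw [hsq, hda]; field_simp
            have h3 : |gd| / Qs ≤ Fs / ga := by
              apply div_le_div₀ hFs hgd hga hE.le
            apply mul_le_mul _ (mul_le_mul h2 h3 (by positivity) (by positivity))
              (by positivity) (by positivity)
            exact mul_le_mul (chi1_le_one _) (abs_dchi2_le _) (abs_nonneg _) (by norm_num)
        _ = CG * stC * (2 * b * (kS ga de ep R * Fs)) := by
            unfold kS; rw [← ha, hdb]; field_simp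
        _ ≤ CG * stC * (4 * (kS ga de ep R * Fs)) := by
            have h6 : 2 * b * (kS ga de ep R * Fs) ≤ 4 * (kS ga de ep R * Fs) :=
              mul_le_mul_of_nonneg_right (by linarith) hkS
            exact mul_le_mul_of_nonneg_left h6 (by positivity)
    · have : dchi2 (ga / Qs) = 0 := by
        apply dchi2_eq_zero
        rintro ⟨h1, h2⟩
        rw [div_lt_one hQ] at h2
        exact hE h2
      rw [this]
      simp only [zero_mul, mul_zero, abs_zero]
      split_ifs <;> positivity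
  calc ep * ‖Wrem lam Qs de ep ga (de / ep * Λ) (de / ep * gd) G KC'‖
      ≤ ep * (‖chi lam Qs de ep ga • ((de / ep) • KC')‖
          + ‖dchi lam Qs de ep ga (de / ep * Λ) (de / ep * gd) • G‖) := by
        unfold Wrem
        exact mul_le_mul_of_nonneg_left (norm_sub_le _ _) hep.le
    _ = chi lam Qs de ep ga * (de * ‖KC'‖)
        + ep * |dchi lam Qs de ep ga (de / ep * Λ) (de / ep * gd)| * ‖G‖ := by
        rw [norm_smul, norm_smul, norm_smul, Real.norm_of_nonneg (chi_nonneg _ _ _ _ _),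
          Real.norm_of_nonneg (show (0:ℝ) ≤ de / ep by positivity), Real.norm_eq_abs]
        field_simp
    _ ≤ de * ‖KC'‖ + (ep * |dchi1 q * (q * (de / ep * Λ)) * chi2 (ga / Qs)| * ‖G‖
        + ep * |chi1 q * (dchi2 (ga / Qs) * (de / ep * gd / Qs))| * ‖G‖) := by
        apply add_le_add
        · exact mul_le_of_le_one_left (by positivity) (chi_le_one _ _ _ _ _)
        · rw [← add_mul, ← mul_add]
          apply mul_le_mul_of_nonneg_right _ (norm_nonneg _)
          apply mul_le_mul_of_nonneg_left _ hep.le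
          exact abs_add_le _ _
    _ ≤ _ := by
        have h7 := add_le_add hT1 hT2
        rw [← mul_add] at h7
        exact add_le_add le_rfl h7

end Crest.Agent.R106.Mix
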