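import Mathlib
import Crest.Agent.R106.MomIface
import Crest.Agent.R106.PairDer
import Crest.Agent.R106.MixOne
import Crest.Agent.R106.MixInt
import Crest.Agent.R106.ConeMu
import Crest.Agent.R106.SolTo

-- ▼ part R106/MixAbs
section

/-!
Row 106, module MIX, abstract part: integration of the mixed representation.

`Z` is the space of particle labels with measure `m` (`f₀ dz`).  `k s z` is the retarded kernel of
the particle `z` divided by `ε` (and `0` if the particle does not meet the backward cone of the test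
particle at time `s`), `χ` is the cut-off, `Y = χ G` the boundary density, `W` the remainder of the
conjugate identity.
-/

set_option autoImplicit false
open MeasureTheory Set Filter Topology
open scoped ENNReal

namespace Crest.Agent.R106.Mix

variable {Z : Type*} [MeasurableSpace Z] {m : Measure Z}
variable {V : Type*} [NormedAddCommGroup V] [NormedSpace ℝ V] [CompleteSpace V]

/-- the one-label fundamental theorem of calculus on `[s1, s2]`, up to a countable set. -/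
theorem ftc_label {s1 s2 : ℝ} (h12 : s1 ≤ s2) {Y y' : ℝ → V}
    (hc : ContinuousOn Y (Icc s1 s2)) {c : Set ℝ} (hcc : c.Countable)
    (hd : ∀ s ∈ Ioo s1 s2 \ c, HasDerivAt Y (y' s) s)
    (hi : IntegrableOn y' (Icc s1 s2)) :
    ∫ s in Icc s1 s2, y' s = Y s2 - Y s1 := by
  have h := MeasureTheory.integral_eq_of_hasDerivAt_off_countable Y y' (a := s1) (b := s2)
    hcc (by rwa [uIcc_of_le h12])
    (by rw [min_eq_left h12, max_eq_right h12]; exact hd)
    ((intervalIntegrable_iff_integrableOn_Icc_of_le h12).2 hi)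
  rw [← h, intervalIntegral.integral_of_le h12, integral_Icc_eq_integral_Ioc]

/-- **Abstract mixed representation.** -/
theorem mix_abs [SFinite m] {s1 s2 : ℝ} (h12 : s1 ≤ s2)
    (F Fdat : ℝ → V) (k W Y : ℝ → Z → V) (χ : ℝ → Z → ℝ) (κ : ℝ) (hκ : 0 ≤ κ)
    (hχ : ∀ s z, 0 ≤ χ s z ∧ χ s z ≤ 1)
    (hF : ∀ᵐ s ∂(volume.restrict (Icc s1 s2)), F s = Fdat s + κ • ∫ z, k s z ∂m)
    (hdat : IntegrableOn Fdat (Icc s1 s2))
    (hk : Integrable (fun p : ℝ × Z => k p.1 p.2) ((volume.restrict (Icc s1 s2)).prod m))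
    (hχm : AEStronglyMeasurable (fun p : ℝ × Z => χ p.1 p.2)
      ((volume.restrict (Icc s1 s2)).prod m))
    (hW : Integrable (fun p : ℝ × Z => W p.1 p.2) ((volume.restrict (Icc s1 s2)).prod m))
    (hY1 : AEStronglyMeasurable (Y s1) m)
    (hc : ∀ᵐ z ∂m, ContinuousOn (fun s => Y s z) (Icc s1 s2))
    (hd : ∀ᵐ z ∂m, ∃ c : Set ℝ, c.Countable ∧ ∀ s ∈ Ioo s1 s2 \ c,
      HasDerivAt (fun s => Y s z) (χ s z • k s z - W s z) s) :
    ‖∫ s in Icc s1 s2, F s‖ₑ ≤ (∫⁻ s in Icc s1 s2, ‖Fdat s‖ₑ) + ENNReal.ofReal κ *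
      ((∫⁻ s in Icc s1 s2, ∫⁻ z, ENNReal.ofReal (1 - χ s z) * ‖k s z‖ₑ ∂m)
        + (∫⁻ s in Icc s1 s2, ∫⁻ z, ‖W s z‖ₑ ∂m)
        + ((∫⁻ z, ‖Y s1 z‖ₑ ∂m) + ∫⁻ z, ‖Y s2 z‖ₑ ∂m)) := by
  classical
  set μ : Measure ℝ := volume.restrict (Icc s1 s2) with hμ
  -- integrability of the two pieces
  have hχk : Integrable (fun p : ℝ × Z => χ p.1 p.2 • k p.1 p.2) (μ.prod m) := by
    refine hk.norm.mono' (hχm.smul hk.aestronglyMeasurable) (Eventually.of_forall fun p => ?_)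
    rw [norm_smul, Real.norm_of_nonneg (hχ _ _).1]
    exact mul_le_of_le_one_left (norm_nonneg _) (hχ _ _).2
  have hχk' : Integrable (fun p : ℝ × Z => (1 - χ p.1 p.2) • k p.1 p.2) (μ.prod m) := by
    have := hk.sub hχk
    refine this.congr (Eventually.of_forall fun p => ?_)
    simp only [Pi.sub_apply, sub_smul, one_smul]
  have hd' : ∀ᵐ z ∂m, ∫ s, χ s z • k s z ∂μ = (Y s2 z - Y s1 z) + ∫ s, W s z ∂μ := by
    filter_upwards [hc, hd, hχk.prod_left_ae, hW.prod_left_ae] with z hcz hdz hkz hWz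
    obtain ⟨c, hcc, hdz⟩ := hdz
    have h1 := ftc_label h12 hcz hcc hdz (hkz.sub hWz)
    have h2 : ∫ s in Icc s1 s2, (χ s z • k s z - W s z)
        = (∫ s, χ s z • k s z ∂μ) - ∫ s, W s z ∂μ := integral_sub hkz hWz
    rw [h2] at h1
    rw [← h1]; abel
  have hsplit : ∫ s, F s ∂μ = (∫ s, Fdat s ∂μ) + κ • ((∫ s, ∫ z, (1 - χ s z) • k s z ∂m ∂μ)
      + ∫ z, ∫ s, χ s z • k s z ∂μ ∂m) := by
    rw [integral_congr_ae hF]
    have e1 : ∀ᵐ s ∂μ, ∫ z, k s z ∂m = (∫ z, (1 - χ s z) • k s z ∂m) + ∫ z, χ s z • k s z ∂m := by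
      filter_upwards [hχk.prod_right_ae, hχk'.prod_right_ae] with s h1 h2
      rw [← integral_add h2 h1]
      refine integral_congr_ae (Eventually.of_forall fun z => ?_)
      simp only [sub_smul, one_smul]; abel
    have i0 : Integrable (fun s => ∫ z, k s z ∂m) μ := hk.integral_prod_left
    have i1 : Integrable (fun s => ∫ z, (1 - χ s z) • k s z ∂m) μ := hχk'.integral_prod_left
    have i2 : Integrable (fun s => ∫ z, χ s z • k s z ∂m) μ := hχk.integral_prod_left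
    have a1 : ∫ s, (Fdat s + κ • ∫ z, k s z ∂m) ∂μ
        = (∫ s, Fdat s ∂μ) + ∫ s, κ • ∫ z, k s z ∂m ∂μ := integral_add hdat (i0.smul κ)
    have a2 : ∫ s, ((∫ z, (1 - χ s z) • k s z ∂m) + ∫ z, χ s z • k s z ∂m) ∂μ
        = (∫ s, ∫ z, (1 - χ s z) • k s z ∂m ∂μ) + ∫ s, ∫ z, χ s z • k s z ∂m ∂μ :=
      integral_add i1 i2
    have a3 : ∫ s, ∫ z, χ s z • k s z ∂m ∂μ = ∫ z, ∫ s, χ s z • k s z ∂μ ∂m :=
      integral_integral_swap hχk
    rw [a1, integral_smul, integral_congr_ae e1, a2, a3]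
  rw [hsplit]
  refine (enorm_add_le _ _).trans (add_le_add (enorm_integral_le_lintegral_enorm _) ?_)
  rw [enorm_smul, Real.enorm_of_nonneg hκ]
  refine mul_le_mul_right ?_ _
  refine (enorm_add_le _ _).trans ?_
  rw [add_assoc]
  refine add_le_add ?_ ?_
  · refine (enorm_integral_le_lintegral_enorm _).trans (lintegral_mono fun s => ?_)
    refine (enorm_integral_le_lintegral_enorm _).trans (lintegral_mono fun z => ?_)
    rw [enorm_smul, Real.enorm_of_nonneg (by linarith [(hχ s z).2])]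
  · rw [integral_congr_ae hd']
    refine (enorm_integral_le_lintegral_enorm _).trans ?_
    have hb : ∀ z, ‖Y s2 z - Y s1 z + ∫ s, W s z ∂μ‖ₑ
        ≤ (‖Y s1 z‖ₑ + ‖Y s2 z‖ₑ) + ∫⁻ s, ‖W s z‖ₑ ∂μ := by
      intro z
      refine (enorm_add_le _ _).trans (add_le_add ?_ (enorm_integral_le_lintegral_enorm _))
      exact (enorm_sub_le).trans (by rw [add_comm])
    refine (lintegral_mono hb).trans ?_
    have hWm : AEMeasurable (fun z => ∫⁻ s, ‖W s z‖ₑ ∂μ) m :=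
      (hW.aestronglyMeasurable.enorm.prod_swap.lintegral_prod_right' : _)
    rw [lintegral_add_right' _ hWm, lintegral_add_left' hY1.enorm, add_comm]
    refine add_le_add (le_of_eq ?_) le_rfl
    exact lintegral_lintegral_swap (hW.aestronglyMeasurable.enorm.prod_swap)

end Crest.Agent.R106.Mix
end

-- ▼ part R106/MixDefs

/-!
# Row 106, MIX: concrete functions for the mixed representation (helper616)

Phase-space form (`q = (y, w)` a source point on the backward cone of `(s, X s)`):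
`Kq = K_T + K_S`, `Gq = G`, `KCq = K_C`, `chq = χ`, `Wq = W`.
Label form: the same functions at `q = hit Φ s (X s) z`, extended by `0` outside the set `alive` of
labels whose worldline meets the open backward cone.
-/

set_option autoImplicit false

open MeasureTheory Set Filter Topology
open Crest.AnalysisR.VecCalc3 Crest.AnalysisR.PDE.RVM
open scoped InnerProductSpace ENNReal ContDiff

noncomputable section

namespace Crest.Agent.R106.Mix

open Crest.Agent.R106.Mom (Rr ret nn dl ep Dd kap Fsrc Ftest hden bden hh bb IsChar)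
open Crest.Agent.R106.GSR (gam acc lor)

/-- phase velocity of the characteristics -/
def av (E B : ℝ → R3 → R3) (τ : ℝ) (w : R3 × R3) : R3 × R3 := (relVel w.2, lor E B τ w.1 w.2)

/-- the flow of a solution in label form -/
structure SolFlow (T : ℝ) (f₀ : R3 → R3 → ℝ) (f : ℝ → R3 → R3 → ℝ) (E B : ℝ → R3 → R3)
    (Φ Ψ : ℝ → R3 × R3 → R3 × R3) : Prop where
  L : CM.LFlow T (av E B) Φ Ψ
  hf : ∀ τ ∈ Ico 0 T, ∀ w : R3 × R3, f τ w.1 w.2 = f₀ (Ψ τ w).1 (Ψ τ w).2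

section phase

variable (E B : ℝ → R3 → R3) (lam Qs : ℝ) (X p : ℝ → R3)

/-- acceleration of the source -/
def aq (s : ℝ) (q : R3 × R3) : R3 := acc q.2 (lor E B (ret X s q.1) q.1 q.2)

/-- acceleration of the test particle -/
def At (s : ℝ) : R3 := acc (p s) (lor E B s (X s) (p s))

/-- `K_T + K_S` -/
def Kq (s : ℝ) (q : R3 × R3) : R3 :=
  Pair.KT (nn X s q.1) (relVel q.2) (relVel (p s)) (Rr X s q.1) +
    Pair.KS (nn X s q.1) (relVel q.2) (relVel (p s)) (aq E B X s q) (Rr X s q.1)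

/-- `G` -/
def Gq (s : ℝ) (q : R3 × R3) : R3 :=
  Pair.KG (nn X s q.1) (relVel q.2) (relVel (p s)) (Rr X s q.1)

/-- `K_C` -/
def KCq (s : ℝ) (q : R3 × R3) : R3 :=
  Pair.KC (nn X s q.1) (relVel q.2) (relVel (p s)) (At E B X p s) (Rr X s q.1)

/-- the cut-off `χ = χ₁(ε/(λδ²)) χ₂(γ/(2 Qs))` -/
def chq (s : ℝ) (q : R3 × R3) : ℝ :=
  chi lam (2 * Qs) (dl X p s q.1) (ep X s q.1 q.2) (gam q.2)

/-- `d/ds log(ε/δ²)` -/
def Ldq (s : ℝ) (q : R3 × R3) : ℝ :=
  (((Dd p s q.2 - (1 - ‖relVel q.2‖ ^ 2) * dl X p s q.1 / ep X s q.1 q.2 - ep X s q.1 q.2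
        + dl X p s q.1) / Rr X s q.1
      - dl X p s q.1 / ep X s q.1 q.2 * ⟪nn X s q.1, aq E B X s q⟫_ℝ) / ep X s q.1 q.2
    - 2 * (((1 - ‖relVel (p s)‖ ^ 2) - dl X p s q.1
        - Dd p s q.2 * dl X p s q.1 / ep X s q.1 q.2
        + dl X p s q.1 ^ 2 / ep X s q.1 q.2) / Rr X s q.1
      - ⟪nn X s q.1, At E B X p s⟫_ℝ) / dl X p s q.1)

/-- `d γ/ds` of the source -/
def gdq (s : ℝ) (q : R3 × R3) : ℝ :=
  dl X p s q.1 / ep X s q.1 q.2 * ⟪relVel q.2, lor E B (ret X s q.1) q.1 q.2⟫_ℝ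

/-- the remainder `W` -/
def Wq (s : ℝ) (q : R3 × R3) : R3 :=
  Wrem lam (2 * Qs) (dl X p s q.1) (ep X s q.1 q.2) (gam q.2) (Ldq E B X p s q)
    (gdq E B X p s q) (Gq X p s q) (KCq E B X p s q)

end phase

section label

variable (E B : ℝ → R3 → R3) (lam Qs : ℝ) (X p : ℝ → R3) (Φ : ℝ → R3 × R3 → R3 × R3)

/-- labels whose worldline meets the open backward cone of `(s, X s)` -/
def alive (s : ℝ) : Set (R3 × R3) := {z | ‖X s - z.1‖ < s}

/-- label measure `f₀ dz` -/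
def mlab (f₀ : R3 → R3 → ℝ) : Measure (R3 × R3) :=
  (volume : Measure (R3 × R3)).withDensity (fun z => ENNReal.ofReal (f₀ z.1 z.2))

/-- source point of the label `z` seen from `(s, X s)` -/
def qz (s : ℝ) (z : R3 × R3) : R3 × R3 := CM.hit Φ s (X s) z

/-- `(K_T + K_S)/ε` -/
def kz (s : ℝ) : R3 × R3 → R3 :=
  (alive X s).indicator fun z =>
    (ep X s (qz X Φ s z).1 (qz X Φ s z).2)⁻¹ • Kq E B X p s (qz X Φ s z)

/-- `χ` -/
def chz (s : ℝ) : R3 × R3 → ℝ := (alive X s).indicator fun z => chq lam Qs X p s (qz X Φ s z)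

/-- `χ G` -/
def Yz (s : ℝ) : R3 × R3 → R3 :=
  (alive X s).indicator fun z => chq lam Qs X p s (qz X Φ s z) • Gq X p s (qz X Φ s z)

/-- `W` -/
def Wz (s : ℝ) : R3 × R3 → R3 :=
  (alive X s).indicator fun z => Wq E B lam Qs X p s (qz X Φ s z)

end label

/-! ### statements of the pieces -/

/-- (T1) force on the test from `Field.GSRep`, phase-space form. -/
def RepF (T : ℝ) (f : ℝ → R3 → R3 → ℝ) (E B : ℝ → R3 → R3) : Prop :=
  ∃ C : ℝ, 0 ≤ C ∧ ∀ X p : ℝ → R3, IsChar T f E B X p → ∀ s ∈ Ioo 0 T,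
    IntegrableOn (fun q : R3 × R3 => f (ret X s q.1) q.1 q.2 • Kq E B X p s q)
      {q : R3 × R3 | ‖X s - q.1‖ < s} ∧
    ‖lor E B s (X s) (p s) - (4 * Real.pi)⁻¹ •
      ∫ q in {q : R3 × R3 | ‖X s - q.1‖ < s}, f (ret X s q.1) q.1 q.2 • Kq E B X p s q‖ ≤ C

/-- (T3a) pointwise bounds, phase-space form (`C` absolute). -/
def PtBound (E B : ℝ → R3 → R3) : Prop :=
  ∃ C : ℝ, 0 ≤ C ∧ ∀ (X p : ℝ → R3) (s : ℝ) (q : R3 × R3), X s ≠ q.1 →
    ‖Kq E B X p s q‖ ≤ C * (Mom.kT (dl X p s q.1) (ep X s q.1 q.2) (gam q.2) (Rr X s q.1)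
      + Mom.kS (dl X p s q.1) (ep X s q.1 q.2) (gam q.2) (Rr X s q.1) * Fsrc E B X s q) ∧
    ∀ lam Qs : ℝ, 0 < lam → 0 < Qs →
      (1 - chq lam Qs X p s q) * ‖Kq E B X p s q‖ ≤ C * hden E B lam Qs X p s q ∧
      ep X s q.1 q.2 * ‖Wq E B lam Qs X p s q‖ ≤ C * hden E B lam Qs X p s q ∧
      ep X s q.1 q.2 * ‖chq lam Qs X p s q • Gq X p s q‖ ≤ C * bden lam Qs X p s q

/-- (T3b) derivative along the pair in the test time `s` (retarded time `τ`, source `Y`, `q`). -/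
def PtDeriv (E B : ℝ → R3 → R3) : Prop :=
  ∀ (X p Y w : ℝ → R3) (τ : ℝ → ℝ) (s lam Qs : ℝ), 0 < lam → 0 < Qs →
    HasDerivAt X (relVel (p s)) s → HasDerivAt p (lor E B s (X s) (p s)) s →
    HasDerivAt Y (relVel (w (τ s))) (τ s) →
    HasDerivAt w (lor E B (τ s) (Y (τ s)) (w (τ s))) (τ s) →
    ContinuousAt τ s → (∀ᶠ t in 𝓝 s, t - τ t = ‖X t - Y (τ t)‖) → τ s < s →
    HasDerivAt (fun t => chq lam Qs X p t (Y (τ t), w (τ t)) • Gq X p t (Y (τ t), w (τ t)))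
      (chq lam Qs X p s (Y (τ s), w (τ s)) •
          ((ep X s (Y (τ s)) (w (τ s)))⁻¹ • Kq E B X p s (Y (τ s), w (τ s)))
        - Wq E B lam Qs X p s (Y (τ s), w (τ s))) s

/-- (T2) measurability and integrability on (test time) × (labels). -/
def LabInt (T : ℝ) (f₀ : R3 → R3 → ℝ) (f : ℝ → R3 → R3 → ℝ) (E B : ℝ → R3 → R3)
    (Φ : ℝ → R3 × R3 → R3 × R3) : Prop :=
  ∀ X p : ℝ → R3, IsChar T f E B X p → ∀ lam Qs : ℝ, 0 < lam → 0 < Qs →
    ∀ s1 s2 : ℝ, 0 ≤ s1 → s1 ≤ s2 → s2 < T →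
      Integrable (fun r : ℝ × (R3 × R3) => kz E B X p Φ r.1 r.2)
        ((volume.restrict (Icc s1 s2)).prod (mlab f₀)) ∧
      Integrable (fun r : ℝ × (R3 × R3) => Wz E B lam Qs X p Φ r.1 r.2)
        ((volume.restrict (Icc s1 s2)).prod (mlab f₀)) ∧
      AEStronglyMeasurable (fun r : ℝ × (R3 × R3) => chz lam Qs X p Φ r.1 r.2)
        ((volume.restrict (Icc s1 s2)).prod (mlab f₀)) ∧
      AEStronglyMeasurable (Yz lam Qs X p Φ s1) (mlab f₀) ∧
      ∀ᵐ z ∂(mlab f₀), ∀ s ∈ Icc 0 s2, X s ≠ (Φ s z).1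

end Crest.Agent.R106.Mix
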