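import Crest.Agent.R106.PairDer

/-!
# Row 106, node PAIR: kinematics of the null relation `s - τ = |X(s) - y(τ)|`

`hasDerivAt_s_of_null`: the `τ`-parametrisation `s(τ)` has derivative `ep/dl`;
`hasDerivAt_tau_of_null`: the `s`-parametrisation `τ(s)` (retarded time) has derivative `dl/ep`;
`pairD_of_null`: the structure `PairD` for any parametrisation.
-/

set_option autoImplicit false
open scoped RealInnerProductSpace Topology
open Filter Asymptotics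

namespace Crest.Agent.R106.Pair

variable {H : Type*} [NormedAddCommGroup H] [InnerProductSpace ℝ H]


/-- Fréchet differentiability of `(s,τ) ↦ s - τ - |X(s) - y(τ)|`, in little-o form. -/
theorem null_littleO {X y : ℝ → H} {V v : H} {s₀ τ₀ : ℝ} (hX : HasDerivAt X V s₀)
    (hy : HasDerivAt y v τ₀) (h0 : X s₀ - y τ₀ ≠ 0) :
    (fun p : ℝ × ℝ => (p.1 - p.2 - ‖X p.1 - y p.2‖) - (s₀ - τ₀ - ‖X s₀ - y τ₀‖)
      - ((1 - ‖X s₀ - y τ₀‖⁻¹ * ⟪X s₀ - y τ₀, V⟫) * (p.1 - s₀)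
        - (1 - ‖X s₀ - y τ₀‖⁻¹ * ⟪X s₀ - y τ₀, v⟫) * (p.2 - τ₀)))
      =o[𝓝 (s₀, τ₀)] fun p => p - (s₀, τ₀) := by
  have hfX : HasFDerivAt (fun p : ℝ × ℝ => X p.1)
      ((ContinuousLinearMap.toSpanSingleton ℝ V).comp (ContinuousLinearMap.fst ℝ ℝ ℝ)) (s₀, τ₀) :=
    HasFDerivAt.comp (s₀, τ₀) (f := Prod.fst) (g := X) hX.hasFDerivAt hasFDerivAt_fst
  have hfy : HasFDerivAt (fun p : ℝ × ℝ => y p.2)
      ((ContinuousLinearMap.toSpanSingleton ℝ v).comp (ContinuousLinearMap.snd ℝ ℝ ℝ)) (s₀, τ₀) :=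
    HasFDerivAt.comp (s₀, τ₀) (f := Prod.snd) (g := y) hy.hasFDerivAt hasFDerivAt_snd
  have hd : HasFDerivAt (fun p : ℝ × ℝ => X p.1 - y p.2)
      ((ContinuousLinearMap.toSpanSingleton ℝ V).comp (ContinuousLinearMap.fst ℝ ℝ ℝ) -
      (ContinuousLinearMap.toSpanSingleton ℝ v).comp (ContinuousLinearMap.snd ℝ ℝ ℝ)) (s₀, τ₀) :=
    hfX.sub hfy
  have hpos : 0 < ‖X s₀ - y τ₀‖ := norm_pos_iff.mpr h0
  have h1 : HasFDerivAt (fun p : ℝ × ℝ => ‖X p.1 - y p.2‖ ^ 2)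
      (2 • (innerSL ℝ (X s₀ - y τ₀)).comp
      ((ContinuousLinearMap.toSpanSingleton ℝ V).comp (ContinuousLinearMap.fst ℝ ℝ ℝ) -
      (ContinuousLinearMap.toSpanSingleton ℝ v).comp (ContinuousLinearMap.snd ℝ ℝ ℝ))) (s₀, τ₀) :=
    hd.norm_sq
  have hne : (fun p : ℝ × ℝ => ‖X p.1 - y p.2‖ ^ 2) (s₀, τ₀) ≠ 0 := by
    show ‖X s₀ - y τ₀‖ ^ 2 ≠ 0
    positivity
  have h2 := h1.sqrt hne
  have e : (fun p : ℝ × ℝ => Real.sqrt (‖X p.1 - y p.2‖ ^ 2))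
      = fun p : ℝ × ℝ => ‖X p.1 - y p.2‖ := by
    funext p; exact Real.sqrt_sq (norm_nonneg _)
  rw [e] at h2
  have hf := ((hasFDerivAt_fst (𝕜 := ℝ) (p := (s₀, τ₀))).sub
    (hasFDerivAt_snd (𝕜 := ℝ) (p := (s₀, τ₀)))).sub h2
  have := hf.isLittleO
  refine this.congr_left ?_
  intro p
  have e2 : Real.sqrt (‖X s₀ - y τ₀‖ ^ 2) = ‖X s₀ - y τ₀‖ := Real.sqrt_sq (norm_nonneg _)
  simp only [sub_apply, ContinuousLinearMap.coe_fst',
    ContinuousLinearMap.coe_snd', smul_apply, ContinuousLinearMap.comp_apply,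
    ContinuousLinearMap.toSpanSingleton_apply, innerSL_apply_apply, Pi.sub_apply, smul_eq_mul,
    inner_sub_right, inner_smul_right, Prod.fst_sub, Prod.snd_sub, e2, nsmul_eq_mul]
  field_simp
  ring

/-- implicit differentiation in one variable -/
theorem implicit_deriv {Φ : ℝ × ℝ → ℝ} {α β s₀ τ₀ : ℝ}
    (hΦ : (fun p : ℝ × ℝ => Φ p - Φ (s₀, τ₀) - (α * (p.1 - s₀) - β * (p.2 - τ₀)))
      =o[𝓝 (s₀, τ₀)] fun p => p - (s₀, τ₀)) (hα : α ≠ 0) {s : ℝ → ℝ}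
    (hs : ContinuousAt s τ₀) (hs0 : s τ₀ = s₀) (h : ∀ᶠ t in 𝓝 τ₀, Φ (s t, t) = Φ (s₀, τ₀)) :
    HasDerivAt s (β / α) τ₀ := by
  have htend : Tendsto (fun t => (s t, t)) (𝓝 τ₀) (𝓝 (s₀, τ₀)) := by
    rw [← hs0]
    exact (hs.tendsto.prodMk_nhds tendsto_id)
  have h1 := hΦ.comp_tendsto htend
  have h2 : (fun t => α * (s t - s₀) - β * (t - τ₀)) =o[𝓝 τ₀]
      fun t => ((s t - s₀, t - τ₀) : ℝ × ℝ) := by
    refine (h1.neg_left).congr' ?_ ?_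
    · filter_upwards [h] with t ht
      simp only [Function.comp, ht]
      ring
    · exact Eventually.of_forall fun t => rfl
  have hO : (fun t => s t - s₀) =O[𝓝 τ₀] fun t => t - τ₀ := by
    have h3 := h2.def (show 0 < |α| / 2 by positivity)
    refine IsBigO.of_bound ((|β| + |α| / 2) / (|α| / 2)) ?_
    filter_upwards [h3] with t ht
    have hn : ‖((s t - s₀, t - τ₀) : ℝ × ℝ)‖ ≤ |s t - s₀| + |t - τ₀| := by
      rw [Prod.norm_def]
      simp only [Real.norm_eq_abs]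
      exact max_le (by linarith [abs_nonneg (t - τ₀)]) (by linarith [abs_nonneg (s t - s₀)])
    rw [Real.norm_eq_abs] at ht
    have hα0 : 0 < |α| := abs_pos.mpr hα
    have h4 : |α| * |s t - s₀| ≤ |α * (s t - s₀) - β * (t - τ₀)| + |β| * |t - τ₀| := by
      rw [← abs_mul, ← abs_mul]
      have := abs_add_le (α * (s t - s₀) - β * (t - τ₀)) (β * (t - τ₀))
      rwa [sub_add_cancel] at this
    rw [Real.norm_eq_abs, Real.norm_eq_abs, div_mul_eq_mul_div, le_div_iff₀ (by positivity)]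
    nlinarith [mul_le_mul_of_nonneg_left hn (show 0 ≤ |α| / 2 by positivity)]
  have hO2 : (fun t => ((s t - s₀, t - τ₀) : ℝ × ℝ)) =O[𝓝 τ₀] fun t => t - τ₀ :=
    hO.prod_left (isBigO_refl _ _)
  have h5 := (h2.trans_isBigO hO2).const_mul_left α⁻¹
  rw [hasDerivAt_iff_isLittleO]
  refine h5.congr_left ?_
  intro t
  rw [hs0, smul_eq_mul]
  field_simp

section null
variable {X y V v : ℝ → H} {A a : H}

/-- unit vector of the pair -/
noncomputable def nvec (X y : ℝ → H) (s τ : ℝ) : H := (s - τ)⁻¹ • (X s - y τ)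

theorem norm_nvec {s τ : ℝ} (h : s - τ = ‖X s - y τ‖) (hR : 0 < s - τ) :
    ‖nvec X y s τ‖ = 1 := by
  unfold nvec
  rw [norm_smul, ← h, Real.norm_eq_abs, abs_of_pos (inv_pos.mpr hR)]
  exact inv_mul_cancel₀ hR.ne'

theorem inner_nvec (s τ : ℝ) (w : H) : ⟪nvec X y s τ, w⟫ = (s - τ)⁻¹ * ⟪X s - y τ, w⟫ := by
  unfold nvec
  rw [inner_smul_left]; simp


/-- `dτ/ds = dl/ep` (retarded time). -/
theorem hasDerivAt_tau_of_null {τ : ℝ → ℝ} {s₀ : ℝ} {V₀ v₀ : H} (hX : HasDerivAt X V₀ s₀)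
    (hy : HasDerivAt y v₀ (τ s₀)) (hs : ContinuousAt τ s₀)
    (hnull : ∀ᶠ t in 𝓝 s₀, t - τ t = ‖X t - y (τ t)‖) (hR : 0 < s₀ - τ s₀) (hv : ‖v₀‖ < 1) :
    HasDerivAt τ (om (nvec X y s₀ (τ s₀)) V₀ / om (nvec X y s₀ (τ s₀)) v₀) s₀ := by
  have hn0 := hnull.self_of_nhds
  have h0 : X s₀ - y (τ s₀) ≠ 0 := by
    intro h; rw [h, norm_zero] at hn0; linarith
  have hΦ := null_littleO hX hy h0
  have hα : (1 - ‖X s₀ - y (τ s₀)‖⁻¹ * ⟪X s₀ - y (τ s₀), v₀⟫) ≠ 0 := by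
    have := om_pos (norm_nvec (X := X) (y := y) hn0 hR) hv
    unfold om at this
    rw [inner_nvec, hn0] at this
    exact this.ne'
  -- swap the roles of the two variables
  have hswap : Tendsto (fun p : ℝ × ℝ => (p.2, p.1)) (𝓝 (τ s₀, s₀)) (𝓝 (s₀, τ s₀)) := by
    have : Continuous (fun p : ℝ × ℝ => (p.2, p.1)) := by fun_prop
    exact this.tendsto (τ s₀, s₀)
  have h1 := hΦ.comp_tendsto hswap
  have h2 : (fun p : ℝ × ℝ => (fun q : ℝ × ℝ => -(q.2 - q.1 - ‖X q.2 - y q.1‖)) p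
      - (fun q : ℝ × ℝ => -(q.2 - q.1 - ‖X q.2 - y q.1‖)) (τ s₀, s₀)
      - ((1 - ‖X s₀ - y (τ s₀)‖⁻¹ * ⟪X s₀ - y (τ s₀), v₀⟫) * (p.1 - τ s₀)
        - (1 - ‖X s₀ - y (τ s₀)‖⁻¹ * ⟪X s₀ - y (τ s₀), V₀⟫) * (p.2 - s₀)))
      =o[𝓝 (τ s₀, s₀)] fun p => p - (τ s₀, s₀) := by
    refine (h1.neg_left).congr_left ?_ |>.trans_isBigO ?_
    · intro p
      simp only [Function.comp]
      ring
    · refine IsBigO.of_bound 1 (Eventually.of_forall fun p => ?_)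
      rw [one_mul]
      simp only [Function.comp, Prod.norm_def, Prod.fst_sub, Prod.snd_sub]
      rw [max_comm]
  have := implicit_deriv h2 hα hs rfl (by
    filter_upwards [hnull] with t ht
    rw [← ht, ← hn0]; ring)
  refine this.congr_deriv ?_
  unfold om
  rw [inner_nvec, inner_nvec, hn0]

/-- The structure `PairD` for a parametrised null pair. -/
theorem pairD_of_null {σ τ : ℝ → ℝ} {c θ : ℝ}
    (hX : HasDerivAt X (V (σ θ)) (σ θ)) (hV : HasDerivAt V A (σ θ))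
    (hy : HasDerivAt y (v (τ θ)) (τ θ)) (hv : HasDerivAt v a (τ θ))
    (hV1 : ‖V (σ θ)‖ < 1) (hv1 : ‖v (τ θ)‖ < 1)
    (hnull : σ θ - τ θ = ‖X (σ θ) - y (τ θ)‖) (hR : 0 < σ θ - τ θ)
    (hσ : HasDerivAt σ (c * om (nvec X y (σ θ) (τ θ)) (v (τ θ))) θ)
    (hτ : HasDerivAt τ (c * om (nvec X y (σ θ) (τ θ)) (V (σ θ))) θ) :
    PairD (fun t => nvec X y (σ t) (τ t)) (fun t => v (τ t)) (fun t => V (σ t))
      (fun t => σ t - τ t) a A c θ := by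
  refine ⟨norm_nvec hnull hR, hv1, hV1, hR, ?_, ?_, ?_, ?_⟩
  · have d1 : HasDerivAt (fun t => X (σ t)) _ θ := hX.scomp θ hσ
    have d2 : HasDerivAt (fun t => y (τ t)) _ θ := hy.scomp θ hτ
    have d3 : HasDerivAt (fun t => (σ t - τ t)⁻¹) _ θ := (hσ.sub hτ).inv hR.ne'
    have d4 := d3.smul (d1.sub d2)
    refine HasDerivAt.congr_deriv (f := fun t => nvec X y (σ t) (τ t)) d4 ?_
    have e : X (σ θ) - y (τ θ) = (σ θ - τ θ) • nvec X y (σ θ) (τ θ) := by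
      unfold nvec
      rw [smul_smul, mul_inv_cancel₀ hR.ne', one_smul]
    simp only [Pi.sub_apply]
    rw [e]
    set N := nvec X y (σ θ) (τ θ)
    have hR' : σ θ - τ θ ≠ 0 := hR.ne'
    match_scalars <;> field_simp
  · exact hv.scomp θ hτ
  · exact hV.scomp θ hσ
  · refine (hσ.sub hτ).congr_deriv ?_
    ring

end null

end Crest.Agent.R106.Pair
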