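import Crest.Agent.R106.ConeMu
import Crest.Agent.R106.PairRet
import Crest.Agent.R106.PairKin
import Crest.Agent.R106.MixDefs
import Crest.Agent.R106.MixInst
import Crest.Agent.R106.PairDefs
import Crest.Agent.R106.Clamp

-- ▼ part R106/PairRetDer
section

/-!
# Row 106, retarded kinematics (helper824), part 2: derivatives

`CM.rt` (= `rtm`) along a test curve: derivative `δ/ε`, the structure `PairD` in the
`s`-parametrisation, and the inverse function `s(τ)` with derivative `ε/δ`.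
-/

set_option autoImplicit false
open Set Filter Topology
open scoped RealInnerProductSpace
open Crest.AnalysisR.VecCalc3

namespace Crest.Agent.R106.Pair

open Crest.Agent.R106.CM (rt SubL)

/-- the two total definitions of the retarded time agree -/
theorem rt_eq_rtm (Y : ℝ → R3) (s : ℝ) (x : R3) : rt Y s x = rtm Y s x := by
  unfold rt rtm
  congr 1
  ext τ
  simp only [mem_ofPred_eq]
  constructor
  · rintro ⟨h1, h2⟩; exact ⟨h1, by linarith⟩
  · rintro ⟨h1, h2⟩; exact ⟨h1, by linarith⟩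

theorem SubLum.of_subL {T T' : ℝ} {Y : ℝ → R3} (h : SubL T Y) (hT : T' < T) : SubLum Y T' := by
  intro a ha b hb hab
  have ha' : a ∈ Ico 0 T := ⟨ha.1, ha.2.trans_lt hT⟩
  have hb' : b ∈ Ico 0 T := ⟨hb.1, hb.2.trans_lt hT⟩
  rcases lt_or_gt_of_ne hab with h1 | h1
  · rw [norm_sub_rev, abs_sub_comm, abs_of_pos (by linarith)]
    exact h a ha' b hb' h1
  · rw [abs_of_pos (by linarith)]
    exact h b hb' a ha' h1

section
variable {T : ℝ} {X Y V v : ℝ → R3} {s : ℝ}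

/-- the retarded time of a fixed source is continuous in the test time -/
theorem continuousAt_rt (hX : SubL T X) (hY : SubL T Y) (hs : s ∈ Ioo 0 T) :
    ContinuousAt (fun t => rt Y t (X t)) s := by
  have hT' : (s + T) / 2 < T := by linarith [hs.2]
  have h1 := continuousOn_rtm_time (X := X)
    (SubLum.of_subL hX hT').continuousOn (SubLum.of_subL hY hT')
  have h2 : (fun t => rt Y t (X t)) = fun t => rtm Y t (X t) := by
    funext t; exact rt_eq_rtm _ _ _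
  rw [h2]
  exact h1.continuousAt (Icc_mem_nhds hs.1 (by linarith [hs.2]))

/-- continuity on the closed-open interval -/
theorem continuousOn_rt (hX : SubL T X) (hY : SubL T Y) :
    ContinuousOn (fun t => rt Y t (X t)) (Ico 0 T) := by
  intro s hs
  have hT' : (s + T) / 2 < T := by linarith [hs.2]
  have h1 := continuousOn_rtm_time (X := X)
    (SubLum.of_subL hX hT').continuousOn (SubLum.of_subL hY hT')
  have h2 : (fun t => rt Y t (X t)) = fun t => rtm Y t (X t) := by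
    funext t; exact rt_eq_rtm _ _ _
  rw [h2]
  have h3 := h1 s ⟨hs.1, by linarith [hs.2]⟩
  refine (h3.mono_of_mem_nhdsWithin ?_)
  have : Icc 0 ((s + T) / 2) ∈ 𝓝[Ici 0] s := by
    have h5 : Iio ((s + T) / 2) ∈ 𝓝 s := Iio_mem_nhds (by linarith [hs.2])
    filter_upwards [self_mem_nhdsWithin, mem_nhdsWithin_of_mem_nhds h5] with t h6 h7
    exact ⟨h6, le_of_lt h7⟩
  exact nhdsWithin_mono s (fun t ht => ht.1) this

/-- aliveness is an open condition, and the null relation holds near `s` -/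
theorem eventually_null (hX : SubL T X) (hY : SubL T Y) (hs : s ∈ Ioo 0 T)
    (ha : ‖X s - Y 0‖ < s) : ∀ᶠ t in 𝓝 s, t - rt Y t (X t) = ‖X t - Y (rt Y t (X t))‖ := by
  have hXc : ContinuousAt X s :=
    (hX.continuousOn).continuousAt (Ico_mem_nhds hs.1 hs.2)
  have h1 : ∀ᶠ t in 𝓝 s, 0 < t - ‖X t - Y 0‖ := by
    have hc : ContinuousAt (fun t => t - ‖X t - Y 0‖) s :=
      continuousAt_id.sub (hXc.sub continuousAt_const).norm
    exact hc.eventually (lt_mem_nhds (by linarith))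
  filter_upwards [h1, Ioo_mem_nhds hs.1 hs.2] with t h2 h3
  have := (CM.rt_spec hY ⟨h3.1.le, h3.2⟩ (x := X t) (by linarith)).2
  linarith

theorem rt_pos' (hY : SubL T Y) (hs : s ∈ Ioo 0 T) (ha : ‖X s - Y 0‖ < s) :
    0 < rt Y s (X s) := CM.rt_pos hY ⟨hs.1.le, hs.2⟩ ha





end

/-! ### the inverse function `s(τ)` -/

section inverse
variable {T : ℝ} {X Y V v : ℝ → R3}




end inverse

end Crest.Agent.R106.Pair
end

-- ▼ part R106/Mix

/-!
# Row 106, MIX: the mixed representation (M), final assembly (helper616)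
-/

set_option autoImplicit false

open MeasureTheory Set Filter Topology
open Crest.AnalysisR.VecCalc3 Crest.AnalysisR.PDE.RVM
open scoped InnerProductSpace ENNReal ContDiff

noncomputable section

namespace Crest.Agent.R106.Mix

open Crest.Agent.R106.Mom (Rr ret nn dl ep Dd kap Fsrc Ftest hden bden hh bb IsChar)
open Crest.Agent.R106.GSR (gam acc lor)
open Crest.Agent.R106.CM (rt rtL hit SubL LFlow)

variable {T : ℝ} {f₀ : R3 → R3 → ℝ} {E₀ B₀ : R3 → R3} {f : ℝ → R3 → R3 → ℝ} {E B : ℝ → R3 → R3}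
  {Φ Ψ : ℝ → R3 × R3 → R3 × R3} {X p : ℝ → R3} {lam Qs : ℝ}

lemma SolFlow.speed (hF : SolFlow T f₀ f E B Φ Ψ) (v : R3) : ‖relVel v‖ < 1 :=
  hF.L.speed 0 (0, v)

lemma SolFlow.f_flow (hF : SolFlow T f₀ f E B Φ Ψ) {τ : ℝ} (hτ : τ ∈ Ico 0 T) (z : R3 × R3) :
    f τ (Φ τ z).1 (Φ τ z).2 = f₀ z.1 z.2 := by
  rw [hF.hf τ hτ, hF.L.left_inv τ hτ]

lemma SolFlow.subL_char (hF : SolFlow T f₀ f E B Φ Ψ) (hX : IsChar T f E B X p) : SubL T X :=
  CM.subL_of_deriv hX.cX hX.dX (fun _ _ => hF.speed _)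

lemma qz_eq (s : ℝ) (z : R3 × R3) : qz X Φ s z = Φ (rtL Φ s (X s) z) z := rfl


lemma SolFlow.ne_qz (hF : SolFlow T f₀ f E B Φ Ψ) {s : ℝ} (hs : s ∈ Ico 0 T) {z : R3 × R3}
    (hz : ‖X s - z.1‖ ≤ s) (hne : X s ≠ (Φ s z).1) : X s ≠ (qz X Φ s z).1 := by
  intro h
  exact hne (hF.L.hit_vertex hs hz h.symm).symm

lemma SolFlow.rtL_zero (hF : SolFlow T f₀ f E B Φ Ψ) {s : ℝ} (hs : s ∈ Ico 0 T) {z : R3 × R3}
    (hz : z ∉ alive X s) : rtL Φ s (X s) z = 0 := by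
  have h1 := Pair.SubLum.of_subL (hF.L.subL z) hs.2
  have h2 := Pair.rtm_pos_iff h1 (s := s) (x := X s) ⟨hs.1, le_rfl⟩
  have h3 : ¬ 0 < Pair.rtm (fun τ => (Φ τ z).1) s (X s) := by
    rw [h2]
    rintro ⟨-, h⟩
    rw [hF.L.zero] at h
    exact hz h
  have h4 := Pair.rtm_nonneg (fun τ => (Φ τ z).1) s (X s)
  unfold rtL
  rw [Pair.rt_eq_rtm]
  exact le_antisymm (not_lt.mp h3) h4

lemma isOpen_ball' (s : ℝ) : MeasurableSet (alive X s) := by
  have : Continuous fun z : R3 × R3 => ‖X s - z.1‖ := by fun_prop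
  exact (isOpen_lt this continuous_const).measurableSet

lemma measurable_f₀ (hadm : IsAdmissibleDatum f₀ E₀ B₀) :
    Measurable (fun z : R3 × R3 => f₀ z.1 z.2) := hadm.2.1.continuous.measurable

lemma continuous_fret (hS : SolTo T f₀ E₀ B₀ f E B) {s : ℝ} (hs : s < T) :
    Continuous (fun q : R3 × R3 => f (ret X s q.1) q.1 q.2) := by
  have h1 : Continuous (fun q : R3 × R3 => ((ret X s q.1, q.1, q.2) : ℝ × R3 × R3)) := by
    unfold ret; fun_prop
  have h2 := hS.hf.continuousOn.comp_continuous h1 (fun q => by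
    refine ⟨?_, mem_univ _⟩
    have := norm_nonneg (X s - q.1)
    show s - ‖X s - q.1‖ < T
    linarith)
  exact h2

/-- cone measure in label form -/
theorem lintegral_kap (hadm : IsAdmissibleDatum f₀ E₀ B₀) (hS : SolTo T f₀ E₀ B₀ f E B)
    (hF : SolFlow T f₀ f E B Φ Ψ) {s : ℝ} (hs : s ∈ Ioo 0 T) (g : R3 × R3 → ℝ≥0∞) :
    ∫⁻ q, g q ∂(kap f X s) = ∫⁻ z in alive X s,
      g (qz X Φ s z) / ENNReal.ofReal (ep X s (qz X Φ s z).1 (qz X Φ s z).2) ∂(mlab f₀) := by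
  have hset : Metric.ball (X s) s ×ˢ (univ : Set R3) = {w : R3 × R3 | ‖X s - w.1‖ < s} := by
    ext w
    simp only [mem_prod, Metric.mem_ball, mem_univ, and_true, mem_ofPred_eq, dist_eq_norm]
    rw [norm_sub_rev]
  unfold kap mlab
  rw [hset, lintegral_withDensity_eq_lintegral_mul_non_measurable₀ _
    (continuous_fret hS hs.2).measurable.ennreal_ofReal.aemeasurable
    (Eventually.of_forall fun q => ENNReal.ofReal_lt_top)]
  rw [setLIntegral_withDensity_eq_setLIntegral_mul_non_measurable _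
    (measurable_f₀ hadm).ennreal_ofReal _ (isOpen_ball' s)
    (Eventually.of_forall fun q => ENNReal.ofReal_lt_top)]
  have h := hF.L.lintegral_cone hs (X s) g (fun z => ENNReal.ofReal (f₀ z.1 z.2))
  refine Eq.trans ?_ (h.trans ?_)
  · refine setLIntegral_congr_fun (isOpen_ball' (X := X) s) fun w hw => ?_
    simp only [Pi.mul_apply]
    rw [mul_comm]
    congr 2
    refine hF.hf _ ⟨?_, ?_⟩ w
    · have : ‖X s - w.1‖ < s := hw
      show 0 ≤ s - ‖X s - w.1‖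
      linarith
    · show s - ‖X s - w.1‖ < T
      linarith [norm_nonneg (X s - w.1), hs.2]
  · rfl

/-- Bochner form -/
theorem integral_kz (hadm : IsAdmissibleDatum f₀ E₀ B₀)
    (hF : SolFlow T f₀ f E B Φ Ψ) {s : ℝ} (hs : s ∈ Ioo 0 T) :
    ∫ z, kz E B X p Φ s z ∂(mlab f₀)
      = ∫ q in {q : R3 × R3 | ‖X s - q.1‖ < s}, f (ret X s q.1) q.1 q.2 • Kq E B X p s q := by
  have h := hF.L.integral_cone hs (X s) (Kq E B X p s) (fun z => f₀ z.1 z.2)
  have e1 : ∫ q in {q : R3 × R3 | ‖X s - q.1‖ < s}, f (ret X s q.1) q.1 q.2 • Kq E B X p s q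
      = ∫ w in {w : R3 × R3 | ‖X s - w.1‖ < s},
        (fun z : R3 × R3 => f₀ z.1 z.2) (Ψ (s - ‖X s - w.1‖) w) • Kq E B X p s w := by
    refine setIntegral_congr_fun (isOpen_ball' (X := X) s) fun w hw => ?_
    simp only
    congr 1
    refine hF.hf _ ⟨?_, ?_⟩ w
    · have : ‖X s - w.1‖ < s := hw
      show 0 ≤ s - ‖X s - w.1‖
      linarith
    · show s - ‖X s - w.1‖ < T
      linarith [norm_nonneg (X s - w.1), hs.2]
  rw [e1, h]
  unfold mlab
  rw [integral_withDensity_eq_integral_toReal_smul (measurable_f₀ hadm).ennreal_ofReal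
    (Eventually.of_forall fun q => ENNReal.ofReal_lt_top)]
  have e2 : ∫ z in {z : R3 × R3 | ‖X s - z.1‖ < s}, f₀ z.1 z.2 •
        ((CM.ep (av E B) (X s) (rtL Φ s (X s) z) (hit Φ s (X s) z))⁻¹ •
          Kq E B X p s (hit Φ s (X s) z))
      = ∫ z, (alive X s).indicator (fun z : R3 × R3 => f₀ z.1 z.2 •
        ((CM.ep (av E B) (X s) (rtL Φ s (X s) z) (hit Φ s (X s) z))⁻¹ •
          Kq E B X p s (hit Φ s (X s) z))) z :=
    (integral_indicator (isOpen_ball' (X := X) s)).symm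
  refine Eq.trans ?_ e2.symm
  refine integral_congr_ae (Eventually.of_forall fun z => ?_)
  simp only
  rw [ENNReal.toReal_ofReal (hadm.1 _ _)]
  unfold kz
  by_cases hz : z ∈ alive X s
  · rw [indicator_of_mem hz, indicator_of_mem hz]
    rfl
  · rw [indicator_of_notMem hz, indicator_of_notMem hz, smul_zero]

instance sfinite_mlab : SFinite (mlab f₀) := by unfold mlab; infer_instance

lemma ae_mlab_ne (hadm : IsAdmissibleDatum f₀ E₀ B₀) : ∀ᵐ z ∂(mlab f₀), f₀ z.1 z.2 ≠ 0 := by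
  unfold mlab
  rw [ae_withDensity_iff (measurable_f₀ hadm).ennreal_ofReal]
  refine Eventually.of_forall fun z hz h0 => hz ?_
  rw [h0, ENNReal.ofReal_zero]


lemma SolFlow.ep_pos (hF : SolFlow T f₀ f E B Φ Ψ) (s : ℝ) (q : R3 × R3) :
    0 < ep X s q.1 q.2 := hF.L.ep_pos (X s) 0 q

/-- transfer of a pointwise bound to the cone measure -/
lemma lint_aux (hadm : IsAdmissibleDatum f₀ E₀ B₀) (hS : SolTo T f₀ E₀ B₀ f E B)
    (hF : SolFlow T f₀ f E B Φ Ψ) {s : ℝ} (hs : s ∈ Ioo 0 T) {g : R3 × R3 → ℝ≥0∞}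
    {h : R3 × R3 → ℝ} {C : ℝ}
    (H : ∀ᵐ z ∂(mlab f₀), z ∈ alive X s → g z ≤ ENNReal.ofReal C *
      (ENNReal.ofReal (h (qz X Φ s z)) / ENNReal.ofReal (ep X s (qz X Φ s z).1 (qz X Φ s z).2)))
    (H0 : ∀ z ∉ alive X s, g z = 0) :
    ∫⁻ z, g z ∂(mlab f₀) ≤ ENNReal.ofReal C * ∫⁻ q, ENNReal.ofReal (h q) ∂(kap f X s) := by
  rw [lintegral_kap hadm hS hF hs, ← lintegral_const_mul' _ _ ENNReal.ofReal_ne_top,
    ← lintegral_indicator (isOpen_ball' s)]
  refine lintegral_mono_ae ?_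
  filter_upwards [H] with z hz
  by_cases hza : z ∈ alive X s
  · rw [indicator_of_mem hza]; exact hz hza
  · rw [H0 z hza]; exact zero_le

lemma lint_k (hadm : IsAdmissibleDatum f₀ E₀ B₀) (hS : SolTo T f₀ E₀ B₀ f E B)
    (hF : SolFlow T f₀ f E B Φ Ψ) {s : ℝ} (hs : s ∈ Ioo 0 T) {C : ℝ} (hC : 0 ≤ C)
    (hnc : ∀ᵐ z ∂(mlab f₀), X s ≠ (Φ s z).1)
    (hb : ∀ q : R3 × R3, X s ≠ q.1 →
      (1 - chq lam Qs X p s q) * ‖Kq E B X p s q‖ ≤ C * hden E B lam Qs X p s q) :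
    ∫⁻ z, ENNReal.ofReal (1 - chz lam Qs X p Φ s z) * ‖kz E B X p Φ s z‖ₑ ∂(mlab f₀)
      ≤ ENNReal.ofReal C * ∫⁻ q, ENNReal.ofReal (hden E B lam Qs X p s q) ∂(kap f X s) := by
  refine lint_aux hadm hS hF hs ?_ ?_
  · filter_upwards [hnc] with z hz hza
    have hs' : s ∈ Ico 0 T := ⟨hs.1.le, hs.2⟩
    have hne := hF.ne_qz hs' (le_of_lt hza) hz
    have hep := hF.ep_pos (X := X) s (qz X Φ s z)
    have h1 := hb _ hne
    have h2 : 0 ≤ 1 - chq lam Qs X p s (qz X Φ s z) := by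
      have := chi_le_one lam (2 * Qs) (dl X p s (qz X Φ s z).1)
        (ep X s (qz X Φ s z).1 (qz X Φ s z).2) (gam (qz X Φ s z).2)
      unfold chq; linarith
    unfold chz kz
    rw [indicator_of_mem hza, indicator_of_mem hza, enorm_smul, Real.enorm_of_nonneg
      (inv_nonneg.mpr hep.le), ← ofReal_norm, ← ENNReal.ofReal_mul (inv_nonneg.mpr hep.le),
      ← ENNReal.ofReal_mul h2, ← ENNReal.ofReal_div_of_pos hep, ← ENNReal.ofReal_mul hC]
    refine ENNReal.ofReal_le_ofReal ?_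
    calc (1 - chq lam Qs X p s (qz X Φ s z)) * ((ep X s (qz X Φ s z).1 (qz X Φ s z).2)⁻¹ *
          ‖Kq E B X p s (qz X Φ s z)‖)
        = ((1 - chq lam Qs X p s (qz X Φ s z)) * ‖Kq E B X p s (qz X Φ s z)‖) /
          ep X s (qz X Φ s z).1 (qz X Φ s z).2 := by field_simp
      _ ≤ (C * hden E B lam Qs X p s (qz X Φ s z)) /
          ep X s (qz X Φ s z).1 (qz X Φ s z).2 := div_le_div_of_nonneg_right h1 hep.le
      _ = _ := by rw [mul_div_assoc]
  · intro z hz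
    unfold kz
    rw [indicator_of_notMem hz]; simp

lemma lint_g (hadm : IsAdmissibleDatum f₀ E₀ B₀) (hS : SolTo T f₀ E₀ B₀ f E B)
    (hF : SolFlow T f₀ f E B Φ Ψ) {s : ℝ} (hs : s ∈ Ioo 0 T) {C : ℝ} (hC : 0 ≤ C)
    (hnc : ∀ᵐ z ∂(mlab f₀), X s ≠ (Φ s z).1) {g : R3 × R3 → R3} {h : R3 × R3 → ℝ}
    (hb : ∀ q : R3 × R3, X s ≠ q.1 → ep X s q.1 q.2 * ‖g q‖ ≤ C * h q) :
    ∫⁻ z, ‖(alive X s).indicator (fun z => g (qz X Φ s z)) z‖ₑ ∂(mlab f₀)
      ≤ ENNReal.ofReal C * ∫⁻ q, ENNReal.ofReal (h q) ∂(kap f X s) := by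
  refine lint_aux hadm hS hF hs ?_ ?_
  · filter_upwards [hnc] with z hz hza
    have hs' : s ∈ Ico 0 T := ⟨hs.1.le, hs.2⟩
    have hne := hF.ne_qz hs' (le_of_lt hza) hz
    have hep := hF.ep_pos (X := X) s (qz X Φ s z)
    have h1 := hb _ hne
    rw [indicator_of_mem hza, ← ofReal_norm, ← ENNReal.ofReal_div_of_pos hep,
      ← ENNReal.ofReal_mul hC]
    refine ENNReal.ofReal_le_ofReal ?_
    rw [← mul_div_assoc, le_div_iff₀ hep, mul_comm]
    exact h1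
  · intro z hz
    rw [indicator_of_notMem hz]; simp

/-! ### regularity of `χ G` along one label -/


lemma alive_eventually (hX : IsChar T f E B X p) {s : ℝ} (hs : s ∈ Ioo 0 T) {z : R3 × R3}
    (hz : z ∈ alive X s) : ∀ᶠ t in 𝓝 s, z ∈ alive X t := by
  have hc : ContinuousAt (fun t => t - ‖X t - z.1‖) s :=
    continuousAt_id.sub ((hX.dX s hs).continuousAt.sub continuousAt_const).norm
  have h1 : (0 : ℝ) < s - ‖X s - z.1‖ := by
    have : ‖X s - z.1‖ < s := hz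
    linarith
  filter_upwards [hc.eventually (lt_mem_nhds h1)] with t ht
  show ‖X t - z.1‖ < t
  linarith

lemma pos_of_alive {s : ℝ} {z : R3 × R3} (hz : z ∈ alive X s) : 0 < s := by
  have : ‖X s - z.1‖ < s := hz
  linarith [norm_nonneg (X s - z.1)]

/-- derivative along a label that is alive -/
lemma label_deriv (hF : SolFlow T f₀ f E B Φ Ψ) (hPD : PtDeriv E B) (hX : IsChar T f E B X p)
    (hlam : 0 < lam) (hQs : 0 < Qs) {s : ℝ} (hs : s ∈ Ioo 0 T) {z : R3 × R3}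
    (hz : z ∈ alive X s) (hne : X s ≠ (Φ s z).1) :
    HasDerivAt (fun t => Yz lam Qs X p Φ t z)
      (chz lam Qs X p Φ s z • kz E B X p Φ s z - Wz E B lam Qs X p Φ s z) s := by
  have hs' : s ∈ Ico 0 T := ⟨hs.1.le, hs.2⟩
  have hXs := hF.subL_char hX
  have hYs : SubL T (fun τ => (Φ τ z).1) := hF.L.subL z
  have ha : ‖X s - (fun τ => (Φ τ z).1) 0‖ < s := by
    simp only [hF.L.zero]; exact hz
  have hτc : ContinuousAt (fun t => rtL Φ t (X t) z) s := Pair.continuousAt_rt hXs hYs hs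
  have hnull := Pair.eventually_null hXs hYs hs ha
  have hpos : 0 < rtL Φ s (X s) z := Pair.rt_pos' hYs hs ha
  have hneq := hF.ne_qz hs' (le_of_lt hz) hne
  have hR : rtL Φ s (X s) z < s := by
    have h0 := hnull.self_of_nhds
    have h1 : 0 < ‖X s - (qz X Φ s z).1‖ := norm_pos_iff.mpr (sub_ne_zero.mpr hneq)
    have h2 : s - rtL Φ s (X s) z = ‖X s - (qz X Φ s z).1‖ := h0
    linarith
  have hτT : rtL Φ s (X s) z ∈ Ioo 0 T := ⟨hpos, hR.trans hs.2⟩
  have hd := hF.L.deriv _ hτT z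
  have hY1 : HasDerivAt (fun τ => (Φ τ z).1)
      (relVel ((fun τ => (Φ τ z).2) (rtL Φ s (X s) z))) (rtL Φ s (X s) z) :=
    (ContinuousLinearMap.fst ℝ R3 R3).hasFDerivAt.comp_hasDerivAt _ hd
  have hw1 : HasDerivAt (fun τ => (Φ τ z).2)
      (lor E B (rtL Φ s (X s) z) ((fun τ => (Φ τ z).1) (rtL Φ s (X s) z))
        ((fun τ => (Φ τ z).2) (rtL Φ s (X s) z))) (rtL Φ s (X s) z) :=
    (ContinuousLinearMap.snd ℝ R3 R3).hasFDerivAt.comp_hasDerivAt _ hd
  have key := hPD X p (fun τ => (Φ τ z).1) (fun τ => (Φ τ z).2) (fun t => rtL Φ t (X t) z) s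
    lam Qs hlam hQs (hX.dX s hs) (hX.dp s hs) hY1 hw1 hτc hnull hR
  have e1 : chz lam Qs X p Φ s z • kz E B X p Φ s z - Wz E B lam Qs X p Φ s z
      = chq lam Qs X p s ((Φ (rtL Φ s (X s) z) z).1, (Φ (rtL Φ s (X s) z) z).2) •
          ((ep X s (Φ (rtL Φ s (X s) z) z).1 (Φ (rtL Φ s (X s) z) z).2)⁻¹ •
            Kq E B X p s ((Φ (rtL Φ s (X s) z) z).1, (Φ (rtL Φ s (X s) z) z).2))
        - Wq E B lam Qs X p s ((Φ (rtL Φ s (X s) z) z).1, (Φ (rtL Φ s (X s) z) z).2) := by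
    unfold chz kz Wz
    rw [indicator_of_mem hz, indicator_of_mem hz, indicator_of_mem hz]
    rfl
  rw [e1]
  refine key.congr_of_eventuallyEq ?_
  filter_upwards [alive_eventually hX hs hz] with t ht
  unfold Yz
  rw [indicator_of_mem ht]
  rfl

/-- energies are bounded at small times: bound from the support of `f` on `[0, τ0]` -/
lemma gam_le_of_supp (hF : SolFlow T f₀ f E B Φ Ψ) {τ0 R : ℝ} (hτ0 : τ0 < T)
    (hR : ∀ t ∈ Icc 0 τ0, ∀ x v : R3, (R < ‖x‖ ∨ R < ‖v‖) → f t x v = 0) :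
    ∀ τ ∈ Icc 0 τ0, ∀ z : R3 × R3, f₀ z.1 z.2 ≠ 0 → gam (Φ τ z).2 ≤ √(1 + R ^ 2) := by
  intro τ hτ z hz
  have h1 := hF.f_flow (τ := τ) ⟨hτ.1, hτ.2.trans_lt hτ0⟩ z
  have h2 : ‖(Φ τ z).2‖ ≤ R := by
    by_contra h
    push Not at h
    exact hz (by rw [← h1]; exact hR τ hτ _ _ (Or.inr h))
  unfold GSR.gam
  apply Real.sqrt_le_sqrt
  have := norm_nonneg (Φ τ z).2
  gcongr

lemma chq_zero {s : ℝ} {q : R3 × R3} (hQs : 0 < Qs) (h : gam q.2 ≤ Qs) :
    chq lam Qs X p s q = 0 := by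
  unfold chq chi
  rw [chi2_eq_zero (by rw [div_le_iff₀ (by positivity)]; linarith), mul_zero]

lemma label_zero {τ0 : ℝ} (hτ0 : 0 < τ0) (hF : SolFlow T f₀ f E B Φ Ψ) (hX : IsChar T f E B X p)
    {Q0 : ℝ} (hQ0 : 0 < Q0) (hQ : Q0 ≤ Qs) {z : R3 × R3}
    (hzQ : ∀ τ ∈ Icc 0 τ0, gam (Φ τ z).2 ≤ Q0) {s : ℝ} (hs : s ∈ Ico 0 T)
    (hz : z ∉ alive X s) : ∀ᶠ t in 𝓝[Ico 0 T] s, Yz lam Qs X p Φ t z = 0 := by
  have hXs := hF.subL_char hX
  have hYs : SubL T (fun τ => (Φ τ z).1) := hF.L.subL z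
  have hc : ContinuousWithinAt (fun t => rtL Φ t (X t) z) (Ico 0 T) s :=
    Pair.continuousOn_rt hXs hYs s hs
  have h0 : rtL Φ s (X s) z = 0 := hF.rtL_zero hs hz
  have h1 : ∀ᶠ t in 𝓝[Ico 0 T] s, rtL Φ t (X t) z < τ0 := by
    have : (fun t => rtL Φ t (X t) z) s < τ0 := by simp only [h0]; exact hτ0
    exact hc.eventually (gt_mem_nhds this)
  filter_upwards [h1, self_mem_nhdsWithin] with t ht htT
  unfold Yz
  by_cases hza : z ∈ alive X t
  · rw [indicator_of_mem hza]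
    have h2 : 0 ≤ rtL Φ t (X t) z := by
      unfold rtL; rw [Pair.rt_eq_rtm]; exact Pair.rtm_nonneg _ _ _
    have h3 := hzQ _ ⟨h2, ht.le⟩
    rw [chq_zero (hQ0.trans_le hQ) (by rw [qz_eq]; exact h3.trans hQ), zero_smul]
  · rw [indicator_of_notMem hza]

/-! ### the force along the test characteristic -/

lemma continuous_cross3 : Continuous (fun q : R3 × R3 => cross3 q.1 q.2) := by
  unfold cross3
  refine (PiLp.continuous_toLp 2 _).comp ?_
  refine continuous_pi fun i => ?_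
  fin_cases i <;> simp <;> fun_prop

lemma continuous_relVel' : Continuous relVel := by
  have h1 : Continuous fun v : R3 => Real.sqrt (1 + ‖v‖ ^ 2) := by fun_prop
  have h2 : Continuous fun v : R3 => (Real.sqrt (1 + ‖v‖ ^ 2))⁻¹ :=
    h1.inv₀ fun v => (Real.sqrt_pos.mpr (by positivity)).ne'
  exact h2.smul continuous_id

lemma continuousOn_force (hS : SolTo T f₀ E₀ B₀ f E B) (hX : IsChar T f E B X p) :
    ContinuousOn (fun s => lor E B s (X s) (p s)) (Ico 0 T) := by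
  have hm : MapsTo (fun s => ((s, X s) : ℝ × R3)) (Ico 0 T) (Iio T ×ˢ univ) :=
    fun s hs => ⟨hs.2, mem_univ _⟩
  have hc : ContinuousOn (fun s => ((s, X s) : ℝ × R3)) (Ico 0 T) :=
    continuousOn_id.prodMk hX.cX
  have h1 : ContinuousOn (fun s => E s (X s)) (Ico 0 T) :=
    hS.hE.continuousOn.comp hc hm
  have h2 : ContinuousOn (fun s => B s (X s)) (Ico 0 T) :=
    hS.hB.continuousOn.comp hc hm
  have h3 : ContinuousOn (fun s => relVel (p s)) (Ico 0 T) :=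
    continuous_relVel'.comp_continuousOn hX.cp
  unfold GSR.lor
  exact h1.add (continuous_cross3.comp_continuousOn (h3.prodMk h2))

lemma integral_force (hS : SolTo T f₀ E₀ B₀ f E B) (hX : IsChar T f E B X p) {s1 s2 : ℝ}
    (h0 : 0 ≤ s1) (h12 : s1 ≤ s2) (h2 : s2 < T) :
    ∫ s in Icc s1 s2, lor E B s (X s) (p s) = p s2 - p s1 := by
  have hsub : Icc s1 s2 ⊆ Ico 0 T := fun s hs => ⟨h0.trans hs.1, hs.2.trans_lt h2⟩
  rw [integral_Icc_eq_integral_Ioc, ← intervalIntegral.integral_of_le h12]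
  refine intervalIntegral.integral_eq_sub_of_hasDerivAt_of_le h12 (hX.cp.mono hsub) ?_ ?_
  · intro s hs
    exact hX.dp s ⟨h0.trans_lt hs.1, hs.2.trans h2⟩
  · refine ContinuousOn.intervalIntegrable ?_
    rw [uIcc_of_le h12]
    exact (continuousOn_force hS hX).mono hsub

/-- **(M)** for one test characteristic, with explicit constants. -/
theorem mix_core (hadm : IsAdmissibleDatum f₀ E₀ B₀) (hS : SolTo T f₀ E₀ B₀ f E B)
    (hF : SolFlow T f₀ f E B Φ Ψ) (hPD : PtDeriv E B) {C1 C2 Q0 τ0 : ℝ} (hC1 : 0 ≤ C1)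
    (hC2 : 0 ≤ C2) (hQ0 : 0 < Q0) (hτ0 : 0 < τ0)
    (hQ0b : ∀ τ ∈ Icc 0 τ0, ∀ z : R3 × R3, f₀ z.1 z.2 ≠ 0 → gam (Φ τ z).2 ≤ Q0)
    (hX : IsChar T f E B X p)
    (hRep : ∀ s ∈ Ioo 0 T, ‖lor E B s (X s) (p s) - (4 * Real.pi)⁻¹ •
      ∫ q in {q : R3 × R3 | ‖X s - q.1‖ < s}, f (ret X s q.1) q.1 q.2 • Kq E B X p s q‖ ≤ C1)
    (hlam : 0 < lam) (hQs : Q0 ≤ Qs)
    (hPB : ∀ (s : ℝ) (q : R3 × R3), X s ≠ q.1 →
      (1 - chq lam Qs X p s q) * ‖Kq E B X p s q‖ ≤ C2 * hden E B lam Qs X p s q ∧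
      ep X s q.1 q.2 * ‖Wq E B lam Qs X p s q‖ ≤ C2 * hden E B lam Qs X p s q ∧
      ep X s q.1 q.2 * ‖chq lam Qs X p s q • Gq X p s q‖ ≤ C2 * bden lam Qs X p s q)
    {s1 s2 : ℝ} (h0 : 0 ≤ s1) (h12 : s1 ≤ s2) (h2T : s2 < T)
    (hk : Integrable (fun r : ℝ × (R3 × R3) => kz E B X p Φ r.1 r.2)
        ((volume.restrict (Icc s1 s2)).prod (mlab f₀)))
    (hW : Integrable (fun r : ℝ × (R3 × R3) => Wz E B lam Qs X p Φ r.1 r.2)
        ((volume.restrict (Icc s1 s2)).prod (mlab f₀)))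
    (hχm : AEStronglyMeasurable (fun r : ℝ × (R3 × R3) => chz lam Qs X p Φ r.1 r.2)
        ((volume.restrict (Icc s1 s2)).prod (mlab f₀)))
    (hY1 : AEStronglyMeasurable (Yz lam Qs X p Φ s1) (mlab f₀))
    (hnc : ∀ᵐ z ∂(mlab f₀), ∀ s ∈ Icc 0 s2, X s ≠ (Φ s z).1) :
    ENNReal.ofReal ‖p s2 - p s1‖ ≤ ENNReal.ofReal (C1 + 2 * C2) *
      ((∫⁻ s in Icc s1 s2, hh f E B lam Qs X p s) + bb f lam Qs X p s1 + bb f lam Qs X p s2) := by
  have hQspos : 0 < Qs := hQ0.trans_le hQs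
  have hsub : Icc s1 s2 ⊆ Ico 0 T := fun s hs => ⟨h0.trans hs.1, hs.2.trans_lt h2T⟩
  set κ : ℝ := (4 * Real.pi)⁻¹ with hκ
  have hκ0 : 0 ≤ κ := by positivity
  have hκ1 : κ ≤ 1 := by
    rw [hκ]
    refine inv_le_one_of_one_le₀ ?_
    linarith [Real.pi_gt_three]
  set F : ℝ → R3 := fun s => lor E B s (X s) (p s) with hFdef
  set Fdat : ℝ → R3 := fun s => F s - κ • ∫ z, kz E B X p Φ s z ∂(mlab f₀) with hFdat
  have hFint : IntegrableOn F (Icc s1 s2) :=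
    ((continuousOn_force hS hX).mono hsub).integrableOn_compact isCompact_Icc
  have hmain := mix_abs (m := mlab f₀) h12 F Fdat (kz E B X p Φ) (Wz E B lam Qs X p Φ)
    (Yz lam Qs X p Φ) (chz lam Qs X p Φ) κ hκ0 ?_ ?_ ?_ hk hχm hW hY1 ?_ ?_
  rotate_left
  · -- 0 ≤ χ ≤ 1
    intro s z
    unfold chz
    by_cases hz : z ∈ alive X s
    · rw [indicator_of_mem hz]
      exact ⟨chi_nonneg _ _ _ _ _, chi_le_one _ _ _ _ _⟩
    · rw [indicator_of_notMem hz]; exact ⟨le_rfl, zero_le_one⟩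
  · exact Eventually.of_forall fun s => by rw [hFdat]; simp
  · exact Integrable.sub hFint (hk.integral_prod_left.smul κ)
  · -- continuity
    filter_upwards [hnc, ae_mlab_ne hadm] with z hz hz0
    intro s hs
    have hsT := hsub hs
    by_cases hza : z ∈ alive X s
    · have hspos := pos_of_alive hza
      exact (label_deriv hF hPD hX hlam hQspos ⟨hspos, hsT.2⟩ hza
        (hz s ⟨hsT.1, hs.2⟩)).continuousAt.continuousWithinAt
    · have h1 := label_zero (lam := lam) hτ0 hF hX hQ0 hQs (fun τ hτ => hQ0b τ hτ z hz0) hsT hza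
      have h2 : Yz lam Qs X p Φ s z = 0 := by
        unfold Yz; rw [indicator_of_notMem hza]
      refine ContinuousWithinAt.mono ?_ hsub
      refine (continuousWithinAt_const (b := (0 : R3))).congr_of_eventuallyEq h1 h2
  · -- derivative
    filter_upwards [hnc, ae_mlab_ne hadm] with z hz hz0
    refine ⟨∅, countable_empty, fun s hs => ?_⟩
    have hs' : s ∈ Ioo s1 s2 := hs.1
    have hsT : s ∈ Ioo 0 T := ⟨h0.trans_lt hs'.1, hs'.2.trans h2T⟩
    by_cases hza : z ∈ alive X s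
    · exact label_deriv hF hPD hX hlam hQspos hsT hza (hz s ⟨hsT.1.le, hs'.2.le⟩)
    · have h1 := label_zero (lam := lam) hτ0 hF hX hQ0 hQs (fun τ hτ => hQ0b τ hτ z hz0)
        ⟨hsT.1.le, hsT.2⟩ hza
      rw [nhdsWithin_eq_nhds.mpr (Ico_mem_nhds hsT.1 hsT.2)] at h1
      have e : chz lam Qs X p Φ s z • kz E B X p Φ s z - Wz E B lam Qs X p Φ s z = 0 := by
        unfold chz kz Wz
        rw [indicator_of_notMem hza, indicator_of_notMem hza, indicator_of_notMem hza]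
        simp
      rw [e]
      exact (hasDerivAt_const s (0 : R3)).congr_of_eventuallyEq h1
  -- evaluation of the two sides
  rw [integral_force hS hX h0 h12 h2T] at hmain
  rw [ofReal_norm]
  refine hmain.trans ?_
  set H : ℝ → ℝ≥0∞ := fun s => ∫⁻ q, ENNReal.ofReal (hden E B lam Qs X p s q) ∂(kap f X s)
    with hH
  have hae : ∀ᵐ s ∂(volume.restrict (Icc s1 s2)), s ∈ Ioo 0 T ∧ s ≤ s2 := by
    have h1 : ∀ᵐ s ∂(volume.restrict (Icc s1 s2)), s ∈ Icc s1 s2 :=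
      ae_restrict_mem measurableSet_Icc
    have h2 : ∀ᵐ s ∂(volume.restrict (Icc s1 s2)), s ≠ 0 :=
      ae_restrict_of_ae (by simp [ae_iff])
    filter_upwards [h1, h2] with s hs hs0
    exact ⟨⟨lt_of_le_of_ne (h0.trans hs.1) (Ne.symm hs0), hs.2.trans_lt h2T⟩, hs.2⟩
  have hncs : ∀ s, 0 ≤ s → s ≤ s2 → ∀ᵐ z ∂(mlab f₀), X s ≠ (Φ s z).1 := by
    intro s hs hs2
    filter_upwards [hnc] with z hz
    exact hz s ⟨hs, hs2⟩
  have e0 : ∫⁻ s in Icc s1 s2, ‖Fdat s‖ₑ ≤ ENNReal.ofReal C1 * volume (Icc s1 s2) := by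
    have : ∫⁻ s in Icc s1 s2, ‖Fdat s‖ₑ ≤ ∫⁻ _s in Icc s1 s2, ENNReal.ofReal C1 := by
      refine lintegral_mono_ae ?_
      filter_upwards [hae] with s hs
      rw [← ofReal_norm]
      refine ENNReal.ofReal_le_ofReal ?_
      rw [hFdat]
      simp only
      rw [integral_kz hadm hF hs.1]
      exact hRep s hs.1
    refine this.trans (le_of_eq ?_)
    rw [lintegral_const, Measure.restrict_apply_univ]
  have e1 : ∫⁻ s in Icc s1 s2, ∫⁻ z, ENNReal.ofReal (1 - chz lam Qs X p Φ s z) *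
      ‖kz E B X p Φ s z‖ₑ ∂(mlab f₀) ≤ ENNReal.ofReal C2 * ∫⁻ s in Icc s1 s2, H s := by
    rw [← lintegral_const_mul' _ _ ENNReal.ofReal_ne_top]
    refine lintegral_mono_ae ?_
    filter_upwards [hae] with s hs
    exact lint_k hadm hS hF hs.1 hC2 (hncs s hs.1.1.le hs.2)
      (fun q hq => (hPB s q hq).1)
  have e2 : ∫⁻ s in Icc s1 s2, ∫⁻ z, ‖Wz E B lam Qs X p Φ s z‖ₑ ∂(mlab f₀)
      ≤ ENNReal.ofReal C2 * ∫⁻ s in Icc s1 s2, H s := by
    rw [← lintegral_const_mul' _ _ ENNReal.ofReal_ne_top]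
    refine lintegral_mono_ae ?_
    filter_upwards [hae] with s hs
    exact lint_g hadm hS hF hs.1 hC2 (hncs s hs.1.1.le hs.2) (g := Wq E B lam Qs X p s)
      (fun q hq => (hPB s q hq).2.1)
  have e3 : ∀ s, 0 ≤ s → s ≤ s2 → ∫⁻ z, ‖Yz lam Qs X p Φ s z‖ₑ ∂(mlab f₀)
      ≤ ENNReal.ofReal C2 * bb f lam Qs X p s := by
    intro s hs0 hs2
    rcases hs0.lt_or_eq with hs | hs
    · exact lint_g hadm hS hF ⟨hs, hs2.trans_lt h2T⟩ hC2 (hncs s hs0 hs2)
        (g := fun q => chq lam Qs X p s q • Gq X p s q)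
        (fun q hq => (hPB s q hq).2.2)
    · have : ∀ z, Yz lam Qs X p Φ s z = 0 := by
        intro z
        unfold Yz
        rw [indicator_of_notMem]
        intro hz
        exact (pos_of_alive hz).ne hs
      simp only [this, enorm_zero, lintegral_zero]
      exact zero_le
  have hhint : ∫⁻ s in Icc s1 s2, hh f E B lam Qs X p s
      = volume (Icc s1 s2) + ∫⁻ s in Icc s1 s2, H s := by
    have : ∀ s, hh f E B lam Qs X p s = 1 + H s := fun s => rfl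
    simp only [this]
    rw [lintegral_add_left measurable_const, lintegral_const, Measure.restrict_apply_univ,
      one_mul]
  rw [hhint]
  have hκe : ENNReal.ofReal κ ≤ 1 := by
    rw [← ENNReal.ofReal_one]; exact ENNReal.ofReal_le_ofReal hκ1
  have b1 := e3 s1 h0 h12
  have b2 := e3 s2 (h0.trans h12) le_rfl
  have hCC : ENNReal.ofReal (C1 + 2 * C2) = ENNReal.ofReal C1 + 2 * ENNReal.ofReal C2 := by
    rw [ENNReal.ofReal_add hC1 (by positivity), ENNReal.ofReal_mul (by norm_num)]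
    norm_num
  rw [hCC]
  generalize ∫⁻ s in Icc s1 s2, ‖Fdat s‖ₑ = a0 at e0 ⊢
  generalize (∫⁻ s in Icc s1 s2, ∫⁻ z, ENNReal.ofReal (1 - chz lam Qs X p Φ s z) *
      ‖kz E B X p Φ s z‖ₑ ∂(mlab f₀)) = a1 at e1 ⊢
  generalize (∫⁻ s in Icc s1 s2, ∫⁻ z, ‖Wz E B lam Qs X p Φ s z‖ₑ ∂(mlab f₀)) = a2 at e2 ⊢
  generalize (∫⁻ z, ‖Yz lam Qs X p Φ s1 z‖ₑ ∂(mlab f₀)) = a3 at b1 ⊢
  generalize (∫⁻ z, ‖Yz lam Qs X p Φ s2 z‖ₑ ∂(mlab f₀)) = a4 at b2 ⊢
  generalize (∫⁻ s in Icc s1 s2, H s) = IH at e1 e2 ⊢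
  generalize volume (Icc s1 s2) = vol at e0 ⊢
  generalize bb f lam Qs X p s1 = β1 at b1 ⊢
  generalize bb f lam Qs X p s2 = β2 at b2 ⊢
  generalize ENNReal.ofReal C1 = c1 at e0 ⊢
  generalize ENNReal.ofReal C2 = c2 at e1 e2 b1 b2 ⊢
  calc a0 + ENNReal.ofReal κ * (a1 + a2 + (a3 + a4))
      ≤ c1 * vol + 1 * (c2 * IH + c2 * IH + (c2 * β1 + c2 * β2)) := by gcongr
    _ ≤ c1 * (vol + IH + β1 + β2) + 2 * c2 * (vol + IH + β1 + β2) := by
        refine add_le_add ?_ ?_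
        · gcongr
          calc vol ≤ vol + (IH + β1 + β2) := le_self_add
            _ = vol + IH + β1 + β2 := by ring
        · calc 1 * (c2 * IH + c2 * IH + (c2 * β1 + c2 * β2))
              = 2 * c2 * IH + c2 * (β1 + β2) := by ring
            _ ≤ 2 * c2 * IH + c2 * (β1 + β2) + (c2 * (β1 + β2) + 2 * c2 * vol) := le_self_add
            _ = 2 * c2 * (vol + IH + β1 + β2) := by ring
    _ = (c1 + 2 * c2) * (vol + IH + β1 + β2) := by ring

/-- restriction of a characteristic to a shorter time interval -/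
lemma isChar_mono {T' : ℝ} (hTT : T' ≤ T) (hX : IsChar T f E B X p) : IsChar T' f E B X p where
  cX := hX.cX.mono (Ico_subset_Ico_right hTT)
  cp := hX.cp.mono (Ico_subset_Ico_right hTT)
  dX := fun s hs => hX.dX s ⟨hs.1, hs.2.trans_le hTT⟩
  dp := fun s hs => hX.dp s ⟨hs.1, hs.2.trans_le hTT⟩
  supp := hX.supp

/-- restriction of a solution to a shorter time interval -/
lemma solTo_mono {T' : ℝ} (hT' : 0 < T') (hTT : T' ≤ T) (hS : SolTo T f₀ E₀ B₀ f E B) :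
    SolTo T' f₀ E₀ B₀ f E B := by
  have hI : Iio T' ×ˢ (univ : Set (R3 × R3)) ⊆ Iio T ×ˢ univ :=
    prod_mono (Iio_subset_Iio hTT) subset_rfl
  have hI' : Iio T' ×ˢ (univ : Set R3) ⊆ Iio T ×ˢ univ :=
    prod_mono (Iio_subset_Iio hTT) subset_rfl
  exact ⟨Clamp.classical_congr hT' hTT hS.1 (fun t _ => ⟨rfl, rfl, rfl⟩), hS.2.1.mono hI,
    hS.2.2.1.mono hI', hS.2.2.2.mono hI'⟩

/-- **(M)**: the mixed representation. The flow is only needed on `[0, T')`, `T' < T`. -/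
theorem mixP_of (hT : 0 < T) (hadm : IsAdmissibleDatum f₀ E₀ B₀) (hS : SolTo T f₀ E₀ B₀ f E B)
    (hRep : RepF T f E B) (hPB : PtBound E B) (hPD : PtDeriv E B)
    (hFl : ∀ T' : ℝ, 0 < T' → T' < T → ∃ Φ Ψ : ℝ → R3 × R3 → R3 × R3,
      SolFlow T' f₀ f E B Φ Ψ ∧ LabInt T' f₀ f E B Φ) : Mom.MixP T f E B := by
  obtain ⟨C1, hC1, hRep⟩ := hRep
  obtain ⟨C2, hC2, hPB⟩ := hPB
  obtain ⟨R, hR⟩ := hS.supp (T' := T / 2) (by linarith) (by linarith)
  have hQ0 : 0 < √(1 + R ^ 2) := Real.sqrt_pos.mpr (by positivity)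
  refine ⟨C1 + 2 * C2, √(1 + R ^ 2), by positivity, hQ0, ?_⟩
  intro X p hX lam Qs hlam hQs s1 s2 h0 h12 h2T
  have hQspos : 0 < Qs := hQ0.trans_le hQs
  set T' : ℝ := (max s2 (T / 2) + T) / 2 with hT'def
  have hm1 : max s2 (T / 2) < T := max_lt h2T (by linarith)
  have hT'T : T' < T := by rw [hT'def]; linarith
  have hT'h : T / 2 < T' := by rw [hT'def]; linarith [le_max_right s2 (T / 2)]
  have hT's : s2 < T' := by rw [hT'def]; linarith [le_max_left s2 (T / 2)]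
  have hT'0 : 0 < T' := by linarith
  obtain ⟨Φ, Ψ, hF, hLI⟩ := hFl T' hT'0 hT'T
  have hX' := isChar_mono hT'T.le hX
  obtain ⟨hk, hW, hχm, hY1, hnc⟩ := hLI X p hX' lam Qs hlam hQspos s1 s2 h0 h12 hT's
  exact mix_core hadm (solTo_mono hT'0 hT'T.le hS) hF hPD hC1 hC2 hQ0 (half_pos hT)
    (gam_le_of_supp hF hT'h hR) hX' (fun s hs => (hRep X p hX s ⟨hs.1, hs.2.trans hT'T⟩).2)
    hlam hQs (fun s q hq => (hPB X p s q hq).2 lam Qs hlam hQspos) h0 h12 hT's hk hW hχm hY1 hnc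

end Crest.Agent.R106.Mix
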