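import Crest.Agent.R106.PairAlg

/-!
# Row 106, node PAIR, part P1b: bounds of the kernels `KT, KS, KG, KC` and of the force.
`dl = om n V`, `ep = om n v`, `D = om V v`; `1/γ = sqrt(1-|v|²)`, `1/Γ = sqrt(1-|V|²)`.
-/

set_option autoImplicit false
open scoped RealInnerProductSpace

namespace Crest.Agent.R106.Pair

variable {H : Type*} [NormedAddCommGroup H] [InnerProductSpace ℝ H]

section acc
variable {n v : H}

theorem om_nonneg (hn : ‖n‖ ≤ 1) (hv : ‖v‖ ≤ 1) : 0 ≤ om n v := by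
  have h := real_inner_le_norm n v
  have h2 : ‖n‖ * ‖v‖ ≤ 1 := by nlinarith [norm_nonneg n, norm_nonneg v]
  unfold om; linarith

theorem norm_proj_le (hv : ‖v‖ ≤ 1) (F : H) : ‖F - ⟪v, F⟫ • v‖ ≤ ‖F‖ := by
  apply le_of_sq_le_sq _ (norm_nonneg F)
  rw [norm_sub_sq_real, inner_smul_right, norm_smul, Real.norm_eq_abs, mul_pow, sq_abs,
    real_inner_comm v F]
  have h1 : ‖v‖ ^ 2 ≤ 1 := by nlinarith [norm_nonneg v]
  nlinarith [sq_nonneg (⟪v, F⟫)]

theorem norm_acc_le (hv : ‖v‖ ≤ 1) (F : H) : ‖acc v F‖ ≤ Real.sqrt (1 - ‖v‖ ^ 2) * ‖F‖ := by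
  unfold acc
  rw [norm_smul, Real.norm_eq_abs, abs_of_nonneg (Real.sqrt_nonneg _)]
  exact mul_le_mul_of_nonneg_left (norm_proj_le hv F) (Real.sqrt_nonneg _)

theorem norm_n_proj_le (hn : ‖n‖ = 1) (hv : ‖v‖ ≤ 1) :
    ‖n - ⟪n, v⟫ • v‖ ≤ Real.sqrt (2 * om n v) := by
  apply Real.le_sqrt_of_sq_le
  rw [norm_sub_sq_real, inner_smul_right, norm_smul, Real.norm_eq_abs, mul_pow, sq_abs, hn]
  have h1 : ‖v‖ ^ 2 ≤ 1 := by nlinarith [norm_nonneg v]
  have h2 : om n v = 1 - ⟪n, v⟫ := rfl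
  rw [h2]
  nlinarith [sq_nonneg (⟪n, v⟫), sq_nonneg (1 - ⟪n, v⟫)]

/-- `|n·a| ≤ sqrt(2 ep) |F| / γ`. -/
theorem abs_inner_n_acc_le (hn : ‖n‖ = 1) (hv : ‖v‖ ≤ 1) (F : H) :
    |⟪n, acc v F⟫| ≤ Real.sqrt (2 * om n v) * (Real.sqrt (1 - ‖v‖ ^ 2) * ‖F‖) := by
  have e : ⟪n, acc v F⟫ = Real.sqrt (1 - ‖v‖ ^ 2) * ⟪n - ⟪n, v⟫ • v, F⟫ := by
    unfold acc
    rw [inner_smul_right, inner_sub_right, inner_smul_right, inner_sub_left, inner_smul_left]
    simp only [conj_trivial]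
    ring
  rw [e, abs_mul, abs_of_nonneg (Real.sqrt_nonneg _)]
  calc Real.sqrt (1 - ‖v‖ ^ 2) * |⟪n - ⟪n, v⟫ • v, F⟫|
      ≤ Real.sqrt (1 - ‖v‖ ^ 2) * (Real.sqrt (2 * om n v) * ‖F‖) := by
        apply mul_le_mul_of_nonneg_left _ (Real.sqrt_nonneg _)
        exact (abs_real_inner_le_norm _ _).trans
          (mul_le_mul_of_nonneg_right (norm_n_proj_le hn hv) (norm_nonneg _))
    _ = _ := by ring

end acc

section aux

theorem sqrt_two_mul_le {x : ℝ} (_hx : 0 ≤ x) : Real.sqrt (2 * x) ≤ 3 / 2 * Real.sqrt x := by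
  rw [Real.sqrt_mul (by norm_num)]
  apply mul_le_mul_of_nonneg_right _ (Real.sqrt_nonneg _)
  apply Real.sqrt_le_iff.mpr ⟨by norm_num, by norm_num⟩

/-- `x ≤ sqrt 2 * sqrt x` for `0 ≤ x ≤ 2` (with `3/2` for `sqrt 2`). -/
theorem le_sqrt_of_le_two {x : ℝ} (hx : 0 ≤ x) (hx2 : x ≤ 2) : x ≤ 3 / 2 * Real.sqrt x := by
  have h := Real.mul_self_sqrt hx
  have h1 : Real.sqrt x ≤ 3 / 2 := by
    apply Real.sqrt_le_iff.mpr ⟨by norm_num, by linarith [show (9 / 4 : ℝ) = (3/2)^2 by norm_num]⟩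
  nlinarith [Real.sqrt_nonneg x]

/-- `x * sqrt(2 y) ≤ 2 sqrt(x y)` for `0 ≤ x ≤ 2`. -/
theorem mul_sqrt_le {x y : ℝ} (hx : 0 ≤ x) (hx2 : x ≤ 2) (hy : 0 ≤ y) :
    x * Real.sqrt (2 * y) ≤ 2 * Real.sqrt (x * y) := by
  have e : 2 * Real.sqrt (x * y) = Real.sqrt (2 ^ 2 * (x * y)) := by
    rw [Real.sqrt_mul (by norm_num) (x * y), Real.sqrt_sq (by norm_num)]
  have e2 : x * Real.sqrt (2 * y) = Real.sqrt (x ^ 2 * (2 * y)) := by
    rw [Real.sqrt_mul (sq_nonneg x), Real.sqrt_sq hx]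
  rw [e, e2]
  apply Real.sqrt_le_sqrt
  nlinarith [mul_nonneg (mul_nonneg hx hy) (sub_nonneg.mpr hx2)]

end aux

section kernels
variable {n v V : H} {R : ℝ}

theorem norm_eT_le (hn : ‖n‖ = 1) (hv : ‖v‖ < 1) (hR : 0 < R) :
    ‖eT n v R‖ ≤ (1 - ‖v‖ ^ 2) / ((om n v) ^ 2 * R ^ 2) * Real.sqrt (2 * om n v) := by
  have hε := om_pos hn hv
  have h1 : 0 ≤ 1 - ‖v‖ ^ 2 := by nlinarith [norm_nonneg v]
  unfold eT
  rw [norm_smul, Real.norm_eq_abs, abs_of_nonneg (by positivity)]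
  exact mul_le_mul_of_nonneg_left (norm_sub_le_sqrt hn hv.le) (by positivity)

theorem abs_D_sub_dl_le (hn : ‖n‖ = 1) (hv : ‖v‖ ≤ 1) (hV : ‖V‖ ≤ 1) :
    |om V v - om n V| ≤ om n v + 2 * Real.sqrt (om n V * om n v) := by
  have h := abs_D_sub_le (n := n) (v := v) (V := V) hn hv hV
  have h0 := om_nonneg (n := n) (v := v) hn.le hv
  rw [abs_le] at h ⊢
  constructor <;> linarith [h.1, h.2]

theorem abs_D_sub_ep_le (hn : ‖n‖ = 1) (hv : ‖v‖ ≤ 1) (hV : ‖V‖ ≤ 1) :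
    |om V v - om n v| ≤ om n V + 2 * Real.sqrt (om n V * om n v) := by
  have h := abs_D_sub_le (n := n) (v := v) (V := V) hn hv hV
  have h0 := om_nonneg (n := n) (v := V) hn.le hV
  rw [abs_le] at h ⊢
  constructor <;> linarith [h.1, h.2]

/-- `|K_T| ≤ 4 (ep + sqrt(dl ep)) / (γ² ep² R²)`. -/
theorem norm_KT_le (hn : ‖n‖ = 1) (hv : ‖v‖ < 1) (hV : ‖V‖ ≤ 1) (hR : 0 < R) :
    ‖KT n v V R‖ ≤ 4 * ((1 - ‖v‖ ^ 2) * (om n v + Real.sqrt (om n V * om n v))
      / ((om n v) ^ 2 * R ^ 2)) := by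
  have hε := om_pos hn hv
  have hδ := om_nonneg (n := n) (v := V) hn.le hV
  have hδ2 := om_le_two (n := n) (v := V) hn.le hV
  have h1 : 0 ≤ 1 - ‖v‖ ^ 2 := by nlinarith [norm_nonneg v]
  set c := (1 - ‖v‖ ^ 2) / ((om n v) ^ 2 * R ^ 2) with hc
  have hc0 : 0 ≤ c := by positivity
  have hin : ⟪V, eT n v R⟫ = c * (om V v - om n V) := by
    unfold eT
    rw [inner_smul_right, inner_sub_right, real_inner_comm n V, ← hc]
    simp only [om]; ring
  have hs := mul_sqrt_le hδ hδ2 hε.le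
  calc ‖KT n v V R‖ ≤ ‖(om n V) • eT n v R‖ + ‖⟪V, eT n v R⟫ • n‖ := norm_add_le _ _
    _ = om n V * ‖eT n v R‖ + c * |om V v - om n V| := by
        rw [norm_smul, norm_smul, hn, hin, Real.norm_eq_abs, Real.norm_eq_abs, abs_mul,
          abs_of_nonneg hδ, abs_of_nonneg hc0, mul_one]
    _ ≤ om n V * (c * Real.sqrt (2 * om n v)) +
        c * (om n v + 2 * Real.sqrt (om n V * om n v)) := by
        apply add_le_add
        · exact mul_le_mul_of_nonneg_left (norm_eT_le hn hv hR) hδ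
        · exact mul_le_mul_of_nonneg_left (abs_D_sub_dl_le hn hv.le hV) hc0
    _ = c * (om n V * Real.sqrt (2 * om n v) + (om n v + 2 * Real.sqrt (om n V * om n v))) := by
        ring
    _ ≤ c * (4 * (om n v + Real.sqrt (om n V * om n v))) := by
        apply mul_le_mul_of_nonneg_left _ hc0
        nlinarith [Real.sqrt_nonneg (om n V * om n v)]
    _ = _ := by rw [hc]; ring

theorem inner_n_eS (hn : ‖n‖ = 1) (a : H) : ⟪n, eS n v a R⟫ = 0 := by
  have h : ⟪n, n⟫ = 1 := by rw [real_inner_self_eq_norm_sq, hn]; norm_num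
  unfold eS
  rw [inner_smul_right, inner_sub_right, inner_smul_right, inner_smul_right, inner_sub_right, h]
  simp only [om]; ring

theorem norm_eS_le (hn : ‖n‖ = 1) (hv : ‖v‖ < 1) (hR : 0 < R) (F : H) :
    ‖eS n v (acc v F) R‖ ≤ 3 * (Real.sqrt (1 - ‖v‖ ^ 2) * ‖F‖) / (om n v * R) := by
  have hε := om_pos hn hv
  set f := Real.sqrt (1 - ‖v‖ ^ 2) * ‖F‖ with hf
  have hf0 : 0 ≤ f := by positivity
  unfold eS
  rw [norm_smul, Real.norm_eq_abs, abs_of_nonneg (by positivity)]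
  have h1 : ‖⟪n, acc v F⟫ • (n - v) - (om n v) • acc v F‖ ≤ 3 * f * om n v := by
    calc ‖⟪n, acc v F⟫ • (n - v) - (om n v) • acc v F‖
        ≤ ‖⟪n, acc v F⟫ • (n - v)‖ + ‖(om n v) • acc v F‖ := norm_sub_le _ _
      _ = |⟪n, acc v F⟫| * ‖n - v‖ + om n v * ‖acc v F‖ := by
          rw [norm_smul, norm_smul, Real.norm_eq_abs, Real.norm_eq_abs, abs_of_nonneg hε.le]
      _ ≤ (Real.sqrt (2 * om n v) * f) * Real.sqrt (2 * om n v) + om n v * f := by
          apply add_le_add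
          · exact mul_le_mul (abs_inner_n_acc_le hn hv.le F) (norm_sub_le_sqrt hn hv.le)
              (norm_nonneg _) (by positivity)
          · exact mul_le_mul_of_nonneg_left (norm_acc_le hv.le F) hε.le
      _ = 3 * f * om n v := by
          have := Real.mul_self_sqrt (show 0 ≤ 2 * om n v by linarith)
          calc _ = (Real.sqrt (2 * om n v) * Real.sqrt (2 * om n v)) * f + om n v * f := by ring
            _ = _ := by rw [this]; ring
  calc 1 / ((om n v) ^ 2 * R) * ‖⟪n, acc v F⟫ • (n - v) - (om n v) • acc v F‖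
      ≤ 1 / ((om n v) ^ 2 * R) * (3 * f * om n v) :=
        mul_le_mul_of_nonneg_left h1 (by positivity)
    _ = _ := by field_simp

/-- `|K_S| ≤ 9 sqrt(dl) |F| / (γ ep R)`. -/
theorem norm_KS_le (hn : ‖n‖ = 1) (hv : ‖v‖ < 1) (hV : ‖V‖ ≤ 1) (hR : 0 < R) (F : H) :
    ‖KS n v V (acc v F) R‖ ≤ 9 * (Real.sqrt (om n V) * (Real.sqrt (1 - ‖v‖ ^ 2) * ‖F‖)
      / (om n v * R)) := by
  have hε := om_pos hn hv
  have hδ := om_nonneg (n := n) (v := V) hn.le hV
  have hδ2 := om_le_two (n := n) (v := V) hn.le hV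
  set e := eS n v (acc v F) R with he
  have he0 : ‖e‖ ≤ 3 * (Real.sqrt (1 - ‖v‖ ^ 2) * ‖F‖) / (om n v * R) := norm_eS_le hn hv hR F
  have hperp : ⟪n, e⟫ = 0 := inner_n_eS hn _
  have hin : |⟪V, e⟫| ≤ Real.sqrt (2 * om n V) * ‖e‖ := by
    have : ⟪V, e⟫ = ⟪V - n, e⟫ := by rw [inner_sub_left, hperp, sub_zero]
    rw [this]
    exact (abs_real_inner_le_norm _ _).trans (mul_le_mul_of_nonneg_right
      (by rw [norm_sub_rev]; exact norm_sub_le_sqrt hn hV) (norm_nonneg _))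
  calc ‖KS n v V (acc v F) R‖ ≤ ‖(om n V) • e‖ + ‖⟪V, e⟫ • n‖ := norm_add_le _ _
    _ = om n V * ‖e‖ + |⟪V, e⟫| := by
        rw [norm_smul, norm_smul, hn, Real.norm_eq_abs, Real.norm_eq_abs, abs_of_nonneg hδ,
          mul_one]
    _ ≤ (3 / 2 * Real.sqrt (om n V)) * ‖e‖ + (3 / 2 * Real.sqrt (om n V)) * ‖e‖ := by
        apply add_le_add
        · exact mul_le_mul_of_nonneg_right (le_sqrt_of_le_two hδ hδ2) (norm_nonneg _)
        · exact hin.trans (mul_le_mul_of_nonneg_right (sqrt_two_mul_le hδ) (norm_nonneg _))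
    _ = 3 * Real.sqrt (om n V) * ‖e‖ := by ring
    _ ≤ 3 * Real.sqrt (om n V) * (3 * (Real.sqrt (1 - ‖v‖ ^ 2) * ‖F‖) / (om n v * R)) :=
        mul_le_mul_of_nonneg_left he0 (by positivity)
    _ = _ := by ring

/-- `|n D - dl v - ep V| ≤ 6 sqrt(dl ep)`. -/
theorem norm_G_num_le (hn : ‖n‖ = 1) (hv : ‖v‖ ≤ 1) (hV : ‖V‖ ≤ 1) :
    ‖(om V v) • n - (om n V) • v - (om n v) • V‖ ≤ 6 * Real.sqrt (om n V * om n v) := by
  have hε := om_nonneg (n := n) (v := v) hn.le hv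
  have hε2 := om_le_two (n := n) (v := v) hn.le hv
  have hδ := om_nonneg (n := n) (v := V) hn.le hV
  have hδ2 := om_le_two (n := n) (v := V) hn.le hV
  have e : (om V v) • n - (om n V) • v - (om n v) • V
      = (om V v - om n V - om n v) • n + ((om n V) • (n - v) + (om n v) • (n - V)) := by
    simp only [sub_smul, smul_sub]; abel
  rw [e]
  calc _ ≤ ‖(om V v - om n V - om n v) • n‖ + (‖(om n V) • (n - v)‖ + ‖(om n v) • (n - V)‖) :=
        (norm_add_le _ _).trans (by gcongr; exact norm_add_le _ _)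
    _ = |om V v - om n V - om n v| + (om n V * ‖n - v‖ + om n v * ‖n - V‖) := by
        rw [norm_smul, norm_smul, norm_smul, hn, Real.norm_eq_abs, Real.norm_eq_abs,
          Real.norm_eq_abs, abs_of_nonneg hδ, abs_of_nonneg hε, mul_one]
    _ ≤ 2 * Real.sqrt (om n V * om n v) + (2 * Real.sqrt (om n V * om n v)
        + 2 * Real.sqrt (om n v * om n V)) := by
        apply add_le_add (abs_D_sub_le hn hv hV)
        apply add_le_add
        · exact (mul_le_mul_of_nonneg_left (norm_sub_le_sqrt hn hv) hδ).trans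
            (mul_sqrt_le hδ hδ2 hε)
        · exact (mul_le_mul_of_nonneg_left (norm_sub_le_sqrt hn hV) hε).trans
            (mul_sqrt_le hε hε2 hδ)
    _ = _ := by rw [mul_comm (om n v) (om n V)]; ring

/-- `|G| sqrt(dl ep) R ≤ 6`. -/
theorem norm_KG_le (hn : ‖n‖ = 1) (hv : ‖v‖ < 1) (hV : ‖V‖ < 1) (hR : 0 < R) :
    ‖KG n v V R‖ ≤ 6 / (Real.sqrt (om n V * om n v) * R) := by
  have hε := om_pos hn hv
  have hδ := om_pos hn hV
  unfold KG
  rw [norm_smul, Real.norm_eq_abs, abs_of_nonneg (by positivity)]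
  have hs : 0 < Real.sqrt (om n V * om n v) := Real.sqrt_pos.mpr (by positivity)
  have hss := Real.mul_self_sqrt (show 0 ≤ om n V * om n v by positivity)
  calc _ ≤ 1 / (om n V * om n v * R) * (6 * Real.sqrt (om n V * om n v)) :=
        mul_le_mul_of_nonneg_left (norm_G_num_le hn hv.le hV.le) (by positivity)
    _ = _ := by
        set q := Real.sqrt (om n V * om n v) with hq
        rw [← hss]; field_simp

/-- `ep |G| ≤ 6 sqrt(ep/dl)/R`: bound of the boundary density. -/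
theorem ep_norm_KG_le (hn : ‖n‖ = 1) (hv : ‖v‖ < 1) (hV : ‖V‖ < 1) (hR : 0 < R) :
    om n v * ‖KG n v V R‖ ≤ 6 * (Real.sqrt (om n v / om n V) / R) := by
  have hε := om_pos hn hv
  have hδ := om_pos hn hV
  have h := mul_le_mul_of_nonneg_left (norm_KG_le hn hv hV hR) hε.le
  refine h.trans (le_of_eq ?_)
  rw [Real.sqrt_mul hδ.le, Real.sqrt_div hε.le]
  have h1 : om n v = Real.sqrt (om n v) * Real.sqrt (om n v) := (Real.mul_self_sqrt hε.le).symm
  have h2 : 0 < Real.sqrt (om n v) := Real.sqrt_pos.mpr hε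
  have h3 : 0 < Real.sqrt (om n V) := Real.sqrt_pos.mpr hδ
  set q := Real.sqrt (om n v)
  rw [h1]; field_simp


theorem norm_KC_first_le (hn : ‖n‖ = 1) (hv : ‖v‖ ≤ 1) (hV : ‖V‖ ≤ 1) :
    ‖(om V v) • n - (om n v) • V‖ ≤ 4 * (om n V + Real.sqrt (om n V * om n v)) := by
  have hε := om_nonneg (n := n) (v := v) hn.le hv
  have hε2 := om_le_two (n := n) (v := v) hn.le hv
  have hδ := om_nonneg (n := n) (v := V) hn.le hV
  have e : (om V v) • n - (om n v) • V = (om V v - om n v) • n + (om n v) • (n - V) := by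
    simp only [sub_smul, smul_sub]; abel
  rw [e]
  calc _ ≤ ‖(om V v - om n v) • n‖ + ‖(om n v) • (n - V)‖ := norm_add_le _ _
    _ = |om V v - om n v| + om n v * ‖n - V‖ := by
        rw [norm_smul, norm_smul, hn, Real.norm_eq_abs, Real.norm_eq_abs, abs_of_nonneg hε,
          mul_one]
    _ ≤ (om n V + 2 * Real.sqrt (om n V * om n v)) + 2 * Real.sqrt (om n v * om n V) := by
        apply add_le_add (abs_D_sub_ep_le hn hv hV)
        exact (mul_le_mul_of_nonneg_left (norm_sub_le_sqrt hn hV) hε).trans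
            (mul_sqrt_le hε hε2 hδ)
    _ ≤ _ := by
        rw [mul_comm (om n v) (om n V)]
        nlinarith [Real.sqrt_nonneg (om n V * om n v)]

theorem norm_KC_second_le (hn : ‖n‖ = 1) (hv : ‖v‖ ≤ 1) (hV : ‖V‖ ≤ 1) (F : H) :
    ‖(om n v * om n V) • acc V F + (om n v * ⟪n, acc V F⟫) • V + (om n V * ⟪acc V F, v⟫) • n
      - (om V v * ⟪n, acc V F⟫) • n‖
      ≤ 9 * (Real.sqrt (om n v) * (om n V * (Real.sqrt (1 - ‖V‖ ^ 2) * ‖F‖))) := by
  have hε := om_nonneg (n := n) (v := v) hn.le hv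
  have hε2 := om_le_two (n := n) (v := v) hn.le hv
  have hδ := om_nonneg (n := n) (v := V) hn.le hV
  set A := acc V F with hA
  set f := Real.sqrt (1 - ‖V‖ ^ 2) * ‖F‖ with hf
  have hf0 : 0 ≤ f := by positivity
  set w := (om n V) • A + ⟪n, A⟫ • (V - n) with hw
  have hDe : om V v = om n V + om n v - ⟪V - n, v - n⟫ := by
    have := D_sub_eq (n := n) (v := v) (V := V) hn; linarith
  have hwn : ⟪w, v - n⟫ = om n V * (⟪A, v⟫ - ⟪n, A⟫) + ⟪n, A⟫ * ⟪V - n, v - n⟫ := by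
    rw [hw, inner_add_left, inner_smul_left, inner_smul_left, inner_sub_right A v n,
      real_inner_comm n A]
    simp
  have e : (om n v * om n V) • A + (om n v * ⟪n, A⟫) • V + (om n V * ⟪A, v⟫) • n
      - (om V v * ⟪n, A⟫) • n = (om n v) • w + ⟪w, v - n⟫ • n := by
    rw [hwn, hw, hDe]
    simp only [smul_add, smul_sub, sub_smul, add_smul, mul_smul, sub_mul, add_mul, mul_sub]
    module
  have hwle : ‖w‖ ≤ 3 * (om n V * f) := by
    calc ‖w‖ ≤ ‖(om n V) • A‖ + ‖⟪n, A⟫ • (V - n)‖ := norm_add_le _ _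
      _ = om n V * ‖A‖ + |⟪n, A⟫| * ‖V - n‖ := by
          rw [norm_smul, norm_smul, Real.norm_eq_abs, Real.norm_eq_abs, abs_of_nonneg hδ]
      _ ≤ om n V * f + (Real.sqrt (2 * om n V) * f) * Real.sqrt (2 * om n V) := by
          apply add_le_add
          · exact mul_le_mul_of_nonneg_left (norm_acc_le hV F) hδ
          · exact mul_le_mul (abs_inner_n_acc_le hn hV F)
              (by rw [norm_sub_rev]; exact norm_sub_le_sqrt hn hV) (norm_nonneg _) (by positivity)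
      _ = 3 * (om n V * f) := by
          have := Real.mul_self_sqrt (show 0 ≤ 2 * om n V by linarith)
          calc _ = (Real.sqrt (2 * om n V) * Real.sqrt (2 * om n V)) * f + om n V * f := by ring
            _ = _ := by rw [this]; ring
  rw [e]
  calc _ ≤ ‖(om n v) • w‖ + ‖⟪w, v - n⟫ • n‖ := norm_add_le _ _
    _ = om n v * ‖w‖ + |⟪w, v - n⟫| := by
        rw [norm_smul, norm_smul, hn, Real.norm_eq_abs, Real.norm_eq_abs, abs_of_nonneg hε,
          mul_one]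
    _ ≤ (3 / 2 * Real.sqrt (om n v)) * ‖w‖ + ‖w‖ * (3 / 2 * Real.sqrt (om n v)) := by
        apply add_le_add
        · exact mul_le_mul_of_nonneg_right (le_sqrt_of_le_two hε hε2) (norm_nonneg _)
        · exact (abs_real_inner_le_norm _ _).trans (mul_le_mul_of_nonneg_left
            (by rw [norm_sub_rev]; exact (norm_sub_le_sqrt hn hv).trans (sqrt_two_mul_le hε))
            (norm_nonneg _))
    _ = 3 * Real.sqrt (om n v) * ‖w‖ := by ring
    _ ≤ 3 * Real.sqrt (om n v) * (3 * (om n V * f)) :=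
        mul_le_mul_of_nonneg_left hwle (by positivity)
    _ = _ := by ring

/-- `dl |K_C| ≤ 4 (dl + sqrt(dl ep))/(Γ² dl² R²) + 9 sqrt(ep) |F_t|/(Γ dl R)`. -/
theorem norm_KC_le (hn : ‖n‖ = 1) (hv : ‖v‖ < 1) (hV : ‖V‖ < 1) (hR : 0 < R) (F : H) :
    om n V * ‖KC n v V (acc V F) R‖ ≤
      4 * ((1 - ‖V‖ ^ 2) * (om n V + Real.sqrt (om n V * om n v)) / ((om n V) ^ 2 * R ^ 2)) +
      9 * (Real.sqrt (om n v) * (Real.sqrt (1 - ‖V‖ ^ 2) * ‖F‖) / (om n V * R)) := by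
  have hε := om_pos hn hv
  have hδ := om_pos hn hV
  have h1 : 0 ≤ 1 - ‖V‖ ^ 2 := by nlinarith [norm_nonneg V]
  have k1 := norm_KC_first_le (n := n) (v := v) (V := V) hn hv.le hV.le
  have k2 := norm_KC_second_le (n := n) (v := v) (V := V) hn hv.le hV.le F
  unfold KC
  calc _ ≤ om n V * ((1 - ‖V‖ ^ 2) / ((om n V) ^ 3 * R ^ 2) *
          ‖(om V v) • n - (om n v) • V‖ + (1 / ((om n V) ^ 3 * R)) *
          ‖(om n v * om n V) • acc V F + (om n v * ⟪n, acc V F⟫) • V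
            + (om n V * ⟪acc V F, v⟫) • n - (om V v * ⟪n, acc V F⟫) • n‖) := by
        apply mul_le_mul_of_nonneg_left _ hδ.le
        refine (norm_add_le _ _).trans (le_of_eq ?_)
        rw [norm_smul, norm_smul, Real.norm_eq_abs, Real.norm_eq_abs,
          abs_of_nonneg (show 0 ≤ (1 - ‖V‖ ^ 2) / ((om n V) ^ 3 * R ^ 2) by positivity),
          abs_of_nonneg (show 0 ≤ 1 / ((om n V) ^ 3 * R) by positivity)]
    _ ≤ om n V * ((1 - ‖V‖ ^ 2) / ((om n V) ^ 3 * R ^ 2) *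
          (4 * (om n V + Real.sqrt (om n V * om n v))) + (1 / ((om n V) ^ 3 * R)) *
          (9 * (Real.sqrt (om n v) * (om n V * (Real.sqrt (1 - ‖V‖ ^ 2) * ‖F‖))))) := by
        apply mul_le_mul_of_nonneg_left _ hδ.le
        apply add_le_add
        · exact mul_le_mul_of_nonneg_left k1 (by positivity)
        · exact mul_le_mul_of_nonneg_left k2 (by positivity)
    _ = _ := by field_simp

end kernels

end Crest.Agent.R106.Pair
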