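import Crest.Agent.R106.MixInt
import Crest.Agent.R106.PairKer
import Crest.Prelude.Def_VlasovMaxwell

/-!
# Row 106, MIX-C, part 2: integrability criteria and the concrete kernels
-/

set_option autoImplicit false

open MeasureTheory Set Metric Filter
open scoped ENNReal NNReal Topology RealInnerProductSpace

namespace Crest.Agent.R106.Mix

open Crest.AnalysisR.VecCalc3 Crest.AnalysisR.PDE.RVM

section Crit

variable {Z : Type*} [MeasurableSpace Z] {m : Measure Z} {t1 : ℝ} {X : ℝ → R3} {Y : ℝ → Z → R3}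
  {τ : ℝ → Z → ℝ}

/-- for fixed time, almost no label is at the test position. -/
lemma ae_ne_of_dens {C : ℝ≥0∞} {y : Z → R3} (hy : Measurable y) (hdens : m.map y ≤ C • volume)
    (x : R3) : ∀ᵐ z ∂m, y z ≠ x := by
  have h1 : (m.map y) {x} = 0 := by
    have := hdens {x}
    simpa using this
  rw [Measure.map_apply hy (measurableSet_singleton _)] at h1
  rw [ae_iff]
  refine measure_mono_null (fun z hz => ?_) h1
  simpa using hz

/-- the majorant -/
noncomputable def maj (c R : ℝ) : ℝ := c * (1 + R⁻¹ + (R⁻¹) ^ 2)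

variable {W : Type*} [NormedAddCommGroup W] [MeasurableSpace W] [BorelSpace W]
  [SecondCountableTopology W]

/-- bound of the label integral at a fixed time of a kernel dominated by `c (1 + 1/R + 1/R²)` on
the cone set. -/
theorem lintegral_slice_le (h : Sublum t1 X Y) (hτ : IsRet t1 X Y τ) {C : ℝ≥0∞}
    (hdens : ∀ s ∈ Icc 0 t1, m.map (Y s) ≤ C • volume) {f : ℝ × Z → W} {c : ℝ} (hc : 0 ≤ c)
    (hb : ∀ p ∈ coneSet t1 X Y, 0 < p.1 - τ p.1 p.2 → ‖f p‖ ≤ maj c (p.1 - τ p.1 p.2))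
    {s : ℝ} (hs : s ∈ Icc 0 t1) :
    ∫⁻ z, ‖(coneSet t1 X Y).indicator f (s, z)‖ₑ ∂m ≤
      ENNReal.ofReal c * (m univ + 2 * (C * Ik 1 + m univ) + 4 * (C * Ik 2 + m univ)) := by
  have hae : ∀ᵐ z ∂m, ‖(coneSet t1 X Y).indicator f (s, z)‖ₑ ≤ ENNReal.ofReal c *
      (1 + (coneSet t1 X Y).indicator
          (fun p => ((ENNReal.ofReal (p.1 - τ p.1 p.2))⁻¹) ^ 1) (s, z)
        + (coneSet t1 X Y).indicator
          (fun p => ((ENNReal.ofReal (p.1 - τ p.1 p.2))⁻¹) ^ 2) (s, z)) := by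
    filter_upwards [ae_ne_of_dens (h.hYm s hs) (hdens s hs) (X s)] with z hz
    by_cases hp : (s, z) ∈ coneSet t1 X Y
    · rw [indicator_of_mem hp, indicator_of_mem hp, indicator_of_mem hp]
      have hR : 0 < s - τ s z := by
        obtain ⟨h1, h2, h3⟩ := hτ s hs z hp.2
        rcases h2.lt_or_eq with h4 | h4
        · linarith
        · exfalso
          rw [h4, sub_self] at h3
          have := norm_eq_zero.mp h3.symm
          exact hz (sub_eq_zero.mp this).symm
      have h5 := hb (s, z) hp hR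
      simp only at h5
      calc ‖f (s, z)‖ₑ = ENNReal.ofReal ‖f (s, z)‖ := (ofReal_norm _).symm
        _ ≤ ENNReal.ofReal (maj c (s - τ s z)) := ENNReal.ofReal_le_ofReal h5
        _ = _ := by
            unfold maj
            rw [ENNReal.ofReal_mul hc, ENNReal.ofReal_add (by positivity) (by positivity),
              ENNReal.ofReal_add (by norm_num) (by positivity), ENNReal.ofReal_one,
              ENNReal.ofReal_pow (by positivity), ENNReal.ofReal_inv_of_pos hR, pow_one]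
    · rw [indicator_of_notMem hp]; simp
  have hm1 : ∀ k : ℕ, Measurable (fun z => (coneSet t1 X Y).indicator
      (fun p => ((ENNReal.ofReal (p.1 - τ p.1 p.2))⁻¹) ^ k) (s, z)) := by
    intro k
    have h1 : MeasOn (coneSet t1 X Y) (fun p => ((ENNReal.ofReal (p.1 - τ p.1 p.2))⁻¹) ^ k) := by
      have h2 : MeasOn (coneSet t1 X Y) (fun p : ℝ × Z => p.1 - τ p.1 p.2) :=
        (MeasOn.of_measurable measurable_fst).sub (measOn_ret h hτ)
      exact h2.comp (φ := fun r : ℝ => ((ENNReal.ofReal r)⁻¹) ^ k) (by fun_prop)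
    exact (h1.indicator (measurableSet_coneSet h)).comp measurable_prodMk_left
  calc ∫⁻ z, ‖(coneSet t1 X Y).indicator f (s, z)‖ₑ ∂m
      ≤ ∫⁻ z, ENNReal.ofReal c * (1 + (coneSet t1 X Y).indicator
          (fun p => ((ENNReal.ofReal (p.1 - τ p.1 p.2))⁻¹) ^ 1) (s, z)
        + (coneSet t1 X Y).indicator
          (fun p => ((ENNReal.ofReal (p.1 - τ p.1 p.2))⁻¹) ^ 2) (s, z)) ∂m := lintegral_mono_ae hae
    _ = ENNReal.ofReal c * (m univ + (∫⁻ z, (coneSet t1 X Y).indicator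
          (fun p => ((ENNReal.ofReal (p.1 - τ p.1 p.2))⁻¹) ^ 1) (s, z) ∂m)
        + ∫⁻ z, (coneSet t1 X Y).indicator
          (fun p => ((ENNReal.ofReal (p.1 - τ p.1 p.2))⁻¹) ^ 2) (s, z) ∂m) := by
        have e1 : Measurable (fun z => 1 + (coneSet t1 X Y).indicator
            (fun p => ((ENNReal.ofReal (p.1 - τ p.1 p.2))⁻¹) ^ 1) (s, z)) :=
          measurable_const.add (hm1 1)
        have e2 : Measurable (fun z => 1 + (coneSet t1 X Y).indicator
            (fun p => ((ENNReal.ofReal (p.1 - τ p.1 p.2))⁻¹) ^ 1) (s, z)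
            + (coneSet t1 X Y).indicator
          (fun p => ((ENNReal.ofReal (p.1 - τ p.1 p.2))⁻¹) ^ 2) (s, z)) :=
          e1.add (hm1 2)
        rw [lintegral_const_mul _ e2,
          lintegral_add_right _ (hm1 2), lintegral_add_right _ (hm1 1)]
        simp
    _ ≤ _ := by
        gcongr
        · simpa using lintegral_inv_R_le m h hτ hdens hs 1
        · refine (lintegral_inv_R_le m h hτ hdens hs 2).trans (le_of_eq ?_)
          norm_num


/-- joint integrability over (test time) × (labels) -/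
theorem integrable_joint [IsFiniteMeasure m] (h : Sublum t1 X Y) (hτ : IsRet t1 X Y τ) {C : ℝ≥0∞}
    (hC : C ≠ ∞)
    (hdens : ∀ s ∈ Icc 0 t1, m.map (Y s) ≤ C • volume) {f : ℝ × Z → W}
    (hf : MeasOn (coneSet t1 X Y) f) {c : ℝ} (hc : 0 ≤ c)
    (hb : ∀ p ∈ coneSet t1 X Y, 0 < p.1 - τ p.1 p.2 → ‖f p‖ ≤ maj c (p.1 - τ p.1 p.2))
    {a b : ℝ} (hab : Icc a b ⊆ Icc 0 t1) :
    Integrable (fun p : ℝ × Z => (coneSet t1 X Y).indicator f p)
      ((volume.restrict (Icc a b)).prod m) := by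
  have hmeas := hf.indicator (measurableSet_coneSet h)
  refine ⟨hmeas.aestronglyMeasurable, ?_⟩
  rw [hasFiniteIntegral_iff_enorm, lintegral_prod _ hmeas.enorm.aemeasurable]
  have h1 := Ik_lt_top (k := 1) (by norm_num)
  have h2 := Ik_lt_top (k := 2) (by norm_num)
  have hC' : C < ∞ := hC.lt_top
  have hm : m univ < ∞ := measure_lt_top m univ
  calc ∫⁻ s in Icc a b, ∫⁻ z, ‖(coneSet t1 X Y).indicator f (s, z)‖ₑ ∂m
      ≤ ∫⁻ _ in Icc a b, ENNReal.ofReal c *
          (m univ + 2 * (C * Ik 1 + m univ) + 4 * (C * Ik 2 + m univ)) :=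
        setLIntegral_mono measurable_const
          (fun s hs => lintegral_slice_le h hτ hdens hc hb (hab hs))
    _ < ∞ := by
        rw [setLIntegral_const]
        refine ENNReal.mul_lt_top (ENNReal.mul_lt_top ENNReal.ofReal_lt_top ?_) (by simp)
        refine ENNReal.add_lt_top.mpr ⟨ENNReal.add_lt_top.mpr ⟨hm, ?_⟩, ?_⟩
        · exact ENNReal.mul_lt_top (by simp) (ENNReal.add_lt_top.mpr
            ⟨ENNReal.mul_lt_top hC' h1, hm⟩)
        · exact ENNReal.mul_lt_top (by simp) (ENNReal.add_lt_top.mpr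
            ⟨ENNReal.mul_lt_top hC' h2, hm⟩)

end Crit

/-! ### measurability of the kernels -/

section Ker

open Crest.Agent.R106.Pair

variable {α : Type*} [MeasurableSpace α] {A : Set α} {n v V a : α → R3} {R : α → ℝ}

lemma MeasOn.inner' (hn : MeasOn A n) (hv : MeasOn A v) : MeasOn A (fun p => ⟪n p, v p⟫) :=
  MeasOn.comp₂ (φ := fun a b : R3 => ⟪a, b⟫) (by fun_prop) hn hv

lemma MeasOn.smul' {W : Type*} [TopologicalSpace W] [AddCommGroup W] [Module ℝ W]
    [MeasurableSpace W] [MeasurableSMul₂ ℝ W] {c : α → ℝ} {w : α → W}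
    (hc : MeasOn A c) (hw : MeasOn A w) : MeasOn A (fun p => c p • w p) :=
  MeasOn.comp₂ (φ := fun (a : ℝ) (b : W) => a • b) (by fun_prop) hc hw


lemma measurable_KT : Measurable (fun q : (R3 × R3) × R3 × ℝ => KT q.1.1 q.1.2 q.2.1 q.2.2) := by
  unfold KT lor eT om; fun_prop

lemma measurable_KS : Measurable (fun q : (R3 × R3) × R3 × R3 × ℝ =>
    KS q.1.1 q.1.2 q.2.1 q.2.2.1 q.2.2.2) := by
  unfold KS lor eS om; fun_prop

lemma measurable_KG : Measurable (fun q : (R3 × R3) × R3 × ℝ => KG q.1.1 q.1.2 q.2.1 q.2.2) := by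
  unfold KG om; fun_prop

lemma measurable_KC : Measurable (fun q : (R3 × R3) × R3 × R3 × ℝ =>
    KC q.1.1 q.1.2 q.2.1 q.2.2.1 q.2.2.2) := by
  unfold KC om; fun_prop


attribute [local irreducible] KT KS KG KC acc

lemma MeasOn.KT' (hn : MeasOn A n) (hv : MeasOn A v) (hV : MeasOn A V) (hR : MeasOn A R) :
    MeasOn A (fun p => KT (n p) (v p) (V p) (R p)) :=
  MeasOn.comp (φ := fun q : (R3 × R3) × R3 × ℝ => KT q.1.1 q.1.2 q.2.1 q.2.2) measurable_KT
    ((hn.prodMk hv).prodMk (hV.prodMk hR))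

lemma MeasOn.KS' (hn : MeasOn A n) (hv : MeasOn A v) (hV : MeasOn A V) (ha : MeasOn A a)
    (hR : MeasOn A R) :
    MeasOn A (fun p => KS (n p) (v p) (V p) (a p) (R p)) :=
  MeasOn.comp (φ := fun q : (R3 × R3) × R3 × R3 × ℝ =>
    KS q.1.1 q.1.2 q.2.1 q.2.2.1 q.2.2.2) measurable_KS
    ((hn.prodMk hv).prodMk (hV.prodMk (ha.prodMk hR)))

lemma MeasOn.KG' (hn : MeasOn A n) (hv : MeasOn A v) (hV : MeasOn A V) (hR : MeasOn A R) :
    MeasOn A (fun p => KG (n p) (v p) (V p) (R p)) :=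
  MeasOn.comp (φ := fun q : (R3 × R3) × R3 × ℝ => KG q.1.1 q.1.2 q.2.1 q.2.2) measurable_KG
    ((hn.prodMk hv).prodMk (hV.prodMk hR))

lemma MeasOn.KC' (hn : MeasOn A n) (hv : MeasOn A v) (hV : MeasOn A V) (ha : MeasOn A a)
    (hR : MeasOn A R) :
    MeasOn A (fun p => KC (n p) (v p) (V p) (a p) (R p)) :=
  MeasOn.comp (φ := fun q : (R3 × R3) × R3 × R3 × ℝ =>
    KC q.1.1 q.1.2 q.2.1 q.2.2.1 q.2.2.2) measurable_KC
    ((hn.prodMk hv).prodMk (hV.prodMk (ha.prodMk hR)))


end Ker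

end Crest.Agent.R106.Mix
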