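import Crest.Agent.R106.MixOne
import Crest.Agent.R106.PairDer
import Crest.Agent.R106.MomDefs
import Crest.Agent.R106.MixDefs
import Crest.Agent.R106.PairDefs
import Crest.Agent.R106.FieldIface
import Crest.Agent.R106.MomIface
import Crest.Agent.R106.ConeMu
import Crest.Agent.R106.FlowVM
import Crest.Agent.R106.MixInt2
import Crest.Agent.R106.MixInst

-- ▼ part R106/MixPair
section

/-!
# Row 106, node MIX-B (helper633): the cut-off calculus for the actual pair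

`n` unit vector from source to test, `v` velocity and `F` force of the source, `V` velocity and
`Ft` force of the test, `R` distance.  Everything in an arbitrary real inner product space.
-/

set_option autoImplicit false
set_option linter.unusedSectionVars false
open scoped RealInnerProductSpace
open Real

namespace Crest.Agent.R106.Mix

open Crest.Agent.R106.Pair

variable {H : Type*} [NormedAddCommGroup H] [InnerProductSpace ℝ H]

/-- energy of a particle of velocity `v` -/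
noncomputable def gv (v : H) : ℝ := (√(1 - ‖v‖ ^ 2))⁻¹

theorem one_sub_pos {v : H} (hv : ‖v‖ < 1) : 0 < 1 - ‖v‖ ^ 2 := by
  nlinarith [norm_nonneg v]

theorem sqrt_pos' {v : H} (hv : ‖v‖ < 1) : 0 < √(1 - ‖v‖ ^ 2) :=
  Real.sqrt_pos.mpr (one_sub_pos hv)

theorem gv_pos {v : H} (hv : ‖v‖ < 1) : 0 < gv v := inv_pos.mpr (sqrt_pos' hv)

theorem inv_gv (v : H) : (gv v)⁻¹ = √(1 - ‖v‖ ^ 2) := by unfold gv; rw [inv_inv]

theorem inv_gv_sq {v : H} (hv : ‖v‖ < 1) : (gv v ^ 2)⁻¹ = 1 - ‖v‖ ^ 2 := by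
  rw [← inv_pow, inv_gv, Real.sq_sqrt (one_sub_pos hv).le]

theorem inner_acc_self (v F : H) :
    ⟪v, acc v F⟫ = √(1 - ‖v‖ ^ 2) * ((1 - ‖v‖ ^ 2) * ⟪v, F⟫) := by
  unfold acc
  rw [inner_smul_right, inner_sub_right, inner_smul_right, real_inner_self_eq_norm_sq]
  ring

theorem hasDerivAt_gv {n v V : ℝ → H} {R : ℝ → ℝ} {F A : H} {c s : ℝ}
    (h : PairD n v V R (acc (v s) F) A c s) :
    HasDerivAt (fun t => gv (v t)) (c * om (n s) (V s) * ⟪v s, F⟫) s := by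
  have h1 := (h.deriv_normsq_v).const_sub 1
  have hp := one_sub_pos h.hv1
  have hs := sqrt_pos' h.hv1
  have h2 := (h1.sqrt hp.ne').fun_inv hs.ne'
  refine h2.congr_deriv ?_
  rw [inner_acc_self]
  set w := √(1 - ‖v s‖ ^ 2) with hw
  have hw2 : 1 - ‖v s‖ ^ 2 = w ^ 2 := (Real.sq_sqrt hp.le).symm
  rw [hw2]
  field_simp

/-- the remainder `W` of the pair: everything is a function of the values of
`n, v, V, F, Ft, R`. -/
noncomputable def WW (lam Qs : ℝ) (n v V F Ft : H) (R : ℝ) : H :=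
  Wrem lam Qs (om n V) (om n v) (gv v)
    (((om V v - (1 - ‖v‖ ^ 2) * om n V / om n v - om n v + om n V) / R
        - om n V / om n v * ⟪n, acc v F⟫) / om n v
      - 2 * (((1 - ‖V‖ ^ 2) - om n V - om V v * om n V / om n v + om n V ^ 2 / om n v) / R
        - ⟪n, acc V Ft⟫) / om n V)
    (om n V / om n v * ⟪v, F⟫) (KG n v V R) (KC n v V (acc V Ft) R)

/-- the cut-off of the pair -/
noncomputable def chiP (lam Qs : ℝ) (n v V : H) : ℝ := chi lam Qs (om n V) (om n v) (gv v)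

/-- **the derivative of `chi * G` along the pair, in the parameter `s`** -/
theorem hasDerivAt_chi_KG {lam Qs : ℝ} (hl : 0 < lam) {n v V : ℝ → H} {R : ℝ → ℝ} {F Ft : H}
    {s : ℝ} (h : PairD n v V R (acc (v s) F) (acc (V s) Ft) (om (n s) (v s))⁻¹ s) :
    HasDerivAt (fun t => chiP lam Qs (n t) (v t) (V t) • KG (n t) (v t) (V t) (R t))
      (chiP lam Qs (n s) (v s) (V s) • ((om (n s) (v s))⁻¹ •
          (KT (n s) (v s) (V s) (R s) + KS (n s) (v s) (V s) (acc (v s) F) (R s)))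
        - WW lam Qs (n s) (v s) (V s) F Ft (R s)) s := by
  have hep := h.ep_pos
  have hde := h.dl_pos
  have hR := h.hR0
  have hG := h.deriv_KG
  have hG' : HasDerivAt (fun t => KG (n t) (v t) (V t) (R t))
      ((om (n s) (v s))⁻¹ •
          (KT (n s) (v s) (V s) (R s) + KS (n s) (v s) (V s) (acc (v s) F) (R s))
        - (om (n s) (V s) / om (n s) (v s)) • KC (n s) (v s) (V s) (acc (V s) Ft) (R s)) s := by
    refine hG.congr_deriv ?_
    rw [smul_sub, smul_smul]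
    congr 2
    rw [div_eq_mul_inv, mul_comm]
  have hdl' := h.deriv_dl
  have hep' := h.deriv_ep
  have hga' := hasDerivAt_gv h
  have e1 : -((om (n s) (v s))⁻¹ / R s) * (-(om (n s) (v s) * (1 - ‖V s‖ ^ 2))
      + om (n s) (V s) * om (V s) (v s)
      + om (n s) (V s) * (om (n s) (v s) - om (n s) (V s)))
      - (om (n s) (v s))⁻¹ * om (n s) (v s) * ⟪n s, acc (V s) Ft⟫
      = ((1 - ‖V s‖ ^ 2) - om (n s) (V s) - om (V s) (v s) * om (n s) (V s) / om (n s) (v s)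
          + om (n s) (V s) ^ 2 / om (n s) (v s)) / R s - ⟪n s, acc (V s) Ft⟫ := by
    field_simp
    ring
  have e2 : -((om (n s) (v s))⁻¹ / R s) * (-(om (n s) (v s) * om (V s) (v s))
      + om (n s) (V s) * (1 - ‖v s‖ ^ 2)
      + om (n s) (v s) * (om (n s) (v s) - om (n s) (V s)))
      - (om (n s) (v s))⁻¹ * om (n s) (V s) * ⟪n s, acc (v s) F⟫
      = (om (V s) (v s) - (1 - ‖v s‖ ^ 2) * om (n s) (V s) / om (n s) (v s) - om (n s) (v s)
          + om (n s) (V s)) / R s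
        - om (n s) (V s) / om (n s) (v s) * ⟪n s, acc (v s) F⟫ := by
    field_simp
    ring
  have e3 : (om (n s) (v s))⁻¹ * om (n s) (V s) * ⟪v s, F⟫
      = om (n s) (V s) / om (n s) (v s) * ⟪v s, F⟫ := by
    rw [div_eq_mul_inv]; ring
  exact hasDerivAt_chi_smul (Qs := Qs) hl hde hep (hdl'.congr_deriv e1) (hep'.congr_deriv e2)
    (hga'.congr_deriv e3) hG'

/-! ### Bounds -/

theorem D_le_sq {n v V : H} (hn : ‖n‖ = 1) (hv : ‖v‖ ≤ 1) (hV : ‖V‖ ≤ 1) :
    om V v ≤ (√(om n V) + √(om n v)) ^ 2 := by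
  have h0 : 0 ≤ om n V := om_nonneg hn.le hV
  have h0' : 0 ≤ om n v := om_nonneg hn.le hv
  have h := (abs_le.mp (abs_D_sub_le (n := n) hn hv hV)).2
  rw [Real.sqrt_mul h0] at h
  have e1 := Real.sq_sqrt h0
  have e2 := Real.sq_sqrt h0'
  nlinarith

theorem sq_le_D {n v V : H} (hn : ‖n‖ = 1) (hv : ‖v‖ ≤ 1) (hV : ‖V‖ ≤ 1) :
    (√(om n V) - √(om n v)) ^ 2 ≤ om V v := by
  have h0 : 0 ≤ om n V := om_nonneg hn.le hV
  have h0' : 0 ≤ om n v := om_nonneg hn.le hv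
  have h := (abs_le.mp (abs_D_sub_le (n := n) hn hv hV)).1
  rw [Real.sqrt_mul h0] at h
  have e1 := Real.sq_sqrt h0
  have e2 := Real.sq_sqrt h0'
  nlinarith

/-- the zone form of `kcut` is at most twice `√(D / min δ ε) / R²`. -/
theorem kcut_le {de ep D R : ℝ} (hde : 0 < de) (hep : 0 < ep) (hD0 : 0 ≤ D)
    (hD : (√de - √ep) ^ 2 ≤ D) (hR : 0 < R) : kcut de ep D R ≤ 2 * Mom.kcut de ep D R := by
  unfold kcut Mom.kcut
  rw [← mul_div_assoc]
  apply div_le_div_of_nonneg_right _ (by positivity)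
  have ha0 : 0 < √de := Real.sqrt_pos.mpr hde
  have hb0 : 0 < √ep := Real.sqrt_pos.mpr hep
  have hda := Real.sq_sqrt hde.le
  have hdb := Real.sq_sqrt hep.le
  have two : ∀ x : ℝ, 0 ≤ x → 2 * √x = √(4 * x) := by
    intro x hx
    rw [Real.sqrt_mul (by norm_num), show (4:ℝ) = 2 ^ 2 by norm_num, Real.sqrt_sq (by norm_num)]
  split_ifs with h1 h2
  · have hmin : min de ep = ep := min_eq_right (by linarith)
    rw [hmin, two _ (by positivity)]
    apply Real.sqrt_le_sqrt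
    rw [← mul_div_assoc]
    apply div_le_div_of_nonneg_right _ hep.le
    have : 2 * √ep ≤ √de := by
      apply le_of_sq_le_sq' _ ha0.le
      rw [mul_pow, hda, hdb]; linarith
    nlinarith
  · have hmin : min de ep = de := min_eq_left (by linarith)
    rw [hmin, two _ (by positivity)]
    apply Real.sqrt_le_sqrt
    rw [← mul_div_assoc]
    apply div_le_div_of_nonneg_right _ hde.le
    have : 2 * √de ≤ √ep := by
      apply le_of_sq_le_sq' _ hb0.le
      rw [mul_pow, hda, hdb]; linarith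
    nlinarith
  · have hm0 : 0 < min de ep := lt_min hde hep
    have : √(D / de) ≤ √(D / min de ep) := by
      apply Real.sqrt_le_sqrt
      exact div_le_div_of_nonneg_left hD0 hm0 (min_le_left _ _)
    have h3 : 0 ≤ √(D / min de ep) := Real.sqrt_nonneg _
    linarith

theorem abs_inner_n_acc_le' {n v : H} (hn : ‖n‖ = 1) (hv : ‖v‖ < 1) (F : H) :
    |⟪n, acc v F⟫| ≤ 3 / 2 * (√(om n v) * ‖F‖ / gv v) := by
  have h0 : 0 ≤ om n v := om_nonneg hn.le hv.le
  refine (abs_inner_n_acc_le hn hv.le F).trans ?_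
  rw [div_eq_mul_inv (√(om n v) * ‖F‖), inv_gv]
  calc √(2 * om n v) * (√(1 - ‖v‖ ^ 2) * ‖F‖)
      ≤ (3 / 2 * √(om n v)) * (√(1 - ‖v‖ ^ 2) * ‖F‖) :=
        mul_le_mul_of_nonneg_right (sqrt_two_mul_le h0) (by positivity)
    _ = _ := by ring

open Classical in
/-- **Bound of the remainder of the pair**, in the kernels and regions of `MomDefs`
(`Qs' = 2 Qs` in the cut-off). -/
theorem ep_norm_WW_le {lam Qs : ℝ} (hl : 0 < lam) (hQ : 0 < Qs) {n v V : H} (F Ft : H) {R : ℝ}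
    (hn : ‖n‖ = 1) (hv : ‖v‖ < 1) (hV : ‖V‖ < 1) (hR : 0 < R) :
    om n v * ‖WW lam (2 * Qs) n v V F Ft R‖ ≤ 5000 * stC *
      ((if Mom.regE lam Qs (om n V) (om n v) (gv v) then
          Mom.kS (om n V) (om n v) (gv v) R * ‖F‖ else 0)
      + (if Mom.regC lam Qs (om n V) (om n v) (gv v) then
          Mom.kGam (om n V) (om n v) (gv V) R + Mom.kC (om n V) (om n v) (gv V) R * ‖Ft‖ else 0)
      + (if Mom.regB lam Qs (om n V) (om n v) (gv v) then
          Mom.kcut (om n V) (om n v) (om V v) R else 0)) := by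
  have hep : 0 < om n v := om_pos hn hv
  have hde : 0 < om n V := om_pos hn hV
  have hD0 : 0 < om V v := om_pos' hV hv
  have hg : 0 < 1 - ‖v‖ ^ 2 := one_sub_pos hv
  have hG : 0 < 1 - ‖V‖ ^ 2 := one_sub_pos hV
  have hsum := gam_add_le_D (v := v) (V := V)
  have hst := one_le_stC
  have hQ2 : 0 < 2 * Qs := by positivity
  have main := ep_norm_Wrem_le (lam := lam) (Qs := 2 * Qs) hl hQ2 (de := om n V) (ep := om n v)
    (ga := gv v) (D := om V v) (R := R) (gi := 1 - ‖v‖ ^ 2) (Gi := 1 - ‖V‖ ^ 2)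
    (nA := ⟪n, acc V Ft⟫) (na := ⟪n, acc v F⟫) (gd := ⟪v, F⟫) (Ga := gv V) (Fs := ‖F‖)
    (Ft := ‖Ft‖) (CG := 6) (cn := 3 / 2) (G := KG n v V R) (KC' := KC n v V (acc V Ft) R)
    hde hep (om_le_two hn.le hv.le) (gv_pos hv) (gv_pos hV) hR hD0.le
    (D_le_sq hn hv.le hV.le) hg.le (gam_le_ep hn) (by linarith) hG.le (gam_le_ep hn)
    (by linarith) (abs_ep_sub_dl_le hn hv.le hV.le) (norm_nonneg _) (norm_nonneg _)
    (by norm_num) (by norm_num) (abs_inner_n_acc_le' hn hv F) (abs_inner_n_acc_le' hn hV Ft)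
    ((abs_real_inner_le_norm v F).trans (mul_le_of_le_one_left (norm_nonneg _) hv.le))
    (norm_KG_le hn hv hV hR)
  have hKC := norm_KC_le (n := n) (v := v) (V := V) (R := R) hn hv hV hR Ft
  -- the kernels
  have kGe : (1 - ‖V‖ ^ 2) * (om n V + √(om n V * om n v)) / ((om n V) ^ 2 * R ^ 2)
      = Mom.kGam (om n V) (om n v) (gv V) R := by
    unfold Mom.kGam
    rw [← inv_gv_sq hV]
    have := gv_pos hV
    field_simp
  have kCe : √(om n v) * (√(1 - ‖V‖ ^ 2) * ‖Ft‖) / (om n V * R)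
      = Mom.kC (om n V) (om n v) (gv V) R * ‖Ft‖ := by
    unfold Mom.kC
    rw [← inv_gv]
    have := gv_pos hV
    field_simp
  rw [kGe, kCe] at hKC
  have kSe : kS (gv v) (om n V) (om n v) R = Mom.kS (om n V) (om n v) (gv v) R := rfl
  have kCe' : kC (gv V) (om n V) (om n v) R = Mom.kC (om n V) (om n v) (gv V) R := rfl
  have hcut := kcut_le hde hep hD0.le (sq_le_D hn hv.le hV.le) hR
  rw [kSe, kCe'] at main
  set XS := Mom.kS (om n V) (om n v) (gv v) R * ‖F‖ with hXS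
  set XC := Mom.kC (om n V) (om n v) (gv V) R * ‖Ft‖ with hXC
  set XG := Mom.kGam (om n V) (om n v) (gv V) R with hXG
  set XK := Mom.kcut (om n V) (om n v) (om V v) R with hXK
  have hgv := gv_pos hv
  have hgV := gv_pos hV
  have hXS0 : 0 ≤ XS := by rw [hXS]; unfold Mom.kS; positivity
  have hXC0 : 0 ≤ XC := by rw [hXC]; unfold Mom.kC; positivity
  have hXG0 : 0 ≤ XG := by rw [hXG]; unfold Mom.kGam; positivity
  have hXK0 : 0 ≤ XK := by rw [hXK]; unfold Mom.kcut; positivity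
  -- regions
  have rC : Creg lam (2 * Qs) (om n V) (om n v) (gv v) →
      Mom.regC lam Qs (om n V) (om n v) (gv v) := by
    rintro ⟨h1, h2⟩; exact ⟨by linarith, h1.le⟩
  have rB : Breg lam (2 * Qs) (om n V) (om n v) (gv v) →
      Mom.regB lam Qs (om n V) (om n v) (gv v) := by
    rintro ⟨h1, h2, h3⟩; exact ⟨by linarith, h1.le, h2.le⟩
  have rE : Ereg lam (2 * Qs) (om n V) (om n v) (gv v) →
      Mom.regE lam Qs (om n V) (om n v) (gv v) := by
    rintro (h1 | h1)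
    · exact Or.inr h1.le
    · exact Or.inl h1.le
  -- three nonnegative terms of the right-hand side
  have RE0 : 0 ≤ (if Mom.regE lam Qs (om n V) (om n v) (gv v) then XS else 0) := by
    split_ifs <;> simp [hXS0]
  have RC0 : 0 ≤ (if Mom.regC lam Qs (om n V) (om n v) (gv v) then XG + XC else 0) := by
    split_ifs
    · linarith
    · exact le_rfl
  have RB0 : 0 ≤ (if Mom.regB lam Qs (om n V) (om n v) (gv v) then XK else 0) := by
    split_ifs <;> simp [hXK0]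
  have t1 : (if Creg lam (2 * Qs) (om n V) (om n v) (gv v) then
      om n V * ‖KC n v V (acc V Ft) R‖ else 0)
      ≤ 9 * (if Mom.regC lam Qs (om n V) (om n v) (gv v) then XG + XC else 0) := by
    by_cases hC : Creg lam (2 * Qs) (om n V) (om n v) (gv v)
    · rw [if_pos hC, if_pos (rC hC)]; linarith
    · rw [if_neg hC]; linarith
  have t2 : (if Breg lam (2 * Qs) (om n V) (om n v) (gv v) then
      400 * kcut (om n V) (om n v) (om V v) R + 2 * (3 / 2) * XS + 4 * (3 / 2) * XC else 0)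
      ≤ 800 * (if Mom.regB lam Qs (om n V) (om n v) (gv v) then XK else 0)
        + 3 * (if Mom.regE lam Qs (om n V) (om n v) (gv v) then XS else 0)
        + 6 * (if Mom.regC lam Qs (om n V) (om n v) (gv v) then XG + XC else 0) := by
    by_cases hB : Breg lam (2 * Qs) (om n V) (om n v) (gv v)
    · rw [if_pos hB, if_pos (rB hB), if_pos (rE (Or.inl hB.1)),
        if_pos (rC ⟨hB.2.1, hB.2.2⟩)]
      linarith
    · rw [if_neg hB]; linarith
  have t3 : (if Creg lam (2 * Qs) (om n V) (om n v) (gv v) ∧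
      Ereg lam (2 * Qs) (om n V) (om n v) (gv v) then 4 * XS else 0)
      ≤ 4 * (if Mom.regE lam Qs (om n V) (om n v) (gv v) then XS else 0) := by
    by_cases hCE : Creg lam (2 * Qs) (om n V) (om n v) (gv v) ∧
      Ereg lam (2 * Qs) (om n V) (om n v) (gv v)
    · rw [if_pos hCE, if_pos (rE hCE.2)]
    · rw [if_neg hCE]; linarith
  set IE := (if Mom.regE lam Qs (om n V) (om n v) (gv v) then XS else 0) with hIE
  set IC := (if Mom.regC lam Qs (om n V) (om n v) (gv v) then XG + XC else 0) with hIC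
  set IB := (if Mom.regB lam Qs (om n V) (om n v) (gv v) then XK else 0) with hIB
  have hst0 : 0 ≤ stC := by linarith
  have t4 := mul_le_mul_of_nonneg_left (add_le_add t2 t3) (show 0 ≤ 6 * stC by positivity)
  have m1 : 0 ≤ (stC - 1) * IC := mul_nonneg (by linarith) RC0
  have m2 : 0 ≤ stC * IE := mul_nonneg hst0 RE0
  have m3 : 0 ≤ stC * IB := mul_nonneg hst0 RB0
  have m4 : 0 ≤ stC * IC := mul_nonneg hst0 RC0
  calc om n v * ‖WW lam (2 * Qs) n v V F Ft R‖ ≤ _ := main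
    _ ≤ 9 * IC + 6 * stC * (800 * IB + 3 * IE + 6 * IC + 4 * IE) := add_le_add t1 t4
    _ ≤ 5000 * stC * (IE + IC + IB) := by nlinarith

open Classical in
/-- the retarded part -/
theorem one_sub_chi_le {lam Qs : ℝ} (hl : 0 < lam) (hQ : 0 < Qs) {n v V : H} (F : H) {R : ℝ}
    (hn : ‖n‖ = 1) (hv : ‖v‖ < 1) (hV : ‖V‖ < 1) (hR : 0 < R) :
    (1 - chiP lam (2 * Qs) n v V) * ‖KT n v V R + KS n v V (acc v F) R‖ ≤ 9 *
      (if Mom.regE lam Qs (om n V) (om n v) (gv v) then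
        Mom.kT (om n V) (om n v) (gv v) R + Mom.kS (om n V) (om n v) (gv v) R * ‖F‖ else 0) := by
  have hep : 0 < om n v := om_pos hn hv
  have hde : 0 < om n V := om_pos hn hV
  have hgv := gv_pos hv
  have hchi1 := chi_le_one lam (2 * Qs) (om n V) (om n v) (gv v)
  have hchi0 := chi_nonneg lam (2 * Qs) (om n V) (om n v) (gv v)
  by_cases hE : Ereg lam (2 * Qs) (om n V) (om n v) (gv v)
  · have hE' : Mom.regE lam Qs (om n V) (om n v) (gv v) := by
      rcases hE with h1 | h1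
      · exact Or.inr h1.le
      · exact Or.inl h1.le
    rw [if_pos hE']
    have k1 : (1 - ‖v‖ ^ 2) * (om n v + √(om n V * om n v)) / ((om n v) ^ 2 * R ^ 2)
        = Mom.kT (om n V) (om n v) (gv v) R := by
      unfold Mom.kT
      rw [← inv_gv_sq hv]
      field_simp
    have k2 : √(om n V) * (√(1 - ‖v‖ ^ 2) * ‖F‖) / (om n v * R)
        = Mom.kS (om n V) (om n v) (gv v) R * ‖F‖ := by
      unfold Mom.kS
      rw [← inv_gv]
      field_simp
    have h1 := norm_KT_le (n := n) (v := v) (V := V) (R := R) hn hv hV.le hR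
    have h2 := norm_KS_le (n := n) (v := v) (V := V) (R := R) hn hv hV.le hR F
    rw [k1] at h1
    rw [k2] at h2
    have h3 : 0 ≤ Mom.kT (om n V) (om n v) (gv v) R := by unfold Mom.kT; positivity
    calc (1 - chiP lam (2 * Qs) n v V) * ‖KT n v V R + KS n v V (acc v F) R‖
        ≤ 1 * (‖KT n v V R‖ + ‖KS n v V (acc v F) R‖) := by
          apply mul_le_mul _ (norm_add_le _ _) (norm_nonneg _) (by norm_num)
          unfold chiP; linarith
      _ ≤ _ := by linarith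
  · have : chiP lam (2 * Qs) n v V = 1 := chi_eq_one hl (by positivity) hde hE
    rw [this, sub_self, zero_mul]
    split_ifs
    · have h3 : 0 ≤ Mom.kT (om n V) (om n v) (gv v) R := by unfold Mom.kT; positivity
      have h4 : 0 ≤ Mom.kS (om n V) (om n v) (gv v) R := by unfold Mom.kS; positivity
      positivity
    · simp

open Classical in
/-- the boundary part -/
theorem ep_chi_KG_le {lam Qs : ℝ} (hl : 0 < lam) (hQ : 0 < Qs) {n v V : H} {R : ℝ}
    (hn : ‖n‖ = 1) (hv : ‖v‖ < 1) (hV : ‖V‖ < 1) (hR : 0 < R) :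
    om n v * ‖chiP lam (2 * Qs) n v V • KG n v V R‖ ≤ 6 *
      (if Mom.regC lam Qs (om n V) (om n v) (gv v) then
        Mom.kG (om n V) (om n v) R else 0) := by
  have hep : 0 < om n v := om_pos hn hv
  have hde : 0 < om n V := om_pos hn hV
  have hchi1 := chi_le_one lam (2 * Qs) (om n V) (om n v) (gv v)
  have hchi0 := chi_nonneg lam (2 * Qs) (om n V) (om n v) (gv v)
  by_cases hC : Creg lam (2 * Qs) (om n V) (om n v) (gv v)
  · have hC' : Mom.regC lam Qs (om n V) (om n v) (gv v) := ⟨by linarith [hC.2], hC.1.le⟩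
    rw [if_pos hC', norm_smul,
      Real.norm_of_nonneg (show 0 ≤ chiP lam (2 * Qs) n v V from hchi0)]
    unfold chiP
    have h1 := ep_norm_KG_le (n := n) (v := v) (V := V) (R := R) hn hv hV hR
    calc om n v * (chi lam (2 * Qs) (om n V) (om n v) (gv v) * ‖KG n v V R‖)
        = chi lam (2 * Qs) (om n V) (om n v) (gv v) * (om n v * ‖KG n v V R‖) := by ring
      _ ≤ om n v * ‖KG n v V R‖ := mul_le_of_le_one_left (by positivity) hchi1
      _ ≤ _ := h1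
  · have : chiP lam (2 * Qs) n v V = 0 := chi_eq_zero hl (by positivity) hde hC
    rw [this, zero_smul, norm_zero, mul_zero]
    split_ifs
    · unfold Mom.kG; positivity
    · simp




end Crest.Agent.R106.Mix
end

-- ▼ part R106/MixPt
section

/-!
# Row 106, node MIX (helper633): `ptBound` and `ptDeriv`

The two pointwise statements of `MixDefs` in the momentum form, from the velocity form of `MixPair`.
-/

set_option autoImplicit false

open MeasureTheory Set Filter Topology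
open Crest.AnalysisR.VecCalc3 Crest.AnalysisR.PDE.RVM
open scoped InnerProductSpace ENNReal ContDiff

noncomputable section

namespace Crest.Agent.R106.Mix

open Crest.Agent.R106.Mom (Rr ret nn dl ep Dd kap Fsrc Ftest hden bden hh bb IsChar)
open Crest.Agent.R106.GSR (gam lor)

/-! ### translation -/

theorem gv_relVel (p : R3) : gv (relVel p) = gam p := by
  unfold gv
  rw [Pair.sqrt_one_sub_normSq_relVel, inv_inv]

theorem norm_nn {X : ℝ → R3} {s : ℝ} {y : R3} (h : X s ≠ y) : ‖nn X s y‖ = 1 := by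
  unfold nn
  have : ‖X s - y‖ ≠ 0 := norm_ne_zero_iff.mpr (sub_ne_zero.mpr h)
  rw [norm_smul, norm_inv, norm_norm, inv_mul_cancel₀ this]

theorem Rr_pos {X : ℝ → R3} {s : ℝ} {y : R3} (h : X s ≠ y) : 0 < Rr X s y :=
  norm_pos_iff.mpr (sub_ne_zero.mpr h)

section eqs
variable (E B : ℝ → R3 → R3) (lam Qs : ℝ) (X p : ℝ → R3) (s : ℝ) (q : R3 × R3)

theorem Wq_eq : Wq E B lam Qs X p s q
    = WW lam (2 * Qs) (nn X s q.1) (relVel q.2) (relVel (p s))
        (lor E B (ret X s q.1) q.1 q.2) (lor E B s (X s) (p s)) (Rr X s q.1) := by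
  unfold Wq WW Ldq gdq Gq KCq At aq dl ep Dd
  rw [Pair.acc_eq, Pair.acc_eq, gv_relVel]
  rfl

theorem chq_eq : chq lam Qs X p s q
    = chiP lam (2 * Qs) (nn X s q.1) (relVel q.2) (relVel (p s)) := by
  unfold chq chiP
  rw [gv_relVel]
  rfl

theorem Kq_eq : Kq E B X p s q
    = Pair.KT (nn X s q.1) (relVel q.2) (relVel (p s)) (Rr X s q.1) +
      Pair.KS (nn X s q.1) (relVel q.2) (relVel (p s))
        (Pair.acc (relVel q.2) (lor E B (ret X s q.1) q.1 q.2)) (Rr X s q.1) := by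
  unfold Kq aq
  rw [Pair.acc_eq]

end eqs

/-! ### pointwise bounds -/

open Classical in
theorem ptBound (E B : ℝ → R3 → R3) : PtBound E B := by
  have hst := one_le_stC
  refine ⟨5000 * stC, by linarith, fun X p s q hne => ?_⟩
  have hn := norm_nn hne
  have hR := Rr_pos hne
  have hv := Pair.norm_relVel_lt_one q.2
  have hV := Pair.norm_relVel_lt_one (p s)
  have hep : 0 < Pair.om (nn X s q.1) (relVel q.2) := Pair.om_pos hn hv
  have hde : 0 < Pair.om (nn X s q.1) (relVel (p s)) := Pair.om_pos hn hV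
  have hgw := Pair.gam_pos q.2
  have hgp := Pair.gam_pos (p s)
  have hep' : 0 < ep X s q.1 q.2 := hep
  have hde' : 0 < dl X p s q.1 := hde
  have hF0 : 0 ≤ Fsrc E B X s q := norm_nonneg _
  have hFt0 : 0 ≤ Ftest E B X p s := norm_nonneg _
  have hD0 : 0 < Dd p s q.2 := Pair.om_pos' hV hv
  have k1 : 0 ≤ Mom.kT (dl X p s q.1) (ep X s q.1 q.2) (gam q.2) (Rr X s q.1) := by
    unfold Mom.kT; positivity
  have k2 : 0 ≤ Mom.kS (dl X p s q.1) (ep X s q.1 q.2) (gam q.2) (Rr X s q.1)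
      * Fsrc E B X s q := by
    unfold Mom.kS; positivity
  have k3 : 0 ≤ Mom.kGam (dl X p s q.1) (ep X s q.1 q.2) (gam (p s)) (Rr X s q.1) := by
    unfold Mom.kGam; positivity
  have k4 : 0 ≤ Mom.kC (dl X p s q.1) (ep X s q.1 q.2) (gam (p s)) (Rr X s q.1)
      * Ftest E B X p s := by
    unfold Mom.kC; positivity
  have k5 : 0 ≤ Mom.kcut (dl X p s q.1) (ep X s q.1 q.2) (Dd p s q.2) (Rr X s q.1) := by
    unfold Mom.kcut; positivity
  refine ⟨?_, fun lam Qs hl hQ => ⟨?_, ?_, ?_⟩⟩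
  · have h1 := Pair.norm_KT_mom (n := nn X s q.1) (w := q.2) (p := p s) hn hR
    have h2 := Pair.norm_KS_mom (n := nn X s q.1) (w := q.2) (p := p s) hn hR
      (lor E B (ret X s q.1) q.1 q.2)
    rw [Pair.eT_eq] at h1
    rw [Pair.eS_eq] at h2
    have h3 : ‖Kq E B X p s q‖ ≤ _ := (norm_add_le _ _).trans (add_le_add h1 h2)
    refine h3.trans ?_
    show 4 * Mom.kT (dl X p s q.1) (ep X s q.1 q.2) (gam q.2) (Rr X s q.1)
      + 9 * (Mom.kS (dl X p s q.1) (ep X s q.1 q.2) (gam q.2) (Rr X s q.1)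
        * Fsrc E B X s q) ≤ _
    nlinarith
  · have h1 := one_sub_chi_le (lam := lam) (Qs := Qs) hl hQ
      (lor E B (ret X s q.1) q.1 q.2) hn hv hV hR
    rw [← chq_eq, ← Kq_eq, gv_relVel] at h1
    refine h1.trans ?_
    change 9 * (if Mom.regE lam Qs (dl X p s q.1) (ep X s q.1 q.2) (gam q.2) then
      Mom.kT (dl X p s q.1) (ep X s q.1 q.2) (gam q.2) (Rr X s q.1)
        + Mom.kS (dl X p s q.1) (ep X s q.1 q.2) (gam q.2) (Rr X s q.1) * Fsrc E B X s q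
        else 0) ≤ _
    unfold hden
    have n1 : 0 ≤ (if Mom.regE lam Qs (dl X p s q.1) (ep X s q.1 q.2) (gam q.2) then
      Mom.kT (dl X p s q.1) (ep X s q.1 q.2) (gam q.2) (Rr X s q.1)
        + Mom.kS (dl X p s q.1) (ep X s q.1 q.2) (gam q.2) (Rr X s q.1) * Fsrc E B X s q
        else 0) := by
      split_ifs
      · exact add_nonneg k1 k2
      · exact le_rfl
    have n2 : 0 ≤ (if Mom.regC lam Qs (dl X p s q.1) (ep X s q.1 q.2) (gam q.2) then
      Mom.kGam (dl X p s q.1) (ep X s q.1 q.2) (gam (p s)) (Rr X s q.1)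
        + Mom.kC (dl X p s q.1) (ep X s q.1 q.2) (gam (p s)) (Rr X s q.1) * Ftest E B X p s
        else 0) := by
      split_ifs
      · exact add_nonneg k3 k4
      · exact le_rfl
    have n3 : 0 ≤ (if Mom.regB lam Qs (dl X p s q.1) (ep X s q.1 q.2) (gam q.2) then
      Mom.kcut (dl X p s q.1) (ep X s q.1 q.2) (Dd p s q.2) (Rr X s q.1) else 0) := by
      split_ifs
      · exact k5
      · exact le_rfl
    nlinarith
  · have h1 := ep_norm_WW_le (lam := lam) (Qs := Qs) hl hQ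
      (lor E B (ret X s q.1) q.1 q.2) (lor E B s (X s) (p s)) hn hv hV hR
    rw [← Wq_eq, gv_relVel, gv_relVel] at h1
    change ep X s q.1 q.2 * ‖Wq E B lam Qs X p s q‖ ≤ 5000 * stC *
      ((if Mom.regE lam Qs (dl X p s q.1) (ep X s q.1 q.2) (gam q.2) then
        Mom.kS (dl X p s q.1) (ep X s q.1 q.2) (gam q.2) (Rr X s q.1) * Fsrc E B X s q else 0)
      + (if Mom.regC lam Qs (dl X p s q.1) (ep X s q.1 q.2) (gam q.2) then
        Mom.kGam (dl X p s q.1) (ep X s q.1 q.2) (gam (p s)) (Rr X s q.1)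
        + Mom.kC (dl X p s q.1) (ep X s q.1 q.2) (gam (p s)) (Rr X s q.1) * Ftest E B X p s
        else 0)
      + (if Mom.regB lam Qs (dl X p s q.1) (ep X s q.1 q.2) (gam q.2) then
        Mom.kcut (dl X p s q.1) (ep X s q.1 q.2) (Dd p s q.2) (Rr X s q.1) else 0)) at h1
    refine h1.trans (mul_le_mul_of_nonneg_left ?_ (by linarith))
    unfold hden
    gcongr ?_ + _ + _
    split_ifs
    · linarith
    · exact le_rfl
  · have h1 := ep_chi_KG_le (lam := lam) (Qs := Qs) hl hQ hn hv hV hR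
    rw [← chq_eq, gv_relVel] at h1
    change ep X s q.1 q.2 * ‖chq lam Qs X p s q • Gq X p s q‖ ≤ 6 * bden lam Qs X p s q at h1
    refine h1.trans ?_
    have n1 : 0 ≤ bden lam Qs X p s q := by
      unfold bden
      split_ifs
      · unfold Mom.kG; positivity
      · exact le_rfl
    nlinarith

/-! ### the derivative along the pair -/

theorem nn_eq_nvec {X Y : ℝ → R3} {t τ : ℝ} (h : t - τ = ‖X t - Y τ‖) :
    nn X t (Y τ) = Pair.nvec X Y t τ := by
  unfold nn Pair.nvec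
  rw [h]

theorem ptDeriv (E B : ℝ → R3 → R3) : PtDeriv E B := by
  intro X p Y w τ s lam Qs hl hQ hX hp hY hw hτc hnull hτs
  have h0 := hnull.self_of_nhds
  have hR : 0 < s - τ s := by linarith
  have hv := Pair.norm_relVel_lt_one (w (τ s))
  have hV := Pair.norm_relVel_lt_one (p s)
  have hne : X s ≠ Y (τ s) := by
    intro h
    rw [h, sub_self, norm_zero] at h0
    linarith
  have hpV := Pair.hasDerivAt_relVel hp
  have hwv := Pair.hasDerivAt_relVel hw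
  rw [Pair.acc_eq] at hpV hwv
  have hep : Pair.om (Pair.nvec X Y s (τ s)) (relVel (w (τ s))) ≠ 0 :=
    (Pair.om_pos (Pair.norm_nvec (X := X) (y := Y) h0 hR) hv).ne'
  have hτ' := Pair.hasDerivAt_tau_of_null hX hY hτc hnull hR hv
  have hP := Pair.pairD_of_null (X := X) (y := Y) (V := fun t => relVel (p t))
    (v := fun t => relVel (w t)) (σ := fun t => t) (τ := τ) (θ := s)
    (c := (Pair.om (Pair.nvec X Y s (τ s)) (relVel (w (τ s))))⁻¹)
    hX hpV hY hwv hV hv h0 hR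
    (by rw [inv_mul_cancel₀ hep]; exact hasDerivAt_id s)
    (hτ'.congr_deriv (by rw [div_eq_inv_mul]))
  have hD := hasDerivAt_chi_KG (lam := lam) (Qs := 2 * Qs) hl hP
  have e1 : Pair.nvec X Y s (τ s) = nn X s (Y (τ s)) := (nn_eq_nvec h0).symm
  have e2 : s - τ s = Rr X s (Y (τ s)) := h0
  have e3 : ret X s (Y (τ s)) = τ s := by unfold ret; linarith
  refine HasDerivAt.congr_of_eventuallyEq (HasDerivAt.congr_deriv hD ?_) ?_
  · rw [chq_eq, Kq_eq, Wq_eq]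
    simp only [e1, e2, e3]
    rfl
  · filter_upwards [hnull] with t ht
    rw [chq_eq]
    unfold Gq
    simp only
    rw [nn_eq_nvec ht, show Rr X t (Y (τ t)) = t - τ t from ht.symm]

end Crest.Agent.R106.Mix
end
end

-- ▼ part R106/GsCor
section

/-!
# Row 106, node GSCOR (helper369)

From `Field.GSRep` (representation of `E` and `B`) to the force on a test characteristic:
* `char_bound`  : `‖X s‖ ≤ R0 + T`;
* `force_rep`   : `E + V × B = O(1) + (4π)⁻¹ ∫ f (K_T + K_S)` along every characteristic;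
* `ftP`         : the Prop `Mom.FtP`.
-/

set_option autoImplicit false
open MeasureTheory Set Filter Topology
open Crest.AnalysisR.VecCalc3 Crest.AnalysisR.PDE.RVM
open scoped InnerProductSpace ENNReal ContDiff

noncomputable section

namespace Crest.Agent.R106.GsCor

open Crest.Agent.R106.GSR (gam acc lor eT eS)
open Crest.Agent.R106.Field (GSRep eK coneM)
open Crest.Agent.R106.Mom (IsChar ret nn Rr dl ep kap Ftest Fsrc)

/-! ### the cone measure -/

theorem coneM_eq (x : R3) (s : ℝ) :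
    coneM x s = (volume : Measure (R3 × R3)).restrict (Metric.ball x s ×ˢ (univ : Set R3)) := by
  unfold coneM
  rw [Measure.volume_eq_prod, ← Measure.prod_restrict, Measure.restrict_univ]

/-- the density is continuous on the cone -/
theorem continuousOn_cone {T : ℝ} {f : ℝ → R3 → R3 → ℝ}
    (hf : ContinuousOn (fun p : ℝ × R3 × R3 => f p.1 p.2.1 p.2.2) (Ico 0 T ×ˢ univ))
    {s : ℝ} (hs : s < T) (x : R3) :
    ContinuousOn (fun q : R3 × R3 => f (s - ‖x - q.1‖) q.1 q.2)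
      (Metric.ball x s ×ˢ (univ : Set R3)) := by
  refine hf.comp (f := fun q : R3 × R3 => (s - ‖x - q.1‖, q.1, q.2)) (by fun_prop) ?_
  rintro ⟨y, w⟩ hy
  simp only [mem_prod, Metric.mem_ball, mem_univ, and_true] at hy
  simp only [mem_prod, mem_Ico, mem_univ, and_true]
  rw [dist_comm, dist_eq_norm] at hy
  exact ⟨by linarith, by linarith [norm_nonneg (x - y)]⟩

theorem aemeasurable_cone {T : ℝ} {f : ℝ → R3 → R3 → ℝ}
    (hf : ContinuousOn (fun p : ℝ × R3 × R3 => f p.1 p.2.1 p.2.2) (Ico 0 T ×ˢ univ))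
    {s : ℝ} (hs : s < T) (x : R3) :
    AEMeasurable (fun q : R3 × R3 => f (s - ‖x - q.1‖) q.1 q.2) (coneM x s) := by
  rw [coneM_eq]
  exact (continuousOn_cone hf hs x).aemeasurable (Metric.isOpen_ball.measurableSet.prod
    MeasurableSet.univ)

theorem kap_eq (f : ℝ → R3 → R3 → ℝ) (X : ℝ → R3) (s : ℝ) :
    kap f X s = (coneM (X s) s).withDensity
      (fun q => ENNReal.ofReal (f (s - ‖X s - q.1‖) q.1 q.2)) := by
  rw [coneM_eq]; rfl

/-- integrals against `kap` as weighted integrals over the cone, no measurability of the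
integrand needed. -/
theorem lintegral_kap {T : ℝ} {f : ℝ → R3 → R3 → ℝ}
    (hf : ContinuousOn (fun p : ℝ × R3 × R3 => f p.1 p.2.1 p.2.2) (Ico 0 T ×ˢ univ))
    {s : ℝ} (hs : s < T) (X : ℝ → R3) (g : R3 × R3 → ℝ≥0∞) :
    ∫⁻ q, g q ∂(kap f X s) =
      ∫⁻ q, ENNReal.ofReal (f (s - ‖X s - q.1‖) q.1 q.2) * g q ∂(coneM (X s) s) := by
  rw [kap_eq, lintegral_withDensity_eq_lintegral_mul_non_measurable₀ _
    (aemeasurable_cone hf hs (X s)).ennreal_ofReal
    (Eventually.of_forall fun q => ENNReal.ofReal_lt_top)]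
  rfl

/-- almost every source point is off the vertex. -/
theorem ae_ne (x : R3) (s : ℝ) : ∀ᵐ q : R3 × R3 ∂(coneM x s), x ≠ q.1 := by
  rw [coneM_eq]
  refine ae_restrict_of_ae ?_
  rw [Measure.volume_eq_prod]
  have h : ∀ᵐ y : R3, x ≠ y := by
    have : (volume : Measure R3) {y | ¬ x ≠ y} = 0 := by
      have : {y : R3 | ¬ x ≠ y} = {x} := by ext y; simp [eq_comm]
      rw [this]; exact measure_singleton x
    exact this
  exact Measure.quasiMeasurePreserving_fst.ae h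

theorem norm_nn {x y : R3} (h : x ≠ y) : ‖Field.nn x y‖ = 1 := by
  have : ‖x - y‖ ≠ 0 := norm_ne_zero_iff.2 (sub_ne_zero.2 h)
  unfold Field.nn
  rw [norm_smul, norm_inv, norm_norm, inv_mul_cancel₀ this]

theorem measurable_nn (x : R3) : Measurable (fun q : R3 × R3 => Field.nn x q.1) := by
  unfold Field.nn
  fun_prop

/-! ### the cross product as a continuous linear map -/

/-- `b ↦ a × b`. -/
def crossR (a : R3) : R3 →L[ℝ] R3 :=
  LinearMap.toContinuousLinearMap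
    { toFun := cross3 a
      map_add' := fun b c => Pair.cross3_add a b c
      map_smul' := fun r b => Pair.cross3_smul a b r }

@[simp] theorem crossR_apply (a b : R3) : crossR a b = cross3 a b := rfl

theorem measurable_cross3 {α : Type*} [MeasurableSpace α] {μ : Measure α} {a b : α → R3}
    (ha : AEStronglyMeasurable a μ) (hb : AEStronglyMeasurable b μ) :
    AEStronglyMeasurable (fun q => cross3 (a q) (b q)) μ :=
  (Flow.contDiff_cross3 (n := 0)).continuous.comp_aestronglyMeasurable (ha.prodMk hb)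

/-! ### characteristics -/

theorem char_subL {T : ℝ} {f : ℝ → R3 → R3 → ℝ} {E B : ℝ → R3 → R3} {X p : ℝ → R3}
    (h : IsChar T f E B X p) {a b : ℝ} (ha : 0 ≤ a) (hab : a ≤ b) (hb : b < T) :
    ‖X b - X a‖ ≤ b - a := by
  rcases eq_or_lt_of_le hab with rfl | hab'
  · simp
  exact (CM.subL_of_deriv h.cX h.dX (fun τ _ => Pair.norm_relVel_lt_one _) a
    ⟨ha, by linarith⟩ b ⟨by linarith, hb⟩ hab').le

/-- the test points stay in a ball which does not depend on the characteristic -/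
theorem char_bound {T : ℝ} (hT : 0 < T) {f₀ : R3 → R3 → ℝ} {E₀ B₀ : R3 → R3}
    {f : ℝ → R3 → R3 → ℝ} {E B : ℝ → R3 → R3} (hsol : IsClassicalSolutionOn T f₀ E₀ B₀ f E B) :
    ∃ X0 : ℝ, ∀ X p : ℝ → R3, IsChar T f E B X p → ∀ s ∈ Ico 0 T, ‖X s‖ ≤ X0 := by
  obtain ⟨R, hR⟩ := hsol.2.2.2.2.2.2.2.1 0 le_rfl hT
  refine ⟨R + T, fun X p h s hs => ?_⟩
  have h0 : ‖X 0‖ ≤ R := by
    by_contra hcon
    push Not at hcon
    exact h.supp (hR 0 ⟨le_rfl, le_rfl⟩ _ _ (Or.inl hcon))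
  have h1 := char_subL h le_rfl hs.1 hs.2
  calc ‖X s‖ = ‖X 0 + (X s - X 0)‖ := by congr 1; abel
    _ ≤ ‖X 0‖ + ‖X s - X 0‖ := norm_add_le _ _
    _ ≤ R + T := by linarith [hs.2]

/-! ### the force representation -/

/-- `GSRep` for one solution. -/
def GSRepOn (T : ℝ) (f : ℝ → R3 → R3 → ℝ) (E B : ℝ → R3 → R3) : Prop :=
    ∀ X0 : ℝ, ∃ C : ℝ, ∀ t ∈ Ico 0 T, ∀ x : R3, ‖x‖ ≤ X0 →
      Integrable (fun q : R3 × R3 => f (t - ‖x - q.1‖) q.1 q.2 •
        eT (Field.nn x q.1) q.2 ‖x - q.1‖) (coneM x t) ∧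
      Integrable (fun q : R3 × R3 => f (t - ‖x - q.1‖) q.1 q.2 •
        eS (Field.nn x q.1) q.2 (acc q.2 (lor E B (t - ‖x - q.1‖) q.1 q.2)) ‖x - q.1‖)
        (coneM x t) ∧
      ‖E t x - (4 * Real.pi)⁻¹ • ∫ q, f (t - ‖x - q.1‖) q.1 q.2 • eK E B t x q.1 q.2
          ∂(coneM x t)‖ ≤ C ∧
      ‖B t x - (4 * Real.pi)⁻¹ • ∫ q, f (t - ‖x - q.1‖) q.1 q.2 •
          cross3 (Field.nn x q.1) (eK E B t x q.1 q.2) ∂(coneM x t)‖ ≤ C


/-- the retarded kernel of the force on the test particle: `K_T + K_S`. -/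
def KK (E B : ℝ → R3 → R3) (X p : ℝ → R3) (s : ℝ) (q : R3 × R3) : R3 :=
  Pair.lor (nn X s q.1) (relVel (p s)) (eK E B s (X s) q.1 q.2)

theorem lor_add (n V e e' : R3) : Pair.lor n V (e + e') = Pair.lor n V e + Pair.lor n V e' := by
  unfold Pair.lor
  rw [smul_add, inner_add_right, add_smul]
  abel

theorem KK_eq (E B : ℝ → R3 → R3) (X p : ℝ → R3) (s : ℝ) (q : R3 × R3) :
    KK E B X p s q =
      Pair.KT (nn X s q.1) (relVel q.2) (relVel (p s)) ‖X s - q.1‖ +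
      Pair.KS (nn X s q.1) (relVel q.2) (relVel (p s))
        (Pair.acc (relVel q.2) (lor E B (ret X s q.1) q.1 q.2)) ‖X s - q.1‖ := by
  unfold KK eK
  rw [Pair.eT_eq, Pair.eS_eq, Pair.acc_eq, lor_add]
  rfl

/-- pointwise bound of the kernel -/
theorem norm_KK_le (E B : ℝ → R3 → R3) (X p : ℝ → R3) (s : ℝ) (q : R3 × R3)
    (h : X s ≠ q.1) :
    ‖KK E B X p s q‖ ≤ 9 * (Mom.kT (dl X p s q.1) (ep X s q.1 q.2) (gam q.2) (Rr X s q.1)
      + Mom.kS (dl X p s q.1) (ep X s q.1 q.2) (gam q.2) (Rr X s q.1) * Fsrc E B X s q) := by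
  have hn : ‖nn X s q.1‖ = 1 := norm_nn h
  have hR : 0 < ‖X s - q.1‖ := norm_pos_iff.2 (sub_ne_zero.2 h)
  unfold KK eK
  rw [lor_add]
  refine (norm_add_le _ _).trans ?_
  have h1 := Pair.norm_KT_mom (n := nn X s q.1) (w := q.2) (p := p s) hn hR
  have h2 := Pair.norm_KS_mom (n := nn X s q.1) (w := q.2) (p := p s) hn hR
    (lor E B (s - ‖X s - q.1‖) q.1 q.2)
  have h3 : 0 ≤ Mom.kT (1 - ⟪nn X s q.1, relVel (p s)⟫_ℝ) (1 - ⟪nn X s q.1, relVel q.2⟫_ℝ)
      (gam q.2) ‖X s - q.1‖ := by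
    have := h1
    have h4 := norm_nonneg (Pair.lor (nn X s q.1) (relVel (p s))
      (GSR.eT (nn X s q.1) q.2 ‖X s - q.1‖))
    linarith
  have e1 : Mom.kT (dl X p s q.1) (ep X s q.1 q.2) (gam q.2) (Rr X s q.1) =
    Mom.kT (1 - ⟪nn X s q.1, relVel (p s)⟫_ℝ) (1 - ⟪nn X s q.1, relVel q.2⟫_ℝ)
      (gam q.2) ‖X s - q.1‖ := rfl
  have e2 : Mom.kS (dl X p s q.1) (ep X s q.1 q.2) (gam q.2) (Rr X s q.1) * Fsrc E B X s q =
    Mom.kS (1 - ⟪nn X s q.1, relVel (p s)⟫_ℝ) (1 - ⟪nn X s q.1, relVel q.2⟫_ℝ)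
      (gam q.2) ‖X s - q.1‖ * ‖lor E B (s - ‖X s - q.1‖) q.1 q.2‖ := rfl
  rw [e1, e2]
  have h1' : ‖Pair.lor (nn X s q.1) (relVel (p s)) (eT (Field.nn (X s) q.1) q.2 ‖X s - q.1‖)‖ ≤
    4 * Mom.kT (1 - ⟪nn X s q.1, relVel (p s)⟫_ℝ) (1 - ⟪nn X s q.1, relVel q.2⟫_ℝ)
      (gam q.2) ‖X s - q.1‖ := h1
  have h2' : ‖Pair.lor (nn X s q.1) (relVel (p s)) (eS (Field.nn (X s) q.1) q.2
      (acc q.2 (lor E B (s - ‖X s - q.1‖) q.1 q.2)) ‖X s - q.1‖)‖ ≤
      9 * (Mom.kS (1 - ⟪nn X s q.1, relVel (p s)⟫_ℝ) (1 - ⟪nn X s q.1, relVel q.2⟫_ℝ)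
      (gam q.2) ‖X s - q.1‖ * ‖lor E B (s - ‖X s - q.1‖) q.1 q.2‖) := h2
  linarith

/-- **the force representation**. -/
theorem force_rep {T : ℝ} (hT : 0 < T) {f₀ : R3 → R3 → ℝ} {E₀ B₀ : R3 → R3}
    {f : ℝ → R3 → R3 → ℝ} {E B : ℝ → R3 → R3} (hsol : IsClassicalSolutionOn T f₀ E₀ B₀ f E B)
    (hrep : GSRepOn T f E B) :
    ∃ C : ℝ, 0 ≤ C ∧ ∀ X p : ℝ → R3, IsChar T f E B X p → ∀ s ∈ Ico 0 T,
      Integrable (fun q => f (ret X s q.1) q.1 q.2 • KK E B X p s q) (coneM (X s) s) ∧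
      ‖lor E B s (X s) (p s) - (4 * Real.pi)⁻¹ •
        ∫ q, f (ret X s q.1) q.1 q.2 • KK E B X p s q ∂(coneM (X s) s)‖ ≤ C := by
  obtain ⟨X0, hX0⟩ := char_bound hT hsol
  obtain ⟨C, hC⟩ := hrep X0
  refine ⟨2 * |C|, by positivity, fun X p h s hs => ?_⟩
  obtain ⟨i1, i2, hE, hB⟩ := hC s hs (X s) (hX0 X p h s hs)
  set V := relVel (p s) with hV
  have hV1 : ‖V‖ ≤ 1 := (Pair.norm_relVel_lt_one _).le
  set μ := coneM (X s) s with hμ
  -- integrability of the electric integrand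
  have iE : Integrable (fun q : R3 × R3 => f (s - ‖X s - q.1‖) q.1 q.2 •
      eK E B s (X s) q.1 q.2) μ := by
    refine (i1.add i2).congr (Eventually.of_forall fun q => ?_)
    simp only [Pi.add_apply, ← smul_add]
    rfl
  have iB : Integrable (fun q : R3 × R3 => f (s - ‖X s - q.1‖) q.1 q.2 •
      cross3 (Field.nn (X s) q.1) (eK E B s (X s) q.1 q.2)) μ := by
    have e : (fun q : R3 × R3 => f (s - ‖X s - q.1‖) q.1 q.2 •
        cross3 (Field.nn (X s) q.1) (eK E B s (X s) q.1 q.2)) =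
        fun q => cross3 (Field.nn (X s) q.1) (f (s - ‖X s - q.1‖) q.1 q.2 •
          eK E B s (X s) q.1 q.2) := by
      funext q; rw [Pair.cross3_smul]
    rw [e]
    refine iE.norm.mono' (measurable_cross3
      (measurable_nn (X s)).aestronglyMeasurable iE.aestronglyMeasurable) ?_
    filter_upwards [ae_ne (X s) s] with q hq
    refine (Flow.norm_cross3_le _ _).trans ?_
    rw [norm_nn hq, one_mul]
  have hpt : ∀ q : R3 × R3, f (ret X s q.1) q.1 q.2 • KK E B X p s q =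
      f (s - ‖X s - q.1‖) q.1 q.2 • eK E B s (X s) q.1 q.2 +
      crossR V (f (s - ‖X s - q.1‖) q.1 q.2 •
        cross3 (Field.nn (X s) q.1) (eK E B s (X s) q.1 q.2)) := by
    intro q
    rw [map_smul, crossR_apply, ← smul_add, Pair.lor_eq]
    rfl
  have iK : Integrable (fun q => f (ret X s q.1) q.1 q.2 • KK E B X p s q) μ := by
    refine (iE.add ((crossR V).integrable_comp iB)).congr (Eventually.of_forall fun q => ?_)
    simp only [Pi.add_apply]
    exact (hpt q).symm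
  refine ⟨iK, ?_⟩
  have hI : ∫ q, f (ret X s q.1) q.1 q.2 • KK E B X p s q ∂μ =
      (∫ q, f (s - ‖X s - q.1‖) q.1 q.2 • eK E B s (X s) q.1 q.2 ∂μ) +
      crossR V (∫ q, f (s - ‖X s - q.1‖) q.1 q.2 •
        cross3 (Field.nn (X s) q.1) (eK E B s (X s) q.1 q.2) ∂μ) := by
    rw [← (crossR V).integral_comp_comm iB, ← integral_add iE ((crossR V).integrable_comp iB)]
    exact integral_congr_ae (Eventually.of_forall hpt)
  have hF : lor E B s (X s) (p s) = E s (X s) + crossR V (B s (X s)) := rfl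
  rw [hI, hF]
  set IE := ∫ q, f (s - ‖X s - q.1‖) q.1 q.2 • eK E B s (X s) q.1 q.2 ∂μ
  set IB := ∫ q, f (s - ‖X s - q.1‖) q.1 q.2 •
        cross3 (Field.nn (X s) q.1) (eK E B s (X s) q.1 q.2) ∂μ
  have e : E s (X s) + crossR V (B s (X s)) - (4 * Real.pi)⁻¹ • (IE + crossR V IB) =
      (E s (X s) - (4 * Real.pi)⁻¹ • IE) + crossR V (B s (X s) - (4 * Real.pi)⁻¹ • IB) := by
    rw [map_sub, map_smul, smul_add]; abel
  rw [e]
  refine (norm_add_le _ _).trans ?_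
  have h2 : ‖crossR V (B s (X s) - (4 * Real.pi)⁻¹ • IB)‖ ≤ |C| := by
    refine (Flow.norm_cross3_le _ _).trans ?_
    calc ‖V‖ * ‖B s (X s) - (4 * Real.pi)⁻¹ • IB‖ ≤ 1 * |C| :=
          mul_le_mul hV1 (hB.trans (le_abs_self C)) (norm_nonneg _) zero_le_one
      _ = |C| := one_mul _
  have h1 : ‖E s (X s) - (4 * Real.pi)⁻¹ • IE‖ ≤ |C| := hE.trans (le_abs_self C)
  linarith

/-- **FtP** : bound of the force on the test particle. -/
theorem ftP {T : ℝ} (hT : 0 < T) {f₀ : R3 → R3 → ℝ} {E₀ B₀ : R3 → R3}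
    {f : ℝ → R3 → R3 → ℝ} {E B : ℝ → R3 → R3} (hsol : IsClassicalSolutionOn T f₀ E₀ B₀ f E B)
    (hf0 : ∀ t ∈ Ico 0 T, ∀ x v : R3, 0 ≤ f t x v)
    (hrep : GSRepOn T f E B) : Mom.FtP T f E B := by
  obtain ⟨C, hC0, hC⟩ := force_rep hT hsol hrep
  refine ⟨max C 9, le_max_of_le_left hC0, fun X p h s hs => ?_⟩
  have hs' : s ∈ Ico 0 T := ⟨hs.1.le, hs.2⟩
  obtain ⟨iK, hK⟩ := hC X p h s hs'
  have hcont : ContinuousOn (fun p : ℝ × R3 × R3 => f p.1 p.2.1 p.2.2) (Ico 0 T ×ˢ univ) :=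
    hsol.1.continuousOn
  set μ := coneM (X s) s with hμ
  set I := ∫ q, f (ret X s q.1) q.1 q.2 • KK E B X p s q ∂μ with hI
  have hpi : (4 * Real.pi)⁻¹ ≤ 1 := by
    have := Real.pi_gt_three
    rw [inv_le_one_iff₀]; right; linarith
  have hpi0 : 0 < (4 * Real.pi)⁻¹ := by positivity
  have h1 : Ftest E B X p s ≤ C + ‖I‖ := by
    unfold Ftest
    calc ‖lor E B s (X s) (p s)‖
        = ‖(lor E B s (X s) (p s) - (4 * Real.pi)⁻¹ • I) + (4 * Real.pi)⁻¹ • I‖ := by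
          rw [sub_add_cancel]
      _ ≤ ‖lor E B s (X s) (p s) - (4 * Real.pi)⁻¹ • I‖ + ‖(4 * Real.pi)⁻¹ • I‖ := norm_add_le _ _
      _ ≤ C + ‖I‖ := by
          rw [norm_smul, Real.norm_of_nonneg hpi0.le]
          exact add_le_add hK (mul_le_of_le_one_left (norm_nonneg _) hpi)
  have h2 : ENNReal.ofReal ‖I‖ ≤ ENNReal.ofReal 9 * ∫⁻ q, ENNReal.ofReal
    (Mom.kT (dl X p s q.1) (ep X s q.1 q.2) (gam q.2) (Rr X s q.1)
      + Mom.kS (dl X p s q.1) (ep X s q.1 q.2) (gam q.2) (Rr X s q.1) * Fsrc E B X s q)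
      ∂(kap f X s) := by
    rw [lintegral_kap hcont hs.2, ofReal_norm, ← lintegral_const_mul' _ _ ENNReal.ofReal_ne_top]
    refine (enorm_integral_le_lintegral_enorm _).trans (lintegral_mono_ae ?_)
    have hin : ∀ᵐ q : R3 × R3 ∂μ, q ∈ Metric.ball (X s) s ×ˢ (univ : Set R3) := by
      rw [hμ, coneM_eq]
      exact ae_restrict_mem (Metric.isOpen_ball.measurableSet.prod MeasurableSet.univ)
    filter_upwards [ae_ne (X s) s, hin] with q hq hq2
    simp only [mem_prod, Metric.mem_ball, mem_univ, and_true] at hq2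
    rw [dist_comm, dist_eq_norm] at hq2
    have hf : 0 ≤ f (s - ‖X s - q.1‖) q.1 q.2 :=
      hf0 _ ⟨by linarith, by linarith [norm_nonneg (X s - q.1), hs.2]⟩ _ _
    have e1 : ‖f (ret X s q.1) q.1 q.2 • KK E B X p s q‖ₑ =
        ENNReal.ofReal (f (s - ‖X s - q.1‖) q.1 q.2) * ENNReal.ofReal ‖KK E B X p s q‖ := by
      rw [enorm_smul, ofReal_norm]
      congr 1
      exact Real.enorm_of_nonneg hf
    rw [e1, mul_comm (ENNReal.ofReal 9), mul_assoc]
    gcongr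
    rw [← ENNReal.ofReal_mul' (by norm_num), mul_comm]
    exact ENNReal.ofReal_le_ofReal (norm_KK_le E B X p s q hq)
  calc ENNReal.ofReal (Ftest E B X p s) ≤ ENNReal.ofReal (C + ‖I‖) := ENNReal.ofReal_le_ofReal h1
    _ = ENNReal.ofReal C + ENNReal.ofReal ‖I‖ := ENNReal.ofReal_add hC0 (norm_nonneg _)
    _ ≤ ENNReal.ofReal (max C 9) * 1 + ENNReal.ofReal (max C 9) * _ := by
        refine add_le_add ?_ (h2.trans ?_)
        · rw [mul_one]; exact ENNReal.ofReal_le_ofReal (le_max_left _ _)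
        · exact mul_le_mul_left (ENNReal.ofReal_le_ofReal (le_max_right _ _)) _
    _ = _ := by rw [← mul_add]

end Crest.Agent.R106.GsCor
end
end

-- ▼ part R106/MixRep
section

/-!
# Row 106, node MIX, piece (T1): `RepF` from the representation of the fields (helper369)
-/

set_option autoImplicit false
open MeasureTheory Set Filter Topology
open Crest.AnalysisR.VecCalc3 Crest.AnalysisR.PDE.RVM
open scoped InnerProductSpace ENNReal ContDiff

noncomputable section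

namespace Crest.Agent.R106.Mix

open Crest.Agent.R106.Mom (Rr ret nn dl ep Dd kap Fsrc Ftest hden bden hh bb IsChar)
open Crest.Agent.R106.GSR (gam acc lor)

theorem Kq_eq_KK (E B : ℝ → R3 → R3) (X p : ℝ → R3) (s : ℝ) (q : R3 × R3) :
    Kq E B X p s q = GsCor.KK E B X p s q := by
  rw [GsCor.KK_eq]
  unfold Kq aq Rr
  rw [Pair.acc_eq]

theorem cone_set_eq (x : R3) (s : ℝ) :
    {q : R3 × R3 | ‖x - q.1‖ < s} = Metric.ball x s ×ˢ (univ : Set R3) := by
  ext q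
  simp only [mem_ofPred_eq, mem_prod, Metric.mem_ball, mem_univ, and_true]
  rw [dist_comm, dist_eq_norm]

/-- (T1) -/
theorem repF {T : ℝ} (hT : 0 < T) {f₀ : R3 → R3 → ℝ} {E₀ B₀ : R3 → R3}
    {f : ℝ → R3 → R3 → ℝ} {E B : ℝ → R3 → R3} (hsol : IsClassicalSolutionOn T f₀ E₀ B₀ f E B)
    (hrep : GsCor.GSRepOn T f E B) : RepF T f E B := by
  obtain ⟨C, hC0, hC⟩ := GsCor.force_rep hT hsol hrep
  refine ⟨C, hC0, fun X p h s hs => ?_⟩
  obtain ⟨h1, h2⟩ := hC X p h s ⟨hs.1.le, hs.2⟩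
  have e : (fun q : R3 × R3 => f (ret X s q.1) q.1 q.2 • Kq E B X p s q) =
      fun q => f (ret X s q.1) q.1 q.2 • GsCor.KK E B X p s q := by
    funext q; rw [Kq_eq_KK]
  rw [cone_set_eq, e, IntegrableOn, ← GsCor.coneM_eq]
  exact ⟨h1, h2⟩

/-- `FtP` from `RepF`-free data, restated here for convenience. -/
theorem ftP {T : ℝ} (hT : 0 < T) {f₀ : R3 → R3 → ℝ} {E₀ B₀ : R3 → R3}
    {f : ℝ → R3 → R3 → ℝ} {E B : ℝ → R3 → R3} (hsol : IsClassicalSolutionOn T f₀ E₀ B₀ f E B)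
    (hf0 : ∀ t ∈ Ico 0 T, ∀ x v : R3, 0 ≤ f t x v)
    (hrep : GsCor.GSRepOn T f E B) : Mom.FtP T f E B := GsCor.ftP hT hsol hf0 hrep

/-- nonnegativity of `f` from the flow -/
theorem nonneg_of_flow {T : ℝ} {f₀ : R3 → R3 → ℝ} {f : ℝ → R3 → R3 → ℝ} {E B : ℝ → R3 → R3}
    {Φ Ψ : ℝ → R3 × R3 → R3 × R3} (hF : SolFlow T f₀ f E B Φ Ψ) (h0 : ∀ x v, 0 ≤ f₀ x v) :
    ∀ t ∈ Ico 0 T, ∀ x v : R3, 0 ≤ f t x v := by
  intro t ht x v
  have := hF.hf t ht (x, v)
  simp only at this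
  rw [this]
  exact h0 _ _

end Crest.Agent.R106.Mix
end
end

-- ▼ part R106/MixMeas
section

/-!
# Row 106, MIX-C, part 4: measurability of the cut-off terms and crude bounds
-/

set_option autoImplicit false

open MeasureTheory Set Metric Filter
open scoped ENNReal NNReal Topology RealInnerProductSpace

namespace Crest.Agent.R106.Mix

open Crest.AnalysisR.VecCalc3

/-! ### measurability of the cut-offs -/

lemma measurable_chi1 : Measurable chi1 := by
  unfold chi1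
  have := Real.smoothTransition.continuous.measurable
  fun_prop

lemma measurable_chi2 : Measurable chi2 := by
  unfold chi2
  have := Real.smoothTransition.continuous.measurable
  fun_prop

lemma measurable_dchi1 : Measurable dchi1 := by
  unfold dchi1
  have := measurable_deriv Real.smoothTransition
  fun_prop

lemma measurable_dchi2 : Measurable dchi2 := by
  unfold dchi2
  have := measurable_deriv Real.smoothTransition
  fun_prop

lemma measurable_chi (lam Qs : ℝ) :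
    Measurable (fun q : ℝ × ℝ × ℝ => chi lam Qs q.1 q.2.1 q.2.2) := by
  unfold chi
  have h1 := measurable_chi1
  have h2 := measurable_chi2
  exact (h1.comp (by fun_prop)).mul (h2.comp (by fun_prop))

lemma measurable_dchi (lam Qs : ℝ) :
    Measurable (fun q : ℝ × ℝ × ℝ × ℝ × ℝ =>
      dchi lam Qs q.1 q.2.1 q.2.2.1 q.2.2.2.1 q.2.2.2.2) := by
  unfold dchi
  have h1 := measurable_chi1
  have h2 := measurable_chi2
  have h3 := measurable_dchi1
  have h4 := measurable_dchi2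
  refine (((h3.comp (by fun_prop)).mul (by fun_prop)).mul (h2.comp (by fun_prop))).add
    ((h1.comp (by fun_prop)).mul ((h4.comp (by fun_prop)).mul (by fun_prop)))

section

attribute [local irreducible] chi dchi

variable {α : Type*} [MeasurableSpace α] {A : Set α} {de ep ga Ld gd : α → ℝ} {G K : α → R3}

lemma MeasOn.chi' (lam Qs : ℝ) (hde : MeasOn A de) (hep : MeasOn A ep) (hga : MeasOn A ga) :
    MeasOn A (fun p => chi lam Qs (de p) (ep p) (ga p)) :=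
  MeasOn.comp (φ := fun q : ℝ × ℝ × ℝ => chi lam Qs q.1 q.2.1 q.2.2) (measurable_chi lam Qs)
    (hde.prodMk (hep.prodMk hga))

lemma MeasOn.dchi' (lam Qs : ℝ) (hde : MeasOn A de) (hep : MeasOn A ep) (hga : MeasOn A ga)
    (hLd : MeasOn A Ld) (hgd : MeasOn A gd) :
    MeasOn A (fun p => dchi lam Qs (de p) (ep p) (ga p) (Ld p) (gd p)) :=
  MeasOn.comp (φ := fun q : ℝ × ℝ × ℝ × ℝ × ℝ =>
      dchi lam Qs q.1 q.2.1 q.2.2.1 q.2.2.2.1 q.2.2.2.2) (measurable_dchi lam Qs)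
    (hde.prodMk (hep.prodMk (hga.prodMk (hLd.prodMk hgd))))

lemma MeasOn.Wrem' (lam Qs : ℝ) (hde : MeasOn A de) (hep : MeasOn A ep) (hga : MeasOn A ga)
    (hLd : MeasOn A Ld) (hgd : MeasOn A gd) (hG : MeasOn A G) (hK : MeasOn A K) :
    MeasOn A (fun p => Wrem lam Qs (de p) (ep p) (ga p) (Ld p) (gd p) (G p) (K p)) := by
  unfold Wrem
  exact ((MeasOn.chi' lam Qs hde hep hga).smul' ((hde.div hep).smul' hK)).sub
    ((MeasOn.dchi' lam Qs hde hep hga hLd hgd).smul' hG)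

end

/-! ### crude bounds -/

lemma sqrt_le_two_of_le_two {x : ℝ} (h : x ≤ 2) : √x ≤ 2 := by
  refine Real.sqrt_le_iff.mpr ⟨by norm_num, by linarith⟩

lemma maj_nonneg {c R : ℝ} (hc : 0 ≤ c) (hR : 0 < R) : 0 ≤ maj c R := by
  unfold maj; positivity




lemma div_R_le_maj {c R : ℝ} (hc : 0 ≤ c) (hR : 0 < R) : c / R ≤ maj c R := by
  unfold maj
  rw [div_eq_mul_inv]
  have h1 : 0 ≤ R⁻¹ := by positivity
  nlinarith [mul_nonneg hc (sq_nonneg R⁻¹)]

lemma div_R2_le_maj {c R : ℝ} (hc : 0 ≤ c) (hR : 0 < R) : c / R ^ 2 ≤ maj c R := by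
  unfold maj
  rw [div_eq_mul_inv, ← inv_pow]
  have h1 : 0 ≤ R⁻¹ := by positivity
  nlinarith [mul_nonneg hc h1]

section kernels

variable {de ep D ga Ga R e0 : ℝ}

lemma kT_le_maj (he0 : 0 < e0) (hde : 0 ≤ de) (hde2 : de ≤ 2) (hep : e0 ≤ ep) (hep2 : ep ≤ 2)
    (hga : 1 ≤ ga) (hR : 0 < R) : kT ga de ep R ≤ maj (4 / e0 ^ 2) R := by
  have hep0 : 0 < ep := he0.trans_le hep
  have h1 : ep + √(de * ep) ≤ 4 := by
    have : √(de * ep) ≤ 2 := by
      refine Real.sqrt_le_iff.mpr ⟨by norm_num, by nlinarith⟩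
    linarith
  have h2 : e0 ^ 2 * R ^ 2 ≤ ga ^ 2 * ep ^ 2 * R ^ 2 := by
    have h3 : e0 ^ 2 ≤ ep ^ 2 := pow_le_pow_left₀ he0.le hep 2
    have h4 : (1 : ℝ) ≤ ga ^ 2 := one_le_pow₀ hga
    have h5 : ep ^ 2 ≤ ga ^ 2 * ep ^ 2 := by nlinarith [sq_nonneg ep]
    exact mul_le_mul_of_nonneg_right (h3.trans h5) (by positivity)
  calc kT ga de ep R ≤ 4 / (e0 ^ 2 * R ^ 2) := by
        unfold kT
        exact div_le_div₀ (by norm_num) h1 (by positivity) h2
    _ = 4 / e0 ^ 2 / R ^ 2 := by rw [div_div]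
    _ ≤ _ := div_R2_le_maj (by positivity) hR

lemma kS_le_maj (he0 : 0 < e0) (hde2 : de ≤ 2) (hep : e0 ≤ ep)
    (hga : 1 ≤ ga) (hR : 0 < R) : kS ga de ep R ≤ maj (2 / e0) R := by
  have hep0 : 0 < ep := he0.trans_le hep
  have h2 : e0 * R ≤ ga * ep * R := by
    have : e0 ≤ ga * ep := by nlinarith
    exact mul_le_mul_of_nonneg_right this hR.le
  calc kS ga de ep R ≤ 2 / (e0 * R) := by
        unfold kS
        exact div_le_div₀ (by norm_num) (sqrt_le_two_of_le_two hde2) (by positivity) h2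
    _ = 2 / e0 / R := by rw [div_div]
    _ ≤ _ := div_R_le_maj (by positivity) hR

lemma kGam_le_maj (he0 : 0 < e0) (hde : e0 ≤ de) (hde2 : de ≤ 2) (hep : 0 ≤ ep) (hep2 : ep ≤ 2)
    (hGa : 1 ≤ Ga) (hR : 0 < R) : kGam Ga de ep R ≤ maj (4 / e0 ^ 2) R := by
  have h := kT_le_maj (ga := Ga) (de := ep) (ep := de) he0 hep hep2 hde hde2 hGa hR
  have e : kGam Ga de ep R = kT Ga ep de R := by
    unfold kGam kT; rw [mul_comm ep de]
  rw [e]; exact h

lemma kC_le_maj (he0 : 0 < e0) (hde : e0 ≤ de) (hep2 : ep ≤ 2)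
    (hGa : 1 ≤ Ga) (hR : 0 < R) : kC Ga de ep R ≤ maj (2 / e0) R := by
  have h := kS_le_maj (ga := Ga) (de := ep) (ep := de) he0 hep2 hde hGa hR
  have e : kC Ga de ep R = kS Ga ep de R := by
    unfold kC kS; ring
  rw [e]; exact h




end kernels

end Crest.Agent.R106.Mix
end

-- ▼ part R106/MixLab

/-!
# Row 106, MIX: (T2) measurability and integrability in label form (helper154)
-/

set_option autoImplicit false

open MeasureTheory Set Filter Topology Metric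
open Crest.AnalysisR.VecCalc3 Crest.AnalysisR.PDE.RVM
open scoped InnerProductSpace ENNReal ContDiff

noncomputable section

namespace Crest.Agent.R106.Mix

open Crest.Agent.R106.Mom (Rr ret nn dl ep Dd kap Fsrc Ftest hden bden hh bb IsChar)
open Crest.Agent.R106.GSR (gam acc lor)

/-! ### measurability -/

section meas

variable {T t1 : ℝ} {a : ℝ → CM.Z → CM.Z} {Φ Ψ : ℝ → CM.Z → CM.Z} {X p : ℝ → R3}
  {E B : ℝ → R3 → R3}

lemma cara_flow (L : CM.LFlow T a Φ Ψ) (h1 : t1 < T) : Cara t1 Φ where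
  meas := fun _ hc => measurable_Φ L ⟨hc.1, hc.2.trans_lt h1⟩
  cont := fun z => (L.cont z).mono fun _ hc => ⟨hc.1, hc.2.trans_lt h1⟩

/-- all continuous data on `[0,t1]` -/
structure Dat (T t1 : ℝ) (a : ℝ → CM.Z → CM.Z) (Φ Ψ : ℝ → CM.Z → CM.Z) (X p : ℝ → R3)
    (E B : ℝ → R3 → R3) : Prop where
  L : CM.LFlow T a Φ Ψ
  h0 : 0 ≤ t1
  h1 : t1 < T
  hX : CM.SubL T X
  hp : ContinuousOn p (Icc 0 t1)
  hE : ContinuousOn (fun q : ℝ × R3 => E q.1 q.2) (Icc 0 t1 ×ˢ univ)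
  hB : ContinuousOn (fun q : ℝ × R3 => B q.1 q.2) (Icc 0 t1 ×ˢ univ)

/-- the cone set for the flow -/
abbrev cs (t1 : ℝ) (X : ℝ → R3) (Φ : ℝ → CM.Z → CM.Z) : Set (ℝ × CM.Z) := coneSet t1 X (pos Φ)

namespace Dat

variable (d : Dat T t1 a Φ Ψ X p E B)
include d

lemma sub : Sublum t1 X (pos Φ) :=
  sublum_of_flow d.L d.h0 d.h1 fun _ hs _ ht =>
    d.hX.abs ⟨ht.1, ht.2.trans_lt d.h1⟩ ⟨hs.1, hs.2.trans_lt d.h1⟩

lemma isRet : IsRet t1 X (pos Φ) (fun s z => CM.rtL Φ s (X s) z) := isRet_of_flow d.L d.h1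

lemma mX : MeasOn (cs t1 X Φ) (fun r : ℝ × CM.Z => X r.1) :=
  measOn_time d.h0 (d.hX.continuousOn.mono fun _ hc => ⟨hc.1, hc.2.trans_lt d.h1⟩)

lemma mp : MeasOn (cs t1 X Φ) (fun r : ℝ × CM.Z => p r.1) := measOn_time d.h0 d.hp

lemma mq : MeasOn (cs t1 X Φ) (fun r : ℝ × CM.Z => qz X Φ r.1 r.2) :=
  measOn_comp_ret d.sub d.isRet (cara_flow d.L d.h1)

/-- `R = ‖X s - q.1‖ = s - τ` on the cone set. -/
lemma R_eq {r : ℝ × CM.Z} (hr : r ∈ cs t1 X Φ) :
    Rr X r.1 (qz X Φ r.1 r.2).1 = r.1 - CM.rtL Φ r.1 (X r.1) r.2 :=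
  (d.isRet r.1 hr.1 r.2 hr.2).2.2.symm

lemma ret_eq {r : ℝ × CM.Z} (hr : r ∈ cs t1 X Φ) :
    ret X r.1 (qz X Φ r.1 r.2).1 = CM.rtL Φ r.1 (X r.1) r.2 := by
  have := d.R_eq hr
  unfold Rr at this
  unfold ret
  rw [this]; ring

lemma ret_mem {r : ℝ × CM.Z} (hr : r ∈ cs t1 X Φ) :
    ret X r.1 (qz X Φ r.1 r.2).1 ∈ Icc 0 t1 := by
  rw [d.ret_eq hr]
  obtain ⟨h1, h2, _⟩ := d.isRet r.1 hr.1 r.2 hr.2
  exact ⟨h1.le, h2.trans hr.1.2⟩

lemma msub : MeasOn (cs t1 X Φ) (fun r : ℝ × CM.Z => X r.1 - (qz X Φ r.1 r.2).1) :=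
  d.mX.sub (MeasOn.comp (φ := fun q : CM.Z => q.1) measurable_fst d.mq)

lemma mR : MeasOn (cs t1 X Φ) (fun r : ℝ × CM.Z => Rr X r.1 (qz X Φ r.1 r.2).1) :=
  MeasOn.comp (φ := fun v : R3 => ‖v‖) (by fun_prop) d.msub

lemma mret : MeasOn (cs t1 X Φ) (fun r : ℝ × CM.Z => ret X r.1 (qz X Φ r.1 r.2).1) :=
  (MeasOn.of_measurable measurable_fst).sub d.mR

lemma mnn : MeasOn (cs t1 X Φ) (fun r : ℝ × CM.Z => nn X r.1 (qz X Φ r.1 r.2).1) :=
  MeasOn.comp (φ := fun v : R3 => ‖v‖⁻¹ • v) (by fun_prop) d.msub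

lemma mV : MeasOn (cs t1 X Φ) (fun r : ℝ × CM.Z => relVel (p r.1)) :=
  MeasOn.comp (φ := relVel) (by unfold relVel; fun_prop) d.mp

lemma mw : MeasOn (cs t1 X Φ) (fun r : ℝ × CM.Z => (qz X Φ r.1 r.2).2) :=
  MeasOn.comp (φ := fun q : CM.Z => q.2) measurable_snd d.mq

lemma my : MeasOn (cs t1 X Φ) (fun r : ℝ × CM.Z => (qz X Φ r.1 r.2).1) :=
  MeasOn.comp (φ := fun q : CM.Z => q.1) measurable_fst d.mq

lemma mv : MeasOn (cs t1 X Φ) (fun r : ℝ × CM.Z => relVel (qz X Φ r.1 r.2).2) :=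
  MeasOn.comp (φ := relVel) (by unfold relVel; fun_prop) d.mw

lemma mgam : MeasOn (cs t1 X Φ) (fun r : ℝ × CM.Z => gam (qz X Φ r.1 r.2).2) :=
  MeasOn.comp (φ := gam) (by unfold gam; fun_prop) d.mw

lemma mdl : MeasOn (cs t1 X Φ) (fun r : ℝ × CM.Z => dl X p r.1 (qz X Φ r.1 r.2).1) :=
  (MeasOn.of_measurable measurable_const).sub (d.mnn.inner' d.mV)

lemma mep : MeasOn (cs t1 X Φ)
    (fun r : ℝ × CM.Z => ep X r.1 (qz X Φ r.1 r.2).1 (qz X Φ r.1 r.2).2) :=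
  (MeasOn.of_measurable measurable_const).sub (d.mnn.inner' d.mv)

lemma mDd : MeasOn (cs t1 X Φ) (fun r : ℝ × CM.Z => Dd p r.1 (qz X Φ r.1 r.2).2) :=
  (MeasOn.of_measurable measurable_const).sub (d.mV.inner' d.mv)

lemma measurable_lorc : Measurable (fun u : ℝ × R3 × R3 =>
    lor E B (clampT t1 u.1) u.2.1 u.2.2) := by
  have hEc : Continuous (fun q : ℝ × R3 => E (clampT t1 q.1) q.2) := by
    rw [← continuousOn_univ]
    exact d.hE.comp (((continuous_clampT t1).comp continuous_fst).prodMk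
      continuous_snd).continuousOn (fun q _ => ⟨clampT_mem d.h0 _, trivial⟩)
  have hBc : Continuous (fun q : ℝ × R3 => B (clampT t1 q.1) q.2) := by
    rw [← continuousOn_univ]
    exact d.hB.comp (((continuous_clampT t1).comp continuous_fst).prodMk
      continuous_snd).continuousOn (fun q _ => ⟨clampT_mem d.h0 _, trivial⟩)
  have h3 : Measurable (fun ab : R3 × R3 => cross3 ab.1 ab.2) := by
    have : Continuous (fun ab : R3 × R3 => cross3 ab.1 ab.2) := by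
      unfold cross3
      refine (PiLp.continuous_toLp 2 _).comp ?_
      refine continuous_pi (fun i => ?_)
      fin_cases i <;> simp <;> fun_prop
    exact this.measurable
  have h4 : Measurable (fun u : ℝ × R3 × R3 => relVel u.2.2) := by unfold relVel; fun_prop
  have h5 : Measurable (fun u : ℝ × R3 × R3 => E (clampT t1 u.1) u.2.1) :=
    hEc.measurable.comp (measurable_fst.prodMk measurable_snd.fst)
  have h6 : Measurable (fun u : ℝ × R3 × R3 => B (clampT t1 u.1) u.2.1) :=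
    hBc.measurable.comp (measurable_fst.prodMk measurable_snd.fst)
  exact h5.add (h3.comp (h4.prodMk h6))

/-- the force at a measurable point with time in `[0,t1]` -/
lemma mlor {t : ℝ × CM.Z → ℝ} {x w : ℝ × CM.Z → R3} (ht : MeasOn (cs t1 X Φ) t)
    (htm : ∀ r ∈ cs t1 X Φ, t r ∈ Icc 0 t1) (hx : MeasOn (cs t1 X Φ) x)
    (hw : MeasOn (cs t1 X Φ) w) :
    MeasOn (cs t1 X Φ) (fun r => lor E B (t r) (x r) (w r)) := by
  refine (MeasOn.comp d.measurable_lorc (ht.prodMk (hx.prodMk hw))).congr (fun r hr => ?_)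
  simp only
  rw [clampT_of_mem (htm r hr)]

lemma mF : MeasOn (cs t1 X Φ) (fun r : ℝ × CM.Z =>
    lor E B (ret X r.1 (qz X Φ r.1 r.2).1) (qz X Φ r.1 r.2).1 (qz X Φ r.1 r.2).2) :=
  d.mlor d.mret (fun _ hr => d.ret_mem hr) d.my d.mw

lemma mFt : MeasOn (cs t1 X Φ) (fun r : ℝ × CM.Z => lor E B r.1 (X r.1) (p r.1)) :=
  d.mlor (MeasOn.of_measurable measurable_fst) (fun _ hr => hr.1) d.mX d.mp

omit d in
lemma measurable_gacc : Measurable (fun u : R3 × R3 => acc u.1 u.2) := by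
  unfold acc gam relVel; fun_prop

lemma maq : MeasOn (cs t1 X Φ) (fun r : ℝ × CM.Z => aq E B X r.1 (qz X Φ r.1 r.2)) :=
  MeasOn.comp₂ (φ := fun a b => acc a b) measurable_gacc d.mw d.mF

lemma mAt : MeasOn (cs t1 X Φ) (fun r : ℝ × CM.Z => At E B X p r.1) :=
  MeasOn.comp₂ (φ := fun a b => acc a b) measurable_gacc d.mp d.mFt

lemma mKq : MeasOn (cs t1 X Φ) (fun r : ℝ × CM.Z => Kq E B X p r.1 (qz X Φ r.1 r.2)) :=
  (MeasOn.KT' d.mnn d.mv d.mV d.mR).add (MeasOn.KS' d.mnn d.mv d.mV d.maq d.mR)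

lemma mGq : MeasOn (cs t1 X Φ) (fun r : ℝ × CM.Z => Gq X p r.1 (qz X Φ r.1 r.2)) :=
  MeasOn.KG' d.mnn d.mv d.mV d.mR

lemma mKCq : MeasOn (cs t1 X Φ) (fun r : ℝ × CM.Z => KCq E B X p r.1 (qz X Φ r.1 r.2)) :=
  MeasOn.KC' d.mnn d.mv d.mV d.mAt d.mR

lemma mchq (lam Qs : ℝ) :
    MeasOn (cs t1 X Φ) (fun r : ℝ × CM.Z => chq lam Qs X p r.1 (qz X Φ r.1 r.2)) :=
  MeasOn.chi' lam (2 * Qs) d.mdl d.mep d.mgam

omit d in
lemma mconst (c : ℝ) : MeasOn (cs t1 X Φ) (fun _ : ℝ × CM.Z => c) :=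
  MeasOn.of_measurable measurable_const

lemma mLdq : MeasOn (cs t1 X Φ) (fun r : ℝ × CM.Z => Ldq E B X p r.1 (qz X Φ r.1 r.2)) := by
  have hg : MeasOn (cs t1 X Φ) (fun r : ℝ × CM.Z => 1 - ‖relVel (qz X Φ r.1 r.2).2‖ ^ 2) :=
    MeasOn.comp (φ := fun v : R3 => 1 - ‖v‖ ^ 2) (by fun_prop) d.mv
  have hG : MeasOn (cs t1 X Φ) (fun r : ℝ × CM.Z => 1 - ‖relVel (p r.1)‖ ^ 2) :=
    MeasOn.comp (φ := fun v : R3 => 1 - ‖v‖ ^ 2) (by fun_prop) d.mV
  have hd2 : MeasOn (cs t1 X Φ) (fun r : ℝ × CM.Z => dl X p r.1 (qz X Φ r.1 r.2).1 ^ 2) :=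
    MeasOn.comp (φ := fun v : ℝ => v ^ 2) (by fun_prop) d.mdl
  have hna := d.mnn.inner' d.maq
  have hnA := d.mnn.inner' d.mAt
  have hdl := d.mdl
  have hep := d.mep
  have hR := d.mR
  have hD := d.mDd
  have h1 := (((hD.sub ((hg.mul hdl).div hep)).sub hep).add hdl).div hR
  have h2 := (hdl.div hep).mul hna
  have h3 := (h1.sub h2).div hep
  have h4 := (((hG.sub hdl).sub ((hD.mul hdl).div hep)).add (hd2.div hep)).div hR
  have h5 := ((mconst (t1 := t1) (X := X) (Φ := Φ) 2).mul (h4.sub hnA)).div hdl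
  exact h3.sub h5

lemma mgdq : MeasOn (cs t1 X Φ) (fun r : ℝ × CM.Z => gdq E B X p r.1 (qz X Φ r.1 r.2)) :=
  (d.mdl.div d.mep).mul (d.mv.inner' d.mF)

lemma mWq (lam Qs : ℝ) :
    MeasOn (cs t1 X Φ) (fun r : ℝ × CM.Z => Wq E B lam Qs X p r.1 (qz X Φ r.1 r.2)) :=
  MeasOn.Wrem' lam (2 * Qs) d.mdl d.mep d.mgam d.mLdq d.mgdq d.mGq d.mKCq

end Dat

end meas

/-! ### crude bounds -/

section crude

variable {E B : ℝ → R3 → R3} {X p : ℝ → R3} {s e0 M : ℝ} {q : R3 × R3}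

lemma norm_nn_eq {y : R3} (h : 0 < Rr X s y) : ‖nn X s y‖ = 1 := by
  unfold nn
  unfold Rr at h
  rw [norm_smul, norm_inv, norm_norm, inv_mul_cancel₀ h.ne']

lemma one_div_le_om {n w : R3} {Pm : ℝ} (hn : ‖n‖ = 1) (hw : ‖w‖ ≤ Pm) :
    1 / (2 * (1 + Pm ^ 2)) ≤ 1 - ⟪n, relVel w⟫_ℝ := by
  have h1 := Pair.gam_le_ep (v := relVel w) hn
  rw [Pair.one_sub_normSq_relVel, Pair.gam_sq] at h1
  have h2 : (1 + Pm ^ 2)⁻¹ ≤ (1 + ‖w‖ ^ 2)⁻¹ := by
    refine inv_anti₀ (by positivity) ?_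
    have := pow_le_pow_left₀ (norm_nonneg w) hw 2
    linarith
  have h3 : 1 / (2 * (1 + Pm ^ 2)) = (1 + Pm ^ 2)⁻¹ / 2 := by
    rw [one_div, mul_inv]; ring
  rw [h3]
  unfold Pair.om at h1
  linarith

lemma om_le_two' {n w : R3} (hn : ‖n‖ = 1) : 1 - ⟪n, relVel w⟫_ℝ ≤ 2 :=
  Pair.om_le_two hn.le (Pair.norm_relVel_lt_one w).le

lemma Dd_le_two (p : ℝ → R3) (s : ℝ) (w : R3) : Dd p s w ≤ 2 :=
  Pair.om_le_two (Pair.norm_relVel_lt_one (p s)).le (Pair.norm_relVel_lt_one w).le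

lemma momkT_eq (d e g R : ℝ) : Mom.kT d e g R = kT g d e R := rfl
lemma momkS_eq (d e g R : ℝ) : Mom.kS d e g R = kS g d e R := rfl
lemma momkGam_eq (d e G R : ℝ) : Mom.kGam d e G R = kGam G d e R := rfl
lemma momkC_eq (d e G R : ℝ) : Mom.kC d e G R = kC G d e R := rfl

lemma momkcut_le_maj {d e D R : ℝ} (he0 : 0 < e0) (hd : e0 ≤ d) (he : e0 ≤ e) (hD : D ≤ 2)
    (hR : 0 < R) : Mom.kcut d e D R ≤ maj (2 + 2 / e0) R := by
  have h1 : e0 ≤ min d e := le_min hd he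
  have h2 : 0 < min d e := he0.trans_le h1
  have h3 : D / min d e ≤ 2 / e0 := div_le_div₀ (by norm_num) hD he0 h1
  have h4 : √(D / min d e) ≤ 2 + 2 / e0 := by
    refine Real.sqrt_le_iff.mpr ⟨by positivity, ?_⟩
    have h3 : (0 : ℝ) ≤ 2 / e0 := by positivity
    nlinarith
  unfold Mom.kcut
  exact (div_le_div_of_nonneg_right h4 (by positivity)).trans (div_R2_le_maj (by positivity) hR)

/-- the good set of pairs -/
structure Good (E B : ℝ → R3 → R3) (X p : ℝ → R3) (s e0 M : ℝ) (q : R3 × R3) : Prop where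
  he0 : 0 < e0
  hM : 0 ≤ M
  hR : 0 < Rr X s q.1
  hd : e0 ≤ dl X p s q.1
  hd2 : dl X p s q.1 ≤ 2
  he : e0 ≤ ep X s q.1 q.2
  he2 : ep X s q.1 q.2 ≤ 2
  hF : Fsrc E B X s q ≤ M
  hFt : Ftest E B X p s ≤ M

open Classical in
lemma hden_le_maj {lam Qs : ℝ} (g : Good E B X p s e0 M q) :
    hden E B lam Qs X p s q ≤
      maj (8 / e0 ^ 2 + 4 / e0 * M + (2 + 2 / e0)) (Rr X s q.1) := by
  obtain ⟨he0, hM, hR, hd, hd2, he, he2, hF, hFt⟩ := g
  have hd0 : 0 < dl X p s q.1 := he0.trans_le hd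
  have hep0 : 0 < ep X s q.1 q.2 := he0.trans_le he
  have hg1 := Pair.one_le_gam q.2
  have hG1 := Pair.one_le_gam (p s)
  have hF0 : 0 ≤ Fsrc E B X s q := norm_nonneg _
  have hFt0 : 0 ≤ Ftest E B X p s := norm_nonneg _
  have k1 := kT_le_maj he0 hd0.le hd2 he he2 hg1 hR
  have k2 := kS_le_maj he0 hd2 he hg1 hR
  have k3 := kGam_le_maj he0 hd hd2 hep0.le he2 hG1 hR
  have k4 := kC_le_maj he0 hd he2 hG1 hR
  have k5 := momkcut_le_maj (D := Dd p s q.2) he0 hd he (Dd_le_two p s q.2) hR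
  have m0 : ∀ {c : ℝ}, 0 ≤ c → 0 ≤ maj c (Rr X s q.1) := fun hc => maj_nonneg hc hR
  have n1 : 0 ≤ maj (4 / e0 ^ 2) (Rr X s q.1) := m0 (by positivity)
  have n2 : 0 ≤ maj (2 / e0) (Rr X s q.1) := m0 (by positivity)
  have n3 : 0 ≤ maj (2 + 2 / e0) (Rr X s q.1) := m0 (by positivity)
  have e1 : (if Mom.regE lam Qs (dl X p s q.1) (ep X s q.1 q.2) (gam q.2) then
      Mom.kT (dl X p s q.1) (ep X s q.1 q.2) (gam q.2) (Rr X s q.1)
        + Mom.kS (dl X p s q.1) (ep X s q.1 q.2) (gam q.2) (Rr X s q.1) * Fsrc E B X s q else 0)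
      ≤ maj (4 / e0 ^ 2) (Rr X s q.1) + maj (2 / e0) (Rr X s q.1) * M := by
    rw [momkT_eq, momkS_eq]
    have := mul_le_mul k2 hF hF0 n2
    have n4 := mul_nonneg n2 hM
    split_ifs <;> linarith
  have e2 : (if Mom.regC lam Qs (dl X p s q.1) (ep X s q.1 q.2) (gam q.2) then
      Mom.kGam (dl X p s q.1) (ep X s q.1 q.2) (gam (p s)) (Rr X s q.1)
        + Mom.kC (dl X p s q.1) (ep X s q.1 q.2) (gam (p s)) (Rr X s q.1) * Ftest E B X p s else 0)
      ≤ maj (4 / e0 ^ 2) (Rr X s q.1) + maj (2 / e0) (Rr X s q.1) * M := by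
    rw [momkGam_eq, momkC_eq]
    have := mul_le_mul k4 hFt hFt0 n2
    have n4 := mul_nonneg n2 hM
    split_ifs <;> linarith
  have e3 : (if Mom.regB lam Qs (dl X p s q.1) (ep X s q.1 q.2) (gam q.2) then
      Mom.kcut (dl X p s q.1) (ep X s q.1 q.2) (Dd p s q.2) (Rr X s q.1) else 0)
      ≤ maj (2 + 2 / e0) (Rr X s q.1) := by
    split_ifs <;> linarith
  have h := add_le_add (add_le_add e1 e2) e3
  refine (le_of_eq_of_le ?_ h).trans (le_of_eq ?_)
  · unfold hden; rfl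
  · unfold maj; ring

end crude

/-! ### the theorem -/

section final

variable {T : ℝ} {f₀ : R3 → R3 → ℝ} {f : ℝ → R3 → R3 → ℝ} {E B : ℝ → R3 → R3}
  {a : ℝ → CM.Z → CM.Z} {Φ Ψ : ℝ → CM.Z → CM.Z}

/-- what is used of the solution and its flow -/
structure LabHyp (T : ℝ) (f₀ : R3 → R3 → ℝ) (f : ℝ → R3 → R3 → ℝ) (E B : ℝ → R3 → R3)
    (a : ℝ → CM.Z → CM.Z) (Φ Ψ : ℝ → CM.Z → CM.Z) : Prop where
  L : CM.LFlow T a Φ Ψ
  hf : ∀ τ ∈ Ico 0 T, ∀ w : R3 × R3, f τ w.1 w.2 = f₀ (Ψ τ w).1 (Ψ τ w).2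
  cf₀ : Continuous (Function.uncurry f₀)
  sf₀ : HasCompactSupport (Function.uncurry f₀)
  cE : ContinuousOn (fun q : ℝ × R3 => E q.1 q.2) (Ico 0 T ×ˢ univ)
  cB : ContinuousOn (fun q : ℝ × R3 => B q.1 q.2) (Ico 0 T ×ˢ univ)
  supp : ∀ T' : ℝ, 0 ≤ T' → T' < T → ∃ R : ℝ, ∀ t ∈ Icc 0 T', ∀ x v : R3,
      (R < ‖x‖ ∨ R < ‖v‖) → f t x v = 0

/-- the good labels -/
def Gl (f₀ : R3 → R3 → ℝ) : Set CM.Z := {z | f₀ z.1 z.2 ≠ 0}

lemma LabHyp.measurableSet_Gl (h : LabHyp T f₀ f E B a Φ Ψ) : MeasurableSet (Gl f₀) := by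
  have : Measurable (fun z : CM.Z => f₀ z.1 z.2) := h.cf₀.measurable
  exact (this (measurableSet_singleton 0)).compl

lemma LabHyp.ae_Gl (h : LabHyp T f₀ f E B a Φ Ψ) : ∀ᵐ z ∂(mlab f₀), z ∈ Gl f₀ := by
  unfold mlab
  have hm : Measurable (fun z : CM.Z => ENNReal.ofReal (f₀ z.1 z.2)) :=
    (h.cf₀.measurable).ennreal_ofReal
  rw [ae_withDensity_iff hm]
  refine Filter.Eventually.of_forall (fun z hz => ?_)
  intro h0
  apply hz
  rw [h0]; simp

lemma LabHyp.finite (h : LabHyp T f₀ f E B a Φ Ψ) : IsFiniteMeasure (mlab f₀) := by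
  unfold mlab
  have h1 : Integrable (fun z : CM.Z => f₀ z.1 z.2) :=
    h.cf₀.integrable_of_hasCompactSupport h.sf₀
  refine isFiniteMeasure_withDensity_ofReal h1.2

lemma LabHyp.bound (h : LabHyp T f₀ f E B a Φ Ψ) : ∃ F0 : ℝ, ∀ z : CM.Z, f₀ z.1 z.2 ≤ F0 := by
  obtain ⟨C, hC⟩ := h.cf₀.bounded_above_of_compact_support h.sf₀
  exact ⟨C, fun z => (le_abs_self _).trans (hC z)⟩

/-- the support of the labels stays in a bounded set -/
lemma LabHyp.flow_bdd (h : LabHyp T f₀ f E B a Φ Ψ) {t1 : ℝ} (h0 : 0 ≤ t1) (h1 : t1 < T) :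
    ∃ R : ℝ, 0 ≤ R ∧ ∀ z ∈ Gl f₀, ∀ τ ∈ Icc 0 t1, ‖(Φ τ z).1‖ ≤ R ∧ ‖(Φ τ z).2‖ ≤ R := by
  obtain ⟨R, hR⟩ := h.supp t1 h0 h1
  refine ⟨max R 0, le_max_right _ _, fun z hz τ hτ => ?_⟩
  have hτ' : τ ∈ Ico 0 T := ⟨hτ.1, hτ.2.trans_lt h1⟩
  have h2 : f τ (Φ τ z).1 (Φ τ z).2 ≠ 0 := by
    rw [h.hf τ hτ' (Φ τ z), h.L.left_inv τ hτ' z]
    exact hz
  constructor
  · refine le_max_of_le_left (not_lt.mp fun hlt => h2 (hR τ hτ _ _ (Or.inl hlt)))
  · refine le_max_of_le_left (not_lt.mp fun hlt => h2 (hR τ hτ _ _ (Or.inr hlt)))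

lemma LabHyp.dens (h : LabHyp T f₀ f E B a Φ Ψ) {t1 : ℝ} (h0 : 0 ≤ t1) (h1 : t1 < T) :
    ∃ C : ℝ≥0∞, C ≠ ⊤ ∧ ∀ s ∈ Icc 0 t1, (mlab f₀).map (pos Φ s) ≤ C • volume := by
  obtain ⟨R, hR0, hR⟩ := h.flow_bdd h0 h1
  obtain ⟨F0, hF0⟩ := h.bound
  refine ⟨ENNReal.ofReal F0 * volume (closedBall (0 : R3) R), ?_, fun s hs => ?_⟩
  · exact ENNReal.mul_ne_top ENNReal.ofReal_ne_top
      (measure_closedBall_lt_top (x := (0 : R3)) (r := R)).ne
  · refine map_pos_le h.L ⟨hs.1, hs.2.trans_lt h1⟩ (fun z => ENNReal.ofReal_le_ofReal (hF0 z))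
      (fun z hz => (hR z ?_ s hs).2)
    intro h3
    apply hz
    rw [h3]; simp

lemma continuousOn_lor {t1 : ℝ}
    (hE : ContinuousOn (fun q : ℝ × R3 => E q.1 q.2) (Icc 0 t1 ×ˢ univ))
    (hB : ContinuousOn (fun q : ℝ × R3 => B q.1 q.2) (Icc 0 t1 ×ˢ univ)) :
    ContinuousOn (fun u : ℝ × R3 × R3 => lor E B u.1 u.2.1 u.2.2) (Icc 0 t1 ×ˢ univ) := by
  have hc : Continuous (fun ab : R3 × R3 => cross3 ab.1 ab.2) := by
    unfold cross3
    refine (PiLp.continuous_toLp 2 _).comp ?_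
    refine continuous_pi (fun i => ?_)
    fin_cases i <;> simp <;> fun_prop
  have hv0 : Continuous relVel := by
    have h1 : Continuous (fun v : R3 => Real.sqrt (1 + ‖v‖ ^ 2)) := by fun_prop
    have h2 : Continuous (fun v : R3 => (Real.sqrt (1 + ‖v‖ ^ 2))⁻¹) :=
      h1.inv₀ (fun v => (Real.sqrt_pos.mpr (by positivity)).ne')
    exact h2.smul continuous_id
  have hv : Continuous (fun u : ℝ × R3 × R3 => relVel u.2.2) :=
    hv0.comp (continuous_snd.comp continuous_snd)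
  have h1 : ContinuousOn (fun u : ℝ × R3 × R3 => E u.1 u.2.1) (Icc 0 t1 ×ˢ univ) :=
    hE.comp (f := fun u : ℝ × R3 × R3 => (u.1, u.2.1)) (by fun_prop) (fun u hu => ⟨hu.1, trivial⟩)
  have h2 : ContinuousOn (fun u : ℝ × R3 × R3 => B u.1 u.2.1) (Icc 0 t1 ×ˢ univ) :=
    hB.comp (f := fun u : ℝ × R3 × R3 => (u.1, u.2.1)) (by fun_prop) (fun u hu => ⟨hu.1, trivial⟩)
  exact h1.add (hc.comp_continuousOn (hv.continuousOn.prodMk h2))

/-- integrability with a bound on the good labels only -/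
theorem integrable_good (h : LabHyp T f₀ f E B a Φ Ψ) {t1 : ℝ} {X p : ℝ → R3}
    (d : Dat T t1 a Φ Ψ X p E B) {g : ℝ × CM.Z → R3} (hg : MeasOn (cs t1 X Φ) g) {c : ℝ}
    (hc : 0 ≤ c)
    (hb : ∀ r ∈ cs t1 X Φ, r.2 ∈ Gl f₀ → 0 < Rr X r.1 (qz X Φ r.1 r.2).1 →
      ‖g r‖ ≤ maj c (Rr X r.1 (qz X Φ r.1 r.2).1)) {s1 s2 : ℝ} (hs : Icc s1 s2 ⊆ Icc 0 t1) :
    Integrable (fun r : ℝ × CM.Z => (cs t1 X Φ).indicator g r)
      ((volume.restrict (Icc s1 s2)).prod (mlab f₀)) := by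
  classical
  have := h.finite
  obtain ⟨C, hC, hdens⟩ := h.dens d.h0 d.h1
  set G : Set (ℝ × CM.Z) := {r | r.2 ∈ Gl f₀} with hG
  have hGm : MeasurableSet G := measurable_snd h.measurableSet_Gl
  have hg' : MeasOn (cs t1 X Φ) (G.indicator g) := by
    obtain ⟨F, hF, he⟩ := hg
    refine ⟨G.indicator F, hF.indicator hGm, fun r hr => ?_⟩
    by_cases hrG : r ∈ G
    · rw [indicator_of_mem hrG, indicator_of_mem hrG, he hr]
    · rw [indicator_of_notMem hrG, indicator_of_notMem hrG]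
  have h1 : Integrable (fun r : ℝ × CM.Z => (cs t1 X Φ).indicator (G.indicator g) r)
      ((volume.restrict (Icc s1 s2)).prod (mlab f₀)) := by
    refine integrable_joint d.sub d.isRet hC hdens hg' hc (fun r hr hR => ?_) hs
    have hRe := d.R_eq hr
    rw [← hRe] at hR
    by_cases hrG : r ∈ G
    · rw [indicator_of_mem hrG]
      have := hb r hr hrG hR
      rwa [hRe] at this
    · rw [indicator_of_notMem hrG, norm_zero]
      rw [hRe] at hR
      exact maj_nonneg hc hR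
  refine h1.congr ?_
  have h2 : ∀ᵐ r ∂((volume.restrict (Icc s1 s2)).prod (mlab f₀)), r ∈ G := by
    have h3 := h.ae_Gl
    have h4 : ∀ᵐ r ∂((volume.restrict (Icc s1 s2)).prod (mlab f₀)), r.2 ∈ Gl f₀ :=
      Measure.quasiMeasurePreserving_snd.ae h3
    exact h4
  filter_upwards [h2] with r hr
  by_cases hrc : r ∈ cs t1 X Φ
  · rw [indicator_of_mem hrc, indicator_of_mem hrc, indicator_of_mem hr]
  · rw [indicator_of_notMem hrc, indicator_of_notMem hrc]

/-- the indicator of `alive` is the indicator of the cone set -/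
lemma alive_indicator {W : Type*} [Zero W] {t1 : ℝ} {X p : ℝ → R3}
    (d : Dat T t1 a Φ Ψ X p E B) (g : ℝ → CM.Z → W) {s : ℝ} (hs : s ∈ Icc 0 t1) (z : CM.Z) :
    (alive X s).indicator (g s) z = (cs t1 X Φ).indicator (fun r : ℝ × CM.Z => g r.1 r.2) (s, z) := by
  have h1 : z ∈ alive X s ↔ (s, z) ∈ cs t1 X Φ := by
    show ‖X s - z.1‖ < s ↔ (s ∈ Icc 0 t1 ∧ ‖X s - (Φ 0 z).1‖ < s)
    rw [d.L.zero]
    simp [hs.1, hs.2]
  by_cases hz : z ∈ alive X s
  · rw [indicator_of_mem hz, indicator_of_mem (h1.mp hz)]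
  · rw [indicator_of_notMem hz, indicator_of_notMem (fun h => hz (h1.mpr h))]

theorem LabHyp.dat (h : LabHyp T f₀ f E B a Φ Ψ) {X p : ℝ → R3} (hX : IsChar T f E B X p)
    {t1 : ℝ} (h0 : 0 ≤ t1) (h1 : t1 < T) : Dat T t1 a Φ Ψ X p E B where
  L := h.L
  h0 := h0
  h1 := h1
  hX := CM.subL_of_deriv hX.cX hX.dX (fun _ _ => Pair.norm_relVel_lt_one _)
  hp := hX.cp.mono fun _ hc => ⟨hc.1, hc.2.trans_lt h1⟩
  hE := h.cE.mono (prod_mono (fun _ hc => ⟨hc.1, hc.2.trans_lt h1⟩) le_rfl)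
  hB := h.cB.mono (prod_mono (fun _ hc => ⟨hc.1, hc.2.trans_lt h1⟩) le_rfl)

/-- all pairs are good -/
theorem LabHyp.good (h : LabHyp T f₀ f E B a Φ Ψ) {X p : ℝ → R3} (hX : IsChar T f E B X p)
    {t1 : ℝ} (h0 : 0 ≤ t1) (h1 : t1 < T) :
    ∃ e0 M : ℝ, 0 < e0 ∧ 0 ≤ M ∧ ∀ r ∈ cs t1 X Φ, r.2 ∈ Gl f₀ →
      0 < Rr X r.1 (qz X Φ r.1 r.2).1 → Good E B X p r.1 e0 M (qz X Φ r.1 r.2) := by
  have d := h.dat hX h0 h1
  obtain ⟨R, hR0, hR⟩ := h.flow_bdd h0 h1
  -- bounds of the test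
  have hXc : ContinuousOn X (Icc 0 t1) := d.hX.continuousOn.mono fun _ hc => ⟨hc.1, hc.2.trans_lt h1⟩
  obtain ⟨Rx, hRx⟩ := (isCompact_Icc.image_of_continuousOn hXc).isBounded.exists_norm_le
  obtain ⟨Rp, hRp⟩ := (isCompact_Icc.image_of_continuousOn d.hp).isBounded.exists_norm_le
  set Pm := max R (max Rx Rp) with hPm
  have hPm0 : 0 ≤ Pm := hR0.trans (le_max_left _ _)
  have hcl := continuousOn_lor d.hE d.hB
  have hK : IsCompact (Icc (0 : ℝ) t1 ×ˢ (closedBall (0 : R3) Pm ×ˢ closedBall (0 : R3) Pm)) :=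
    isCompact_Icc.prod ((isCompact_closedBall _ _).prod (isCompact_closedBall _ _))
  obtain ⟨M0, hM0⟩ := (hK.image_of_continuousOn
    (hcl.mono (prod_mono le_rfl (subset_univ _)))).isBounded.exists_norm_le
  have hM : ∀ t ∈ Icc (0 : ℝ) t1, ∀ x w : R3, ‖x‖ ≤ Pm → ‖w‖ ≤ Pm →
      ‖lor E B t x w‖ ≤ max M0 0 := by
    intro t ht x w hx hw
    exact (hM0 _ ⟨(t, x, w), ⟨ht, by simpa using hx, by simpa using hw⟩, rfl⟩).trans
      (le_max_left _ _)
  refine ⟨1 / (2 * (1 + Pm ^ 2)), max M0 0, by positivity, le_max_right _ _,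
    fun r hr hrG hRr => ?_⟩
  have hn := norm_nn_eq hRr
  have hq : qz X Φ r.1 r.2 = Φ (CM.rtL Φ r.1 (X r.1) r.2) r.2 := rfl
  obtain ⟨hτ1, hτ2, hτ3⟩ := d.isRet r.1 hr.1 r.2 hr.2
  have hτ : CM.rtL Φ r.1 (X r.1) r.2 ∈ Icc 0 t1 := ⟨hτ1.le, hτ2.trans hr.1.2⟩
  have hqb := hR r.2 hrG _ hτ
  rw [← hq] at hqb
  have hps : ‖p r.1‖ ≤ Pm :=
    (hRp _ ⟨r.1, hr.1, rfl⟩).trans ((le_max_right _ _).trans (le_max_right _ _))
  have hXs : ‖X r.1‖ ≤ Pm :=
    (hRx _ ⟨r.1, hr.1, rfl⟩).trans ((le_max_left _ _).trans (le_max_right _ _))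
  have hq1 : ‖(qz X Φ r.1 r.2).1‖ ≤ Pm := hqb.1.trans (le_max_left _ _)
  have hq2 : ‖(qz X Φ r.1 r.2).2‖ ≤ Pm := hqb.2.trans (le_max_left _ _)
  exact
    { he0 := by positivity
      hM := le_max_right _ _
      hR := hRr
      hd := one_div_le_om hn hps
      hd2 := om_le_two' hn
      he := one_div_le_om hn hq2
      he2 := om_le_two' hn
      hF := hM _ (d.ret_mem hr) _ _ hq1 hq2
      hFt := hM _ hr.1 _ _ hXs hps }

/-- **(T2)** -/
theorem labInt_of (h : LabHyp T f₀ f E B a Φ Ψ) (hPt : PtBound E B) : LabInt T f₀ f E B Φ := by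
  intro X p hX lam Qs hlam hQs s1 s2 hs1 hs12 hs2
  have h0 : 0 ≤ s2 := hs1.trans hs12
  have d := h.dat hX h0 hs2
  obtain ⟨e0, M, he0, hM, hgood⟩ := h.good hX h0 hs2
  obtain ⟨C, hC0, hC⟩ := hPt
  have hss : Icc s1 s2 ⊆ Icc 0 s2 := Icc_subset_Icc hs1 le_rfl
  have hfin := h.finite
  obtain ⟨Cd, hCd, hdens⟩ := h.dens h0 hs2
  have hA := measurableSet_coneSet d.sub
  have hae : ∀ᵐ r ∂((volume.restrict (Icc s1 s2)).prod (mlab f₀)), r.1 ∈ Icc s1 s2 :=
    Measure.quasiMeasurePreserving_fst.ae (ae_restrict_mem measurableSet_Icc)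
  have hne : ∀ {s : ℝ} {y : R3}, 0 < Rr X s y → X s ≠ y := by
    intro s y hR heq
    unfold Rr at hR
    rw [heq, sub_self, norm_zero] at hR
    exact lt_irrefl _ hR
  refine ⟨?_, ?_, ?_, ?_, ?_⟩
  · -- kernel `K/ε`
    set cK : ℝ := (C * (4 / e0 ^ 2 + 2 / e0 * M)) / e0 with hcK
    have hcK0 : 0 ≤ cK := by positivity
    have h1 := integrable_good h d
      (g := fun r : ℝ × CM.Z => (ep X r.1 (qz X Φ r.1 r.2).1 (qz X Φ r.1 r.2).2)⁻¹ •
        Kq E B X p r.1 (qz X Φ r.1 r.2))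
      ((MeasOn.comp (φ := fun x : ℝ => x⁻¹) (by fun_prop) d.mep).smul' d.mKq) hcK0
      (fun r hr hrG hR => by
        obtain ⟨g1, g2, g3, g4, g5, g6, g7, g8, g9⟩ := hgood r hr hrG hR
        obtain ⟨hK, -⟩ := hC X p r.1 (qz X Φ r.1 r.2) (hne hR)
        have hep0 := he0.trans_le g6
        have k1 := kT_le_maj he0 (he0.le.trans g4) g5 g6 g7 (Pair.one_le_gam (qz X Φ r.1 r.2).2) hR
        have k2 := kS_le_maj he0 g5 g6 (Pair.one_le_gam (qz X Φ r.1 r.2).2) hR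
        have hF0 : 0 ≤ Fsrc E B X r.1 (qz X Φ r.1 r.2) := norm_nonneg _
        have n2 : 0 ≤ maj (2 / e0) (Rr X r.1 (qz X Φ r.1 r.2).1) := maj_nonneg (by positivity) hR
        have hK2 : ‖Kq E B X p r.1 (qz X Φ r.1 r.2)‖
            ≤ C * (maj (4 / e0 ^ 2) (Rr X r.1 (qz X Φ r.1 r.2).1)
              + maj (2 / e0) (Rr X r.1 (qz X Φ r.1 r.2).1) * M) := by
          refine hK.trans (mul_le_mul_of_nonneg_left ?_ hC0)
          rw [momkT_eq, momkS_eq]
          exact add_le_add k1 (mul_le_mul k2 g8 hF0 n2)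
        show ‖(ep X r.1 (qz X Φ r.1 r.2).1 (qz X Φ r.1 r.2).2)⁻¹ •
          Kq E B X p r.1 (qz X Φ r.1 r.2)‖ ≤ _
        rw [norm_smul, norm_inv, Real.norm_eq_abs, abs_of_pos hep0]
        calc (ep X r.1 (qz X Φ r.1 r.2).1 (qz X Φ r.1 r.2).2)⁻¹ *
              ‖Kq E B X p r.1 (qz X Φ r.1 r.2)‖
            ≤ e0⁻¹ * (C * (maj (4 / e0 ^ 2) (Rr X r.1 (qz X Φ r.1 r.2).1)
              + maj (2 / e0) (Rr X r.1 (qz X Φ r.1 r.2).1) * M)) :=
              mul_le_mul (inv_anti₀ he0 g6) hK2 (norm_nonneg _) (by positivity)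
          _ = maj cK (Rr X r.1 (qz X Φ r.1 r.2).1) := by
              rw [hcK]; unfold maj; ring) hss
    refine h1.congr ?_
    filter_upwards [hae] with r hr
    exact (alive_indicator d (fun s z => (ep X s (qz X Φ s z).1 (qz X Φ s z).2)⁻¹ •
        Kq E B X p s (qz X Φ s z)) (hss hr) r.2).symm
  · -- remainder `W`
    set cW : ℝ := (C * (8 / e0 ^ 2 + 4 / e0 * M + (2 + 2 / e0))) / e0 with hcW
    have hcW0 : 0 ≤ cW := by positivity
    have h1 := integrable_good h d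
      (g := fun r : ℝ × CM.Z => Wq E B lam Qs X p r.1 (qz X Φ r.1 r.2))
      (d.mWq lam Qs) hcW0
      (fun r hr hrG hR => by
        have hg := hgood r hr hrG hR
        have hhd := hden_le_maj (lam := lam) (Qs := Qs) hg
        obtain ⟨g1, g2, g3, g4, g5, g6, g7, g8, g9⟩ := hg
        obtain ⟨-, hW⟩ := hC X p r.1 (qz X Φ r.1 r.2) (hne hR)
        obtain ⟨-, hW, -⟩ := hW lam Qs hlam hQs
        have h2 : e0 * ‖Wq E B lam Qs X p r.1 (qz X Φ r.1 r.2)‖ ≤
            C * maj (8 / e0 ^ 2 + 4 / e0 * M + (2 + 2 / e0)) (Rr X r.1 (qz X Φ r.1 r.2).1) :=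
          (mul_le_mul_of_nonneg_right g6 (norm_nonneg _)).trans
            (hW.trans (mul_le_mul_of_nonneg_left hhd hC0))
        calc ‖Wq E B lam Qs X p r.1 (qz X Φ r.1 r.2)‖
            ≤ C * maj (8 / e0 ^ 2 + 4 / e0 * M + (2 + 2 / e0)) (Rr X r.1 (qz X Φ r.1 r.2).1) / e0 := by
              rw [le_div_iff₀ he0]; linarith
          _ = maj cW (Rr X r.1 (qz X Φ r.1 r.2).1) := by
              rw [hcW]; unfold maj; ring) hss
    refine h1.congr ?_
    filter_upwards [hae] with r hr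
    exact (alive_indicator d (fun s z => Wq E B lam Qs X p s (qz X Φ s z)) (hss hr) r.2).symm
  · -- `χ`
    have h1 : Measurable ((cs s2 X Φ).indicator
        (fun r : ℝ × CM.Z => chq lam Qs X p r.1 (qz X Φ r.1 r.2))) :=
      (d.mchq lam Qs).indicator hA
    refine h1.aestronglyMeasurable.congr ?_
    filter_upwards [hae] with r hr
    exact (alive_indicator d (fun s z => chq lam Qs X p s (qz X Φ s z)) (hss hr) r.2).symm
  · -- boundary term
    have h1 : Measurable ((cs s2 X Φ).indicator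
        (fun r : ℝ × CM.Z => chq lam Qs X p r.1 (qz X Φ r.1 r.2) • Gq X p r.1 (qz X Φ r.1 r.2))) :=
      ((d.mchq lam Qs).smul' d.mGq).indicator hA
    have h2 : Measurable (fun z => (cs s2 X Φ).indicator
        (fun r : ℝ × CM.Z => chq lam Qs X p r.1 (qz X Φ r.1 r.2) • Gq X p r.1 (qz X Φ r.1 r.2))
          (s1, z)) := h1.comp measurable_prodMk_left
    have h3 : Yz lam Qs X p Φ s1 = (fun z => (cs s2 X Φ).indicator
        (fun r : ℝ × CM.Z => chq lam Qs X p r.1 (qz X Φ r.1 r.2) • Gq X p r.1 (qz X Φ r.1 r.2))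
          (s1, z)) := by
      funext z
      exact alive_indicator d (fun s z => chq lam Qs X p s (qz X Φ s z) •
        Gq X p s (qz X Φ s z)) (hss ⟨le_rfl, hs12⟩) z
    rw [h3]
    exact h2.aestronglyMeasurable
  · -- no collisions
    have hYm : Measurable (Function.uncurry (fun τ z => pos Φ (clampT s2 τ) z)) := by
      have := Cara.measurable h0 (g := pos Φ) d.sub.cara
      exact this
    have h1 := ae_no_collision (mlab f₀) (fun τ z => pos Φ (clampT s2 τ) z) hYm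
      (fun s => X (clampT s2 s)) d.sub.continuous_X.measurable (a := 0) (b := s2)
      (fun s hs t ht => by
        rw [clampT_of_mem hs, clampT_of_mem ht]; exact d.sub.hX s hs t ht)
      (fun z s hs t ht => by
        rw [clampT_of_mem hs, clampT_of_mem ht]; exact d.sub.hY' z hs ht)
      Cd hCd (fun τ hτ => by
        simp only [clampT_of_mem hτ]; exact hdens τ hτ)
    filter_upwards [h1] with z hz s hs heq
    refine hz s hs ?_
    simp only [clampT_of_mem hs]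
    exact heq.symm

/-- `LabHyp` from a classical solution with its label flow (any phase velocity `a`). -/
theorem labHyp_of {E₀ B₀ : R3 → R3} (hadm : IsAdmissibleDatum f₀ E₀ B₀)
    (hsol : IsClassicalSolutionOn T f₀ E₀ B₀ f E B) (L : CM.LFlow T a Φ Ψ)
    (hf : ∀ τ ∈ Ico 0 T, ∀ w : R3 × R3, f τ w.1 w.2 = f₀ (Ψ τ w).1 (Ψ τ w).2) :
    LabHyp T f₀ f E B a Φ Ψ where
  L := L
  hf := hf
  cf₀ := hadm.2.1.continuous
  sf₀ := hadm.2.2.1
  cE := hsol.2.1.continuousOn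
  cB := hsol.2.2.1.continuousOn
  supp := hsol.2.2.2.2.2.2.2.1

/-- **(T2)**, final form. -/
theorem labInt {E₀ B₀ : R3 → R3} (hadm : IsAdmissibleDatum f₀ E₀ B₀)
    (hsol : IsClassicalSolutionOn T f₀ E₀ B₀ f E B) (L : CM.LFlow T a Φ Ψ)
    (hf : ∀ τ ∈ Ico 0 T, ∀ w : R3 × R3, f τ w.1 w.2 = f₀ (Ψ τ w).1 (Ψ τ w).2)
    (hPt : PtBound E B) : LabInt T f₀ f E B Φ :=
  labInt_of (labHyp_of hadm hsol L hf) hPt

end final

end Crest.Agent.R106.Mix
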