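import Crest.Agent.R106.NumDefs

-- ▼ part R106/NumShell
section

/-!
# Row 106, node NUM: from the occupation bounds of one shell to the exponent level
-/

set_option autoImplicit false

namespace Crest.Agent.R106.Num

open Real

section
variable {C c0 P Qt R dl ep D Q mu mus : ℝ}

lemma lg_le {P a b : ℝ} (hP : 1 < P) (ha : 0 < a) (h : a ≤ b) : logb P a ≤ logb P b :=
  Real.logb_le_logb_of_le hP ha h

lemma lg_rpow {P e : ℝ} (hP : 1 < P) : logb P (P ^ e) = e :=
  Real.logb_rpow (by linarith) (by linarith)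

lemma lg_mul {P a b : ℝ} (ha : 0 < a) (hb : 0 < b) : logb P (a * b) = logb P a + logb P b :=
  Real.logb_mul ha.ne' hb.ne'

lemma lg_div {P a b : ℝ} (ha : 0 < a) (hb : 0 < b) : logb P (a / b) = logb P a - logb P b :=
  Real.logb_div ha.ne' hb.ne'

lemma lg_pow {P a : ℝ} (n : ℕ) : logb P (a ^ n) = n * logb P a := by
  simp [Real.logb, Real.log_pow, mul_div_assoc]

lemma lg_rpow' {P a e : ℝ} (ha : 0 < a) : logb P (a ^ e) = e * logb P a := by
  simp [Real.logb, Real.log_rpow ha, mul_div_assoc]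

lemma lg_sqrt {P a : ℝ} (ha : 0 ≤ a) : logb P (√a) = logb P a / 2 := by
  simp [Real.logb, Real.log_sqrt ha]; ring

lemma lg_C (hL : Large C c0 P) (hC : 1 ≤ C) : logb P C ≤ 1 / 10000000 := by
  have := lg_le hL.P1 (by linarith) hL.hC
  rwa [lg_rpow hL.P1] at this

lemma lg_8 (hL : Large C c0 P) : logb P 8 ≤ 1 / 10000000 := by
  have := lg_le hL.P1 (by norm_num) hL.h8
  rwa [lg_rpow hL.P1] at this

lemma lg_c0 (hL : Large C c0 P) (hc0 : 0 < c0) : -logb P c0 ≤ 1 / 10000000 := by
  have := lg_le hL.P1 (by positivity) hL.hc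
  rw [lg_rpow hL.P1, lg_div one_pos hc0, Real.logb_one] at this
  linarith

lemma lg_L (hL : Large C c0 P) : logb P (Real.log P) ≤ 1 / 10000000 := by
  have := lg_le hL.P1 (by linarith [hL.L1]) hL.hL
  rwa [lg_rpow hL.P1] at this

lemma win_pos (hL : Large C c0 P) (hc0 : 0 < c0) (hQ : 0 < Q) : 0 < win c0 P Q := by
  have := hL.P1
  have := hL.L1
  unfold win
  apply mul_pos hc0
  apply lt_min <;> positivity

lemma win_le (hL : Large C c0 P) (hc0 : 0 < c0) (hc1 : c0 ≤ 1) : win c0 P Qt ≤ (Qt / P) ^ 2 := by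
  have := hL.P1
  unfold win
  have h1 : min ((Qt / P) ^ 2) (Qt / (P * Real.log P)) ≤ (Qt / P) ^ 2 := min_le_left _ _
  calc c0 * min ((Qt / P) ^ 2) (Qt / (P * Real.log P)) ≤ c0 * (Qt / P) ^ 2 := by gcongr
    _ ≤ 1 * (Qt / P) ^ 2 := by gcongr
    _ = _ := one_mul _

lemma lg_win_le (hL : Large C c0 P) (hc0 : 0 < c0) (hc1 : c0 ≤ 1) (hQt : 0 < Qt) :
    logb P (win c0 P Qt) ≤ -(2 * (1 - logb P Qt)) := by
  have hP : 0 < P := by linarith [hL.P1]
  have h1 := lg_le hL.P1 (win_pos hL hc0 hQt) (win_le (Qt := Qt) hL hc0 hc1)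
  rw [lg_pow, lg_div hQt hP, Real.logb_self_eq_one hL.P1] at h1
  push_cast at h1
  linarith

lemma win_ge (hL : Large C c0 P) (hc0 : 0 < c0) (hQ : 0 < Q) (hQP : Q ≤ P) :
    c0 * ((Q / P) ^ 2 / Real.log P) ≤ win c0 P Q := by
  have hP := hL.P1
  have hP0 : 0 < P := by linarith
  have hL1 := hL.L1
  have hL0 : 0 < Real.log P := by linarith
  unfold win
  gcongr
  apply le_min
  · rw [div_le_iff₀ hL0]
    have : 0 ≤ (Q / P) ^ 2 := by positivity
    nlinarith
  · rw [div_pow, div_div, div_le_div_iff₀ (by positivity) (by positivity)]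
    have h1 : Q ^ 2 * (P * Real.log P) = (Q * P * Real.log P) * Q := by ring
    have h2 : Q * (P ^ 2 * Real.log P) = (Q * P * Real.log P) * P := by ring
    rw [h1, h2]
    gcongr

lemma lg_win_ge (hL : Large C c0 P) (hc0 : 0 < c0) (hQ : 0 < Q) (hQP : Q ≤ P) :
    -(2 * (1 - logb P Q)) - 2 / 10000000 ≤ logb P (win c0 P Q) := by
  have hP0 : 0 < P := by linarith [hL.P1]
  have hL0 : 0 < Real.log P := by linarith [hL.L1]
  have h1 := lg_le hL.P1 (by positivity) (win_ge hL hc0 hQ hQP)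
  rw [lg_mul hc0 (by positivity), lg_div (by positivity) hL0, lg_pow, lg_div hQ hP0,
    Real.logb_self_eq_one hL.P1] at h1
  have h2 := lg_c0 hL hc0
  have h3 := lg_L hL
  push_cast at h1
  linarith

/-- (a) at the level of exponents -/
lemma ex_a (hL : Large C c0 P) (hC : 1 ≤ C) (hc0 : 0 < c0) (hc1 : c0 ≤ 1) (hQt : 0 < Qt)
    (hg : Geo C P Qt R dl ep D Q) (hmu : 0 < mu)
    (h : mu ≤ C * (win c0 P Qt * (R ^ 3 * dl * Q ^ 3 * min ep D))) :
    logb P mu ≤ -(2*(1-logb P Qt)) - 3*(-logb P R) - (-logb P dl) + 3*logb P Q - (-logb P ep)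
      + 1/100000 ∧
    logb P mu ≤ -(2*(1-logb P Qt)) - 3*(-logb P R) - (-logb P dl) + 3*logb P Q - (-logb P D)
      + 1/100000 := by
  obtain ⟨hR, hdl, hep, hD, hQ, -, -, -, -, -, -, -, -, -, -, -⟩ := hg
  have hC0 : 0 < C := by linarith
  have hw := win_pos (Q := Qt) hL hc0 hQt
  have h1 := lg_C hL hC
  have h2 := lg_win_le (Qt := Qt) hL hc0 hc1 hQt
  constructor
  · have h3 : mu ≤ C * (win c0 P Qt * (R ^ 3 * dl * Q ^ 3 * ep)) := h.trans (by
      gcongr; exact min_le_left _ _)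
    have h4 := lg_le hL.P1 hmu h3
    rw [lg_mul hC0 (by positivity), lg_mul hw (by positivity), lg_mul (by positivity) hep,
      lg_mul (by positivity) (by positivity), lg_mul (by positivity) hdl, lg_pow, lg_pow] at h4
    push_cast at h4
    linarith
  · have h3 : mu ≤ C * (win c0 P Qt * (R ^ 3 * dl * Q ^ 3 * D)) := h.trans (by
      gcongr; exact min_le_right _ _)
    have h4 := lg_le hL.P1 hmu h3
    rw [lg_mul hC0 (by positivity), lg_mul hw (by positivity), lg_mul (by positivity) hD,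
      lg_mul (by positivity) (by positivity), lg_mul (by positivity) hdl, lg_pow, lg_pow] at h4
    push_cast at h4
    linarith

lemma ex_a' (hL : Large C c0 P) (hC : 1 ≤ C)
    (hg : Geo C P Qt R dl ep D Q) (hmu : 0 < mus)
    (h : mus ≤ C * (R ^ 3 * dl * Q ^ 3 * min ep D)) :
    logb P mus ≤ - 3*(-logb P R) - (-logb P dl) + 3*logb P Q - (-logb P ep) + 1/100000 ∧
    logb P mus ≤ - 3*(-logb P R) - (-logb P dl) + 3*logb P Q - (-logb P D) + 1/100000 := by
  obtain ⟨hR, hdl, hep, hD, hQ, -, -, -, -, -, -, -, -, -, -, -⟩ := hg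
  have hC0 : 0 < C := by linarith
  have h1 := lg_C hL hC
  constructor
  · have h3 : mus ≤ C * (R ^ 3 * dl * Q ^ 3 * ep) := h.trans (by
      gcongr; exact min_le_left _ _)
    have h4 := lg_le hL.P1 hmu h3
    rw [lg_mul hC0 (by positivity), lg_mul (by positivity) hep,
      lg_mul (by positivity) (by positivity), lg_mul (by positivity) hdl, lg_pow, lg_pow] at h4
    push_cast at h4
    linarith
  · have h3 : mus ≤ C * (R ^ 3 * dl * Q ^ 3 * D) := h.trans (by
      gcongr; exact min_le_right _ _)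
    have h4 := lg_le hL.P1 hmu h3
    rw [lg_mul hC0 (by positivity), lg_mul (by positivity) hD,
      lg_mul (by positivity) (by positivity), lg_mul (by positivity) hdl, lg_pow, lg_pow] at h4
    push_cast at h4
    linarith

lemma ex_b (hL : Large C c0 P) (hC : 1 ≤ C) (hc0 : 0 < c0) (hc1 : c0 ≤ 1) (hQt : 0 < Qt)
    (hg : Geo C P Qt R dl ep D Q) (hmu : 0 < mu)
    (h : mu ≤ C * (win c0 P Qt * (1 / (Q * ep)))) :
    logb P mu ≤ -(2*(1-logb P Qt)) - logb P Q + (-logb P ep) + 1/100000 := by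
  obtain ⟨hR, hdl, hep, hD, hQ, -, -, -, -, -, -, -, -, -, -, -⟩ := hg
  have hC0 : 0 < C := by linarith
  have hw := win_pos (Q := Qt) hL hc0 hQt
  have h1 := lg_C hL hC
  have h2 := lg_win_le (Qt := Qt) hL hc0 hc1 hQt
  have h4 := lg_le hL.P1 hmu h
  rw [lg_mul hC0 (by positivity), lg_mul hw (by positivity), lg_div one_pos (by positivity),
    lg_mul hQ hep, Real.logb_one] at h4
  linarith

lemma ex_b' (hL : Large C c0 P) (hC : 1 ≤ C)
    (hg : Geo C P Qt R dl ep D Q) (hmu : 0 < mus)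
    (h : mus ≤ C * (1 / (Q * ep))) :
    logb P mus ≤ - logb P Q + (-logb P ep) + 1/100000 := by
  obtain ⟨hR, hdl, hep, hD, hQ, -, -, -, -, -, -, -, -, -, -, -⟩ := hg
  have hC0 : 0 < C := by linarith
  have h1 := lg_C hL hC
  have h4 := lg_le hL.P1 hmu h
  rw [lg_mul hC0 (by positivity), lg_div one_pos (by positivity),
    lg_mul hQ hep, Real.logb_one] at h4
  linarith

/-- `lg (l + R)` -/
lemma lg_lR (hL : Large C c0 P) (hc0 : 0 < c0) (hc1 : c0 ≤ 1) (hQt : 0 < Qt) (hR : 0 < R) :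
    logb P (win c0 P Qt + R) ≤ max (-(2*(1-logb P Qt))) (-(-logb P R)) + 1 / 10000000 := by
  have hw := win_pos (Q := Qt) hL hc0 hQt
  have h2 := lg_win_le (Qt := Qt) hL hc0 hc1 hQt
  have h8 := lg_8 hL
  rcases le_total (win c0 P Qt) R with h | h
  · have h3 : win c0 P Qt + R ≤ 8 * R := by linarith
    have h4 := lg_le hL.P1 (by positivity) h3
    rw [lg_mul (by norm_num) hR] at h4
    have := le_max_right (-(2*(1-logb P Qt))) (-(-logb P R))
    linarith
  · have h3 : win c0 P Qt + R ≤ 8 * win c0 P Qt := by linarith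
    have h4 := lg_le hL.P1 (by positivity) h3
    rw [lg_mul (by norm_num) hw] at h4
    have := le_max_left (-(2*(1-logb P Qt))) (-(-logb P R))
    linarith

lemma ex_c (hL : Large C c0 P) (hC : 1 ≤ C) (hc0 : 0 < c0) (hc1 : c0 ≤ 1) (hQt : 0 < Qt)
    (hg : Geo C P Qt R dl ep D Q) (hmu : 0 < mu)
    (h : mu ≤ C * ((win c0 P Qt + R) / (Q * dl))) :
    logb P mu ≤ max (-(2*(1-logb P Qt))) (-(-logb P R)) - logb P Q + (-logb P dl)
      + 1/100000 := by
  obtain ⟨hR, hdl, hep, hD, hQ, -, -, -, -, -, -, -, -, -, -, -⟩ := hg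
  have hC0 : 0 < C := by linarith
  have hw := win_pos (Q := Qt) hL hc0 hQt
  have h1 := lg_C hL hC
  have h2 := lg_lR (R := R) hL hc0 hc1 hQt hR
  have h4 := lg_le hL.P1 hmu h
  rw [lg_mul hC0 (by positivity), lg_div (by positivity) (by positivity), lg_mul hQ hdl] at h4
  linarith

lemma ex_d (hL : Large C c0 P) (hC : 1 ≤ C) (hc0 : 0 < c0) (hc1 : c0 ≤ 1) (hQt : 0 < Qt)
    (hg : Geo C P Qt R dl ep D Q) (hmu : 0 < mu)
    (h : mu ≤ C * (R / (Q * √(D * max dl D)) * (1 + (win c0 P Qt + R) / win c0 P Q) / √D)) :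
    logb P mu ≤ (-logb P D)/2 +
      max 0 (max (-(2*(1-logb P Qt))) (-(-logb P R)) + 2*(1-logb P Q)) - (-logb P R) - logb P Q
      + ((-logb P D) + min (-logb P dl) (-logb P D))/2 + 1/100000 := by
  obtain ⟨hR, hdl, hep, hD, hQ, -, -, -, -, -, -, -, -, -, hQP, -⟩ := hg
  have hC0 : 0 < C := by linarith
  have hw := win_pos (Q := Qt) hL hc0 hQt
  have hwQ := win_pos (Q := Q) hL hc0 hQ
  have h1 := lg_C hL hC
  have h2 := lg_lR (R := R) hL hc0 hc1 hQt hR
  have h3 := lg_win_ge hL hc0 hQ hQP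
  have h8 := lg_8 hL
  have hm : 0 < max dl D := lt_max_of_lt_left hdl
  have h4 := lg_le hL.P1 hmu h
  have hx : 0 < (win c0 P Qt + R) / win c0 P Q := by positivity
  rw [lg_mul hC0 (by positivity), lg_div (by positivity) (by positivity),
    lg_mul (by positivity) (by positivity), lg_div hR (by positivity),
    lg_mul hQ (by positivity), lg_sqrt (by positivity), lg_sqrt hD.le, lg_mul hD hm] at h4
  have h5 : logb P (1 + (win c0 P Qt + R) / win c0 P Q) ≤
      max 0 (max (-(2*(1-logb P Qt))) (-(-logb P R)) + 2*(1-logb P Q)) + 4 / 10000000 := by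
    rcases le_total ((win c0 P Qt + R) / win c0 P Q) 1 with h6 | h6
    · have h7 : 1 + (win c0 P Qt + R) / win c0 P Q ≤ 8 := by linarith
      have := lg_le hL.P1 (by positivity) h7
      have := le_max_left 0 (max (-(2*(1-logb P Qt))) (-(-logb P R)) + 2*(1-logb P Q))
      linarith
    · have h7 : 1 + (win c0 P Qt + R) / win c0 P Q ≤ 8 * ((win c0 P Qt + R) / win c0 P Q) := by
        linarith
      have h9 := lg_le hL.P1 (by positivity) h7
      rw [lg_mul (by norm_num) hx, lg_div (by positivity) hwQ] at h9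
      have := le_max_right 0 (max (-(2*(1-logb P Qt))) (-(-logb P R)) + 2*(1-logb P Q))
      linarith
  have h6 : - logb P (max dl D) = min (-logb P dl) (-logb P D) := by
    rcases le_total dl D with h7 | h7
    · have h8 := lg_le hL.P1 hdl h7
      rw [max_eq_right h7, min_eq_right (by linarith)]
    · have h8 := lg_le hL.P1 hD h7
      rw [max_eq_left h7, min_eq_left (by linarith)]
  rw [← h6]
  linarith

/-- The exponents of an admissible shell satisfy the constraints of the linear programs. -/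
theorem lph (hL : Large C c0 P) (hC : 1 ≤ C) (hc0 : 0 < c0) (hc1 : c0 ≤ 1)
    (hQt : P ^ (11 / 20 : ℝ) ≤ Qt) (hQt1 : Qt ≤ P)
    (hg : Geo C P Qt R dl ep D Q) (ho : Occ C c0 P Qt R dl ep D Q mu mus) :
    ∃ m m' : ℝ, LPH (logb P Qt) (logb P Q) (-logb P dl) (-logb P ep) (-logb P D) (-logb P R)
      m m' (1/100000) ∧ (0 < mu → m = logb P mu) ∧ (0 < mus → m' = logb P mus) := by
  have hP := hL.P1
  have hP0 : 0 < P := by linarith
  have hC0 : 0 < C := by linarith
  have hQt0 : 0 < Qt := lt_of_lt_of_le (Real.rpow_pos_of_pos hP0 _) hQt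
  have hCl := lg_C hL hC
  have hg' := hg
  obtain ⟨hR, hdl, hep, hD, hQ, g1, g2, g3, g4, g5, g6, g7, g8, g9, g10, g11⟩ := hg
  -- exponents of mu
  obtain ⟨m, hm1, hm2, hm3, hm4, hm5, hm6⟩ : ∃ m : ℝ,
      (m ≤ -(2*(1-logb P Qt)) - 3*(-logb P R) - (-logb P dl) + 3*logb P Q - (-logb P ep)
        + 1/100000) ∧
      (m ≤ -(2*(1-logb P Qt)) - 3*(-logb P R) - (-logb P dl) + 3*logb P Q - (-logb P D)
        + 1/100000) ∧
      (m ≤ -(2*(1-logb P Qt)) - logb P Q + (-logb P ep) + 1/100000) ∧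
      (m ≤ max (-(2*(1-logb P Qt))) (-(-logb P R)) - logb P Q + (-logb P dl) + 1/100000) ∧
      (0.55 ≤ logb P Q → 0.4 ≤ logb P Q - (-logb P D)/2 → 0.4 ≤ logb P Qt - (-logb P D)/2 →
        m ≤ (-logb P D)/2 +
        max 0 (max (-(2*(1-logb P Qt))) (-(-logb P R)) + 2*(1-logb P Q)) - (-logb P R) - logb P Q
        + ((-logb P D) + min (-logb P dl) (-logb P D))/2 + 1/100000) ∧
      (0 < mu → m = logb P mu) := by
    by_cases hmu : 0 < mu
    · refine ⟨logb P mu, (ex_a hL hC hc0 hc1 hQt0 hg' hmu ho.a).1,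
        (ex_a hL hC hc0 hc1 hQt0 hg' hmu ho.a).2, ex_b hL hC hc0 hc1 hQt0 hg' hmu ho.b,
        ex_c hL hC hc0 hc1 hQt0 hg' hmu ho.c, ?_, fun _ => rfl⟩
      intro e1 e2 e3
      have k1 : P ^ (11 / 20 : ℝ) ≤ Q := by
        rw [← Real.rpow_logb hP0 hP.ne' hQ]
        exact Real.rpow_le_rpow_of_exponent_le hP.le (by linarith)
      have k2 : P ^ (2 / 5 : ℝ) ≤ √D * Q := by
        rw [← Real.rpow_logb hP0 hP.ne' (show 0 < √D * Q by positivity)]
        apply Real.rpow_le_rpow_of_exponent_le hP.le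
        rw [lg_mul (by positivity) hQ, lg_sqrt hD.le]
        linarith
      have k3 : P ^ (2 / 5 : ℝ) ≤ √D * Qt := by
        rw [← Real.rpow_logb hP0 hP.ne' (show 0 < √D * Qt by positivity)]
        apply Real.rpow_le_rpow_of_exponent_le hP.le
        rw [lg_mul (by positivity) hQt0, lg_sqrt hD.le]
        linarith
      exact ex_d hL hC hc0 hc1 hQt0 hg' hmu (ho.d k1 k2 k3)
    · refine ⟨min (-(2*(1-logb P Qt)) - 3*(-logb P R) - (-logb P dl) + 3*logb P Q - (-logb P ep)
        + 1/100000) (min (-(2*(1-logb P Qt)) - 3*(-logb P R) - (-logb P dl) + 3*logb P Q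
        - (-logb P D) + 1/100000) (min (-(2*(1-logb P Qt)) - logb P Q + (-logb P ep) + 1/100000)
        (min (max (-(2*(1-logb P Qt))) (-(-logb P R)) - logb P Q + (-logb P dl) + 1/100000)
        ((-logb P D)/2 +
        max 0 (max (-(2*(1-logb P Qt))) (-(-logb P R)) + 2*(1-logb P Q)) - (-logb P R) - logb P Q
        + ((-logb P D) + min (-logb P dl) (-logb P D))/2 + 1/100000)))),
        min_le_left _ _, (min_le_right _ _).trans (min_le_left _ _),
        (min_le_right _ _).trans ((min_le_right _ _).trans (min_le_left _ _)),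
        (min_le_right _ _).trans ((min_le_right _ _).trans ((min_le_right _ _).trans
          (min_le_left _ _))), ?_, fun h => absurd h hmu⟩
      intro _ _ _
      exact (min_le_right _ _).trans ((min_le_right _ _).trans ((min_le_right _ _).trans
          (min_le_right _ _)))
  obtain ⟨m', hn1, hn2, hn3, hn6⟩ : ∃ m' : ℝ,
      (m' ≤ - 3*(-logb P R) - (-logb P dl) + 3*logb P Q - (-logb P ep) + 1/100000) ∧
      (m' ≤ - 3*(-logb P R) - (-logb P dl) + 3*logb P Q - (-logb P D) + 1/100000) ∧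
      (m' ≤ - logb P Q + (-logb P ep) + 1/100000) ∧
      (0 < mus → m' = logb P mus) := by
    by_cases hmu : 0 < mus
    · exact ⟨logb P mus, (ex_a' hL hC hg' hmu ho.a').1,
        (ex_a' hL hC hg' hmu ho.a').2, ex_b' hL hC hg' hmu ho.b', fun _ => rfl⟩
    · exact ⟨min (- 3*(-logb P R) - (-logb P dl) + 3*logb P Q - (-logb P ep) + 1/100000)
        (min (- 3*(-logb P R) - (-logb P dl) + 3*logb P Q - (-logb P D) + 1/100000)
        (- logb P Q + (-logb P ep) + 1/100000)),
        min_le_left _ _, (min_le_right _ _).trans (min_le_left _ _),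
        (min_le_right _ _).trans (min_le_right _ _), fun h => absurd h hmu⟩
  refine ⟨m, m', ?_, hm6, hn6⟩
  have t1 : logb P R ≤ 1/10000000 := (lg_le hP hR g1).trans hCl
  have t2 : logb P dl ≤ 1/10000000 := (lg_le hP hdl g2).trans hCl
  have t3 : logb P ep ≤ 1/10000000 := (lg_le hP hep g3).trans hCl
  have t4 : logb P D ≤ 1/10000000 := (lg_le hP hD g4).trans hCl
  have t5 := lg_le hP one_pos g5
  rw [Real.logb_one, lg_mul hC0 (by positivity), lg_mul (by positivity) hdl, lg_pow] at t5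
  have t6 := lg_le hP one_pos g6
  rw [Real.logb_one, lg_mul hC0 (by positivity), lg_mul (by positivity) hep, lg_pow] at t6
  have t7 := lg_le hP one_pos g7
  rw [Real.logb_one, lg_mul hC0 (by positivity), lg_mul (by positivity) hD, lg_pow] at t7
  have t8 := lg_le hP one_pos g8
  rw [Real.logb_one, lg_mul hC0 (by positivity), lg_mul (by positivity) hD, lg_pow] at t8
  have t9 := lg_le hP one_pos g9
  rw [Real.logb_one, lg_mul hC0 hQ] at t9
  have t10 := lg_le hP hQ g10
  rw [Real.logb_self_eq_one hP] at t10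
  have t11 := lg_le hP (Real.rpow_pos_of_pos hP0 _) hQt
  rw [lg_rpow hP] at t11
  have t12 := lg_le hP hQt0 hQt1
  rw [Real.logb_self_eq_one hP] at t12
  push_cast at t5 t6 t7 t8
  have hz : ∀ a b : ℝ, 0 < a → 0 < b → a ≤ C * b → -logb P b ≤ -logb P a + 1/100000 := by
    intro a b ha hb h
    have := lg_le hP ha h
    rw [lg_mul hC0 hb] at this
    linarith
  refine ⟨by linarith, by linarith, by linarith, by linarith, by linarith, by linarith,
    by linarith, by linarith, by linarith, by linarith, by linarith, by linarith, ?_,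
    hm1, hm2, hm3, hm4, hm5, hn1, hn2, hn3⟩
  rcases g11 with ⟨z1, z2, z3⟩ | ⟨z1, z2, z3⟩ | ⟨z1, z2, z3⟩
  · exact Or.inl ⟨hz _ _ hdl hD z2, hz _ _ hD hdl z1, hz _ _ hep hdl z3⟩
  · exact Or.inr (Or.inl ⟨hz _ _ hep hD z2, hz _ _ hD hep z1, hz _ _ hdl hep z3⟩)
  · exact Or.inr (Or.inr ⟨hz _ _ hep hdl z2, hz _ _ hdl hep z1, hz _ _ hD hdl z3⟩)

end

end Crest.Agent.R106.Num
end

-- ▼ part R106/NumCost

/-!
# Row 106, node NUM: multiplicative form of the linear programs, one shell
-/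

set_option autoImplicit false

namespace Crest.Agent.R106.Num

open Real

variable {C c0 P Qt R dl ep D Q mu mus : ℝ}

/-- all hypotheses on one shell -/
structure Hyp (C c0 P Qt R dl ep D Q mu mus : ℝ) : Prop where
  L : Large C c0 P
  C1 : 1 ≤ C
  c0p : 0 < c0
  c01 : c0 ≤ 1
  Qt1 : P ^ (11 / 20 : ℝ) ≤ Qt
  Qt2 : Qt ≤ P
  geo : Geo C P Qt R dl ep D Q
  occ : Occ C c0 P Qt R dl ep D Q mu mus

lemma Hyp.Qt0 (h : Hyp C c0 P Qt R dl ep D Q mu mus) : 0 < Qt :=
  lt_of_lt_of_le (Real.rpow_pos_of_pos (by linarith [h.L.P1]) _) h.Qt1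

lemma lg_lamc (hP : 1 < P) (hQt : 0 < Qt) :
    logb P (lamc P Qt) = 0.425 - 2.5 * (1 - logb P Qt) := by
  have hP0 : 0 < P := by linarith
  unfold lamc
  rw [lg_mul (by positivity) (by positivity), lg_rpow hP, lg_rpow' (by positivity),
    lg_div hQt hP0, Real.logb_self_eq_one hP]
  ring

lemma regE (h : Hyp C c0 P Qt R dl ep D Q mu mus) (hE : InE C P Qt dl ep Q) :
    logb P Q ≤ 0.55 + 1/100000 ∨ -logb P ep ≤ bd (logb P Qt) (-logb P dl) + 1/100000 := by
  have hP := h.L.P1
  have hP0 : 0 < P := by linarith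
  have hC0 : 0 < C := by linarith [h.C1]
  have hCl := lg_C h.L h.C1
  have hQt := h.Qt0
  rcases hE with hE | hE
  · left
    have h1 := lg_le hP h.geo.Q_pos hE
    rw [lg_mul hC0 (by positivity), lg_rpow hP] at h1
    linarith
  · right
    have hl : 0 < lamc P Qt := by unfold lamc; positivity
    have hdl := h.geo.dl_pos
    have h1 := lg_le hP (by positivity) hE
    rw [lg_mul hC0 h.geo.ep_pos, lg_mul hl (by positivity), lg_pow, lg_lamc hP hQt] at h1
    push_cast at h1
    unfold bd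
    linarith

lemma regC (h : Hyp C c0 P Qt R dl ep D Q mu mus) (hE : InC C P Qt dl ep Q) :
    0.55 ≤ logb P Q ∧ bd (logb P Qt) (-logb P dl) - 1/100000 ≤ -logb P ep := by
  have hP := h.L.P1
  have hP0 : 0 < P := by linarith
  have hC0 : 0 < C := by linarith [h.C1]
  have hCl := lg_C h.L h.C1
  have hQt := h.Qt0
  obtain ⟨h1, h2⟩ := hE
  constructor
  · have h1 := lg_le hP (by positivity) h1
    rw [lg_rpow hP] at h1
    linarith
  · have hl : 0 < lamc P Qt := by unfold lamc; positivity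
    have hdl := h.geo.dl_pos
    have h1 := lg_le hP h.geo.ep_pos h2
    rw [lg_mul hC0 (by positivity), lg_mul hl (by positivity), lg_pow, lg_lamc hP hQt] at h1
    push_cast at h1
    unfold bd
    linarith

lemma regB (h : Hyp C c0 P Qt R dl ep D Q mu mus) (hE : InB C P Qt dl ep Q) :
    0.55 ≤ logb P Q ∧ bd (logb P Qt) (-logb P dl) - 1/100000 ≤ -logb P ep ∧
      -logb P ep ≤ bd (logb P Qt) (-logb P dl) + 1/100000 := by
  have hP := h.L.P1
  have hP0 : 0 < P := by linarith
  have hC0 : 0 < C := by linarith [h.C1]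
  have hCl := lg_C h.L h.C1
  have hQt := h.Qt0
  obtain ⟨h1, h2, h3⟩ := hE
  refine ⟨(regC h ⟨h1, h2⟩).1, (regC h ⟨h1, h2⟩).2, ?_⟩
  have hl : 0 < lamc P Qt := by unfold lamc; positivity
  have hdl := h.geo.dl_pos
  have h1 := lg_le hP (by positivity) h3
  rw [lg_mul hC0 h.geo.ep_pos, lg_mul hl (by positivity), lg_pow, lg_lamc hP hQt] at h1
  push_cast at h1
  unfold bd
  linarith

/-- back from exponents -/
lemma of_lg (hP : 1 < P) (hR : 0 < R) {c e : ℝ} (hc : 0 < c)
    (h : logb P c + (-logb P R)/1000 ≤ e) : c ≤ P ^ e * R ^ (1/1000 : ℝ) := by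
  have hP0 : 0 < P := by linarith
  have h1 : c = P ^ (logb P c) := (Real.rpow_logb hP0 hP.ne' hc).symm
  have h2 : R ^ (1/1000 : ℝ) = P ^ (1/1000 * logb P R) := by
    rw [← lg_rpow' hR, Real.rpow_logb hP0 hP.ne' (by positivity)]
  rw [h2, ← Real.rpow_add hP0, h1]
  apply Real.rpow_le_rpow_of_exponent_le hP.le
  linarith

lemma lg_sq2 (hR : 0 < R) (hdl : 0 < dl) (hep : 0 < ep) (hD : 0 < D) (hQ : 0 < Q) (hmu : 0 < mu)
    (hP : 1 < P) :
    logb P (sq2 R dl ep D Q mu) ≤ logb P Q - (-logb P ep) - (-logb P dl) + 2 * (-logb P ep)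
      + 2 * (-logb P R) + logb P mu ∧
    logb P (sq2 R dl ep D Q mu) ≤ logb P Q - (-logb P D) - (-logb P dl) + 2 * (-logb P ep)
      + 2 * (-logb P R) + logb P mu := by
  have hm : 0 < min ep D := lt_min hep hD
  have h1 := lg_le hP hm (min_le_left ep D)
  have h2 := lg_le hP hm (min_le_right ep D)
  unfold sq2
  rw [lg_mul (by positivity) hmu, lg_mul (by positivity) (by positivity),
    lg_mul (by positivity) hm, lg_div hdl (by positivity), lg_mul (by positivity) (by positivity),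
    lg_mul (by positivity) (by positivity), lg_pow, lg_pow, lg_pow, lg_pow]
  push_cast
  constructor <;> linarith

theorem T_E_cost (h : Hyp C c0 P Qt R dl ep D Q mu mus) (hE : InE C P Qt dl ep Q) :
    cT R dl ep Q mu ≤ 2 * (P ^ (logb P Qt - 1/200) * R ^ (1/1000 : ℝ)) := by
  have hP := h.L.P1
  have hP0 : 0 < P := by linarith
  have hR := h.geo.R_pos
  have hdl := h.geo.dl_pos
  have hep := h.geo.ep_pos
  have hQ := h.geo.Q_pos
  rcases h.occ.mu0.eq_or_lt with hmu | hmu
  · rw [← hmu]; unfold cT; simp only [mul_zero]; positivity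
  obtain ⟨m, m', hl, hm, -⟩ := lph h.L h.C1 h.c0p h.c01 h.Qt1 h.Qt2 h.geo h.occ
  have hm := hm hmu
  subst hm
  have e1 : cT R dl ep Q mu = cT1 R ep Q mu + cT2 R dl ep Q mu := by
    unfold cT cT1 cT2; ring
  have k1 : cT1 R ep Q mu ≤ P ^ (logb P Qt - 1/200) * R ^ (1/1000 : ℝ) := by
    apply of_lg hP hR (by unfold cT1; positivity)
    apply T_E hl (by norm_num) le_rfl (regE h hE)
    unfold cT1
    rw [lg_mul (by positivity) hmu, lg_div hep (by positivity),
      lg_mul (by positivity) (by positivity),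
      lg_mul (by positivity) (by positivity), lg_pow, lg_pow, lg_pow]
    push_cast; linarith
  have k2 : cT2 R dl ep Q mu ≤ P ^ (logb P Qt - 1/200) * R ^ (1/1000 : ℝ) := by
    apply of_lg hP hR (by unfold cT2; positivity)
    apply T_E' hl (by norm_num) le_rfl (regE h hE)
    unfold cT2
    rw [lg_mul (by positivity) hmu, lg_div (by positivity) (by positivity),
      lg_mul (by positivity) (by positivity),
      lg_mul (by positivity) (by positivity), lg_pow, lg_pow, lg_pow,
      lg_sqrt (by positivity), lg_mul hdl hep]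
    push_cast; linarith
  rw [e1]; linarith

theorem T_all_cost (h : Hyp C c0 P Qt R dl ep D Q mu mus) :
    cT R dl ep Q mu ≤ 2 * (P ^ (logb P Qt + 1/500) * R ^ (1/1000 : ℝ)) := by
  have hP := h.L.P1
  have hP0 : 0 < P := by linarith
  have hR := h.geo.R_pos
  have hdl := h.geo.dl_pos
  have hep := h.geo.ep_pos
  have hQ := h.geo.Q_pos
  rcases h.occ.mu0.eq_or_lt with hmu | hmu
  · rw [← hmu]; unfold cT; simp only [mul_zero]; positivity
  obtain ⟨m, m', hl, hm, -⟩ := lph h.L h.C1 h.c0p h.c01 h.Qt1 h.Qt2 h.geo h.occ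
  have hm := hm hmu
  subst hm
  have e1 : cT R dl ep Q mu = cT1 R ep Q mu + cT2 R dl ep Q mu := by
    unfold cT cT1 cT2; ring
  have k1 : cT1 R ep Q mu ≤ P ^ (logb P Qt + 1/500) * R ^ (1/1000 : ℝ) := by
    apply of_lg hP hR (by unfold cT1; positivity)
    apply T_all hl (by norm_num) le_rfl
    unfold cT1
    rw [lg_mul (by positivity) hmu, lg_div hep (by positivity),
      lg_mul (by positivity) (by positivity),
      lg_mul (by positivity) (by positivity), lg_pow, lg_pow, lg_pow]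
    push_cast; linarith
  have k2 : cT2 R dl ep Q mu ≤ P ^ (logb P Qt + 1/500) * R ^ (1/1000 : ℝ) := by
    apply of_lg hP hR (by unfold cT2; positivity)
    apply T_all' hl (by norm_num) le_rfl
    unfold cT2
    rw [lg_mul (by positivity) hmu, lg_div (by positivity) (by positivity),
      lg_mul (by positivity) (by positivity),
      lg_mul (by positivity) (by positivity), lg_pow, lg_pow, lg_pow,
      lg_sqrt (by positivity), lg_mul hdl hep]
    push_cast; linarith
  rw [e1]; linarith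

theorem A_E_cost (h : Hyp C c0 P Qt R dl ep D Q mu mus) (hE : InE C P Qt dl ep Q) :
    cA (win c0 P Qt) R dl ep D Q mu ≤ P ^ (logb P Qt - 1/200) * R ^ (1/1000 : ℝ) := by
  have hP := h.L.P1
  have hP0 : 0 < P := by linarith
  have hR := h.geo.R_pos
  have hdl := h.geo.dl_pos
  have hep := h.geo.ep_pos
  have hD := h.geo.D_pos
  have hQ := h.geo.Q_pos
  have hmin : 0 < min ep D := lt_min hep hD
  have hw := win_pos h.L h.c0p h.Qt0
  rcases h.occ.mu0.eq_or_lt with hmu | hmu
  · rw [← hmu]; unfold cA sq2; simp only [mul_zero, Real.sqrt_zero]; positivity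
  obtain ⟨m, m', hl, hm, -⟩ := lph h.L h.C1 h.c0p h.c01 h.Qt1 h.Qt2 h.geo h.occ
  have hm := hm hmu
  subst hm
  have hsq : 0 < sq2 R dl ep D Q mu := by unfold sq2; positivity
  have h1 := lg_sq2 (P := P) hR hdl hep hD hQ hmu hP
  have h2 := lg_win_le h.L h.c0p h.c01 h.Qt0
  have e1 : logb P (cA (win c0 P Qt) R dl ep D Q mu) =
      (logb P (win c0 P Qt) + logb P (sq2 R dl ep D Q mu)) / 2 := by
    unfold cA
    rw [lg_sqrt (by positivity), lg_mul hw hsq]
  apply of_lg hP hR (by unfold cA; positivity)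
  apply A_E hl (by norm_num) le_rfl (regE h hE)
  · rw [e1]; linarith [h1.1]
  · rw [e1]; linarith [h1.2]

lemma lg_cB (h : Hyp C c0 P Qt R dl ep D Q mu mus) (hmu : 0 < mu) :
    logb P (cB (win c0 P Qt) R dl ep D Q mu) ≤
      max (-(2*(1-logb P Qt))) (-(-logb P R)) / 2 + (logb P Q - (-logb P ep) + (-logb P ep)
      + 2*(-logb P R) + logb P mu)/2 + 1/10000000 ∧
    logb P (cB (win c0 P Qt) R dl ep D Q mu) ≤
      max (-(2*(1-logb P Qt))) (-(-logb P R)) / 2 + (logb P Q - (-logb P D) + (-logb P ep)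
      + 2*(-logb P R) + logb P mu)/2 + 1/10000000 := by
  have hP := h.L.P1
  have hP0 : 0 < P := by linarith
  have hR := h.geo.R_pos
  have hdl := h.geo.dl_pos
  have hep := h.geo.ep_pos
  have hD := h.geo.D_pos
  have hQ := h.geo.Q_pos
  have hmin : 0 < min ep D := lt_min hep hD
  have hw := win_pos h.L h.c0p h.Qt0
  have h1 := lg_lR h.L h.c0p h.c01 h.Qt0 hR
  have h2 := lg_le hP hmin (min_le_left ep D)
  have h3 := lg_le hP hmin (min_le_right ep D)
  unfold cB
  rw [lg_sqrt (by positivity), lg_mul (by positivity) (by positivity),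
    lg_div (by positivity) hdl, lg_mul (by positivity) hmu, lg_mul (by positivity) (by positivity),
    lg_mul (by positivity) hmin, lg_div hdl (by positivity), lg_mul (by positivity) (by positivity),
    lg_mul (by positivity) hep, lg_pow, lg_pow, lg_pow]
  push_cast
  constructor <;> linarith

theorem B_E_cost (h : Hyp C c0 P Qt R dl ep D Q mu mus) (hE : InE C P Qt dl ep Q) :
    cB (win c0 P Qt) R dl ep D Q mu ≤ P ^ (logb P Qt - 1/250) * R ^ (1/1000 : ℝ) := by
  have hP := h.L.P1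
  have hP0 : 0 < P := by linarith
  have hR := h.geo.R_pos
  have hdl := h.geo.dl_pos
  have hep := h.geo.ep_pos
  have hD := h.geo.D_pos
  have hQ := h.geo.Q_pos
  have hmin : 0 < min ep D := lt_min hep hD
  have hw := win_pos h.L h.c0p h.Qt0
  rcases h.occ.mu0.eq_or_lt with hmu | hmu
  · rw [← hmu]; unfold cB; simp only [mul_zero, Real.sqrt_zero]; positivity
  obtain ⟨m, m', hl, hm, -⟩ := lph h.L h.C1 h.c0p h.c01 h.Qt1 h.Qt2 h.geo h.occ
  have hm := hm hmu
  subst hm
  obtain ⟨h1, h2⟩ := lg_cB h hmu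
  apply of_lg hP hR (by unfold cB; positivity)
  have := B_E hl (by norm_num) le_rfl (regE h hE)
    (A := logb P (cB (win c0 P Qt) R dl ep D Q mu) - 1/10000000) (by linarith) (by linarith)
  linarith

theorem B_all_cost (h : Hyp C c0 P Qt R dl ep D Q mu mus) :
    cB (win c0 P Qt) R dl ep D Q mu ≤ P ^ (logb P Qt + 1/50) * R ^ (1/1000 : ℝ) := by
  have hP := h.L.P1
  have hP0 : 0 < P := by linarith
  have hR := h.geo.R_pos
  have hdl := h.geo.dl_pos
  have hep := h.geo.ep_pos
  have hD := h.geo.D_pos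
  have hQ := h.geo.Q_pos
  have hmin : 0 < min ep D := lt_min hep hD
  have hw := win_pos h.L h.c0p h.Qt0
  rcases h.occ.mu0.eq_or_lt with hmu | hmu
  · rw [← hmu]; unfold cB; simp only [mul_zero, Real.sqrt_zero]; positivity
  obtain ⟨m, m', hl, hm, -⟩ := lph h.L h.C1 h.c0p h.c01 h.Qt1 h.Qt2 h.geo h.occ
  have hm := hm hmu
  subst hm
  obtain ⟨h1, h2⟩ := lg_cB h hmu
  apply of_lg hP hR (by unfold cB; positivity)
  have := B_all hl (by norm_num) le_rfl
    (A := logb P (cB (win c0 P Qt) R dl ep D Q mu) - 1/10000000) (by linarith) (by linarith)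
  linarith

theorem G_C_cost (h : Hyp C c0 P Qt R dl ep D Q mu mus) (hE : InC C P Qt dl ep Q) :
    cG Qt R dl ep mu ≤ 2 * (P ^ (logb P Qt - 1/200) * R ^ (1/1000 : ℝ)) := by
  have hP := h.L.P1
  have hP0 : 0 < P := by linarith
  have hR := h.geo.R_pos
  have hdl := h.geo.dl_pos
  have hep := h.geo.ep_pos
  have hQ := h.geo.Q_pos
  have hQt := h.Qt0
  rcases h.occ.mu0.eq_or_lt with hmu | hmu
  · rw [← hmu]; unfold cG; simp only [mul_zero]; positivity
  obtain ⟨m, m', hl, hm, -⟩ := lph h.L h.C1 h.c0p h.c01 h.Qt1 h.Qt2 h.geo h.occ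
  have hm := hm hmu
  subst hm
  have e1 : cG Qt R dl ep mu = dl / (Qt ^ 2 * dl ^ 2 * R ^ 2) * mu +
      √(dl * ep) / (Qt ^ 2 * dl ^ 2 * R ^ 2) * mu := by
    unfold cG; ring
  have k1 : dl / (Qt ^ 2 * dl ^ 2 * R ^ 2) * mu ≤
      P ^ (logb P Qt - 1/200) * R ^ (1/1000 : ℝ) := by
    apply of_lg hP hR (by positivity)
    apply G2_C hl (by norm_num) le_rfl (regC h hE).1 (regC h hE).2
    rw [lg_mul (by positivity) hmu, lg_div hdl (by positivity),
      lg_mul (by positivity) (by positivity),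
      lg_mul (by positivity) (by positivity), lg_pow, lg_pow, lg_pow]
    push_cast; linarith
  have k2 : √(dl * ep) / (Qt ^ 2 * dl ^ 2 * R ^ 2) * mu ≤
      P ^ (logb P Qt - 1/200) * R ^ (1/1000 : ℝ) := by
    apply of_lg hP hR (by positivity)
    apply G2_C' hl (by norm_num) le_rfl (regC h hE).1 (regC h hE).2
    rw [lg_mul (by positivity) hmu, lg_div (by positivity) (by positivity),
      lg_mul (by positivity) (by positivity),
      lg_mul (by positivity) (by positivity), lg_pow, lg_pow, lg_pow,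
      lg_sqrt (by positivity), lg_mul hdl hep]
    push_cast; linarith
  rw [e1]; linarith

theorem M_C_cost (h : Hyp C c0 P Qt R dl ep D Q mu mus) (hE : InC C P Qt dl ep Q) :
    cM R dl ep mus ≤ P ^ (logb P Qt - 1/10) * R ^ (1/1000 : ℝ) := by
  have hP := h.L.P1
  have hP0 : 0 < P := by linarith
  have hR := h.geo.R_pos
  have hdl := h.geo.dl_pos
  have hep := h.geo.ep_pos
  rcases h.occ.mus0.eq_or_lt with hmu | hmu
  · rw [← hmu]; unfold cM; simp only [mul_zero]; positivity
  obtain ⟨m, m', hl, -, hm⟩ := lph h.L h.C1 h.c0p h.c01 h.Qt1 h.Qt2 h.geo h.occ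
  have hm := hm hmu
  subst hm
  apply of_lg hP hR (by unfold cM; positivity)
  apply phm_C hl (by norm_num) le_rfl (regC h hE).1 (regC h hE).2
  unfold cM
  rw [lg_mul (by positivity) hmu, lg_div (by positivity) (by positivity),
      lg_mul (by positivity) (by positivity), lg_sqrt (by positivity)]
  linarith

theorem b_C_cost (h : Hyp C c0 P Qt R dl ep D Q mu mus) (hE : InC C P Qt dl ep Q) :
    cb R dl ep mus ≤ P ^ (0.371 : ℝ) * R ^ (1/1000 : ℝ) := by
  have hP := h.L.P1
  have hP0 : 0 < P := by linarith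
  have hR := h.geo.R_pos
  have hdl := h.geo.dl_pos
  have hep := h.geo.ep_pos
  rcases h.occ.mus0.eq_or_lt with hmu | hmu
  · rw [← hmu]; unfold cb; simp only [mul_zero]; positivity
  obtain ⟨m, m', hl, -, hm⟩ := lph h.L h.C1 h.c0p h.c01 h.Qt1 h.Qt2 h.geo h.occ
  have hm := hm hmu
  subst hm
  apply of_lg hP hR (by unfold cb; positivity)
  apply bc_C hl (by norm_num) le_rfl (regC h hE).1 (regC h hE).2
  unfold cb
  rw [lg_mul (by positivity) hmu, lg_div (by positivity) (by positivity),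
      lg_sqrt (by positivity), lg_div hep hdl]
  linarith

theorem H_C_cost (h : Hyp C c0 P Qt R dl ep D Q mu mus) (hE : InC C P Qt dl ep Q) :
    cH R dl ep D Q mu ≤ P ^ (1 + logb P Qt / 2 + 1/500) * R ^ (1/1000 : ℝ) := by
  have hP := h.L.P1
  have hP0 : 0 < P := by linarith
  have hR := h.geo.R_pos
  have hdl := h.geo.dl_pos
  have hep := h.geo.ep_pos
  have hD := h.geo.D_pos
  have hQ := h.geo.Q_pos
  have hmin : 0 < min ep D := lt_min hep hD
  rcases h.occ.mu0.eq_or_lt with hmu | hmu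
  · rw [← hmu]; unfold cH sq2; simp only [mul_zero, Real.sqrt_zero]; positivity
  obtain ⟨m, m', hl, hm, -⟩ := lph h.L h.C1 h.c0p h.c01 h.Qt1 h.Qt2 h.geo h.occ
  have hm := hm hmu
  subst hm
  have hsq : 0 < sq2 R dl ep D Q mu := by unfold sq2; positivity
  have h1 := lg_sq2 (P := P) hR hdl hep hD hQ hmu hP
  have e1 : logb P (cH R dl ep D Q mu) = (logb P (sq2 R dl ep D Q mu)) / 2 := by
    unfold cH
    rw [lg_sqrt (by positivity)]
  apply of_lg hP hR (by unfold cH; positivity)
  apply h2_C hl (by norm_num) le_rfl (regC h hE).1 (regC h hE).2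
  · rw [e1]; linarith [h1.1]
  · rw [e1]; linarith [h1.2]

/-- `‖Φ‖₂` of one shell -/
theorem P_C_cost (h : Hyp C c0 P Qt R dl ep D Q mu mus) (hE : InC C P Qt dl ep Q) :
    √(cM R dl ep mus * cP R dl ep mu) ≤
      P ^ (2 * logb P Qt - 1/200 - (1 + logb P Qt / 2 + 1/500)) * R ^ (1/1000 : ℝ) := by
  have hP := h.L.P1
  have hP0 : 0 < P := by linarith
  have hR := h.geo.R_pos
  have hdl := h.geo.dl_pos
  have hep := h.geo.ep_pos
  rcases h.occ.mus0.eq_or_lt with hmus | hmus
  · rw [← hmus]; unfold cM; simp only [mul_zero, zero_mul, Real.sqrt_zero]; positivity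
  rcases h.occ.mu0.eq_or_lt with hmu | hmu
  · rw [← hmu]; unfold cP; simp only [mul_zero, Real.sqrt_zero]; positivity
  obtain ⟨m, m', hl, hm, hm'⟩ := lph h.L h.C1 h.c0p h.c01 h.Qt1 h.Qt2 h.geo h.occ
  have hm := hm hmu
  have hm' := hm' hmus
  subst hm hm'
  have p1 : 0 < cM R dl ep mus := by unfold cM; positivity
  have p2 : 0 < cP R dl ep mu := by unfold cP; positivity
  apply of_lg hP hR (by positivity)
  have := L2_C hl (by norm_num) le_rfl (regC h hE).1 (regC h hE).2
    (A := logb P (√(cM R dl ep mus * cP R dl ep mu))) (by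
      rw [lg_sqrt (by positivity), lg_mul p1 p2]
      unfold cM cP
      rw [lg_mul (by positivity) hmu, lg_mul (by positivity) hmus,
        lg_div (by positivity) (by positivity),
        lg_mul (by positivity) (by positivity), lg_sqrt (by positivity)]
      linarith)
  linarith

/-- cut-off cost away from the critical region -/
theorem Cut_cost (h : Hyp C c0 P Qt R dl ep D Q mu mus) (hE : InB C P Qt dl ep Q)
    (hcr : ¬ (P ^ (-(1 / 10) : ℝ) ≤ D ∧ logb P R ≤ -(2 * (1 - logb P Qt) + 0.02))) :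
    cCut R dl ep D mu ≤ P ^ (logb P Qt - 1/100) * R ^ (1/1000 : ℝ) := by
  have hP := h.L.P1
  have hP0 : 0 < P := by linarith
  have hR := h.geo.R_pos
  have hdl := h.geo.dl_pos
  have hep := h.geo.ep_pos
  have hD := h.geo.D_pos
  have hmin : 0 < min dl ep := lt_min hdl hep
  rcases h.occ.mu0.eq_or_lt with hmu | hmu
  · rw [← hmu]; unfold cCut; simp only [mul_zero]; positivity
  obtain ⟨m, m', hl, hm, -⟩ := lph h.L h.C1 h.c0p h.c01 h.Qt1 h.Qt2 h.geo h.occ
  have hm := hm hmu
  subst hm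
  obtain ⟨b1, b2, b3⟩ := regB h hE
  apply of_lg hP hR (by unfold cCut; positivity)
  have e1 : logb P (cCut R dl ep D mu) =
      2 * (-logb P R) + logb P mu + (- logb P (min dl ep) - (-logb P D)) / 2 := by
    unfold cCut
    rw [lg_mul (by positivity) hmu, lg_div (by positivity) (by positivity),
      lg_sqrt (by positivity), lg_div hD hmin, lg_pow]
    push_cast; ring
  rw [not_and_or] at hcr
  rcases hcr with hcr | hcr
  · have hd : 0.1 ≤ -logb P D := by
      push Not at hcr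
      have := lg_le hP hD hcr.le
      rw [lg_rpow hP] at this
      linarith
    rcases le_total dl ep with h1 | h1
    · rw [min_eq_left h1] at e1
      exact CUT_D hl (by norm_num) le_rfl b1 b2 b3 (by rw [e1]) hd
    · rw [min_eq_right h1] at e1
      exact CUT_D' hl (by norm_num) le_rfl b1 b2 b3 (by rw [e1]) hd
  · push Not at hcr
    rcases le_total dl ep with h1 | h1
    · rw [min_eq_left h1] at e1
      exact CUT_R hl (by norm_num) le_rfl b1 b2 b3 (by rw [e1]) (by linarith)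
    · rw [min_eq_right h1] at e1
      exact CUT_R' hl (by norm_num) le_rfl b1 b2 b3 (by rw [e1]) (by linarith)

end Crest.Agent.R106.Num
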