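import Mathlib
import Crest.Agent.R106.OccKin
import Crest.Agent.R106.Boot
import Crest.Prelude.Def_VlasovMaxwell
import Crest.Agent.R106.MomIface
import Crest.Agent.R106.ConeMu
import Crest.Agent.R106.PairRet
import Crest.Agent.R106.MomDefs
import Crest.Agent.R106.MixInt
import Crest.Agent.R106.PairKin

-- ▼ part R106/OccLab
section

/-!
R106, module OCC (helper193): sum over windows and labels.
-/

set_option autoImplicit false

open MeasureTheory Set
open Crest.AnalysisR.VecCalc3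

namespace Crest.Agent.R106.Occ

/-- **(d) at the label level.** -/
theorem occD_label {Z : Type*} [MeasurableSpace Z] (m : Measure Z)
    {X V : ℝ → R3} (y v : Z → ℝ → R3) (s : Z → ℝ → ℝ) (S : Z → Set ℝ)
    {R1 δ1 ε1 D1 A B a b L K : ℝ}
    (hR1 : 0 < R1) (hδ1 : 0 < δ1) (hε1 : 0 < ε1) (hD1 : 0 < D1) (hD2 : D1 ≤ 2)
    (hM : D1 ≤ 8 * max δ1 ε1) (hA : 0 ≤ A) (hB : B ≤ Real.sqrt D1 / 12) (hL : 0 < L)
    (hK : 0 ≤ K) (ha : 0 ≤ a) (hab : a ≤ b)
    (hXc : ContinuousOn X (Icc (a - 2 * R1) b))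
    (hX : ∀ t ∈ Ioo (a - 2 * R1) b, HasDerivAt X (V t) t)
    (hV1 : ∀ t ∈ Icc (a - 2 * R1) b, ‖V t‖ ≤ 1) (hVs : VStab V (a - 2 * R1) b A B)
    (hyc : ∀ z, (S z).Nonempty → ContinuousOn (y z) (Icc 0 b))
    (hy : ∀ z, (S z).Nonempty → ∀ t ∈ Ioo 0 b, HasDerivAt (y z) (v z t) t)
    (hS : ∀ z, (S z).Nonempty → MeasurableSet (S z))
    (hS0 : ∀ z, ∀ τ ∈ S z, 0 ≤ τ) (hSs : ∀ z, ∀ τ ∈ S z, a ≤ s z τ ∧ s z τ ≤ b)
    (hsh : ∀ z, ∀ τ ∈ S z, InShell X V (y z) (v z) (s z) R1 δ1 ε1 D1 τ)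
    (hs' : ∀ z, ∀ τ ∈ S z, HasDerivWithinAt (s z)
      ((1 - inner ℝ (dir (X (s z τ)) (y z τ)) (v z τ)) /
        (1 - inner ℝ (dir (X (s z τ)) (y z τ)) (V (s z τ)))) (S z) τ)
    (hinj : ∀ z, InjOn (s z) (S z))
    (hwin : ∀ α β, 0 ≤ α → α ≤ β → β ≤ b → β - α ≤ L → ∀ z, (S z ∩ Icc α β).Nonempty →
      VStab (v z) α β A B)
    (hmass : ∀ α β, 0 ≤ α → α ≤ β → β ≤ b → β - α ≤ L →
      m {z | (S z ∩ Icc α β).Nonempty} ≤ ENNReal.ofReal K) :
    ∫⁻ z, (∫⁻ τ in S z, invδ X V (y z) (s z) τ) ∂m ≤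
      ENNReal.ofReal ((1 + (b - a + 2 * R1) / L) * K *
        ((36 * A + 4) * (25 * R1) / (D1 * Real.sqrt (max δ1 ε1)))) := by
  classical
  set lo : ℝ := max 0 (a - 2 * R1) with hlo
  have hlo0 : 0 ≤ lo := le_max_left _ _
  have hloa : a - 2 * R1 ≤ lo := le_max_right _ _
  have hlob : lo ≤ b := max_le (ha.trans hab) (by linarith)
  set N : ℕ := ⌊(b - lo) / L⌋₊ + 1 with hN
  set C' : ℝ := (36 * A + 4) * (25 * R1) / (D1 * Real.sqrt (max δ1 ε1)) with hC'
  have hC0 : 0 ≤ C' := by positivity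
  set al : ℕ → ℝ := fun k => lo + k * L with hal
  set be : ℕ → ℝ := fun k => min (al k + L) b with hbe
  have halb : ∀ k : Fin N, al k ≤ b := by
    intro k
    have hk : (k : ℕ) ≤ ⌊(b - lo) / L⌋₊ := Nat.lt_succ_iff.1 k.2
    have h1 : ((k : ℕ) : ℝ) ≤ (b - lo) / L := (Nat.le_floor_iff (by
      exact div_nonneg (by linarith) hL.le)).1 hk
    rw [le_div_iff₀ hL] at h1
    simp only [hal]; linarith
  have hal0 : ∀ k : ℕ, lo ≤ al k := by
    intro k; simp only [hal]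
    have : 0 ≤ (k:ℝ) * L := by positivity
    linarith
  have hle : ∀ k : Fin N, al k ≤ be k := fun k => le_min (by linarith) (halb k)
  have hbb : ∀ k : ℕ, be k ≤ b := fun k => min_le_right _ _
  have hbL : ∀ k : ℕ, be k - al k ≤ L := by
    intro k
    have : be k ≤ al k + L := min_le_left _ _
    linarith
  set M : ℕ → Set Z := fun k => toMeasurable m {z | (S z ∩ Icc (al k) (be k)).Nonempty} with hMdef
  -- pointwise bound
  have hpt : ∀ z, ∫⁻ τ in S z, invδ X V (y z) (s z) τ ≤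
      ∑ k : Fin N, (M k).indicator (fun _ => ENNReal.ofReal C') z := by
    intro z
    by_cases hne : (S z).Nonempty
    swap
    · rw [not_nonempty_iff_eq_empty.1 hne]
      simp
    have hcov : S z ⊆ ⋃ k : Fin N, (S z ∩ Icc (al k) (be k)) := by
      intro τ hτ
      have h1 := hsh z τ hτ
      have h2 := hSs z τ hτ
      have h3 := hS0 z τ hτ
      have hτlo : lo ≤ τ := max_le h3 (by linarith [h1.Ru])
      have hτb : τ ≤ b := by linarith [h1.lt]
      have hq : 0 ≤ (τ - lo) / L := div_nonneg (by linarith) hL.le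
      rw [mem_iUnion]
      refine ⟨⟨⌊(τ - lo) / L⌋₊, ?_⟩, hτ, ?_, ?_⟩
      · rw [hN]
        refine Nat.lt_succ_of_le (Nat.floor_le_floor ?_)
        gcongr
      · have := Nat.floor_le hq
        rw [le_div_iff₀ hL] at this
        simp only [hal]; linarith
      · refine le_min ?_ hτb
        have := (Nat.lt_floor_add_one ((τ - lo) / L)).le
        rw [div_le_iff₀ hL] at this
        simp only [hal]; linarith
    calc ∫⁻ τ in S z, invδ X V (y z) (s z) τ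
        ≤ ∫⁻ τ in ⋃ k : Fin N, (S z ∩ Icc (al k) (be k)), invδ X V (y z) (s z) τ :=
          lintegral_mono_set hcov
      _ ≤ ∑' k : Fin N, ∫⁻ τ in (S z ∩ Icc (al k) (be k)), invδ X V (y z) (s z) τ :=
          lintegral_iUnion_le _ _
      _ = ∑ k : Fin N, ∫⁻ τ in (S z ∩ Icc (al k) (be k)), invδ X V (y z) (s z) τ :=
          tsum_fintype _
      _ ≤ ∑ k : Fin N, (M k).indicator (fun _ => ENNReal.ofReal C') z := by
          refine Finset.sum_le_sum fun k _ => ?_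
          by_cases hk : (S z ∩ Icc (al k) (be k)).Nonempty
          · have hzM : z ∈ M k := subset_toMeasurable m _ hk
            rw [indicator_of_mem hzM]
            have hsub : S z ∩ Icc (al k) (be k) ⊆ S z := inter_subset_left
            refine one_window (X := X) (V := V) (y := y z) (v := v z) (s := s z) (c := a - 2 * R1)
              (a := al k) (b := be k) (e := b) hR1.le hδ1 hε1 hD1 hD2 hM hA hB
              (hloa.trans (hal0 k)) (hle k) (hbb k) hXc hX hV1 hVs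
              ((hyc z hne).mono (Icc_subset_Icc (hlo0.trans (hal0 k)) (hbb k)))
              (fun t ht => hy z hne t ⟨(hlo0.trans (hal0 k)).trans_lt ht.1, ht.2.trans_le (hbb k)⟩)
              (hwin _ _ (hlo0.trans (hal0 k)) (hle k) (hbb k) (hbL k) z hk)
              ((hS z hne).inter measurableSet_Icc) inter_subset_right
              (fun τ hτ => (hSs z τ hτ.1).2) (fun τ hτ => hsh z τ hτ.1)
              (fun τ hτ => (hs' z τ hτ.1).mono hsub) ((hinj z).mono hsub)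
          · rw [not_nonempty_iff_eq_empty.1 hk]
            simp
  calc ∫⁻ z, (∫⁻ τ in S z, invδ X V (y z) (s z) τ) ∂m
      ≤ ∫⁻ z, ∑ k : Fin N, (M k).indicator (fun _ => ENNReal.ofReal C') z ∂m := lintegral_mono hpt
    _ = ∑ k : Fin N, ∫⁻ z, (M k).indicator (fun _ => ENNReal.ofReal C') z ∂m := by
        refine lintegral_finsetSum _ fun k _ => ?_
        exact measurable_const.indicator (measurableSet_toMeasurable _ _)
    _ ≤ ∑ _k : Fin N, ENNReal.ofReal C' * ENNReal.ofReal K := by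
        refine Finset.sum_le_sum fun k _ => ?_
        rw [lintegral_indicator_const (measurableSet_toMeasurable _ _), measure_toMeasurable]
        gcongr
        exact hmass _ _ (hlo0.trans (hal0 k)) (hle k) (hbb k) (hbL k)
    _ = ENNReal.ofReal (N * (C' * K)) := by
        rw [Finset.sum_const, Finset.card_univ, Fintype.card_fin, nsmul_eq_mul,
          ← ENNReal.ofReal_mul hC0, ← ENNReal.ofReal_natCast, ← ENNReal.ofReal_mul (Nat.cast_nonneg _)]
    _ ≤ ENNReal.ofReal ((1 + (b - a + 2 * R1) / L) * K * C') := by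
        refine ENNReal.ofReal_le_ofReal ?_
        have h1 : (N : ℝ) ≤ 1 + (b - a + 2 * R1) / L := by
          rw [hN]; push_cast
          have h2 : (⌊(b - lo) / L⌋₊ : ℝ) ≤ (b - lo) / L :=
            Nat.floor_le (div_nonneg (by linarith) hL.le)
          have h3 : (b - lo) / L ≤ (b - a + 2 * R1) / L := by
            gcongr; linarith
          linarith
        have h4 : 0 ≤ C' * K := mul_nonneg hC0 hK
        nlinarith [mul_le_mul_of_nonneg_right h1 h4]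

end Crest.Agent.R106.Occ
end

-- ▼ part R106/OccStab
section

/-!
R106, module OCC (helper193): velocity stability from momentum increments, stay lemma,
constant-velocity extension of the test curve.
-/

set_option autoImplicit false

open MeasureTheory Set
open scoped ENNReal
open Crest.AnalysisR.VecCalc3 Crest.AnalysisR.PDE.RVM

namespace Crest.Agent.R106.Occ

open Crest.Agent.R106.Boot (en en_sub_le one_le_en norm_le_en)

lemma en_pos (p : R3) : 0 < en p := lt_of_lt_of_le one_pos (one_le_en p)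

lemma relVel_eq (p : R3) : relVel p = (en p)⁻¹ • p := rfl

lemma norm_relVel_lt (p : R3) : ‖relVel p‖ < 1 := by
  rw [relVel_eq, norm_smul, norm_inv, Real.norm_of_nonneg (en_pos p).le]
  rw [inv_mul_lt_iff₀ (en_pos p), mul_one]
  unfold en
  refine Real.lt_sqrt_of_sq_lt ?_
  linarith

lemma norm_sq_relVel (p : R3) : ‖relVel p‖ ^ 2 = 1 - (en p ^ 2)⁻¹ := by
  have h := en_pos p
  have h2 : en p ^ 2 = 1 + ‖p‖ ^ 2 := by
    unfold en; rw [Real.sq_sqrt (by positivity)]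
  rw [relVel_eq, norm_smul, norm_inv, Real.norm_of_nonneg h.le, mul_pow, inv_pow]
  have h3 : ‖p‖ ^ 2 = en p ^ 2 - 1 := by linarith
  rw [h3]
  field_simp

/-- the velocity is Lipschitz with constant `2/γ` -/
lemma relVel_sub_le (p q : R3) : ‖relVel p - relVel q‖ ≤ 2 * ‖p - q‖ / en p := by
  have hp := en_pos p
  have hq := en_pos q
  have h1 : relVel p - relVel q = (en p)⁻¹ • (p - q) + ((en p)⁻¹ - (en q)⁻¹) • q := by
    rw [relVel_eq, relVel_eq, smul_sub, sub_smul]; abel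
  rw [h1]
  refine (norm_add_le _ _).trans ?_
  rw [norm_smul, norm_smul, norm_inv, Real.norm_of_nonneg hp.le]
  have h2 : ‖(en p)⁻¹ - (en q)⁻¹‖ * ‖q‖ ≤ ‖p - q‖ / en p := by
    have h3 : (en p)⁻¹ - (en q)⁻¹ = (en q - en p) / (en p * en q) := by
      field_simp
    rw [h3, norm_div, Real.norm_of_nonneg (mul_pos hp hq).le, Real.norm_eq_abs]
    have h4 : |en q - en p| ≤ ‖p - q‖ := by rw [norm_sub_rev]; exact en_sub_le q p
    calc |en q - en p| / (en p * en q) * ‖q‖ ≤ ‖p - q‖ / (en p * en q) * en q := by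
          gcongr
          exact norm_le_en q
      _ = ‖p - q‖ / en p := by field_simp
  have h5 : (en p)⁻¹ * ‖p - q‖ = ‖p - q‖ / en p := by rw [inv_mul_eq_div]
  rw [h5]
  calc ‖p - q‖ / en p + ‖(en p)⁻¹ - (en q)⁻¹‖ * ‖q‖ ≤ ‖p - q‖ / en p + ‖p - q‖ / en p := by linarith
    _ = 2 * ‖p - q‖ / en p := by ring

/-- relative velocity -/
lemma norm_sub_relVel_sq (p q : R3) : ‖relVel p - relVel q‖ ^ 2 =
    2 * (1 - inner ℝ (relVel q) (relVel p)) - (en p ^ 2)⁻¹ - (en q ^ 2)⁻¹ := by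
  rw [@norm_sub_sq_real, norm_sq_relVel, norm_sq_relVel, real_inner_comm]
  ring

/-- velocity stability from momentum increments (no measurability needed). -/
theorem vstab_of {p : ℝ → R3} {h : ℝ → ℝ≥0∞} {a b Q A0 B0 : ℝ} (hQ : 0 < Q) (hA0 : 0 ≤ A0)
    (hB0 : 0 ≤ B0)
    (hen : ∀ s ∈ Icc a b, Q / 4 ≤ en (p s))
    (hinc : ∀ s ∈ Icc a b, ∀ t ∈ Icc a b, s ≤ t →
      ENNReal.ofReal ‖p t - p s‖ ≤ (∫⁻ r in Icc s t, h r) + ENNReal.ofReal B0)
    (hA : ∫⁻ r in Icc a b, h r ≤ ENNReal.ofReal A0) :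
    VStab (fun t => relVel (p t)) a b (8 * A0 / Q) (8 * B0 / Q) := by
  have hfin : ∀ t, ∫⁻ r in Icc a (min t b), h r ≠ ⊤ := fun t =>
    ne_top_of_le_ne_top ENNReal.ofReal_ne_top
      ((lintegral_mono_set (Icc_subset_Icc_right (min_le_right t b))).trans hA)
  refine ⟨fun t => 8 / Q * (∫⁻ r in Icc a (min t b), h r).toReal, ?_, ?_, ?_, ?_⟩
  · intro t1 t2 h12
    have : (∫⁻ r in Icc a (min t1 b), h r).toReal ≤ (∫⁻ r in Icc a (min t2 b), h r).toReal :=
      ENNReal.toReal_mono (hfin t2)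
        (lintegral_mono_set (Icc_subset_Icc_right (min_le_min_right b h12)))
    exact mul_le_mul_of_nonneg_left this (by positivity)
  · intro t; positivity
  · intro t
    have : (∫⁻ r in Icc a (min t b), h r).toReal ≤ A0 :=
      ENNReal.toReal_le_of_le_ofReal hA0
        ((lintegral_mono_set (Icc_subset_Icc_right (min_le_right t b))).trans hA)
    calc 8 / Q * (∫⁻ r in Icc a (min t b), h r).toReal ≤ 8 / Q * A0 := by gcongr
      _ = 8 * A0 / Q := by ring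
  · intro s hs t ht hst
    have hsplit : (∫⁻ r in Icc a t, h r) = (∫⁻ r in Icc a s, h r) + ∫⁻ r in Icc s t, h r := by
      have h1 : (∫⁻ r in Icc s t, h r) = ∫⁻ r in Ioc s t, h r :=
        setLIntegral_congr Ioc_ae_eq_Icc.symm
      have h2 : Icc a t = Icc a s ∪ Ioc s t := (Icc_union_Ioc_eq_Icc hs.1 hst).symm
      rw [h1, h2]
      exact lintegral_union measurableSet_Ioc
        (disjoint_left.2 fun x hx hx' => absurd hx.2 (not_le.2 hx'.1))
    simp only [min_eq_left hs.2, min_eq_left ht.2]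
    have hft : ∫⁻ r in Icc a t, h r ≠ ⊤ := by simpa [min_eq_left ht.2] using hfin t
    have hfs : ∫⁻ r in Icc a s, h r ≠ ⊤ := by simpa [min_eq_left hs.2] using hfin s
    have hfst : ∫⁻ r in Icc s t, h r ≠ ⊤ :=
      ne_top_of_le_ne_top hft (by rw [hsplit]; exact le_add_self)
    have hd : (∫⁻ r in Icc a t, h r).toReal =
        (∫⁻ r in Icc a s, h r).toReal + (∫⁻ r in Icc s t, h r).toReal := by
      rw [hsplit, ENNReal.toReal_add hfs hfst]
    have h3 : ‖p t - p s‖ ≤ (∫⁻ r in Icc s t, h r).toReal + B0 := by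
      have := ENNReal.toReal_mono (ENNReal.add_ne_top.2 ⟨hfst, ENNReal.ofReal_ne_top⟩)
        (hinc s hs t ht hst)
      rwa [ENNReal.toReal_ofReal (norm_nonneg _), ENNReal.toReal_add hfst ENNReal.ofReal_ne_top,
        ENNReal.toReal_ofReal hB0] at this
    have h4 := relVel_sub_le (p t) (p s)
    have h5 : 2 * ‖p t - p s‖ / en (p t) ≤ 8 / Q * ‖p t - p s‖ := by
      have hq := hen t ht
      rw [div_le_iff₀ (en_pos _)]
      have h6 : 2 ≤ 8 / Q * en (p t) := by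
        rw [div_mul_eq_mul_div, le_div_iff₀ hQ]; linarith
      nlinarith [norm_nonneg (p t - p s)]
    calc ‖relVel (p t) - relVel (p s)‖ ≤ 8 / Q * ‖p t - p s‖ := h4.trans h5
      _ ≤ 8 / Q * ((∫⁻ r in Icc s t, h r).toReal + B0) := by gcongr
      _ = 8 / Q * (∫⁻ r in Icc a t, h r).toReal - 8 / Q * (∫⁻ r in Icc a s, h r).toReal
          + 8 * B0 / Q := by rw [hd]; ring

/-- **STAY**: a momentum which is once in `[Q/2, 2Q]` stays in `[Q/4, 4Q]` during a window. -/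
theorem stay {p : ℝ → R3} {a b Q : ℝ} (hQ : 0 < Q) (hc : ContinuousOn p (Icc a b))
    (hinc : ∀ s ∈ Icc a b, ∀ t ∈ Icc a b, s ≤ t →
      (∀ r ∈ Icc s t, Q / 4 ≤ en (p r) ∧ en (p r) ≤ 4 * Q) → ‖p t - p s‖ ≤ Q / 8)
    {τ : ℝ} (hτ : τ ∈ Icc a b) (h1 : Q / 2 ≤ en (p τ)) (h2 : en (p τ) ≤ 2 * Q) :
    ∀ r ∈ Icc a b, Q / 4 ≤ en (p r) ∧ en (p r) ≤ 4 * Q := by
  have hen : ContinuousOn (fun r => en (p r)) (Icc a b) := by
    unfold en
    fun_prop
  have hclose : ∀ r ∈ Icc a b, ‖p r - p τ‖ ≤ Q / 8 →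
      3 * Q / 8 ≤ en (p r) ∧ en (p r) ≤ 3 * Q := by
    intro r _ hr
    have := abs_le.1 ((en_sub_le (p r) (p τ)).trans hr)
    constructor <;> linarith [this.1, this.2]
  -- forward
  have hfw : ∀ r ∈ Icc τ b, Q / 4 ≤ en (p r) ∧ en (p r) ≤ 4 * Q := by
    have hsub : Icc τ b ⊆ {r | r ∈ Icc τ b ∧ ∀ r' ∈ Icc τ r, Q / 4 ≤ en (p r') ∧ en (p r') ≤ 4 * Q} := by
      have hcl : ∀ x ∈ Icc τ b, (∀ r' ∈ Ico τ x, Q / 4 ≤ en (p r') ∧ en (p r') ≤ 4 * Q) →
          ∀ r' ∈ Icc τ x, Q / 4 ≤ en (p r') ∧ en (p r') ≤ 4 * Q := by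
        intro x hx hr r' hr'
        rcases eq_or_lt_of_le hr'.2 with h | h
        · subst h
          rcases eq_or_lt_of_le hr'.1 with h' | h'
          · rw [← h']; constructor <;> linarith
          · have hcw : ContinuousWithinAt (fun r => en (p r)) (Iio r') r' := by
              have := hen r' ⟨hτ.1.trans hr'.1, hx.2⟩
              refine (this.mono (show Ico τ r' ⊆ Icc a b from fun y hy =>
                ⟨hτ.1.trans hy.1, hy.2.le.trans hx.2⟩)).mono_of_mem_nhdsWithin (Ico_mem_nhdsLT h')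
            have hev : ∀ᶠ y in nhdsWithin r' (Iio r'),
                Q / 4 ≤ en (p y) ∧ en (p y) ≤ 4 * Q := by
              filter_upwards [Ico_mem_nhdsLT h'] with y hy using hr y hy
            exact ⟨ge_of_tendsto hcw (hev.mono fun y hy => hy.1),
              le_of_tendsto hcw (hev.mono fun y hy => hy.2)⟩
        · exact hr r' ⟨hr'.1, h⟩
      -- sup argument
      intro x hx
      by_contra hcon
      have hbad : ∃ r' ∈ Icc τ x, ¬ (Q / 4 ≤ en (p r') ∧ en (p r') ≤ 4 * Q) := by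
        by_contra hno
        push Not at hno
        exact hcon ⟨hx, fun r' hr' => by
          by_contra h3
          have := hno r' hr'
          tauto⟩
      set Bd : Set ℝ := {r' | r' ∈ Icc τ x ∧ ¬ (Q / 4 ≤ en (p r') ∧ en (p r') ≤ 4 * Q)} with hBd
      have hBne : Bd.Nonempty := by
        obtain ⟨r', h3, h4⟩ := hbad
        exact ⟨r', h3, h4⟩
      have hBb : BddBelow Bd := ⟨τ, fun r' hr' => hr'.1.1⟩
      set c := sInf Bd with hcdef
      have hcτ : τ ≤ c := le_csInf hBne fun r' hr' => hr'.1.1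
      have hcx : c ≤ x := by
        obtain ⟨r', h3⟩ := hBne
        exact (csInf_le hBb h3).trans h3.1.2
      have hcab : c ∈ Icc a b := ⟨hτ.1.trans hcτ, hcx.trans hx.2⟩
      have hbelow : ∀ r' ∈ Ico τ c, Q / 4 ≤ en (p r') ∧ en (p r') ≤ 4 * Q := by
        intro r' hr'
        by_contra h3
        exact absurd (csInf_le hBb (show r' ∈ Bd from ⟨⟨hr'.1, hr'.2.le.trans hcx⟩, h3⟩))
          (not_le.2 hr'.2)
      have hcc := hcl c ⟨hcτ, hcx.trans hx.2⟩ hbelow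
      have hpc : ‖p c - p τ‖ ≤ Q / 8 := hinc τ hτ c hcab hcτ hcc
      have h5 := hclose c hcab hpc
      -- open neighbourhood
      have h6 := hen c hcab
      have hopen : ∀ᶠ y in nhdsWithin c (Icc a b), Q / 4 < en (p y) ∧ en (p y) < 4 * Q := by
        have h7 : Filter.Tendsto (fun r => en (p r)) (nhdsWithin c (Icc a b)) (nhds (en (p c))) := h6
        exact (h7.eventually (lt_mem_nhds (by linarith : Q / 4 < en (p c)))).and
          (h7.eventually (gt_mem_nhds (by linarith : en (p c) < 4 * Q)))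
      rw [eventually_nhdsWithin_iff, Metric.eventually_nhds_iff] at hopen
      obtain ⟨ε, hε, hball⟩ := hopen
      obtain ⟨r', hr', hlt⟩ := exists_lt_of_csInf_lt hBne (show sInf Bd < c + ε by linarith)
      have hcr : c ≤ r' := csInf_le hBb hr'
      have := hball (y := r') (by rw [Real.dist_eq, abs_of_nonneg (by linarith)]; linarith)
        ⟨hτ.1.trans hr'.1.1, hr'.1.2.trans hx.2⟩
      exact hr'.2 ⟨this.1.le, this.2.le⟩
    intro r hr
    exact (hsub hr).2 r (right_mem_Icc.2 hr.1)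
  -- backward
  have hbw : ∀ r ∈ Icc a τ, Q / 4 ≤ en (p r) ∧ en (p r) ≤ 4 * Q := by
    intro x hx
    by_contra hcon
    set Bd : Set ℝ := {r' | r' ∈ Icc x τ ∧ ¬ (Q / 4 ≤ en (p r') ∧ en (p r') ≤ 4 * Q)} with hBd
    have hBne : Bd.Nonempty := ⟨x, ⟨le_rfl, hx.2⟩, hcon⟩
    have hBb : BddAbove Bd := ⟨τ, fun r' hr' => hr'.1.2⟩
    set c := sSup Bd with hcdef
    have hcτ : c ≤ τ := csSup_le hBne fun r' hr' => hr'.1.2
    have hcx : x ≤ c := le_csSup hBb ⟨⟨le_rfl, hx.2⟩, hcon⟩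
    have hcab : c ∈ Icc a b := ⟨hx.1.trans hcx, hcτ.trans hτ.2⟩
    have hbelow : ∀ r' ∈ Ioc c τ, Q / 4 ≤ en (p r') ∧ en (p r') ≤ 4 * Q := by
      intro r' hr'
      by_contra h3
      exact absurd (le_csSup hBb (show r' ∈ Bd from ⟨⟨hcx.trans hr'.1.le, hr'.2⟩, h3⟩))
        (not_le.2 hr'.1)
    have hcc : ∀ r' ∈ Icc c τ, Q / 4 ≤ en (p r') ∧ en (p r') ≤ 4 * Q := by
      intro r' hr'
      rcases eq_or_lt_of_le hr'.1 with h | h
      · subst h
        rcases eq_or_lt_of_le hr'.2 with h' | h'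
        · rw [h']; constructor <;> linarith
        · have hcw : ContinuousWithinAt (fun r => en (p r)) (Ioi c) c := by
            have := hen c hcab
            refine (this.mono (show Ioc c τ ⊆ Icc a b from fun y hy =>
              ⟨hcab.1.trans hy.1.le, hy.2.trans hτ.2⟩)).mono_of_mem_nhdsWithin (Ioc_mem_nhdsGT h')
          have hev : ∀ᶠ y in nhdsWithin c (Ioi c), Q / 4 ≤ en (p y) ∧ en (p y) ≤ 4 * Q := by
            filter_upwards [Ioc_mem_nhdsGT h'] with y hy using hbelow y hy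
          exact ⟨ge_of_tendsto hcw (hev.mono fun y hy => hy.1),
            le_of_tendsto hcw (hev.mono fun y hy => hy.2)⟩
      · exact hbelow r' ⟨h, hr'.2⟩
    have hpc : ‖p c - p τ‖ ≤ Q / 8 := by
      rw [norm_sub_rev]; exact hinc c hcab τ hτ hcτ hcc
    have h5 := hclose c hcab hpc
    have h6 := hen c hcab
    have hopen : ∀ᶠ y in nhdsWithin c (Icc a b), Q / 4 < en (p y) ∧ en (p y) < 4 * Q := by
      have h7 : Filter.Tendsto (fun r => en (p r)) (nhdsWithin c (Icc a b)) (nhds (en (p c))) := h6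
      exact (h7.eventually (lt_mem_nhds (by linarith : Q / 4 < en (p c)))).and
        (h7.eventually (gt_mem_nhds (by linarith : en (p c) < 4 * Q)))
    rw [eventually_nhdsWithin_iff, Metric.eventually_nhds_iff] at hopen
    obtain ⟨ε, hε, hball⟩ := hopen
    obtain ⟨r', hr', hlt⟩ := exists_lt_of_lt_csSup hBne (show c - ε < sSup Bd by linarith)
    have hcr : r' ≤ c := le_csSup hBb hr'
    have := hball (y := r') (by rw [Real.dist_eq, abs_sub_comm, abs_of_nonneg (by linarith)]; linarith)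
      ⟨hx.1.trans hr'.1.1, hr'.1.2.trans hτ.2⟩
    exact hr'.2 ⟨this.1.le, this.2.le⟩
  intro r hr
  rcases le_total r τ with h | h
  · exact hbw r ⟨hr.1, h⟩
  · exact hfw r ⟨h, hr.2⟩

/-! ### constant-velocity extension of the test curve -/

/-- clamp to `[a,b]` -/
def clamp (a b t : ℝ) : ℝ := max a (min t b)

lemma clamp_mem {a b : ℝ} (hab : a ≤ b) (t : ℝ) : clamp a b t ∈ Icc a b :=
  ⟨le_max_left _ _, max_le hab (min_le_right _ _)⟩

lemma clamp_of_mem {a b t : ℝ} (ht : t ∈ Icc a b) : clamp a b t = t := by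
  unfold clamp
  rw [min_eq_left ht.2, max_eq_right ht.1]

lemma clamp_mono (a b : ℝ) : Monotone (clamp a b) := fun _ _ h =>
  max_le_max_left a (min_le_min_right b h)

lemma continuous_clamp (a b : ℝ) : Continuous (clamp a b) := by
  unfold clamp; fun_prop

/-- extended velocity -/
noncomputable def Vext (V : ℝ → R3) (a b t : ℝ) : R3 := V (clamp a b t)

/-- extended position -/
noncomputable def Xext (X V : ℝ → R3) (a b t : ℝ) : R3 := X a + ∫ r in a..t, Vext V a b r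

lemma continuous_Vext {V : ℝ → R3} {a b : ℝ} (hab : a ≤ b) (hV : ContinuousOn V (Icc a b)) :
    Continuous (Vext V a b) :=
  hV.comp_continuous (continuous_clamp a b) (clamp_mem hab)

lemma hasDerivAt_Xext {X V : ℝ → R3} {a b : ℝ} (hab : a ≤ b) (hV : ContinuousOn V (Icc a b))
    (t : ℝ) : HasDerivAt (Xext X V a b) (Vext V a b t) t := by
  have hc := continuous_Vext hab hV
  exact (intervalIntegral.integral_hasDerivAt_right (hc.intervalIntegrable _ _)
    (hc.stronglyMeasurableAtFilter _ _) hc.continuousAt).const_add (X a)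

lemma Vext_of_mem {V : ℝ → R3} {a b t : ℝ} (ht : t ∈ Icc a b) : Vext V a b t = V t := by
  unfold Vext; rw [clamp_of_mem ht]

lemma Xext_of_mem {X V : ℝ → R3} {a b t : ℝ} (hXc : ContinuousOn X (Icc a b))
    (hX : ∀ t ∈ Ioo a b, HasDerivAt X (V t) t) (hV : ContinuousOn V (Icc a b))
    (ht : t ∈ Icc a b) : Xext X V a b t = X t := by
  unfold Xext
  have hab : a ≤ b := ht.1.trans ht.2
  have hc := continuous_Vext hab hV
  have h1 : ∫ r in a..t, Vext V a b r = X t - X a := by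
    refine intervalIntegral.integral_eq_sub_of_hasDerivAt_of_le ht.1
      (hXc.mono (Icc_subset_Icc_right ht.2)) (fun r hr => ?_) (hc.intervalIntegrable _ _)
    have hr' : r ∈ Icc a b := ⟨hr.1.le, hr.2.le.trans ht.2⟩
    rw [Vext_of_mem hr']
    exact hX r ⟨hr.1, hr.2.trans_le ht.2⟩
  rw [h1]; abel

lemma VStab.ext {V : ℝ → R3} {a b A B : ℝ} (hab : a ≤ b) (h : VStab V a b A B)
    (c e : ℝ) : VStab (Vext V a b) c e A B := by
  obtain ⟨G, hm, h0, hA, hv⟩ := h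
  refine ⟨fun t => G (clamp a b t), hm.comp (clamp_mono a b), fun t => h0 _, fun t => hA _, ?_⟩
  intro s _ t _ hst
  exact hv _ (clamp_mem hab s) _ (clamp_mem hab t) (clamp_mono a b hst)


end Crest.Agent.R106.Occ
end

-- ▼ part R106/OccD
section

/-!
R106, module OCC (helper193): the occupation bound (d), `Mom.OccD`, from the cone-measure formula
in label form (`CMP`).
-/

set_option autoImplicit false

open MeasureTheory Set Filter Topology
open Crest.AnalysisR.VecCalc3 Crest.AnalysisR.PDE.RVM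
open scoped InnerProductSpace ENNReal

noncomputable section

namespace Crest.Agent.R106.Occ

open Crest.Agent.R106.Boot (en win Below Hyp en_sub_le one_le_en norm_le_en)
open Crest.Agent.R106.Mom
open Crest.Agent.R106.GSR (gam)

/-- the label measure `f₀ dz` -/
def labM (f : ℝ → R3 → R3 → ℝ) : Measure (R3 × R3) :=
  volume.withDensity (fun z => ENNReal.ofReal (f 0 z.1 z.2))

/-- Output of FLOW + CM + EN needed for (d): characteristics through all labels, energy bound, and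
for every test characteristic and every shell the representation of the cone measure by labels. -/
def CMP (T : ℝ) (f : ℝ → R3 → R3 → ℝ) (E B : ℝ → R3 → R3) : Prop :=
  ∃ Φ : ℝ → R3 × R3 → R3 × R3,
    (∀ z : R3 × R3, f 0 z.1 z.2 ≠ 0 → IsChar T f E B (fun t => (Φ t z).1) (fun t => (Φ t z).2)) ∧
    (∀ t ∈ Ico 0 T, Measurable (Φ t)) ∧
    (∃ E0 : ℝ, 0 ≤ E0 ∧ ∀ t ∈ Ico 0 T,
      ∫⁻ z, ENNReal.ofReal (gam (Φ t z).2) ∂(labM f) ≤ ENNReal.ofReal E0) ∧
    ∀ X p : ℝ → R3, IsChar T f E B X p → ∀ R1 d1 e1 D1 Q1 : ℝ, 0 < R1 → 0 < d1 → 0 < e1 →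
      0 < D1 → 0 < Q1 → ∀ a b : ℝ, 0 ≤ a → a ≤ b → b < T →
      ∃ (S : R3 × R3 → Set ℝ) (σ : R3 × R3 → ℝ → ℝ),
        ∫⁻ s in Icc a b, kap f X s (shell X p R1 d1 e1 D1 Q1 s) ≤
          ∫⁻ z, (∫⁻ τ in S z, invδ X (fun t => relVel (p t)) (fun t => (Φ t z).1) (σ z) τ)
            ∂(labM f) ∧
        ∀ z, (S z).Nonempty → f 0 z.1 z.2 ≠ 0 ∧ MeasurableSet (S z) ∧ InjOn (σ z) (S z) ∧
          ∀ τ ∈ S z, 0 < τ ∧ τ < σ z τ ∧ a ≤ σ z τ ∧ σ z τ ≤ b ∧
            σ z τ - τ = ‖X (σ z τ) - (Φ τ z).1‖ ∧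
            Φ τ z ∈ shell X p R1 d1 e1 D1 Q1 (σ z τ) ∧
            HasDerivWithinAt (σ z)
              ((1 - ⟪dir (X (σ z τ)) (Φ τ z).1, relVel (Φ τ z).2⟫_ℝ) /
                (1 - ⟪dir (X (σ z τ)) (Φ τ z).1, relVel (p (σ z τ))⟫_ℝ)) (S z) τ

lemma VStab.mono {v : ℝ → R3} {a b A B A' B' : ℝ} (h : VStab v a b A B) (hA : A ≤ A')
    (hB : B ≤ B') : VStab v a b A' B' := by
  obtain ⟨G, hm, h0, h1, h2⟩ := h
  exact ⟨G, hm, h0, fun t => (h1 t).trans hA, fun s hs t ht hst => (h2 s hs t ht hst).trans (by linarith)⟩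


/-- `D ≤ 2 (δ + ε)` -/
lemma D_le {n V v : R3} (hn : ‖n‖ = 1) (hV : ‖V‖ ≤ 1) (hv : ‖v‖ ≤ 1) :
    1 - ⟪V, v⟫_ℝ ≤ 2 * ((1 - ⟪n, V⟫_ℝ) + (1 - ⟪n, v⟫_ℝ)) := by
  have h1 : 1 - ⟪V, v⟫_ℝ - (1 - ⟪n, V⟫_ℝ) - (1 - ⟪n, v⟫_ℝ) = -⟪V - n, v - n⟫_ℝ := by
    rw [inner_sub_left, inner_sub_right, inner_sub_right, real_inner_self_eq_norm_sq, hn,
      real_inner_comm n V]
    ring
  have h2 : |⟪V - n, v - n⟫_ℝ| ≤ ‖V - n‖ * ‖v - n‖ := abs_real_inner_le_norm _ _
  have h3 := norm_sub_sq_le hn hV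
  have h4 := norm_sub_sq_le hn hv
  have h5 : ‖V - n‖ * ‖v - n‖ ≤ (1 - ⟪n, V⟫_ℝ) + (1 - ⟪n, v⟫_ℝ) := by
    nlinarith [sq_nonneg (‖V - n‖ - ‖v - n‖)]
  have h6 := (abs_le.1 h2).1
  linarith

lemma win_pos {c0 P Q : ℝ} (hc : 0 < c0) (hP : 1 < P) (hQ : 0 < Q) : 0 < win c0 P Q := by
  unfold win
  have := Real.log_pos hP
  positivity

lemma win_half {c0 P Q Q1 : ℝ} (hc : 0 < c0) (hP : 1 < P) (hQ1 : 0 < Q1) (h : Q1 / 2 ≤ Q) :
    win c0 P Q1 ≤ 4 * win c0 P Q := by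
  unfold win
  have hl := Real.log_pos hP
  have h1 : (Q1 / P) ^ 2 ≤ 4 * (Q / P) ^ 2 := by
    rw [div_pow, div_pow, ← mul_div_assoc]
    refine div_le_div_of_nonneg_right ?_ (by positivity)
    nlinarith
  have h2 : Q1 / (P * Real.log P) ≤ 4 * (Q / (P * Real.log P)) := by
    rw [← mul_div_assoc]
    refine div_le_div_of_nonneg_right ?_ (by positivity)
    linarith
  have h3 : min ((Q1 / P) ^ 2) (Q1 / (P * Real.log P)) ≤
      4 * min ((Q / P) ^ 2) (Q / (P * Real.log P)) := by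
    rcases min_choice ((Q / P) ^ 2) (Q / (P * Real.log P)) with h | h
    · rw [h]; exact (min_le_left _ _).trans h1
    · rw [h]; exact (min_le_right _ _).trans h2
  calc c0 * min ((Q1 / P) ^ 2) (Q1 / (P * Real.log P))
      ≤ c0 * (4 * min ((Q / P) ^ 2) (Q / (P * Real.log P))) := by gcongr
    _ = _ := by ring

/-- choice of the nominal energy for the sources of a shell -/
lemma exists_nominal {P Q1 : ℝ} (hP : 2 * P ^ (0.55 : ℝ) ≤ P) (hPpos : 1 ≤ P)
    (h1 : P ^ (11 / 20 : ℝ) ≤ Q1) (h2 : Q1 ≤ P) :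
    ∃ j : ℕ, P ^ (0.55 : ℝ) ≤ 2 ^ j ∧ (2 : ℝ) ^ j ≤ P ∧ Q1 / 2 ≤ (2 : ℝ) ^ j ∧
      ∀ g : ℝ, Q1 ≤ g → g < 2 * Q1 → g ≤ P → (2 : ℝ) ^ j / 2 ≤ g ∧ g ≤ 2 * 2 ^ j := by
  have e : (0.55 : ℝ) = 11 / 20 := by norm_num
  rw [e] at hP ⊢
  have hQ1 : 1 ≤ Q1 := (Real.one_le_rpow hPpos (by norm_num)).trans h1
  obtain ⟨n, hn1, hn2⟩ := exists_nat_pow_near hQ1 (by norm_num : (1:ℝ) < 2)
  by_cases hc : (2 : ℝ) ^ (n + 1) ≤ P
  · refine ⟨n + 1, h1.trans hn2.le, hc, by linarith [hn2.le], fun g hg1 hg2 _ => ⟨?_, ?_⟩⟩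
    · rw [pow_succ]; linarith
    · linarith
  · push Not at hc
    have h3 : P < 2 * 2 ^ n := by rw [pow_succ] at hc; linarith
    refine ⟨n, by linarith, hn1.trans h2, by rw [pow_succ] at hn2; linarith,
      fun g hg1 _ hg3 => ⟨?_, ?_⟩⟩
    · have : (0:ℝ) < 2 ^ n := by positivity
      linarith
    · linarith

section window

variable {T : ℝ} {f : ℝ → R3 → R3 → ℝ} {E B : ℝ → R3 → R3}

/-- momentum increments at level `P` up to time `t1` (the conclusion of `IncP`) -/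
def IncAt (T : ℝ) (f : ℝ → R3 → R3 → ℝ) (E B : ℝ → R3 → R3) (C P t1 : ℝ) : Prop :=
  ∀ j : ℕ, P ^ (0.55 : ℝ) ≤ 2 ^ j → (2 : ℝ) ^ j ≤ P → ∀ ξ : Chr T f E B,
  ∀ a b : ℝ, 0 ≤ a → a ≤ b → b ≤ t1 →
  (∀ s ∈ Icc a b, (2 : ℝ) ^ j / 4 ≤ en (mom ξ s) ∧ en (mom ξ s) ≤ 4 * 2 ^ j) →
  ENNReal.ofReal ‖mom ξ b - mom ξ a‖
    ≤ (∫⁻ s in Icc a b, hB C P (2 ^ j) ξ s) + ENNReal.ofReal (2 * P ^ (0.38 : ℝ))

variable {Ch c0 P t1 : ℝ} (hP0 : 0 < P) (hinc : IncAt T f E B Ch P t1)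
  (hyp : Hyp (mom (T := T) (f := f) (E := E) (B := B)) (hB Ch) c0 (1 / 16) P t1)
  {j : ℕ} (hj1 : P ^ (0.55 : ℝ) ≤ 2 ^ j) (hj2 : (2 : ℝ) ^ j ≤ P) (ξ : Chr T f E B)
include hP0 hinc hyp hj1 hj2

lemma window_vstab {α β : ℝ} (h0 : 0 ≤ α) (hβ : β ≤ t1)
    (hαβ : α ≤ β) (hw : β - α ≤ win c0 P (2 ^ j))
    (hen : ∀ s ∈ Icc α β, (2 : ℝ) ^ j / 4 ≤ en (mom ξ s) ∧ en (mom ξ s) ≤ 4 * 2 ^ j) :
    VStab (fun t => relVel (ξ.1.2 t)) α β (1 / 2) (16 * P ^ (0.38 : ℝ) / 2 ^ j) := by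
  have hQ : (0 : ℝ) < 2 ^ j := by positivity
  have h := vstab_of (p := ξ.1.2) (h := fun s => hB Ch P (2 ^ j) ξ s) (a := α) (b := β)
    (Q := 2 ^ j) (A0 := 1 / 16 * 2 ^ j) (B0 := 2 * P ^ (0.38 : ℝ)) hQ (by positivity)
    (by positivity) (fun s hs => (hen s hs).1)
    (fun s hs t ht hst => hinc j hj1 hj2 ξ s t (h0.trans hs.1) hst (ht.2.trans hβ)
      (fun r hr => hen r ⟨hs.1.trans hr.1, hr.2.trans ht.2⟩))
    (hyp j hj1 hj2 ξ α β h0 hαβ hβ hw hen)
  refine h.mono ?_ ?_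
  · rw [div_le_iff₀ hQ]; linarith
  · apply le_of_eq; ring

lemma window_stay (hbig : 32 * P ^ (0.38 : ℝ) ≤ P ^ (0.55 : ℝ)) {α β : ℝ} (h0 : 0 ≤ α)
    (hβ : β ≤ t1) (hβT : β < T) (hw : β - α ≤ win c0 P (2 ^ j))
    {τ : ℝ} (hτ : τ ∈ Icc α β) (h1 : (2 : ℝ) ^ j / 2 ≤ en (mom ξ τ))
    (h2 : en (mom ξ τ) ≤ 2 * 2 ^ j) :
    ∀ s ∈ Icc α β, (2 : ℝ) ^ j / 4 ≤ en (mom ξ s) ∧ en (mom ξ s) ≤ 4 * 2 ^ j := by
  have hQ : (0 : ℝ) < 2 ^ j := by positivity
  refine stay (p := mom ξ) hQ (ξ.2.cp.mono (fun x hx => ⟨h0.trans hx.1, hx.2.trans_lt hβT⟩)) ?_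
    hτ h1 h2
  intro s hs t ht hst hr
  have h3 := hinc j hj1 hj2 ξ s t (h0.trans hs.1) hst (ht.2.trans hβ) hr
  have h4 := hyp j hj1 hj2 ξ s t (h0.trans hs.1) hst (ht.2.trans hβ)
    (by linarith [hs.1, ht.2]) hr
  have h5 : ENNReal.ofReal ‖mom ξ t - mom ξ s‖ ≤
      ENNReal.ofReal (1 / 16 * 2 ^ j + 2 * P ^ (0.38 : ℝ)) := by
    rw [ENNReal.ofReal_add (by positivity) (by positivity)]
    exact h3.trans (by gcongr)
  have h6 := (ENNReal.ofReal_le_ofReal_iff (by positivity)).1 h5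
  linarith

end window

lemma const_aux {E0 R1 Q1 D1 d1 e1 Q L L1 l : ℝ} (hE0 : 0 ≤ E0) (hR1 : 0 < R1) (hQ1 : 0 < Q1)
    (hD1 : 0 < D1) (hd1 : 0 < d1) (hM : D1 ≤ 8 * max d1 e1)
    (hQ : Q1 / 2 ≤ Q) (hL : 0 < L) (hL1 : 0 < L1) (hLL : L1 ≤ 4 * L) (hl : 0 ≤ l) :
    (1 + (l + 2 * R1) / L) * (4 * E0 / Q) *
      ((36 * (1 / 2) + 4) * (25 * R1) / (D1 * √(max d1 e1))) ≤
    105600 * E0 * (R1 / (Q1 * √(D1 * max d1 D1)) * (1 + (l + R1) / L1) / √D1) := by
  have hmax : 0 < max d1 e1 := hd1.trans_le (le_max_left _ _)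
  have hmax' : 0 < max d1 D1 := hd1.trans_le (le_max_left _ _)
  have hQpos : 0 < Q := by linarith
  have hs1 : 0 < √(max d1 e1) := Real.sqrt_pos.2 hmax
  have hs2 : 0 < √(max d1 D1) := Real.sqrt_pos.2 hmax'
  have hsD : 0 < √D1 := Real.sqrt_pos.2 hD1
  have hDD : √D1 * √D1 = D1 := Real.mul_self_sqrt hD1.le
  -- factor 1
  have f1 : 1 + (l + 2 * R1) / L ≤ 8 * (1 + (l + R1) / L1) := by
    have h1 : (l + 2 * R1) / L ≤ 8 * ((l + R1) / L1) := by
      rw [← mul_div_assoc, div_le_div_iff₀ hL hL1]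
      nlinarith [mul_nonneg hl hL.le, mul_pos hR1 hL, mul_nonneg (by linarith : 0 ≤ l + 2 * R1)
        (by linarith : 0 ≤ 4 * L - L1)]
    linarith
  have f2 : 4 * E0 / Q ≤ 8 * E0 / Q1 := by
    rw [div_le_div_iff₀ hQpos hQ1]
    nlinarith
  have f3 : (36 * (1 / 2) + 4) * (25 * R1) / (D1 * √(max d1 e1)) ≤
      1650 * R1 / (D1 * √(max d1 D1)) := by
    have h3 : √(max d1 D1) ≤ 3 * √(max d1 e1) := by
      have h4 : max d1 D1 ≤ 9 * max d1 e1 :=
        max_le (by linarith [le_max_left d1 e1]) (by linarith)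
      have h5 := Real.sqrt_le_sqrt h4
      rw [Real.sqrt_mul (by norm_num : (0:ℝ) ≤ 9), show (9:ℝ) = 3 ^ 2 by norm_num,
        Real.sqrt_sq (by norm_num)] at h5
      exact h5
    rw [div_le_div_iff₀ (by positivity) (by positivity)]
    have h6 : D1 * √(max d1 D1) ≤ D1 * (3 * √(max d1 e1)) := by gcongr
    nlinarith [mul_le_mul_of_nonneg_left h6 hR1.le]
  calc (1 + (l + 2 * R1) / L) * (4 * E0 / Q) *
      ((36 * (1 / 2) + 4) * (25 * R1) / (D1 * √(max d1 e1)))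
      ≤ (8 * (1 + (l + R1) / L1)) * (8 * E0 / Q1) * (1650 * R1 / (D1 * √(max d1 D1))) := by
        gcongr
    _ = 105600 * E0 * (R1 / (Q1 * (√D1 * √(max d1 D1))) * (1 + (l + R1) / L1) / √D1) := by
        rw [show D1 * √(max d1 D1) = √D1 * √D1 * √(max d1 D1) by rw [hDD]]
        field_simp
        ring
    _ = _ := by rw [Real.sqrt_mul hD1.le]

/-- **(d)** -/
theorem occD {T : ℝ} {f : ℝ → R3 → R3 → ℝ} {E B : ℝ → R3 → R3} (hcm : CMP T f E B) :
    OccD T f E B := by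
  obtain ⟨Φ, hchar, hmeas, ⟨E0, hE0, hen0⟩, hcmf⟩ := hcm
  intro Ch hCh hIncP
  refine ⟨105600 * E0, by positivity, fun c0 hc0 hc01 => ?_⟩
  obtain ⟨P1, hincP⟩ := hIncP
  -- large P
  have e1 : ∀ᶠ P : ℝ in atTop, (384 : ℝ) ≤ P ^ (0.02 : ℝ) :=
    (tendsto_rpow_atTop (by norm_num)).eventually_ge_atTop _
  have e2 : ∀ᶠ P : ℝ in atTop, (32 : ℝ) ≤ P ^ (0.17 : ℝ) :=
    (tendsto_rpow_atTop (by norm_num)).eventually_ge_atTop _
  have e3 : ∀ᶠ P : ℝ in atTop, (2 : ℝ) ≤ P ^ (0.45 : ℝ) :=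
    (tendsto_rpow_atTop (by norm_num)).eventually_ge_atTop _
  have e4 : ∀ᶠ P : ℝ in atTop, (17 : ℝ) ≤ P ^ (0.8 : ℝ) :=
    (tendsto_rpow_atTop (by norm_num)).eventually_ge_atTop _
  obtain ⟨P2, hP2⟩ := eventually_atTop.mp (((e1.and e2).and (e3.and e4)).and
    ((eventually_ge_atTop P1).and (eventually_ge_atTop (2 : ℝ))))
  refine ⟨P2, fun P hP t1 ht1 hbel hhyp j hj1 hj2 ξ a b ha hab hbt hw hen R1 d1 e1 D1 Q1
    hR1 hd1 he1 hD1 hQ1l hQ1u hcond => ?_⟩
  obtain ⟨⟨⟨g1, g2⟩, g3, g4⟩, g5, g6⟩ := hP2 P hP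
  have hP0 : 0 < P := by linarith
  have hP1 : 1 < P := by linarith
  have hIncAt : IncAt T f E B Ch P t1 := hincP P g5 t1 ht1 hbel
  have hbT : b < T := hbt.trans_lt ht1.2
  have hbig : 32 * P ^ (0.38 : ℝ) ≤ P ^ (0.55 : ℝ) := by
    calc 32 * P ^ (0.38 : ℝ) ≤ P ^ (0.17 : ℝ) * P ^ (0.38 : ℝ) := by gcongr
      _ = P ^ (0.55 : ℝ) := by rw [← Real.rpow_add hP0]; norm_num
  have hhalf : 2 * P ^ (0.55 : ℝ) ≤ P := by
    calc 2 * P ^ (0.55 : ℝ) ≤ P ^ (0.45 : ℝ) * P ^ (0.55 : ℝ) := by gcongr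
      _ = P := by rw [← Real.rpow_add hP0]; norm_num
  obtain ⟨i, hi1, hi2, hi3, hi4⟩ := exists_nominal hhalf hP1.le hQ1l hQ1u
  have hQ1 : 0 < Q1 := lt_of_lt_of_le (by positivity) hQ1l
  have hQi : (0 : ℝ) < 2 ^ i := by positivity
  have hQj : (0 : ℝ) < 2 ^ j := by positivity
  have hsD : 0 < √D1 := Real.sqrt_pos.2 hD1
  have hmin : 0 < min Q1 ((2 : ℝ) ^ j) := lt_min hQ1 hQj
  -- sqrt D1 large
  have hsD1 : P ^ (2 / 5 : ℝ) / min Q1 (2 ^ j) ≤ √D1 := by
    rw [div_le_iff₀ hmin]; exact hcond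
  have hBj : ∀ q : ℝ, min Q1 ((2 : ℝ) ^ j) / 2 ≤ q → 16 * P ^ (0.38 : ℝ) / q ≤ √D1 / 12 := by
    intro q hq
    have hq0 : 0 < q := lt_of_lt_of_le (by positivity) hq
    rw [div_le_div_iff₀ hq0 (by norm_num)]
    have h2 : P ^ (0.4 : ℝ) = P ^ (0.02 : ℝ) * P ^ (0.38 : ℝ) := by
      rw [← Real.rpow_add hP0]; norm_num
    have h3 : (384 : ℝ) * P ^ (0.38 : ℝ) ≤ P ^ (2 / 5 : ℝ) := by
      rw [show (2 / 5 : ℝ) = 0.4 by norm_num, h2]; gcongr
    nlinarith [mul_le_mul_of_nonneg_left hq hsD.le]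
  -- the representation
  obtain ⟨S, σ, hrep, hS⟩ := hcmf ξ.1.1 ξ.1.2 ξ.2 R1 d1 e1 D1 Q1 hR1 hd1 he1 hD1 hQ1 a b ha hab hbT
  refine hrep.trans ?_
  by_cases hne : ∃ z, (S z).Nonempty
  swap
  · have : ∀ z, S z = ∅ := fun z => by
      by_contra h; exact hne ⟨z, nonempty_iff_ne_empty.2 h⟩
    simp [this]
  -- facts on pairs
  have hdirn : ∀ z, ∀ τ ∈ S z, ‖dir (ξ.1.1 (σ z τ)) (Φ τ z).1‖ = 1 := by
    intro z τ hτ
    obtain ⟨-, -, -, h⟩ := hS z ⟨τ, hτ⟩
    obtain ⟨-, h2, -, -, h5, -⟩ := h τ hτ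
    exact norm_dir (by rw [← h5]; linarith)
  have hnn : ∀ z, ∀ τ, nn ξ.1.1 (σ z τ) (Φ τ z).1 = dir (ξ.1.1 (σ z τ)) (Φ τ z).1 := fun _ _ => rfl
  have hM2 : D1 ≤ 2 ∧ D1 ≤ 8 * max d1 e1 := by
    obtain ⟨z, τ, hτ⟩ := hne
    obtain ⟨-, -, -, h⟩ := hS z ⟨τ, hτ⟩
    obtain ⟨-, h2, -, -, h5, h6, -⟩ := h τ hτ
    obtain ⟨-, ⟨k3, k4⟩, ⟨k5, k6⟩, ⟨k7, -⟩, -⟩ := h6
    have hD := D_le (hdirn z τ hτ) (norm_relVel_lt (ξ.1.2 (σ z τ))).le
      (norm_relVel_lt (Φ τ z).2).le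
    unfold dl ep Dd at *
    rw [hnn] at k3 k4 k5 k6
    constructor
    · have h7 := (abs_le.1 (abs_real_inner_le_norm (relVel (ξ.1.2 (σ z τ))) (relVel (Φ τ z).2))).1
      have h8 : ‖relVel (ξ.1.2 (σ z τ))‖ * ‖relVel (Φ τ z).2‖ ≤ 1 * 1 :=
        mul_le_mul (norm_relVel_lt _).le (norm_relVel_lt _).le (norm_nonneg _) zero_le_one
      linarith
    · linarith [le_max_left d1 e1, le_max_right d1 e1]
  obtain ⟨hD2, hM⟩ := hM2
  -- test
  set V : ℝ → R3 := fun t => relVel (ξ.1.2 t) with hV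
  have hrelc : Continuous relVel := by
    have h1 : Continuous (fun v : R3 => Real.sqrt (1 + ‖v‖ ^ 2)) := by fun_prop
    exact (h1.inv₀ fun v => (en_pos v).ne').smul continuous_id
  have hsubI : Icc a b ⊆ Ico 0 T := fun x hx => ⟨ha.trans hx.1, hx.2.trans_lt hbT⟩
  have hVc : ContinuousOn V (Icc a b) := hrelc.comp_continuousOn (ξ.2.cp.mono hsubI)
  have hXc : ContinuousOn ξ.1.1 (Icc a b) := ξ.2.cX.mono hsubI
  have hXd : ∀ t ∈ Ioo a b, HasDerivAt ξ.1.1 (V t) t := fun t ht =>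
    ξ.2.dX t ⟨ha.trans_lt ht.1, ht.2.trans hbT⟩
  have hVst : VStab V a b (1 / 2) (√D1 / 12) :=
    (window_vstab hP0 hIncAt hhyp hj1 hj2 ξ ha hbt hab hw hen).mono le_rfl
      (hBj _ (by linarith [min_le_right Q1 ((2:ℝ) ^ j), hmin]))
  have hXe : ∀ s, a ≤ s → s ≤ b → Xext ξ.1.1 V a b s = ξ.1.1 s := fun s h1 h2 =>
    Xext_of_mem hXc hXd hVc ⟨h1, h2⟩
  have hVe : ∀ s, a ≤ s → s ≤ b → Vext V a b s = V s := fun s h1 h2 => Vext_of_mem ⟨h1, h2⟩
  -- relative velocity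
  have hrel : ∀ z, ∀ τ ∈ S z, √D1 ≤ ‖relVel (Φ τ z).2 - V (σ z τ)‖ := by
    intro z τ hτ
    obtain ⟨-, -, -, h⟩ := hS z ⟨τ, hτ⟩
    obtain ⟨-, h2, h3, h4, h5, h6, -⟩ := h τ hτ
    obtain ⟨-, -, -, ⟨k7, -⟩, ⟨k9, -⟩⟩ := h6
    refine Real.sqrt_le_iff.2 ⟨norm_nonneg _, ?_⟩
    rw [hV]
    simp only
    rw [norm_sub_relVel_sq]
    unfold Dd at k7
    have hg1 : Q1 ≤ en (Φ τ z).2 := k9
    have hg2 : (2:ℝ) ^ j / 4 ≤ en (ξ.1.2 (σ z τ)) := (hen _ ⟨h3, h4⟩).1
    set mn := min Q1 ((2 : ℝ) ^ j) with hmn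
    have hm1 : mn ≤ en (Φ τ z).2 := (min_le_left _ _).trans hg1
    have hm2 : mn / 4 ≤ en (ξ.1.2 (σ z τ)) := by
      have : mn ≤ (2:ℝ) ^ j := min_le_right _ _
      linarith
    have hb1 : (en (Φ τ z).2 ^ 2)⁻¹ ≤ (mn ^ 2)⁻¹ := by
      gcongr
    have hb2 : (en (ξ.1.2 (σ z τ)) ^ 2)⁻¹ ≤ 16 * (mn ^ 2)⁻¹ := by
      have : 16 * (mn ^ 2)⁻¹ = ((mn / 4) ^ 2)⁻¹ := by field_simp; ring
      rw [this]
      gcongr
    have hb3 : 17 * (mn ^ 2)⁻¹ ≤ D1 := by
      rw [← div_eq_mul_inv, div_le_iff₀ (by positivity)]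
      have h7 : P ^ (0.8 : ℝ) ≤ D1 * mn ^ 2 := by
        have h8 : (P ^ (2 / 5 : ℝ)) ^ 2 ≤ (√D1 * mn) ^ 2 := by gcongr
        rw [mul_pow, Real.sq_sqrt hD1.le, ← Real.rpow_natCast, ← Real.rpow_mul hP0.le] at h8
        norm_num at h8 ⊢
        exact h8
      linarith
    linarith
  have hSb : ∀ z, ∀ τ ∈ S z, τ < σ z τ ∧ a ≤ σ z τ ∧ σ z τ ≤ b ∧ 0 < τ := by
    intro z τ hτ
    obtain ⟨-, -, -, h⟩ := hS z ⟨τ, hτ⟩
    obtain ⟨h1, h2, h3, h4, -⟩ := h τ hτ
    exact ⟨h2, h3, h4, h1⟩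
  have hlab := occD_label (labM f) (X := Xext ξ.1.1 V a b) (V := Vext V a b)
    (y := fun z t => (Φ t z).1) (v := fun z t => relVel (Φ t z).2) (s := σ) (S := S)
    (R1 := R1) (δ1 := d1) (ε1 := e1) (D1 := D1) (A := 1 / 2) (B := √D1 / 12) (a := a) (b := b)
    (L := win c0 P (2 ^ i)) (K := 4 * E0 / 2 ^ i) hR1 hd1 he1 hD1 hD2 hM (by norm_num) le_rfl
    (win_pos hc0 hP1 hQi) (by positivity) ha hab
    (fun t _ => (hasDerivAt_Xext hab hVc t).continuousAt.continuousWithinAt)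
    (fun t _ => hasDerivAt_Xext hab hVc t)
    (fun t _ => (norm_relVel_lt _).le) (hVst.ext hab _ _)
    (fun z hz => (hchar z (hS z hz).1).cX.mono fun x hx => ⟨hx.1, hx.2.trans_lt hbT⟩)
    (fun z hz t ht => (hchar z (hS z hz).1).dX t ⟨ht.1, ht.2.trans hbT⟩)
    (fun z hz => (hS z hz).2.1) (fun z τ hτ => (hSb z τ hτ).2.2.2.le)
    (fun z τ hτ => ⟨(hSb z τ hτ).2.1, (hSb z τ hτ).2.2.1⟩) ?_ ?_
    (fun z => by
      by_cases hz : (S z).Nonempty
      · exact (hS z hz).2.2.1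
      · rw [not_nonempty_iff_eq_empty.1 hz]; exact injOn_empty _) ?_ ?_
  · refine le_trans (le_of_eq ?_) (hlab.trans (ENNReal.ofReal_le_ofReal ?_))
    · refine lintegral_congr fun z => ?_
      by_cases hz : (S z).Nonempty
      · refine setLIntegral_congr_fun (hS z hz).2.1 fun τ hτ => ?_
        obtain ⟨-, h3, h4, -⟩ := hSb z τ hτ
        simp only [invδ]
        rw [hXe _ h3 h4, hVe _ h3 h4]
      · rw [not_nonempty_iff_eq_empty.1 hz]; simp
    · exact const_aux hE0 hR1 hQ1 hD1 hd1 hM hi3 (win_pos hc0 hP1 hQi) (win_pos hc0 hP1 hQ1)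
        (win_half hc0 hP1 hQ1 hi3) (by linarith)
  · -- shell membership
    intro z τ hτ
    obtain ⟨-, -, -, h⟩ := hS z ⟨τ, hτ⟩
    obtain ⟨h1, h2, h3, h4, h5, h6, -⟩ := h τ hτ
    obtain ⟨⟨k1, k2⟩, ⟨k3, k4⟩, ⟨k5, k6⟩, -, -⟩ := h6
    unfold Rr at k1 k2
    unfold dl at k3 k4
    unfold ep at k5
    rw [hnn] at k3 k4 k5
    refine ⟨h2, ?_, by linarith, by linarith, ?_, ?_, ?_, ?_⟩
    · rw [hXe _ h3 h4]; exact h5
    · rw [hXe _ h3 h4, hVe _ h3 h4]; exact k3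
    · rw [hXe _ h3 h4, hVe _ h3 h4]; exact k4.le
    · rw [hXe _ h3 h4]; exact k5
    · rw [hVe _ h3 h4]; exact hrel z τ hτ
  · -- derivative
    intro z τ hτ
    obtain ⟨-, -, -, h⟩ := hS z ⟨τ, hτ⟩
    obtain ⟨-, -, h3, h4, -, -, h7⟩ := h τ hτ
    rw [hXe _ h3 h4, hVe _ h3 h4]
    exact h7
  · -- windows
    intro α β hα hαβ hβ hwin z hz
    obtain ⟨τ, hτ, hτ2⟩ := hz
    have hz' : (S z).Nonempty := ⟨τ, hτ⟩
    obtain ⟨-, -, -, h⟩ := hS z hz'
    obtain ⟨-, -, -, -, -, h6, -⟩ := h τ hτ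
    obtain ⟨-, -, -, -, k9, k10⟩ := h6
    set ζ : Chr T f E B := ⟨(fun t => (Φ t z).1, fun t => (Φ t z).2), hchar z (hS z hz').1⟩ with hζ
    have hPz : en (Φ τ z).2 ≤ P := hbel ζ τ ⟨hα.trans hτ2.1, hτ2.2.trans (hβ.trans hbt)⟩
    obtain ⟨m1, m2⟩ := hi4 _ k9 k10 hPz
    have hst := window_stay hP0 hIncAt hhyp hi1 hi2 ζ hbig hα (hβ.trans hbt) (hβ.trans_lt hbT)
      hwin hτ2 m1 m2
    exact (window_vstab hP0 hIncAt hhyp hi1 hi2 ζ hα (hβ.trans hbt) hαβ hwin hst).mono le_rfl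
      (hBj _ (by linarith [min_le_left Q1 ((2:ℝ) ^ j)]))
  · -- mass
    intro α β hα hαβ hβ hwin
    have hsub : {z | (S z ∩ Icc α β).Nonempty} ⊆
        {z | ENNReal.ofReal ((2:ℝ) ^ i / 4) ≤ ENNReal.ofReal (gam (Φ α z).2)} := by
      rintro z ⟨τ, hτ, hτ2⟩
      have hz' : (S z).Nonempty := ⟨τ, hτ⟩
      obtain ⟨-, -, -, h⟩ := hS z hz'
      obtain ⟨-, -, -, -, -, h6, -⟩ := h τ hτ
      obtain ⟨-, -, -, -, k9, k10⟩ := h6
      set ζ : Chr T f E B := ⟨(fun t => (Φ t z).1, fun t => (Φ t z).2), hchar z (hS z hz').1⟩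
      have hPz : en (Φ τ z).2 ≤ P := hbel ζ τ ⟨hα.trans hτ2.1, hτ2.2.trans (hβ.trans hbt)⟩
      obtain ⟨m1, m2⟩ := hi4 _ k9 k10 hPz
      have hst := window_stay hP0 hIncAt hhyp hi1 hi2 ζ hbig hα (hβ.trans hbt) (hβ.trans_lt hbT)
        hwin hτ2 m1 m2
      exact ENNReal.ofReal_le_ofReal (hst α ⟨le_rfl, hαβ⟩).1
    have hαT : α ∈ Ico 0 T := ⟨hα, (hαβ.trans hβ).trans_lt hbT⟩
    have hgm : Measurable (fun z => ENNReal.ofReal (gam (Φ α z).2)) := by
      refine ENNReal.measurable_ofReal.comp ?_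
      have : Continuous gam := by unfold gam; fun_prop
      exact this.measurable.comp (measurable_snd.comp (hmeas α hαT))
    have hmk := mul_meas_ge_le_lintegral hgm (ENNReal.ofReal ((2:ℝ) ^ i / 4)) (μ := labM f)
    have h1 : ENNReal.ofReal ((2:ℝ) ^ i / 4) * labM f {z | (S z ∩ Icc α β).Nonempty} ≤
        ENNReal.ofReal E0 :=
      (mul_le_mul_right (measure_mono hsub) _).trans (hmk.trans (hen0 α hαT))
    have h2 : ENNReal.ofReal (4 * E0 / 2 ^ i) =
        ENNReal.ofReal E0 / ENNReal.ofReal ((2:ℝ) ^ i / 4) := by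
      rw [← ENNReal.ofReal_div_of_pos (by positivity)]
      congr 1
      field_simp
    rw [h2, ENNReal.le_div_iff_mul_le (Or.inl (by
      simp only [ne_eq, ENNReal.ofReal_eq_zero, not_le]; positivity)) (Or.inl ENNReal.ofReal_ne_top),
      mul_comm]
    exact h1

end Crest.Agent.R106.Occ
end
end

-- ▼ part R106/ConeKap
section

/-!
# Row 106, CM: the bridge between `Mom.kap` (phase-space form) and the label form (helper132)

`L : LFlow T a Φ Ψ` (label flow, ConeMu), `f τ w = f 0 (Ψ τ w)` on `[0,T)`.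
`m0 f = f 0 · dz` is the label measure, `alive X s = {z : |X s - z.1| < s}`.

* `lintegral_kap`, `integral_kap`, `integrable_kap_iff` : `∫ g dκ_s = ∫_{alive} g(hit)/ε dm0`, for
  every `g`, no measurability.
* `continuousOn_rtL`, `continuousOn_hit`, `measurable` versions.
* `lintegral_kap_time` : Tonelli.
-/

set_option autoImplicit false

open MeasureTheory Set Filter Topology
open Crest.AnalysisR.VecCalc3 Crest.AnalysisR.PDE.RVM
open scoped ENNReal NNReal InnerProductSpace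

noncomputable section

namespace Crest.Agent.R106.CM

open Crest.Agent.R106.Mom (kap Rr nn dl Dd)

/-- the label measure `f₀ dz` -/
def m0 (f : ℝ → R3 → R3 → ℝ) : Measure Z :=
  (volume : Measure Z).withDensity fun z => ENNReal.ofReal (f 0 z.1 z.2)

/-- the labels that meet the open backward cone of `(s, X s)` -/
def alive (X : ℝ → R3) (s : ℝ) : Set Z := {z | ‖X s - z.1‖ < s}

lemma isOpen_alive (X : ℝ → R3) (s : ℝ) : IsOpen (alive X s) := by
  have : Continuous fun w : Z => ‖X s - w.1‖ := by fun_prop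
  exact isOpen_lt this continuous_const

lemma measurableSet_alive (X : ℝ → R3) (s : ℝ) : MeasurableSet (alive X s) :=
  (isOpen_alive X s).measurableSet

lemma ball_prod_eq (X : ℝ → R3) (s : ℝ) :
    Metric.ball (X s) s ×ˢ (univ : Set R3) = {w : Z | ‖X s - w.1‖ < s} := by
  ext w
  simp [Metric.mem_ball, dist_eq_norm, norm_sub_rev]

lemma continuous_ret (X : ℝ → R3) (s : ℝ) : Continuous fun q : Z => Mom.ret X s q.1 := by
  unfold Mom.ret
  fun_prop

section measurable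

variable {f : ℝ → R3 → R3 → ℝ}

lemma measurable_f0 (hf : Measurable fun p : ℝ × R3 × R3 => f p.1 p.2.1 p.2.2) :
    Measurable fun z : Z => ENNReal.ofReal (f 0 z.1 z.2) :=
  (hf.comp (measurable_const.prodMk measurable_id)).ennreal_ofReal

lemma measurable_fret (hf : Measurable fun p : ℝ × R3 × R3 => f p.1 p.2.1 p.2.2)
    (X : ℝ → R3) (s : ℝ) :
    Measurable fun q : Z => ENNReal.ofReal (f (Mom.ret X s q.1) q.1 q.2) :=
  (hf.comp ((continuous_ret X s).measurable.prodMk measurable_id)).ennreal_ofReal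

end measurable

/-- The solution is transported by the flow. -/
def Transp (T : ℝ) (f : ℝ → R3 → R3 → ℝ) (Ψ : ℝ → Z → Z) : Prop :=
  ∀ τ ∈ Ico 0 T, ∀ w : Z, f τ w.1 w.2 = f 0 (Ψ τ w).1 (Ψ τ w).2

variable {T : ℝ} {a : ℝ → Z → Z} {Φ Ψ : ℝ → Z → Z} {f : ℝ → R3 → R3 → ℝ}

/-- **(K1)** the cone measure in label form, for every `g`. -/
theorem LFlow.lintegral_kap (L : LFlow T a Φ Ψ) (hT : Transp T f Ψ)
    (hf : Measurable fun p : ℝ × R3 × R3 => f p.1 p.2.1 p.2.2) (X : ℝ → R3) {s : ℝ}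
    (hs : s ∈ Ioo 0 T) (g : Z → ℝ≥0∞) :
    ∫⁻ q, g q ∂(kap f X s) = ∫⁻ z in alive X s,
      g (hit Φ s (X s) z) / ENNReal.ofReal (ep a (X s) (rtL Φ s (X s) z) (hit Φ s (X s) z))
        ∂(m0 f) := by
  have h1 : ∫⁻ q, g q ∂(kap f X s)
      = ∫⁻ w in {w : Z | ‖X s - w.1‖ < s}, g w *
          ENNReal.ofReal (f 0 (Ψ (s - ‖X s - w.1‖) w).1 (Ψ (s - ‖X s - w.1‖) w).2) := by
    unfold kap
    rw [lintegral_withDensity_eq_lintegral_mul_non_measurable _ (measurable_fret hf X s)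
      (Eventually.of_forall fun _ => ENNReal.ofReal_lt_top), ball_prod_eq]
    refine setLIntegral_congr_fun (measurableSet_alive X s) fun w hw => ?_
    have hw' : ‖X s - w.1‖ < s := hw
    have h0 : s - ‖X s - w.1‖ ∈ Ico 0 T :=
      ⟨by linarith, by linarith [norm_nonneg (X s - w.1), hs.2]⟩
    simp only [Pi.mul_apply, Mom.ret]
    rw [hT _ h0 w, mul_comm]
  rw [h1, L.lintegral_cone hs (X s) g (fun z => ENNReal.ofReal (f 0 z.1 z.2))]
  unfold m0
  rw [restrict_withDensity (measurableSet_alive X s),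
    lintegral_withDensity_eq_lintegral_mul_non_measurable _ (measurable_f0 hf)
      (Eventually.of_forall fun _ => ENNReal.ofReal_lt_top)]
  rfl




/-! ### measurability and continuity of the flow and of the retarded quantities -/

lemma LFlow.measurable_Phi (L : LFlow T a Φ Ψ) {τ : ℝ} (hτ : τ ∈ Ico 0 T) :
    Measurable (Φ τ) := by
  rcases hτ.1.eq_or_lt with h | h
  · subst h
    have : Φ 0 = id := funext L.zero
    rw [this]; exact measurable_id
  · have hinj : Function.Injective (Ψ τ) := fun w w' h' => by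
      rw [← L.right_inv τ hτ w, ← L.right_inv τ hτ w', h']
    have hc : Continuous (Ψ τ) := by
      rw [continuous_iff_continuousAt]
      intro w
      have h1 : DifferentiableAt ℝ (fun w : Z => ((τ, w) : ℝ × Z)) w := by fun_prop
      exact ((L.diff τ ⟨h, hτ.2⟩ w).comp w h1).continuousAt
    intro A hA
    have : Φ τ ⁻¹' A = Ψ τ '' A := by
      ext z
      constructor
      · intro hz; exact ⟨Φ τ z, hz, L.left_inv τ hτ z⟩
      · rintro ⟨w, hw, rfl⟩
        rw [mem_preimage, L.right_inv τ hτ]; exact hw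
    rw [this]
    exact hA.image_of_continuousOn_injOn hc.continuousOn hinj.injOn


lemma LFlow.subLum (L : LFlow T a Φ Ψ) {t1 : ℝ} (h1 : t1 < T) (z : Z) :
    Pair.SubLum (fun τ => (Φ τ z).1) t1 := by
  intro s hs t ht hst
  have hs' : s ∈ Ico 0 T := ⟨hs.1, hs.2.trans_lt h1⟩
  have ht' : t ∈ Ico 0 T := ⟨ht.1, ht.2.trans_lt h1⟩
  rcases lt_or_gt_of_ne hst with h | h
  · have := L.subL z s hs' t ht' h
    rw [norm_sub_rev, abs_sub_comm, abs_of_pos (by linarith)]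
    exact this
  · have := L.subL z t ht' s hs' h
    rw [abs_of_pos (by linarith)]
    exact this




/-- `Sublum` of helper154's `MixInt` for the label flow -/
lemma LFlow.sublum (L : LFlow T a Φ Ψ) {t1 : ℝ} (h0 : 0 ≤ t1) (h1 : t1 < T) {X : ℝ → R3}
    (hX : ∀ s ∈ Icc 0 t1, ∀ t ∈ Icc 0 t1, ‖X s - X t‖ ≤ |s - t|) :
    Mix.Sublum t1 X (fun τ z => (Φ τ z).1) where
  nonneg := h0
  hX := hX
  hY := fun z s hs t ht hst => L.subLum h1 z s hs t ht hst
  hYm := fun s hs => measurable_fst.comp (L.measurable_Phi ⟨hs.1, hs.2.trans_lt h1⟩)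

lemma LFlow.isRet (L : LFlow T a Φ Ψ) {t1 : ℝ} (h1 : t1 < T) (X : ℝ → R3) :
    Mix.IsRet t1 X (fun τ z => (Φ τ z).1) (fun s z => rtL Φ s (X s) z) := by
  intro s hs z hz
  have hsT : s ∈ Ico 0 T := ⟨hs.1, hs.2.trans_lt h1⟩
  have h2 := rt_spec (L.subL z) hsT (x := X s) hz.le
  have h3 := rt_pos (L.subL z) hsT (x := X s) hz
  refine ⟨h3, h2.1.2, ?_⟩
  have h4 := h2.2
  simp only [rtL]
  linarith

lemma LFlow.cara (L : LFlow T a Φ Ψ) {t1 : ℝ} (h1 : t1 < T) : Mix.Cara t1 Φ where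
  meas := fun c hc => L.measurable_Phi ⟨hc.1, hc.2.trans_lt h1⟩
  cont := fun z => (L.cont z).mono fun c hc => ⟨hc.1, hc.2.trans_lt h1⟩

lemma LFlow.coneSet_eq (L : LFlow T a Φ Ψ) {t1 : ℝ} (X : ℝ → R3) :
    Mix.coneSet t1 X (fun τ z => (Φ τ z).1) = {p : ℝ × Z | p.1 ∈ Icc 0 t1 ∧ p.2 ∈ alive X p.1} := by
  ext p
  simp only [Mix.coneSet, alive, mem_ofPred_eq, L.zero]

/-- joint measurability of the retarded state on the cone set -/
theorem LFlow.measOn_hit (L : LFlow T a Φ Ψ) {t1 : ℝ} (h0 : 0 ≤ t1) (h1 : t1 < T) {X : ℝ → R3}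
    (hX : ∀ s ∈ Icc 0 t1, ∀ t ∈ Icc 0 t1, ‖X s - X t‖ ≤ |s - t|) :
    Mix.MeasOn (Mix.coneSet t1 X (fun τ z => (Φ τ z).1))
      (fun p : ℝ × Z => hit Φ p.1 (X p.1) p.2) :=
  Mix.measOn_comp_ret (L.sublum h0 h1 hX) (L.isRet h1 X) (L.cara h1)


instance (f : ℝ → R3 → R3 → ℝ) : SFinite (m0 f) := by
  unfold m0; infer_instance

lemma continuous_relVel' : Continuous relVel := by
  have h : ∀ v : R3, Real.sqrt (1 + ‖v‖ ^ 2) ≠ 0 := fun v => by positivity
  unfold relVel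
  exact (Continuous.inv₀ (by fun_prop) h).smul continuous_id

/-- (test time, label) pairs in a window -/
def coneW (b c : ℝ) (X : ℝ → R3) : Set (ℝ × Z) := {p | p.1 ∈ Icc b c ∧ p.2 ∈ alive X p.1}

lemma LFlow.coneW_eq (L : LFlow T a Φ Ψ) {b c : ℝ} (hb : 0 ≤ b) (X : ℝ → R3) :
    coneW b c X = {p : ℝ × Z | p.1 ∈ Icc b c} ∩ Mix.coneSet c X (fun τ z => (Φ τ z).1) := by
  rw [L.coneSet_eq]
  ext p
  simp only [coneW, mem_ofPred_eq, mem_inter_iff]
  constructor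
  · rintro ⟨h1, h2⟩; exact ⟨h1, ⟨⟨hb.trans h1.1, h1.2⟩, h2⟩⟩
  · rintro ⟨h1, h2⟩; exact ⟨h1, h2.2⟩

lemma LFlow.measurableSet_coneW (L : LFlow T a Φ Ψ) {b c : ℝ} (hb : 0 ≤ b) (hbc : b ≤ c)
    (hc : c < T) {X : ℝ → R3} (hX : ∀ s ∈ Icc 0 c, ∀ t ∈ Icc 0 c, ‖X s - X t‖ ≤ |s - t|) :
    MeasurableSet (coneW b c X) := by
  rw [L.coneW_eq hb]
  exact (measurable_fst measurableSet_Icc).inter
    (Mix.measurableSet_coneSet (L.sublum (hb.trans hbc) hc hX))

/-- the factor `1/ε` of the label form is jointly measurable -/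
lemma LFlow.measOn_ep (L : LFlow T a Φ Ψ) {t1 : ℝ} (h0 : 0 ≤ t1) (h1 : t1 < T) {X : ℝ → R3}
    (hX : ∀ s ∈ Icc 0 t1, ∀ t ∈ Icc 0 t1, ‖X s - X t‖ ≤ |s - t|)
    (hv : ∀ τ w, (a τ w).1 = relVel w.2) :
    Mix.MeasOn (Mix.coneSet t1 X (fun τ z => (Φ τ z).1))
      (fun p : ℝ × Z => ep a (X p.1) (rtL Φ p.1 (X p.1) p.2) (hit Φ p.1 (X p.1) p.2)) := by
  have hXm : Mix.MeasOn (Mix.coneSet t1 X (fun τ z => (Φ τ z).1)) (fun p : ℝ × Z => X p.1) := by
    refine Mix.measOn_time h0 ?_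
    have : LipschitzOnWith 1 X (Icc 0 t1) := by
      refine LipschitzOnWith.of_dist_le_mul (fun s hs t ht => ?_)
      rw [dist_eq_norm, NNReal.coe_one, one_mul, Real.dist_eq]
      exact hX s hs t ht
    exact this.continuousOn
  have hh := L.measOn_hit h0 h1 hX
  have key : Measurable (fun q : R3 × Z => 1 - ⟪nv q.1 q.2.1, relVel q.2.2⟫_ℝ) := by
    have := continuous_relVel'.measurable
    unfold nv
    fun_prop
  refine ((hXm.prodMk hh).comp key).congr fun p _ => ?_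
  simp only [ep, hv]

/-- the cone is empty at time `0` -/
lemma kap_zero (f : ℝ → R3 → R3 → ℝ) (X : ℝ → R3) {s : ℝ} (hs : s ≤ 0) : kap f X s = 0 := by
  unfold kap
  rw [Metric.ball_eq_empty.2 hs, empty_prod, Measure.restrict_empty]
  ext A hA
  simp [withDensity_apply _ hA]

lemma alive_zero (X : ℝ → R3) {s : ℝ} (hs : s ≤ 0) : alive X s = ∅ := by
  ext z
  simp only [alive, mem_ofPred_eq, mem_empty_iff_false, iff_false, not_lt]
  exact hs.trans (norm_nonneg _)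

/-- the label integrand -/
def lint (a : ℝ → Z → Z) (Φ : ℝ → Z → Z) (X : ℝ → R3) (g : ℝ → Z → ℝ≥0∞) (s : ℝ) (z : Z) : ℝ≥0∞ :=
  g s (hit Φ s (X s) z) / ENNReal.ofReal (ep a (X s) (rtL Φ s (X s) z) (hit Φ s (X s) z))

/-- (K1) for all `s ∈ [0, T)` -/
theorem LFlow.lintegral_kap' (L : LFlow T a Φ Ψ) (hT : Transp T f Ψ)
    (hf : Measurable fun p : ℝ × R3 × R3 => f p.1 p.2.1 p.2.2) (X : ℝ → R3) {s : ℝ}
    (hs : s ∈ Ico 0 T) (g : ℝ → Z → ℝ≥0∞) :
    ∫⁻ q, g s q ∂(kap f X s) = ∫⁻ z in alive X s, lint a Φ X g s z ∂(m0 f) := by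
  rcases hs.1.eq_or_lt with h | h
  · subst h
    rw [kap_zero f X le_rfl, alive_zero X le_rfl]
    simp
  · exact L.lintegral_kap hT hf X ⟨h, hs.2⟩ (g s)

lemma LFlow.measurable_lint (L : LFlow T a Φ Ψ) {b c : ℝ} (hb : 0 ≤ b) (hbc : b ≤ c)
    (hc : c < T) {X : ℝ → R3} (hX : ∀ s ∈ Icc 0 c, ∀ t ∈ Icc 0 c, ‖X s - X t‖ ≤ |s - t|)
    (hv : ∀ τ w, (a τ w).1 = relVel w.2) {g : ℝ → Z → ℝ≥0∞}
    (hg : Mix.MeasOn (Icc b c ×ˢ (univ : Set Z)) (fun p : ℝ × Z => g p.1 p.2)) :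
    Measurable ((coneW b c X).indicator fun p : ℝ × Z => lint a Φ X g p.1 p.2) := by
  refine Mix.MeasOn.indicator (L.measurableSet_coneW hb hbc hc hX) ?_
  obtain ⟨G, hG, hGe⟩ := hg
  have h0 : 0 ≤ c := hb.trans hbc
  have h1 : coneW b c X ⊆ Mix.coneSet c X (fun τ z => (Φ τ z).1) := by
    rw [L.coneW_eq hb]; exact inter_subset_right
  have h2 : Mix.MeasOn (coneW b c X) (fun p : ℝ × Z => G (p.1, hit Φ p.1 (X p.1) p.2)) :=
    ((Mix.MeasOn.of_measurable measurable_fst).prodMk ((L.measOn_hit h0 hc hX).mono h1)).comp hG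
  have h3 : Mix.MeasOn (coneW b c X) (fun p : ℝ × Z => ENNReal.ofReal
      (ep a (X p.1) (rtL Φ p.1 (X p.1) p.2) (hit Φ p.1 (X p.1) p.2))) :=
    ((L.measOn_ep h0 hc hX hv).mono h1).comp ENNReal.measurable_ofReal
  refine (h2.div h3).congr fun p hp => ?_
  simp only [lint]
  rw [← hGe (x := (p.1, hit Φ p.1 (X p.1) p.2)) ⟨hp.1, mem_univ _⟩]

/-- **(K3)** Tonelli: the time integral over the cones in label form. -/
theorem LFlow.lintegral_kap_time (L : LFlow T a Φ Ψ) (hT : Transp T f Ψ)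
    (hf : Measurable fun p : ℝ × R3 × R3 => f p.1 p.2.1 p.2.2) {b c : ℝ} (hb : 0 ≤ b)
    (hbc : b ≤ c) (hc : c < T) {X : ℝ → R3}
    (hX : ∀ s ∈ Icc 0 c, ∀ t ∈ Icc 0 c, ‖X s - X t‖ ≤ |s - t|)
    (hv : ∀ τ w, (a τ w).1 = relVel w.2) {g : ℝ → Z → ℝ≥0∞}
    (hg : Mix.MeasOn (Icc b c ×ˢ (univ : Set Z)) (fun p : ℝ × Z => g p.1 p.2)) :
    ∫⁻ s in Icc b c, ∫⁻ q, g s q ∂(kap f X s)
      = ∫⁻ z, (∫⁻ s in Icc b c ∩ {s | z ∈ alive X s}, lint a Φ X g s z) ∂(m0 f) := by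
  have hH := L.measurable_lint hb hbc hc hX hv hg
  have h1 : ∫⁻ s in Icc b c, ∫⁻ q, g s q ∂(kap f X s)
      = ∫⁻ s in Icc b c, ∫⁻ z, (coneW b c X).indicator
          (fun p : ℝ × Z => lint a Φ X g p.1 p.2) (s, z) ∂(m0 f) := by
    refine setLIntegral_congr_fun measurableSet_Icc fun s hs => ?_
    rw [L.lintegral_kap' hT hf X ⟨hb.trans hs.1, hs.2.trans_lt hc⟩ g,
      ← lintegral_indicator (measurableSet_alive X s)]
    refine lintegral_congr fun z => ?_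
    by_cases hz : z ∈ alive X s
    · rw [indicator_of_mem hz, indicator_of_mem (show (s, z) ∈ coneW b c X from ⟨hs, hz⟩)]
    · rw [indicator_of_notMem hz, indicator_of_notMem (fun h => hz h.2)]
  rw [h1, lintegral_lintegral_swap (μ := volume.restrict (Icc b c)) (ν := m0 f)
    (f := fun s z => (coneW b c X).indicator (fun p : ℝ × Z => lint a Φ X g p.1 p.2) (s, z))
    hH.aemeasurable]
  refine lintegral_congr fun z => ?_
  have hms : MeasurableSet (Icc b c ∩ {s | z ∈ alive X s}) := by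
    have := (L.measurableSet_coneW hb hbc hc hX).preimage
      (measurable_id.prodMk (measurable_const (a := z)) : Measurable fun s : ℝ => (s, z))
    exact this
  rw [← lintegral_indicator measurableSet_Icc, ← lintegral_indicator hms]
  refine lintegral_congr fun s => ?_
  by_cases hs : s ∈ Icc b c
  · rw [indicator_of_mem hs]
    by_cases hz : z ∈ alive X s
    · rw [indicator_of_mem (show (s, z) ∈ coneW b c X from ⟨hs, hz⟩),
        indicator_of_mem (show s ∈ Icc b c ∩ {s | z ∈ alive X s} from ⟨hs, hz⟩)]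
    · rw [indicator_of_notMem (fun h => hz h.2), indicator_of_notMem (fun h => hz h.2)]
  · rw [indicator_of_notMem hs, indicator_of_notMem (fun h => hs h.1)]

/-! ### translation of the quantities of `MomDefs` at the retarded state -/










end Crest.Agent.R106.CM
end
end

-- ▼ part R106/CMsub
section

/-!
# Row 106, CM: per-label substitution `∫ ds/ε = ∫ dτ/δ`

`X` test curve, `Y` source curve, both strictly subluminal on `[0,T)`.
`rt Y s (X s)` = retarded time, `adv T X Y τ` = its inverse (advanced time).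
-/

set_option autoImplicit false

open MeasureTheory Set Filter Topology
open scoped ENNReal NNReal InnerProductSpace

noncomputable section

namespace Crest.Agent.R106.CM

open Crest.AnalysisR.VecCalc3

variable {T : ℝ} {X Y V v : ℝ → R3}

/-- the set of test times whose backward cone meets the source at a positive time -/
def meet (T : ℝ) (X Y : ℝ → R3) : Set ℝ := {s | s ∈ Ioo 0 T ∧ ‖X s - Y 0‖ < s}


lemma rt_strictMono (hX : SubL T X) (hY : SubL T Y) {s₁ s₂ : ℝ} (h1 : s₁ ∈ meet T X Y)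
    (h2 : s₂ ∈ meet T X Y) (h12 : s₁ < s₂) : rt Y s₁ (X s₁) < rt Y s₂ (X s₂) := by
  have m1 : s₁ ∈ Ico 0 T := ⟨h1.1.1.le, h1.1.2⟩
  have m2 : s₂ ∈ Ico 0 T := ⟨h2.1.1.le, h2.1.2⟩
  obtain ⟨a1, a2⟩ := rt_spec hY m1 h1.2.le
  obtain ⟨b1, b2⟩ := rt_spec hY m2 h2.2.le
  by_contra hlt
  push Not at hlt
  set τ₁ := rt Y s₁ (X s₁)
  set τ₂ := rt Y s₂ (X s₂)
  have c1 := hX s₁ m1 s₂ m2 h12
  have c2 : ‖X s₂ - Y τ₂‖ ≤ ‖X s₂ - X s₁‖ + ‖X s₁ - Y τ₂‖ := by
    have : X s₂ - Y τ₂ = (X s₂ - X s₁) + (X s₁ - Y τ₂) := by abel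
    rw [this]; exact norm_add_le _ _
  have c3 : τ₂ + ‖X s₁ - Y τ₂‖ ≤ τ₁ + ‖X s₁ - Y τ₁‖ := by
    rcases hlt.lt_or_eq with h | h
    · exact (strictMono_aux hY (X s₁) ⟨b1.1, by linarith [a1.2, m1.2]⟩
        ⟨a1.1, by linarith [a1.2, m1.2]⟩ h).le
    · rw [h]
  linarith

lemma rt_injOn (hX : SubL T X) (hY : SubL T Y) :
    InjOn (fun s => rt Y s (X s)) (meet T X Y) := by
  have : StrictMonoOn (fun s => rt Y s (X s)) (meet T X Y) :=
    fun a ha b hb hab => rt_strictMono hX hY ha hb hab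
  exact this.injOn

lemma isOpen_meet (hX : SubL T X) : IsOpen (meet T X Y) := by
  have h1 : ContinuousOn (fun s => ‖X s - Y 0‖ - s) (Ioo 0 T) := by
    refine ContinuousOn.sub ?_ continuousOn_id
    exact ((hX.continuousOn.mono Ioo_subset_Ico_self).sub continuousOn_const).norm
  have h2 : meet T X Y = Ioo 0 T ∩ (fun s => ‖X s - Y 0‖ - s) ⁻¹' Iio 0 := by
    ext s
    simp only [meet, mem_ofPred_eq, mem_inter_iff, mem_preimage, mem_Iio, sub_neg]
  rw [h2]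
  exact h1.isOpen_inter_preimage isOpen_Ioo isOpen_Iio

/-- continuity of the retarded time along the test curve (collisions allowed) -/
lemma rt_continuousAt (hX : SubL T X) (hY : SubL T Y) {s₀ : ℝ} (hs : s₀ ∈ meet T X Y) :
    ContinuousAt (fun s => rt Y s (X s)) s₀ := by
  have m0 : s₀ ∈ Ico 0 T := ⟨hs.1.1.le, hs.1.2⟩
  obtain ⟨a1, a2⟩ := rt_spec hY m0 hs.2.le
  have a3 := rt_pos hY m0 hs.2
  set τ₀ := rt Y s₀ (X s₀) with hτ₀
  have hXc : ContinuousAt X s₀ := (hX.continuousOn.mono Ioo_subset_Ico_self).continuousAt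
    (isOpen_Ioo.mem_nhds hs.1)
  have hev : ∀ᶠ s in 𝓝 s₀, s ∈ meet T X Y := (isOpen_meet hX).mem_nhds hs
  rw [Metric.continuousAt_iff']
  intro η hη
  -- lower bound
  have hlow : ∀ᶠ s in 𝓝 s₀, τ₀ - η < rt Y s (X s) := by
    set τl : ℝ := max (τ₀ / 2) (τ₀ - η / 2) with hτl
    have l1 : τl < τ₀ := max_lt (by linarith) (by linarith)
    have l2 : 0 ≤ τl := le_max_of_le_left (by linarith)
    have l3 : τl + ‖X s₀ - Y τl‖ < s₀ := by
      have := strictMono_aux hY (X s₀) (a := τl) (b := τ₀) ⟨l2, by linarith [a1.2, m0.2]⟩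
        ⟨a1.1, by linarith [a1.2, m0.2]⟩ l1
      linarith
    have l4 : ContinuousAt (fun s => s - (τl + ‖X s - Y τl‖)) s₀ :=
      continuousAt_id.sub (continuousAt_const.add (hXc.sub continuousAt_const).norm)
    have l5 : ∀ᶠ s in 𝓝 s₀, 0 < s - (τl + ‖X s - Y τl‖) :=
      l4.eventually (lt_mem_nhds (by simpa using l3))
    filter_upwards [l5, hev] with s h1 h2
    have h3 : τl ≤ rt Y s (X s) := by
      refine le_csSup ⟨s, fun τ hτ => hτ.1.2⟩ ⟨⟨l2, ?_⟩, by linarith⟩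
      linarith [norm_nonneg (X s - Y τl)]
    have h4 : τ₀ - η / 2 ≤ τl := le_max_right _ _
    linarith
  have hup : ∀ᶠ s in 𝓝 s₀, rt Y s (X s) < τ₀ + η := by
    rcases a1.2.lt_or_eq with h | h
    · set τu : ℝ := min ((τ₀ + s₀) / 2) (τ₀ + η / 2) with hτu
      have u1 : τ₀ < τu := lt_min (by linarith) (by linarith)
      have u2 : τu < s₀ := (min_le_left _ _).trans_lt (by linarith)
      have u3 : s₀ < τu + ‖X s₀ - Y τu‖ := by
        have := strictMono_aux hY (X s₀) (a := τ₀) (b := τu) ⟨a1.1, by linarith [m0.2]⟩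
          ⟨by linarith [a1.1], by linarith [m0.2]⟩ u1
        linarith
      have u4 : ContinuousAt (fun s => (τu + ‖X s - Y τu‖) - s) s₀ :=
        (continuousAt_const.add (hXc.sub continuousAt_const).norm).sub continuousAt_id
      have u5 : ∀ᶠ s in 𝓝 s₀, 0 < (τu + ‖X s - Y τu‖) - s :=
        u4.eventually (lt_mem_nhds (by simpa using u3))
      filter_upwards [u5, hev] with s h1 h2
      have m2 : s ∈ Ico 0 T := ⟨h2.1.1.le, h2.1.2⟩
      obtain ⟨b1, b2⟩ := rt_spec hY m2 h2.2.le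
      have h3 : rt Y s (X s) < τu := by
        by_contra hge
        push Not at hge
        have : τu + ‖X s - Y τu‖ ≤ rt Y s (X s) + ‖X s - Y (rt Y s (X s))‖ := by
          rcases hge.lt_or_eq with h' | h'
          · exact (strictMono_aux hY (X s) ⟨by linarith [a1.1], by linarith [m0.2]⟩
              ⟨b1.1, by linarith [b1.2, m2.2]⟩ h').le
          · rw [← h']
        linarith
      have h4 : τu ≤ τ₀ + η / 2 := min_le_right _ _
      linarith
    · filter_upwards [hev, (isOpen_Iio.mem_nhds (show s₀ < s₀ + η by linarith) :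
        ∀ᶠ s in 𝓝 s₀, s < s₀ + η)] with s h2 h3
      have m2 : s ∈ Ico 0 T := ⟨h2.1.1.le, h2.1.2⟩
      obtain ⟨b1, b2⟩ := rt_spec hY m2 h2.2.le
      have h4 : s < s₀ + η := h3
      linarith [b1.2]
  filter_upwards [hlow, hup] with s h1 h2
  rw [Real.dist_eq, abs_lt]
  constructor <;> linarith

/-- derivative of the retarded time away from collisions -/
theorem rt_hasDerivAt (hX : SubL T X) (hY : SubL T Y)
    (hXd : ∀ s ∈ Ioo 0 T, HasDerivAt X (V s) s) (hYd : ∀ τ ∈ Ioo 0 T, HasDerivAt Y (v τ) τ)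
    (hv : ∀ τ ∈ Ioo 0 T, ‖v τ‖ < 1) {s₀ : ℝ} (hs : s₀ ∈ meet T X Y)
    (hne : X s₀ ≠ Y (rt Y s₀ (X s₀))) :
    HasDerivAt (fun s => rt Y s (X s))
      ((1 - ⟪nv (X s₀) (Y (rt Y s₀ (X s₀))), V s₀⟫_ℝ) /
        (1 - ⟪nv (X s₀) (Y (rt Y s₀ (X s₀))), v (rt Y s₀ (X s₀))⟫_ℝ)) s₀ := by
  have m0 : s₀ ∈ Ico 0 T := ⟨hs.1.1.le, hs.1.2⟩
  obtain ⟨a1, a2⟩ := rt_spec hY m0 hs.2.le
  have a3 := rt_pos hY m0 hs.2
  have hR : 0 < s₀ - rt Y s₀ (X s₀) := by
    have : 0 < ‖X s₀ - Y (rt Y s₀ (X s₀))‖ := norm_pos_iff.2 (sub_ne_zero.2 hne)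
    linarith
  have hτ : rt Y s₀ (X s₀) ∈ Ioo 0 T := ⟨a3, by linarith [m0.2]⟩
  have h := Pair.hasDerivAt_tau_of_null (X := X) (y := Y) (τ := fun s => rt Y s (X s)) (s₀ := s₀)
    (V₀ := V s₀) (v₀ := v (rt Y s₀ (X s₀))) (hXd s₀ hs.1) (hYd _ hτ)
    (rt_continuousAt hX hY hs) ?_ hR (hv _ hτ)
  · have e : Pair.nvec X Y s₀ (rt Y s₀ (X s₀)) = nv (X s₀) (Y (rt Y s₀ (X s₀))) := by
      unfold Pair.nvec nv
      congr 2
      linarith
    simpa only [Pair.om, e] using h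
  · filter_upwards [(isOpen_meet hX).mem_nhds hs] with s h2
    have m2 : s ∈ Ico 0 T := ⟨h2.1.1.le, h2.1.2⟩
    obtain ⟨b1, b2⟩ := rt_spec hY m2 h2.2.le
    linarith

/-! ### The inverse: advanced time -/

open Classical in
/-- advanced time: inverse of `s ↦ rt Y s (X s)` on `meet T X Y` -/
def adv (T : ℝ) (X Y : ℝ → R3) (τ : ℝ) : ℝ :=
  if h : ∃ s ∈ meet T X Y, rt Y s (X s) = τ then h.choose else 0

lemma adv_rt (hX : SubL T X) (hY : SubL T Y) {s : ℝ} (hs : s ∈ meet T X Y) :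
    adv T X Y (rt Y s (X s)) = s := by
  have h : ∃ s' ∈ meet T X Y, rt Y s' (X s') = rt Y s (X s) := ⟨s, hs, rfl⟩
  rw [adv, dif_pos h]
  exact rt_injOn hX hY h.choose_spec.1 hs h.choose_spec.2

/-- around a point of the image, `adv` is a genuine local inverse, arbitrarily close -/
lemma adv_eventually (hX : SubL T X) (hY : SubL T Y) {s₀ : ℝ} (hs : s₀ ∈ meet T X Y) {η : ℝ}
    (hη : 0 < η) : ∀ᶠ τ in 𝓝 (rt Y s₀ (X s₀)), adv T X Y τ ∈ meet T X Y ∧
      rt Y (adv T X Y τ) (X (adv T X Y τ)) = τ ∧ |adv T X Y τ - s₀| < η := by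
  obtain ⟨ρ, hρ, hball⟩ := Metric.isOpen_iff.1 (isOpen_meet (X := X) (Y := Y) hX) s₀ hs
  set r : ℝ := min (ρ / 2) (η / 2) with hr
  have r0 : 0 < r := lt_min (by linarith) (by linarith)
  have rρ : r < ρ := (min_le_left _ _).trans_lt (by linarith)
  have rη : r < η := (min_le_right _ _).trans_lt (by linarith)
  have hI : Icc (s₀ - r) (s₀ + r) ⊆ meet T X Y := by
    intro s h
    refine hball ?_
    rw [Metric.mem_ball, Real.dist_eq, abs_lt]
    constructor <;> linarith [h.1, h.2]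
  have hlo : s₀ - r ∈ Icc (s₀ - r) (s₀ + r) := ⟨le_rfl, by linarith⟩
  have hhi : s₀ + r ∈ Icc (s₀ - r) (s₀ + r) := ⟨by linarith, le_rfl⟩
  have h1 := rt_strictMono hX hY (hI hlo) hs (by linarith)
  have h2 := rt_strictMono hX hY hs (hI hhi) (by linarith)
  have hc : ContinuousOn (fun s => rt Y s (X s)) (Icc (s₀ - r) (s₀ + r)) :=
    fun s h => (rt_continuousAt hX hY (hI h)).continuousWithinAt
  filter_upwards [Ioo_mem_nhds h1 h2] with τ hτ
  obtain ⟨s, hs1, hs2⟩ := intermediate_value_Icc (by linarith) hc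
    (⟨hτ.1.le, hτ.2.le⟩ : τ ∈ Icc (rt Y (s₀ - r) (X (s₀ - r))) (rt Y (s₀ + r) (X (s₀ + r))))
  have hs3 : adv T X Y τ = s := by
    rw [← hs2]; exact adv_rt hX hY (hI hs1)
  rw [hs3]
  refine ⟨hI hs1, hs2, ?_⟩
  rw [abs_lt]
  constructor <;> linarith [hs1.1, hs1.2]

lemma adv_continuousAt (hX : SubL T X) (hY : SubL T Y) {s₀ : ℝ} (hs : s₀ ∈ meet T X Y) :
    ContinuousAt (adv T X Y) (rt Y s₀ (X s₀)) := by
  rw [Metric.continuousAt_iff']
  intro η hη
  filter_upwards [adv_eventually hX hY hs hη] with τ h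
  rw [adv_rt hX hY hs, Real.dist_eq]
  exact h.2.2

lemma one_sub_inner_nv_pos {x y w : R3} (hw : ‖w‖ < 1) : 0 < 1 - ⟪nv x y, w⟫_ℝ := by
  have h1 := real_inner_le_norm (nv x y) w
  have h2 : ‖nv x y‖ * ‖w‖ ≤ 1 * ‖w‖ := mul_le_mul_of_nonneg_right (norm_nv_le x y) (norm_nonneg _)
  linarith

/-- derivative of the advanced time -/
theorem adv_hasDerivAt (hX : SubL T X) (hY : SubL T Y)
    (hXd : ∀ s ∈ Ioo 0 T, HasDerivAt X (V s) s) (hYd : ∀ τ ∈ Ioo 0 T, HasDerivAt Y (v τ) τ)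
    (hV : ∀ s ∈ Ioo 0 T, ‖V s‖ < 1) (hv : ∀ τ ∈ Ioo 0 T, ‖v τ‖ < 1) {s₀ τ₀ : ℝ}
    (hs : s₀ ∈ meet T X Y) (hτ : rt Y s₀ (X s₀) = τ₀) (hne : X s₀ ≠ Y τ₀) :
    HasDerivAt (adv T X Y)
      ((1 - ⟪nv (X s₀) (Y τ₀), v τ₀⟫_ℝ) / (1 - ⟪nv (X s₀) (Y τ₀), V s₀⟫_ℝ)) τ₀ := by
  subst hτ
  have m0 : s₀ ∈ Ico 0 T := ⟨hs.1.1.le, hs.1.2⟩
  have a1 := (rt_spec hY m0 hs.2.le).1
  have a3 := rt_pos hY m0 hs.2
  have hτT : rt Y s₀ (X s₀) ∈ Ioo 0 T := ⟨a3, by linarith [m0.2, a1.2]⟩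
  have hd := rt_hasDerivAt hX hY hXd hYd hv hs hne
  have p1 := one_sub_inner_nv_pos (x := X s₀) (y := Y (rt Y s₀ (X s₀))) (hV _ hs.1)
  have p2 := one_sub_inner_nv_pos (x := X s₀) (y := Y (rt Y s₀ (X s₀))) (hv _ hτT)
  have h := HasDerivAt.of_local_left_inverse (f := fun s => rt Y s (X s)) (g := adv T X Y)
    (a := rt Y s₀ (X s₀)) (adv_continuousAt hX hY hs) (by rw [adv_rt hX hY hs]; exact hd)
    (div_pos p1 p2).ne' ?_
  · rwa [inv_div] at h
  · filter_upwards [adv_eventually hX hY hs one_pos] with τ h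
    exact h.2.1

/-! ### The substitution -/

/-- collision free meeting times -/
def meet' (T : ℝ) (X Y : ℝ → R3) : Set ℝ := {s | s ∈ meet T X Y ∧ X s ≠ Y (rt Y s (X s))}

/-- **Per-label substitution.**  `A` measurable set of collision free meeting times,
`S = {τ(s) : s ∈ A}`. -/
theorem lintegral_rt (hX : SubL T X) (hY : SubL T Y)
    (hXd : ∀ s ∈ Ioo 0 T, HasDerivAt X (V s) s) (hYd : ∀ τ ∈ Ioo 0 T, HasDerivAt Y (v τ) τ)
    (hV : ∀ s ∈ Ioo 0 T, ‖V s‖ < 1) (hv : ∀ τ ∈ Ioo 0 T, ‖v τ‖ < 1)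
    {A : Set ℝ} (hA : MeasurableSet A) (hAm : A ⊆ meet' T X Y) (g : ℝ → ℝ≥0∞) :
    ∫⁻ s in A, g s * ENNReal.ofReal
        (1 / (1 - ⟪nv (X s) (Y (rt Y s (X s))), v (rt Y s (X s))⟫_ℝ)) =
      ∫⁻ τ in (fun s => rt Y s (X s)) '' A, g (adv T X Y τ) * Occ.invδ X V Y (adv T X Y) τ := by
  rw [lintegral_image_eq_lintegral_abs_deriv_mul hA
    (fun s hs => (rt_hasDerivAt hX hY hXd hYd hv (hAm hs).1 (hAm hs).2).hasDerivWithinAt)
    ((rt_injOn hX hY).mono fun _ hs => (hAm hs).1)]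
  refine setLIntegral_congr_fun hA fun s hs => ?_
  have hs1 := (hAm hs).1
  have m0 : s ∈ Ico 0 T := ⟨hs1.1.1.le, hs1.1.2⟩
  have a1 := (rt_spec hY m0 hs1.2.le).1
  have a3 := rt_pos hY m0 hs1.2
  have hτT : rt Y s (X s) ∈ Ioo 0 T := ⟨a3, by linarith [m0.2, a1.2]⟩
  have p1 := one_sub_inner_nv_pos (x := X s) (y := Y (rt Y s (X s))) (hV _ hs1.1)
  have p2 := one_sub_inner_nv_pos (x := X s) (y := Y (rt Y s (X s))) (hv _ hτT)
  simp only [adv_rt hX hY hs1, Occ.invδ]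
  have e : Occ.dir (X s) (Y (rt Y s (X s))) = nv (X s) (Y (rt Y s (X s))) := rfl
  rw [e, abs_of_pos (div_pos p1 p2), mul_left_comm, ← ENNReal.ofReal_mul (div_pos p1 p2).le]
  congr 2
  field_simp

/-- measurability of the image -/
lemma measurableSet_image_rt (hX : SubL T X) (hY : SubL T Y) {A : Set ℝ} (hA : MeasurableSet A)
    (hAm : A ⊆ meet T X Y) : MeasurableSet ((fun s => rt Y s (X s)) '' A) :=
  hA.image_of_continuousOn_injOn
    (fun s hs => (rt_continuousAt hX hY (hAm hs)).continuousWithinAt)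
    ((rt_injOn hX hY).mono hAm)

/-- what one knows about a point `τ` of the image -/
lemma image_rt_spec (hX : SubL T X) (hY : SubL T Y) {A : Set ℝ} (hAm : A ⊆ meet' T X Y) {τ : ℝ}
    (hτ : τ ∈ (fun s => rt Y s (X s)) '' A) :
    adv T X Y τ ∈ A ∧ rt Y (adv T X Y τ) (X (adv T X Y τ)) = τ ∧ 0 < τ ∧ τ < adv T X Y τ ∧
      adv T X Y τ - τ = ‖X (adv T X Y τ) - Y τ‖ ∧ adv T X Y τ < T := by
  obtain ⟨s, hs, rfl⟩ := hτ
  have hs1 := (hAm hs).1
  have m0 : s ∈ Ico 0 T := ⟨hs1.1.1.le, hs1.1.2⟩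
  obtain ⟨a1, a2⟩ := rt_spec hY m0 hs1.2.le
  have a3 := rt_pos hY m0 hs1.2
  simp only [adv_rt hX hY hs1]
  have hR : 0 < ‖X s - Y (rt Y s (X s))‖ := norm_pos_iff.2 (sub_ne_zero.2 (hAm hs).2)
  exact ⟨hs, trivial, a3, by linarith, by linarith, m0.2⟩

lemma adv_injOn (hX : SubL T X) (hY : SubL T Y) {A : Set ℝ} (hAm : A ⊆ meet T X Y) :
    InjOn (adv T X Y) ((fun s => rt Y s (X s)) '' A) := by
  rintro _ ⟨s, hs, rfl⟩ _ ⟨s', hs', rfl⟩ h
  simp only [adv_rt hX hY (hAm hs), adv_rt hX hY (hAm hs')] at h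
  rw [h]

/-- the derivative hypothesis of `Occ.one_window` -/
lemma adv_hasDerivWithinAt (hX : SubL T X) (hY : SubL T Y)
    (hXd : ∀ s ∈ Ioo 0 T, HasDerivAt X (V s) s) (hYd : ∀ τ ∈ Ioo 0 T, HasDerivAt Y (v τ) τ)
    (hV : ∀ s ∈ Ioo 0 T, ‖V s‖ < 1) (hv : ∀ τ ∈ Ioo 0 T, ‖v τ‖ < 1) {A : Set ℝ}
    (hAm : A ⊆ meet' T X Y) {τ : ℝ} (hτ : τ ∈ (fun s => rt Y s (X s)) '' A) :
    HasDerivWithinAt (adv T X Y)
      ((1 - inner ℝ (Occ.dir (X (adv T X Y τ)) (Y τ)) (v τ)) /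
        (1 - inner ℝ (Occ.dir (X (adv T X Y τ)) (Y τ)) (V (adv T X Y τ))))
      ((fun s => rt Y s (X s)) '' A) τ := by
  obtain ⟨h1, h2, -, -, -, -⟩ := image_rt_spec hX hY hAm hτ
  have hne := (hAm h1).2
  rw [h2] at hne
  exact (adv_hasDerivAt hX hY hXd hYd hV hv (hAm h1).1 h2 hne).hasDerivWithinAt

end Crest.Agent.R106.CM
end
end

-- ▼ part R106/OccCM

/-!
R106, module OCC (helper193): `CMP` from the label flow (146, 132, 350).
-/

set_option autoImplicit false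
set_option maxHeartbeats 1000000

open MeasureTheory Set Filter Topology
open Crest.AnalysisR.VecCalc3 Crest.AnalysisR.PDE.RVM
open scoped InnerProductSpace ENNReal

noncomputable section

namespace Crest.Agent.R106.Occ

open Crest.Agent.R106.Mom Crest.Agent.R106.CM
open Crest.Agent.R106.GSR (gam)

lemma measurable_relVel : Measurable relVel := continuous_relVel'.measurable

lemma measurable_gam : Measurable gam := by
  unfold gam
  exact (by fun_prop : Continuous fun p : R3 => Real.sqrt (1 + ‖p‖ ^ 2)).measurable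

lemma measurableSet_shell {X p : ℝ → R3} (hX : Measurable X) (hp : Measurable p)
    (R1 d1 e1 D1 Q1 : ℝ) :
    MeasurableSet {w : ℝ × R3 × R3 | w.2 ∈ Mom.shell X p R1 d1 e1 D1 Q1 w.1} := by
  have h1 : Measurable (fun w : ℝ × R3 × R3 => Rr X w.1 w.2.1) := by
    unfold Rr; fun_prop
  have hn : Measurable (fun w : ℝ × R3 × R3 => nn X w.1 w.2.1) := by
    unfold nn; fun_prop
  have hv : Measurable (fun w : ℝ × R3 × R3 => relVel w.2.2) :=
    measurable_relVel.comp (measurable_snd.comp measurable_snd)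
  have hV : Measurable (fun w : ℝ × R3 × R3 => relVel (p w.1)) :=
    measurable_relVel.comp (hp.comp measurable_fst)
  have h2 : Measurable (fun w : ℝ × R3 × R3 => dl X p w.1 w.2.1) := by
    unfold dl; exact measurable_const.sub (hn.inner hV)
  have h3 : Measurable (fun w : ℝ × R3 × R3 => Mom.ep X w.1 w.2.1 w.2.2) := by
    unfold Mom.ep; exact measurable_const.sub (hn.inner hv)
  have h4 : Measurable (fun w : ℝ × R3 × R3 => Dd p w.1 w.2.2) := by
    unfold Dd; exact measurable_const.sub (hV.inner hv)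
  have h5 : Measurable (fun w : ℝ × R3 × R3 => gam w.2.2) :=
    measurable_gam.comp (measurable_snd.comp measurable_snd)
  exact ((measurableSet_le measurable_const h1).inter (measurableSet_lt h1 measurable_const)).inter
    (((measurableSet_le measurable_const h2).inter (measurableSet_lt h2 measurable_const)).inter
    (((measurableSet_le measurable_const h3).inter (measurableSet_lt h3 measurable_const)).inter
    (((measurableSet_le measurable_const h4).inter (measurableSet_lt h4 measurable_const)).inter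
    ((measurableSet_le measurable_const h5).inter (measurableSet_lt h5 measurable_const)))))

lemma shell_congr {X p X' p' : ℝ → R3} {s : ℝ} (hX : X s = X' s) (hp : p s = p' s)
    (R1 d1 e1 D1 Q1 : ℝ) :
    Mom.shell X p R1 d1 e1 D1 Q1 s = Mom.shell X' p' R1 d1 e1 D1 Q1 s := by
  unfold Mom.shell Rr dl Mom.ep Dd nn
  rw [hX, hp]

variable {T : ℝ} {a' : ℝ → Z → Z} {Φ Ψ : ℝ → Z → Z} {f : ℝ → R3 → R3 → ℝ} {E B : ℝ → R3 → R3}

/-- **CMP** from the label flow and the energy bound. -/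
theorem cmp_of (L : LFlow T a' Φ Ψ) (hv : ∀ τ w, (a' τ w).1 = relVel w.2)
    (hT : Transp T f Ψ) (hf : Measurable fun p : ℝ × R3 × R3 => f p.1 p.2.1 p.2.2)
    (hchar : ∀ z : R3 × R3, f 0 z.1 z.2 ≠ 0 →
      IsChar T f E B (fun t => (Φ t z).1) (fun t => (Φ t z).2))
    (hmp : ∀ t ∈ Ico 0 T, MeasurePreserving (Φ t) volume volume)
    {E0 : ℝ} (hE0 : 0 ≤ E0) (hen : ∀ t ∈ Ico 0 T,
      ∫⁻ z : R3 × R3, ENNReal.ofReal (gam z.2 * f t z.1 z.2) ≤ ENNReal.ofReal E0) :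
    CMP T f E B := by
  classical
  refine ⟨Φ, hchar, fun t ht => L.measurable_Phi ht, ⟨E0, hE0, ?_⟩, ?_⟩
  · -- energy
    intro t ht
    refine le_trans (le_of_eq ?_) (hen t ht)
    have hgm : Measurable (fun z : Z => ENNReal.ofReal (gam z.2)) :=
      (measurable_gam.comp measurable_snd).ennreal_ofReal
    have hft : Measurable (fun z : Z => ENNReal.ofReal (f t z.1 z.2)) :=
      (hf.comp (measurable_const.prodMk measurable_id)).ennreal_ofReal
    have h0 : Measurable (fun z : Z => ENNReal.ofReal (f 0 z.1 z.2)) := measurable_f0 hf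
    unfold labM
    rw [lintegral_withDensity_eq_lintegral_mul_non_measurable _ h0
      (Eventually.of_forall fun _ => ENNReal.ofReal_lt_top)]
    have h1 : ∀ z : Z, ((fun z : Z => ENNReal.ofReal (f 0 z.1 z.2)) *
        fun z : Z => ENNReal.ofReal (gam (Φ t z).2)) z =
        (fun w : Z => ENNReal.ofReal (gam w.2 * f t w.1 w.2)) (Φ t z) := by
      intro z
      have h2 : f t (Φ t z).1 (Φ t z).2 = f 0 z.1 z.2 := by
        rw [hT t ht (Φ t z), L.left_inv t ht]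
      simp only [Pi.mul_apply]
      rw [h2, mul_comm, ENNReal.ofReal_mul (by unfold gam; positivity)]
    rw [lintegral_congr h1]
    have h3 : (fun w : Z => ENNReal.ofReal (gam w.2 * f t w.1 w.2)) =
        fun w : Z => ENNReal.ofReal (gam w.2) * ENNReal.ofReal (f t w.1 w.2) := by
      funext w
      rw [ENNReal.ofReal_mul (by unfold gam; positivity)]
    have h4 : Measurable (fun w : Z => ENNReal.ofReal (gam w.2 * f t w.1 w.2)) := by
      rw [h3]; exact hgm.mul hft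
    exact (hmp t ht).lintegral_comp h4
  · intro X p hXp R1 d1 e1 D1 Q1 hR1 hd1 he1 hD1 hQ1 b c hb hbc hc
    -- the test curve
    have hV1 : ∀ s ∈ Ioo 0 T, ‖relVel (p s)‖ < 1 := fun s _ => norm_relVel_lt _
    have hXs : SubL T X := subL_of_deriv hXp.cX hXp.dX hV1
    have hYd : ∀ z : Z, ∀ τ ∈ Ioo 0 T, HasDerivAt (fun t => (Φ t z).1) (relVel (Φ τ z).2) τ := by
      intro z τ hτ
      have h := (ContinuousLinearMap.fst ℝ R3 R3).hasFDerivAt.comp_hasDerivAt τ (L.deriv τ hτ z)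
      have h2 : (ContinuousLinearMap.fst ℝ R3 R3) (a' τ (Φ τ z)) = relVel (Φ τ z).2 := hv _ _
      rw [h2] at h
      exact h
    have hlip : ∀ s ∈ Icc 0 c, ∀ t ∈ Icc 0 c, ‖X s - X t‖ ≤ |s - t| := by
      intro s hs t ht
      have hs' : s ∈ Ico 0 T := ⟨hs.1, hs.2.trans_lt hc⟩
      have ht' : t ∈ Ico 0 T := ⟨ht.1, ht.2.trans_lt hc⟩
      rcases lt_trichotomy s t with h | h | h
      · rw [norm_sub_rev, abs_sub_comm, abs_of_pos (by linarith)]
        exact (hXs s hs' t ht' h).le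
      · subst h; simp
      · rw [abs_of_pos (by linarith)]
        exact (hXs t ht' s hs' h).le
    have hsubI : Icc b c ⊆ Ico 0 T := fun x hx => ⟨hb.trans hx.1, hx.2.trans_lt hc⟩
    -- measurable version of the curve
    set X' : ℝ → R3 := fun t => X (clamp b c t) with hX'
    set p' : ℝ → R3 := fun t => p (clamp b c t) with hp'
    have hX'm : Measurable X' := ((hXp.cX.mono hsubI).comp_continuous (continuous_clamp b c)
      (clamp_mem hbc)).measurable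
    have hp'm : Measurable p' := ((hXp.cp.mono hsubI).comp_continuous (continuous_clamp b c)
      (clamp_mem hbc)).measurable
    have hshc : ∀ s ∈ Icc b c, Mom.shell X p R1 d1 e1 D1 Q1 s =
        Mom.shell X' p' R1 d1 e1 D1 Q1 s := by
      intro s hs
      refine shell_congr ?_ ?_ _ _ _ _ _
      · simp only [hX']; rw [clamp_of_mem hs]
      · simp only [hp']; rw [clamp_of_mem hs]
    obtain ⟨M, hMm, hMiff⟩ : ∃ M : Set (ℝ × Z), MeasurableSet M ∧
        ∀ s q, (s, q) ∈ M ↔ q ∈ Mom.shell X' p' R1 d1 e1 D1 Q1 s :=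
      ⟨{w : ℝ × R3 × R3 | w.2 ∈ Mom.shell X' p' R1 d1 e1 D1 Q1 w.1},
        measurableSet_shell hX'm hp'm R1 d1 e1 D1 Q1, fun _ _ => Iff.rfl⟩
    have hMshell : ∀ s q, (s, q) ∈ M → q ∈ Mom.shell X' p' R1 d1 e1 D1 Q1 s :=
      fun s q h => (hMiff s q).1 h
    have hMs : ∀ s, MeasurableSet (Mom.shell X' p' R1 d1 e1 D1 Q1 s) := by
      intro s
      have h1 := hMm.preimage (measurable_const.prodMk measurable_id :
        Measurable fun q : Z => (s, q))
      convert h1 using 1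
      ext q
      exact (hMiff s q).symm
    obtain ⟨g, hg⟩ : ∃ g : ℝ → Z → ℝ≥0∞, ∀ s q, g s q = M.indicator 1 (s, q) :=
      ⟨fun s q => M.indicator 1 (s, q), fun _ _ => rfl⟩
    have hgm : Measurable (fun w : ℝ × Z => g w.1 w.2) := by
      have h1 : (fun w : ℝ × Z => g w.1 w.2) = M.indicator 1 := by
        funext w; exact hg w.1 w.2
      rw [h1]
      exact measurable_one.indicator hMm
    have hkap : ∀ s ∈ Icc b c, kap f X s (Mom.shell X p R1 d1 e1 D1 Q1 s) =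
        ∫⁻ q, g s q ∂(kap f X s) := by
      intro s hs
      rw [hshc s hs, ← lintegral_indicator_one (hMs s)]
      refine lintegral_congr fun q => ?_
      rw [hg]
      rcases Classical.em (q ∈ Mom.shell X' p' R1 d1 e1 D1 Q1 s) with hq | hq
      · rw [indicator_of_mem hq, indicator_of_mem ((hMiff s q).2 hq)]
        rfl
      · rw [indicator_of_notMem hq, indicator_of_notMem (fun h => hq (hMshell s q h))]
    -- A and S
    set A : Z → Set ℝ := fun z => {s | s ∈ Icc b c ∧ z ∈ alive X s ∧ (s, hit Φ s (X s) z) ∈ M}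
      with hA
    have hc0 : 0 ≤ c := hb.trans hbc
    have hAm : ∀ z, MeasurableSet (A z) := by
      intro z
      have h1 : coneW b c X ⊆ Mix.coneSet c X (fun τ z => (Φ τ z).1) := by
        rw [L.coneW_eq hb]; exact inter_subset_right
      have h2 : Mix.MeasOn (coneW b c X) (fun q : ℝ × Z => (q.1, hit Φ q.1 (X q.1) q.2)) :=
        (Mix.MeasOn.of_measurable measurable_fst).prodMk ((L.measOn_hit hc0 hc hlip).mono h1)
      have h3 := h2.measurableSet_inter (L.measurableSet_coneW hb hbc hc hlip) hMm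
      have h4 := h3.preimage (measurable_id.prodMk (measurable_const (a := z)) :
        Measurable fun s : ℝ => (s, z))
      convert h4 using 1
      ext s
      simp only [hA, coneW, mem_ofPred_eq, mem_preimage, mem_inter_iff, id, and_assoc]
    have hAmeet : ∀ z, A z ⊆ meet' T X (fun τ => (Φ τ z).1) := by
      rintro z s ⟨h1, h2, h3⟩
      have h2' : ‖X s - z.1‖ < s := h2
      have hs0 : 0 < s := lt_of_le_of_lt (norm_nonneg _) h2'
      refine ⟨⟨⟨hs0, h1.2.trans_lt hc⟩, ?_⟩, ?_⟩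
      · show ‖X s - (Φ 0 z).1‖ < s
        rw [L.zero]; exact h2'
      · intro hcon
        have h4 := hMshell _ _ h3
        rw [← hshc s h1] at h4
        have h5 : R1 ≤ ‖X s - (hit Φ s (X s) z).1‖ := h4.1.1
        have h6 : (hit Φ s (X s) z).1 = X s := hcon.symm
        rw [h6, sub_self, norm_zero] at h5
        linarith
    set S : Z → Set ℝ := fun z => if f 0 z.1 z.2 = 0 then ∅ else
      (fun s => rt (fun τ => (Φ τ z).1) s (X s)) '' (A z) with hS
    refine ⟨S, fun z => adv T X (fun τ => (Φ τ z).1), ?_, ?_⟩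
    · -- the formula
      have e1 : ∫⁻ s in Icc b c, kap f X s (Mom.shell X p R1 d1 e1 D1 Q1 s) =
          ∫⁻ s in Icc b c, ∫⁻ q, g s q ∂(kap f X s) :=
        setLIntegral_congr_fun measurableSet_Icc hkap
      rw [e1, L.lintegral_kap_time hT hf hb hbc hc hlip hv (Mix.MeasOn.of_measurable hgm)]
      have h0 : Measurable (fun z : Z => ENNReal.ofReal (f 0 z.1 z.2)) := measurable_f0 hf
      unfold m0 labM
      rw [lintegral_withDensity_eq_lintegral_mul_non_measurable _ h0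
        (Eventually.of_forall fun _ => ENNReal.ofReal_lt_top),
        lintegral_withDensity_eq_lintegral_mul_non_measurable _ h0
        (Eventually.of_forall fun _ => ENNReal.ofReal_lt_top)]
      refine lintegral_mono fun z => ?_
      simp only [Pi.mul_apply]
      by_cases hz : f 0 z.1 z.2 = 0
      · rw [hz]; simp
      · refine mul_le_mul_right ?_ _
        have hSz : S z = (fun s => rt (fun τ => (Φ τ z).1) s (X s)) '' (A z) := by
          simp only [hS]; rw [if_neg hz]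
        rw [hSz]
        have e2 := lintegral_rt (T := T) (X := X) (Y := fun τ => (Φ τ z).1)
          (V := fun t => relVel (p t)) (v := fun τ => relVel (Φ τ z).2) hXs (L.subL z) hXp.dX
          (hYd z) hV1 (fun _ _ => norm_relVel_lt _) (hAm z) (hAmeet z) (fun _ => 1)
        simp only [one_mul] at e2
        rw [← e2]
        have hms : MeasurableSet (Icc b c ∩ {s | z ∈ alive X s}) := by
          have := (L.measurableSet_coneW hb hbc hc hlip).preimage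
            (measurable_id.prodMk (measurable_const (a := z)) : Measurable fun s : ℝ => (s, z))
          exact this
        rw [← lintegral_indicator hms, ← lintegral_indicator (hAm z)]
        refine lintegral_mono fun s => ?_
        by_cases hs : s ∈ Icc b c ∩ {s | z ∈ alive X s}
        · rw [indicator_of_mem hs]
          by_cases hsM : (s, hit Φ s (X s) z) ∈ M
          · rw [indicator_of_mem (show s ∈ A z from ⟨hs.1, hs.2, hsM⟩)]
            unfold lint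
            rw [hg, indicator_of_mem hsM, Pi.one_apply, one_div, ← ENNReal.ofReal_inv_of_pos
              (L.ep_pos _ _ _)]
            refine ENNReal.ofReal_le_ofReal (le_of_eq ?_)
            rw [CM.ep, hv, one_div]
            rfl
          · unfold lint
            rw [hg, indicator_of_notMem hsM]
            simp
        · rw [indicator_of_notMem hs]; exact zero_le
    · intro z hz
      have hz0 : f 0 z.1 z.2 ≠ 0 := by
        intro h
        simp only [hS] at hz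
        rw [if_pos h] at hz
        exact not_nonempty_empty hz
      have hSz : S z = (fun s => rt (fun τ => (Φ τ z).1) s (X s)) '' (A z) := by
        simp only [hS]; rw [if_neg hz0]
      rw [hSz]
      have hAm' : A z ⊆ meet T X (fun τ => (Φ τ z).1) := fun s hs => (hAmeet z hs).1
      refine ⟨hz0, measurableSet_image_rt hXs (L.subL z) (hAm z) hAm',
        adv_injOn hXs (L.subL z) hAm', fun τ hτ => ?_⟩
      obtain ⟨k1, k2, k3, k4, k5, k6⟩ := image_rt_spec hXs (L.subL z) (hAmeet z) hτ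
      have k1' := k1
      obtain ⟨m1, m2, m3⟩ := k1
      refine ⟨k3, k4, m1.1, m1.2, k5, ?_, ?_⟩
      · have h4 := hMshell _ _ m3
        rw [← hshc _ m1] at h4
        have h5 : hit Φ (adv T X (fun τ => (Φ τ z).1) τ)
            (X (adv T X (fun τ => (Φ τ z).1) τ)) z = Φ τ z := by
          unfold hit rtL
          rw [k2]
        rwa [h5] at h4
      · exact adv_hasDerivWithinAt (V := fun t => relVel (p t)) (v := fun τ => relVel (Φ τ z).2)
          hXs (L.subL z) hXp.dX (hYd z) hV1 (fun _ _ => norm_relVel_lt _) (hAmeet z) hτ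

end Crest.Agent.R106.Occ
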