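import Mathlib
import Crest.Prelude.Def_VlasovMaxwell
import Crest.Agent.R106.Cal
import Crest.Agent.R106.Main0

-- ▼ part R106/VC
section

/-!
Row 106 (S0140): vector calculus on R3 (helper756).
-/

set_option autoImplicit false
set_option linter.unusedSectionVars false

open MeasureTheory Set Topology Filter
open scoped ContDiff
open Crest.AnalysisR.VecCalc3 Crest.AnalysisR.PDE.RVM

namespace Crest.Agent.R106.UQ

theorem norm_sq3 (x : R3) : ‖x‖ ^ 2 = x 0 ^ 2 + x 1 ^ 2 + x 2 ^ 2 := by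
  rw [EuclideanSpace.norm_sq_eq, Fin.sum_univ_three]
  simp

theorem abs_apply_le (x : R3) (i : Fin 3) : |x i| ≤ ‖x‖ := by
  have := PiLp.norm_apply_le x i
  simpa using this

@[simp] theorem cross3_0 (a b : R3) : cross3 a b 0 = a 1 * b 2 - a 2 * b 1 := rfl
@[simp] theorem cross3_1 (a b : R3) : cross3 a b 1 = a 2 * b 0 - a 0 * b 2 := rfl
@[simp] theorem cross3_2 (a b : R3) : cross3 a b 2 = a 0 * b 1 - a 1 * b 0 := rfl

@[simp] theorem curl3_0 (F : R3 → R3) (x : R3) :
    curl3 F x 0 = pderiv (fun y => F y 2) 1 x - pderiv (fun y => F y 1) 2 x := rfl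
@[simp] theorem curl3_1 (F : R3 → R3) (x : R3) :
    curl3 F x 1 = pderiv (fun y => F y 0) 2 x - pderiv (fun y => F y 2) 0 x := rfl
@[simp] theorem curl3_2 (F : R3 → R3) (x : R3) :
    curl3 F x 2 = pderiv (fun y => F y 1) 0 x - pderiv (fun y => F y 0) 1 x := rfl

theorem one_add_pos (v : R3) : 0 < 1 + ‖v‖ ^ 2 := by positivity

theorem relVel_apply (v : R3) (i : Fin 3) : relVel v i = (Real.sqrt (1 + ‖v‖ ^ 2))⁻¹ * v i := rfl

theorem contDiff_lam {n : ℕ∞ω} : ContDiff ℝ n (fun v : R3 => (Real.sqrt (1 + ‖v‖ ^ 2))⁻¹) := by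
  refine ContDiff.inv ?_ fun v => (Real.sqrt_pos.2 (one_add_pos v)).ne'
  refine ContDiff.sqrt ?_ fun v => (one_add_pos v).ne'
  exact contDiff_const.add (contDiff_norm_sq ℝ)

theorem contDiff_coord {n : ℕ∞ω} (i : Fin 3) : ContDiff ℝ n (fun v : R3 => v i) :=
  (EuclideanSpace.proj i : R3 →L[ℝ] ℝ).contDiff

theorem contDiff_relVel {n : ℕ∞ω} : ContDiff ℝ n relVel :=
  contDiff_lam.smul contDiff_id

theorem contDiff_relVel_apply {n : ℕ∞ω} (i : Fin 3) : ContDiff ℝ n (fun v => relVel v i) :=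
  contDiff_lam.mul (contDiff_coord i)

theorem norm_relVel_lt (v : R3) : ‖relVel v‖ < 1 := by
  have h1 := one_add_pos v
  have h2 : ‖v‖ < Real.sqrt (1 + ‖v‖ ^ 2) := Real.lt_sqrt_of_sq_lt (by linarith)
  have h3 : 0 < Real.sqrt (1 + ‖v‖ ^ 2) := Real.sqrt_pos.2 h1
  rw [relVel, norm_smul, Real.norm_eq_abs, abs_inv, abs_of_pos h3, inv_mul_lt_iff₀ h3]
  simpa using h2


/-! ### partial derivatives -/

theorem pderiv_add {f g : R3 → ℝ} {x : R3} (hf : DifferentiableAt ℝ f x)
    (hg : DifferentiableAt ℝ g x) (i : Fin 3) :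
    pderiv (fun y => f y + g y) i x = pderiv f i x + pderiv g i x := by
  simp only [pderiv]
  rw [fderiv_fun_add hf hg]; rfl

theorem pderiv_sub {f g : R3 → ℝ} {x : R3} (hf : DifferentiableAt ℝ f x)
    (hg : DifferentiableAt ℝ g x) (i : Fin 3) :
    pderiv (fun y => f y - g y) i x = pderiv f i x - pderiv g i x := by
  simp only [pderiv]
  rw [fderiv_fun_sub hf hg]; rfl

theorem pderiv_mul {f g : R3 → ℝ} {x : R3} (hf : DifferentiableAt ℝ f x)
    (hg : DifferentiableAt ℝ g x) (i : Fin 3) :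
    pderiv (fun y => f y * g y) i x = f x * pderiv g i x + g x * pderiv f i x := by
  simp only [pderiv]
  rw [fderiv_fun_mul hf hg]; rfl

theorem pderiv_const (c : ℝ) (i : Fin 3) (x : R3) : pderiv (fun _ => c) i x = 0 := by
  simp [pderiv]

theorem pderiv_coord (i j : Fin 3) (x : R3) : pderiv (fun y : R3 => y j) i x = if j = i then 1 else 0 := by
  simp only [pderiv]
  have : (fun y : R3 => y j) = (EuclideanSpace.proj j : R3 →L[ℝ] ℝ) := rfl
  rw [this, ContinuousLinearMap.fderiv]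
  simp

theorem hasFDerivAt_lam (v : R3) : HasFDerivAt (fun v : R3 => (Real.sqrt (1 + ‖v‖ ^ 2))⁻¹)
    (-((Real.sqrt (1 + ‖v‖ ^ 2))⁻¹) ^ 3 • innerSL ℝ v) v := by
  have h0 : HasFDerivAt (fun v : R3 => 1 + ‖v‖ ^ 2) (2 • innerSL ℝ v) v :=
    (hasStrictFDerivAt_norm_sq v).hasFDerivAt.const_add 1
  have h1 := h0.sqrt (one_add_pos v).ne'
  have hs : Real.sqrt (1 + ‖v‖ ^ 2) ≠ 0 := (Real.sqrt_pos.2 (one_add_pos v)).ne'
  have h2 := (hasDerivAt_inv hs).comp_hasFDerivAt v h1
  refine h2.congr_fderiv ?_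
  ext w
  simp
  field_simp

theorem pderiv_lam (v : R3) (i : Fin 3) : pderiv (fun v : R3 => (Real.sqrt (1 + ‖v‖ ^ 2))⁻¹) i v =
    -((Real.sqrt (1 + ‖v‖ ^ 2))⁻¹) ^ 3 * v i := by
  rw [pderiv, (hasFDerivAt_lam v).fderiv]
  simp [EuclideanSpace.inner_single_right]

theorem pderiv_relVel (v : R3) (i j : Fin 3) : pderiv (fun v => relVel v j) i v =
    (Real.sqrt (1 + ‖v‖ ^ 2))⁻¹ * (if j = i then 1 else 0) -
      ((Real.sqrt (1 + ‖v‖ ^ 2))⁻¹) ^ 3 * v i * v j := by
  have h : (fun v => relVel v j) = fun v : R3 => (Real.sqrt (1 + ‖v‖ ^ 2))⁻¹ * v j := rfl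
  rw [h, pderiv_mul ((hasFDerivAt_lam v).differentiableAt)
    ((contDiff_coord (n := 1) j).differentiable one_ne_zero v), pderiv_coord, pderiv_lam]
  ring

/-- `div_v (u(v) × B) = 0`. -/
theorem div_cross_relVel (B v : R3) : ∑ i, pderiv (fun w => cross3 (relVel w) B i) i v = 0 := by
  have hd : ∀ j, DifferentiableAt ℝ (fun w : R3 => relVel w j) v := fun j =>
    (contDiff_relVel_apply (n := 1) j).differentiable one_ne_zero v
  have h : ∀ (j k : Fin 3) (i : Fin 3) (a b : ℝ),
      pderiv (fun w => relVel w j * a - relVel w k * b) i v =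
        pderiv (fun w => relVel w j) i v * a - pderiv (fun w => relVel w k) i v * b := by
    intro j k i a b
    rw [pderiv_sub ((hd j).mul_const a) ((hd k).mul_const b),
      pderiv_mul (hd j) (differentiableAt_const a), pderiv_mul (hd k) (differentiableAt_const b),
      pderiv_const, pderiv_const]
    ring
  rw [Fin.sum_univ_three]
  simp only [cross3_0, cross3_1, cross3_2]
  rw [h, h, h]
  simp only [pderiv_relVel]
  simp
  ring

/-- partial derivatives as Fréchet derivatives on the product -/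
theorem pderiv_fst {h : R3 × R3 → ℝ} {x v : R3} (hh : DifferentiableAt ℝ h (x, v)) (i : Fin 3) :
    pderiv (fun y => h (y, v)) i x = fderiv ℝ h (x, v) (EuclideanSpace.single i 1, 0) := by
  have h2 := hh.hasFDerivAt.comp (f := fun y : R3 => ((y, v) : R3 × R3)) x
    ((hasFDerivAt_id x).prodMk (hasFDerivAt_const v x))
  rw [pderiv]
  have : (fun y => h (y, v)) = h ∘ (fun y : R3 => ((y, v) : R3 × R3)) := rfl
  rw [this, h2.fderiv]
  simp

theorem pderiv_snd {h : R3 × R3 → ℝ} {x v : R3} (hh : DifferentiableAt ℝ h (x, v)) (i : Fin 3) :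
    pderiv (fun w => h (x, w)) i v = fderiv ℝ h (x, v) (0, EuclideanSpace.single i 1) := by
  have h2 := hh.hasFDerivAt.comp (f := fun w : R3 => ((x, w) : R3 × R3)) v
    ((hasFDerivAt_const x v).prodMk (hasFDerivAt_id v))
  rw [pderiv]
  have : (fun w => h (x, w)) = h ∘ (fun w : R3 => ((x, w) : R3 × R3)) := rfl
  rw [this, h2.fderiv]
  simp

/-- `|a·(b×c)| ≤ |a||b||c|` in squared form. -/
theorem triple_sq_le (a b c : R3) : (∑ i, a i * cross3 b c i) ^ 2 ≤ ‖a‖ ^ 2 * (‖b‖ ^ 2 * ‖c‖ ^ 2) := by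
  rw [Fin.sum_univ_three, norm_sq3, norm_sq3, norm_sq3, cross3_0, cross3_1, cross3_2]
  have h1 : (b 1 * c 2 - b 2 * c 1) ^ 2 + (b 2 * c 0 - b 0 * c 2) ^ 2 + (b 0 * c 1 - b 1 * c 0) ^ 2 ≤
      (b 0 ^ 2 + b 1 ^ 2 + b 2 ^ 2) * (c 0 ^ 2 + c 1 ^ 2 + c 2 ^ 2) := by
    nlinarith [sq_nonneg (b 0 * c 0 + b 1 * c 1 + b 2 * c 2)]
  set p := b 1 * c 2 - b 2 * c 1
  set q := b 2 * c 0 - b 0 * c 2
  set r := b 0 * c 1 - b 1 * c 0
  have h2 : (a 0 * p + a 1 * q + a 2 * r) ^ 2 ≤ (a 0 ^ 2 + a 1 ^ 2 + a 2 ^ 2) * (p ^ 2 + q ^ 2 + r ^ 2) := by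
    nlinarith [sq_nonneg (a 0 * q - a 1 * p), sq_nonneg (a 0 * r - a 2 * p), sq_nonneg (a 1 * r - a 2 * q)]
  have h3 : 0 ≤ a 0 ^ 2 + a 1 ^ 2 + a 2 ^ 2 := by positivity
  exact h2.trans (mul_le_mul_of_nonneg_left h1 h3)

theorem triple_le {a : R3} (ha : ‖a‖ ≤ 1) (b c : R3) :
    2 * |∑ i, a i * cross3 b c i| ≤ ‖b‖ ^ 2 + ‖c‖ ^ 2 := by
  have h := triple_sq_le a b c
  have h1 : (∑ i, a i * cross3 b c i) ^ 2 ≤ (‖b‖ * ‖c‖) ^ 2 := by
    refine h.trans ?_
    have : ‖a‖ ^ 2 ≤ 1 := by nlinarith [norm_nonneg a]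
    have h2 : 0 ≤ ‖b‖ ^ 2 * ‖c‖ ^ 2 := by positivity
    nlinarith
  have h2 := abs_le_of_sq_le_sq h1 (by positivity)
  have h3 := two_mul_le_add_sq ‖b‖ ‖c‖
  linarith

theorem abs_cross3_le {a : R3} (ha : ‖a‖ ≤ 1) (b : R3) (i : Fin 3) : |cross3 a b i| ≤ 2 * ‖b‖ := by
  have h : ∀ j k l m : Fin 3, |a j * b k - a l * b m| ≤ 2 * ‖b‖ := by
    intro j k l m
    have h1 : |a j * b k| ≤ 1 * ‖b‖ := by
      rw [abs_mul]
      exact mul_le_mul ((abs_apply_le a j).trans ha) (abs_apply_le b k) (abs_nonneg _) zero_le_one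
    have h2 : |a l * b m| ≤ 1 * ‖b‖ := by
      rw [abs_mul]
      exact mul_le_mul ((abs_apply_le a l).trans ha) (abs_apply_le b m) (abs_nonneg _) zero_le_one
    have h3 := abs_sub (a j * b k) (a l * b m)
    linarith
  fin_cases i
  · exact h 1 2 2 1
  · exact h 2 0 0 2
  · exact h 0 1 1 0

theorem cross3_sub_right (a b c : R3) (i : Fin 3) : cross3 a (b - c) i = cross3 a b i - cross3 a c i := by
  fin_cases i <;> simp [cross3] <;> ring

end Crest.Agent.R106.UQ
end

-- ▼ part R106/UniqA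
section

/-!
Row 106 (S0140): pointwise identities for the energy method (helper756).
-/

set_option autoImplicit false
set_option linter.unusedSectionVars false

open MeasureTheory Set Topology Filter
open scoped ContDiff
open Crest.AnalysisR.VecCalc3 Crest.AnalysisR.PDE.RVM

namespace Crest.Agent.R106.UQ

/-- Maxwell energy identity, pointwise, with cutoff. -/
theorem maxwell_pt {e b : R3 → R3} {φ : R3 → ℝ} {x : R3} (he : DifferentiableAt ℝ e x)
    (hb : DifferentiableAt ℝ b x) (hφ : DifferentiableAt ℝ φ x) :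
    φ x * ∑ i, (e x i * curl3 b x i - b x i * curl3 e x i) =
      - ∑ i, pderiv (fun y => φ y * cross3 (e y) (b y) i) i x +
        ∑ i, pderiv φ i x * cross3 (e x) (b x) i := by
  have he' : ∀ j, DifferentiableAt ℝ (fun y => e y j) x := fun j =>
    ((EuclideanSpace.proj j : R3 →L[ℝ] ℝ).differentiableAt).comp x he
  have hb' : ∀ j, DifferentiableAt ℝ (fun y => b y j) x := fun j =>
    ((EuclideanSpace.proj j : R3 →L[ℝ] ℝ).differentiableAt).comp x hb
  have h : ∀ j k i : Fin 3, pderiv (fun y => φ y * (e y j * b y k - e y k * b y j)) i x =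
      φ x * (e x j * pderiv (fun y => b y k) i x + b x k * pderiv (fun y => e y j) i x -
        (e x k * pderiv (fun y => b y j) i x + b x j * pderiv (fun y => e y k) i x)) +
        (e x j * b x k - e x k * b x j) * pderiv φ i x := by
    intro j k i
    rw [pderiv_mul hφ (((he' j).fun_mul (hb' k)).fun_sub ((he' k).fun_mul (hb' j))),
      pderiv_sub ((he' j).fun_mul (hb' k)) ((he' k).fun_mul (hb' j)), pderiv_mul (he' j) (hb' k),
      pderiv_mul (he' k) (hb' j)]
  simp only [Fin.sum_univ_three, cross3_0, cross3_1, cross3_2, curl3_0, curl3_1, curl3_2]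
  rw [h 1 2 0, h 2 0 1, h 0 1 2]
  ring

/-- Vlasov: pointwise identity for the square of the difference. -/
theorem vlasov_pt {f f' : R3 → R3 → ℝ} {E B E' B' : R3 → R3} {x v : R3} {ft ft' : ℝ}
    (hx : DifferentiableAt ℝ (fun y => f y v) x) (hx' : DifferentiableAt ℝ (fun y => f' y v) x)
    (hv : DifferentiableAt ℝ (fun w => f x w) v) (hv' : DifferentiableAt ℝ (fun w => f' x w) v)
    (h : ft + ∑ i : Fin 3, relVel v i * pderiv (fun y => f y v) i x
      + ∑ i : Fin 3, (E x i + cross3 (relVel v) (B x) i) * pderiv (fun w => f x w) i v = 0)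
    (h' : ft' + ∑ i : Fin 3, relVel v i * pderiv (fun y => f' y v) i x
      + ∑ i : Fin 3, (E' x i + cross3 (relVel v) (B' x) i) * pderiv (fun w => f' x w) i v = 0) :
    2 * (f x v - f' x v) * (ft - ft') =
      - ∑ i, pderiv (fun y => relVel v i * ((f y v - f' y v) * (f y v - f' y v))) i x
      - ∑ i, pderiv (fun w => (E x i + cross3 (relVel w) (B x) i) *
          ((f x w - f' x w) * (f x w - f' x w))) i v
      - 2 * (f x v - f' x v) * ∑ i, ((E x i - E' x i) + cross3 (relVel v) (B x - B' x) i) *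
          pderiv (fun w => f' x w) i v := by
  have hg := hx.fun_sub hx'
  have hgv := hv.fun_sub hv'
  have h1 : ∀ i, pderiv (fun y => relVel v i * ((f y v - f' y v) * (f y v - f' y v))) i x =
      relVel v i * (2 * (f x v - f' x v) *
        (pderiv (fun y => f y v) i x - pderiv (fun y => f' y v) i x)) := by
    intro i
    rw [pderiv_mul (f := fun _ : R3 => relVel v i) (differentiableAt_const _) (hg.fun_mul hg) i,
      pderiv_mul hg hg i, pderiv_sub hx hx' i, pderiv_const]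
    ring
  have hK : ∀ i, DifferentiableAt ℝ (fun w => cross3 (relVel w) (B x) i) v := by
    intro i
    have hd : ∀ j, DifferentiableAt ℝ (fun w : R3 => relVel w j) v := fun j =>
      (contDiff_relVel_apply (n := 1) j).differentiable one_ne_zero v
    fin_cases i
    · exact ((hd 1).mul_const _).fun_sub ((hd 2).mul_const _)
    · exact ((hd 2).mul_const _).fun_sub ((hd 0).mul_const _)
    · exact ((hd 0).mul_const _).fun_sub ((hd 1).mul_const _)
  have h2 : ∀ i, pderiv (fun w => (E x i + cross3 (relVel w) (B x) i) *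
          ((f x w - f' x w) * (f x w - f' x w))) i v =
      (E x i + cross3 (relVel v) (B x) i) * (2 * (f x v - f' x v) *
        (pderiv (fun w => f x w) i v - pderiv (fun w => f' x w) i v)) +
      ((f x v - f' x v) * (f x v - f' x v)) * pderiv (fun w => cross3 (relVel w) (B x) i) i v := by
    intro i
    have hKi : DifferentiableAt ℝ (fun w => E x i + cross3 (relVel w) (B x) i) v :=
      (differentiableAt_const _).fun_add (hK i)
    rw [pderiv_mul hKi (hgv.fun_mul hgv) i, pderiv_mul hgv hgv i, pderiv_sub hv hv' i,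
      pderiv_add (f := fun _ : R3 => E x i) (differentiableAt_const _) (hK i) i, pderiv_const]
    ring
  have h3 := div_cross_relVel (B x) v
  simp only [h1, h2, cross3_sub_right]
  have h4 : ∑ i, ((E x i + cross3 (relVel v) (B x) i) * (2 * (f x v - f' x v) *
        (pderiv (fun w => f x w) i v - pderiv (fun w => f' x w) i v)) +
      ((f x v - f' x v) * (f x v - f' x v)) * pderiv (fun w => cross3 (relVel w) (B x) i) i v) =
      ∑ i, (E x i + cross3 (relVel v) (B x) i) * (2 * (f x v - f' x v) *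
        (pderiv (fun w => f x w) i v - pderiv (fun w => f' x w) i v)) := by
    rw [Finset.sum_add_distrib, ← Finset.mul_sum, h3]; ring
  rw [h4]
  simp only [Fin.sum_univ_three] at h h' ⊢
  linear_combination (2 * (f x v - f' x v)) * h - (2 * (f x v - f' x v)) * h'

/-- the space-time cutoff -/
noncomputable def cut (N s : ℝ) (x : R3) : ℝ :=
  Real.smoothTransition (N + 1 - s - Real.sqrt (1 + ‖x‖ ^ 2))

theorem cut_nonneg (N s : ℝ) (x : R3) : 0 ≤ cut N s x := Real.smoothTransition.nonneg _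
theorem cut_le_one (N s : ℝ) (x : R3) : cut N s x ≤ 1 := Real.smoothTransition.le_one _
theorem cut_eq_one {N s : ℝ} {x : R3} (h : s + Real.sqrt (1 + ‖x‖ ^ 2) ≤ N) : cut N s x = 1 :=
  Real.smoothTransition.one_of_one_le (by linarith)
theorem cut_eq_zero {N s : ℝ} (hs : 0 ≤ s) {x : R3} (h : x ∉ Metric.closedBall (0 : R3) (|N| + 1)) :
    cut N s x = 0 := by
  refine Real.smoothTransition.zero_of_nonpos ?_
  have h1 : |N| + 1 < ‖x‖ := by simpa using h
  have h2 : ‖x‖ ≤ Real.sqrt (1 + ‖x‖ ^ 2) := Real.le_sqrt_of_sq_le (by linarith)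
  have h3 := le_abs_self N
  linarith

theorem contDiff_bracket {n : ℕ∞ω} : ContDiff ℝ n (fun x : R3 => Real.sqrt (1 + ‖x‖ ^ 2)) :=
  ContDiff.sqrt (contDiff_const.add (contDiff_norm_sq ℝ)) fun v => (one_add_pos v).ne'

theorem contDiff_cut (N : ℝ) {n : ℕ∞} : ContDiff ℝ n (fun p : ℝ × R3 => cut N p.1 p.2) := by
  have h : ContDiff ℝ n (fun p : ℝ × R3 => N + 1 - p.1 - Real.sqrt (1 + ‖p.2‖ ^ 2)) :=
    (contDiff_const.sub contDiff_fst).sub (contDiff_bracket.comp contDiff_snd)
  exact Real.smoothTransition.contDiff.comp h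

/-- the (nonnegative) derivative of the profile -/
noncomputable def cutD (N s : ℝ) (x : R3) : ℝ :=
  deriv Real.smoothTransition (N + 1 - s - Real.sqrt (1 + ‖x‖ ^ 2))

theorem cutD_nonneg (N s : ℝ) (x : R3) : 0 ≤ cutD N s x :=
  Real.smoothTransition.monotone.deriv_nonneg

theorem hasDerivAt_smoothTransition (r : ℝ) :
    HasDerivAt Real.smoothTransition (deriv Real.smoothTransition r) r :=
  ((Real.smoothTransition.contDiff (n := 1)).differentiable one_ne_zero r).hasDerivAt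

theorem cut_time (N s : ℝ) (x : R3) : HasDerivAt (fun r => cut N r x) (-cutD N s x) s := by
  have h : HasDerivAt (fun r : ℝ => N + 1 - r - Real.sqrt (1 + ‖x‖ ^ 2)) (-1) s := by
    have := ((hasDerivAt_id s).const_sub (N + 1)).sub_const (Real.sqrt (1 + ‖x‖ ^ 2))
    simpa using this
  have h2 := (hasDerivAt_smoothTransition (N + 1 - s - Real.sqrt (1 + ‖x‖ ^ 2))).comp s h
  simpa [cutD, cut, Function.comp_def] using h2

theorem hasFDerivAt_bracket (x : R3) : HasFDerivAt (fun v : R3 => Real.sqrt (1 + ‖v‖ ^ 2))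
    ((Real.sqrt (1 + ‖x‖ ^ 2))⁻¹ • innerSL ℝ x) x := by
  have h0 : HasFDerivAt (fun v : R3 => 1 + ‖v‖ ^ 2) (2 • innerSL ℝ x) x :=
    (hasStrictFDerivAt_norm_sq x).hasFDerivAt.const_add 1
  have h1 := h0.sqrt (one_add_pos x).ne'
  refine h1.congr_fderiv ?_
  ext w
  simp
  ring

theorem cut_space (N s : ℝ) (x : R3) (i : Fin 3) :
    pderiv (cut N s) i x = -cutD N s x * relVel x i := by
  have h : HasFDerivAt (fun y : R3 => N + 1 - s - Real.sqrt (1 + ‖y‖ ^ 2))
      (-((Real.sqrt (1 + ‖x‖ ^ 2))⁻¹ • innerSL ℝ x)) x :=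
    (hasFDerivAt_bracket x).const_sub _
  have h2 := (hasDerivAt_smoothTransition (N + 1 - s - Real.sqrt (1 + ‖x‖ ^ 2))).comp_hasFDerivAt x h
  have h3 : (Real.smoothTransition ∘ fun y : R3 => N + 1 - s - Real.sqrt (1 + ‖y‖ ^ 2)) = cut N s :=
    rfl
  rw [h3] at h2
  rw [pderiv, h2.fderiv]
  simp [cutD, relVel_apply, EuclideanSpace.inner_single_right]

end Crest.Agent.R106.UQ
end

-- ▼ part R106/Uniq
section

/-!
Row 106 (S0140): uniqueness of classical solutions (helper756).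
-/

set_option autoImplicit false
set_option linter.unusedSectionVars false

open MeasureTheory Set Topology Filter
open scoped ContDiff
open Crest.AnalysisR.VecCalc3 Crest.AnalysisR.PDE.RVM

namespace Crest.Agent.R106.UQ

instance instHaarR3R3 : (volume : Measure (R3 × R3)).IsAddHaarMeasure := by
  rw [Measure.volume_eq_prod]
  exact Measure.prod.instIsAddHaarMeasure _ _

/-- Two solutions on `[0,T)`, restricted to `[0,T']`, supports in the ball of radius `R`. -/
structure Diff (T T' R : ℝ) (f f' : ℝ → R3 → R3 → ℝ) (E B E' B' : ℝ → R3 → R3) : Prop where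
  hT0 : 0 < T'
  hT : T' < T
  hR : 0 ≤ R
  hf : ContDiffOn ℝ 1 (fun p : ℝ × R3 × R3 => f p.1 p.2.1 p.2.2) (Ico 0 T ×ˢ univ)
  hf' : ContDiffOn ℝ 1 (fun p : ℝ × R3 × R3 => f' p.1 p.2.1 p.2.2) (Ico 0 T ×ˢ univ)
  hE : ContDiffOn ℝ 1 (fun p : ℝ × R3 => E p.1 p.2) (Ico 0 T ×ˢ univ)
  hB : ContDiffOn ℝ 1 (fun p : ℝ × R3 => B p.1 p.2) (Ico 0 T ×ˢ univ)
  hE' : ContDiffOn ℝ 1 (fun p : ℝ × R3 => E' p.1 p.2) (Ico 0 T ×ˢ univ)
  hB' : ContDiffOn ℝ 1 (fun p : ℝ × R3 => B' p.1 p.2) (Ico 0 T ×ˢ univ)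
  eqs : ∀ t : ℝ, 0 < t → t < T → ∀ x : R3, EquationsHoldAt f E B t x
  eqs' : ∀ t : ℝ, 0 < t → t < T → ∀ x : R3, EquationsHoldAt f' E' B' t x
  supp : ∀ t ∈ Icc 0 T', ∀ x v : R3, (R < ‖x‖ ∨ R < ‖v‖) → f t x v = 0
  supp' : ∀ t ∈ Icc 0 T', ∀ x v : R3, (R < ‖x‖ ∨ R < ‖v‖) → f' t x v = 0

namespace Diff

variable {T T' R : ℝ} {f f' : ℝ → R3 → R3 → ℝ} {E B E' B' : ℝ → R3 → R3}
  (D : Diff T T' R f f' E B E' B')

include D

set_option quotPrecheck false in
/-- ball of radius `R` -/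
local notation "𝔹" => Metric.closedBall (0 : R3) R
set_option quotPrecheck false in
local notation "𝕂" => (Metric.closedBall (0 : R3) R ×ˢ Metric.closedBall (0 : R3) R : Set (R3 × R3))

theorem hF : ContDiffOn ℝ 1 (fun q : ℝ × (R3 × R3) => f q.1 q.2.1 q.2.2 - f' q.1 q.2.1 q.2.2)
    (Ico 0 T ×ˢ univ) := D.hf.sub D.hf'

theorem hFF : ContDiffOn ℝ 1 (fun q : ℝ × (R3 × R3) => (f q.1 q.2.1 q.2.2 - f' q.1 q.2.1 q.2.2) *
    (f q.1 q.2.1 q.2.2 - f' q.1 q.2.1 q.2.2)) (Ico 0 T ×ˢ univ) := D.hF.mul D.hF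

theorem F_zero {s : ℝ} (hs : s ∈ Icc 0 T') {p : R3 × R3} (hp : p ∉ 𝕂) :
    f s p.1 p.2 - f' s p.1 p.2 = 0 := by
  have h : R < ‖p.1‖ ∨ R < ‖p.2‖ := by
    by_contra hc
    push Not at hc
    exact hp ⟨by simpa using hc.1, by simpa using hc.2⟩
  rw [D.supp s hs _ _ h, D.supp' s hs _ _ h, sub_zero]

theorem isCompact_K : IsCompact (𝕂) :=
  (isCompact_closedBall _ _).prod (isCompact_closedBall _ _)

theorem hasCompactSupport_mul {s : ℝ} (hs : s ∈ Icc 0 T') (a : R3 × R3 → ℝ) :
    HasCompactSupport (fun p : R3 × R3 => a p * ((f s p.1 p.2 - f' s p.1 p.2) *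
      (f s p.1 p.2 - f' s p.1 p.2))) := by
  refine HasCompactSupport.intro D.isCompact_K fun p hp => ?_
  rw [D.F_zero hs hp]; simp

theorem mem_strip {s : ℝ} (hs : s ∈ Ioo 0 T') : s ∈ Ioo 0 T := ⟨hs.1, hs.2.trans D.hT⟩

theorem slice_f {s : ℝ} (hs : s ∈ Ico 0 T) : ContDiff ℝ 1 (fun p : R3 × R3 => f s p.1 p.2) :=
  slice_contDiff (H := fun s (p : R3 × R3) => f s p.1 p.2) D.hf hs
theorem slice_f' {s : ℝ} (hs : s ∈ Ico 0 T) : ContDiff ℝ 1 (fun p : R3 × R3 => f' s p.1 p.2) :=
  slice_contDiff (H := fun s (p : R3 × R3) => f' s p.1 p.2) D.hf' hs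
theorem slice_FF {s : ℝ} (hs : s ∈ Ico 0 T) : ContDiff ℝ 1 (fun p : R3 × R3 =>
    (f s p.1 p.2 - f' s p.1 p.2) * (f s p.1 p.2 - f' s p.1 p.2)) :=
  ((D.slice_f hs).sub (D.slice_f' hs)).mul ((D.slice_f hs).sub (D.slice_f' hs))

/-- bound for the momentum derivatives of `f'` -/
theorem exists_Dv : ∃ C : ℝ, 0 ≤ C ∧ ∀ s ∈ Ioo 0 T', ∀ x v : R3, (x, v) ∈ 𝕂 → ∀ i,
    |pderiv (fun w => f' s x w) i v| ≤ C := by
  have key : ∀ i : Fin 3, ∃ C : ℝ, 0 ≤ C ∧ ∀ s ∈ Ioo 0 T', ∀ x v : R3, (x, v) ∈ 𝕂 →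
    |pderiv (fun w => f' s x w) i v| ≤ C := by
    intro i
    obtain ⟨C, hC0, hC⟩ := exists_bound_of_compact (H := fun s (p : R3 × R3) =>
      fderivWithin ℝ (fun q : ℝ × (R3 × R3) => f' q.1 q.2.1 q.2.2) (Ico 0 T ×ˢ univ) (s, p)
        (0, (0, EuclideanSpace.single i 1))) D.hT
      (continuousOn_tderiv (H := fun s (p : R3 × R3) => f' s p.1 p.2) D.hf' _) D.isCompact_K
    refine ⟨C, hC0, fun s hs x v hp => ?_⟩
    have h1 := hC s (Ioo_subset_Icc_self hs) (x, v) hp
    have hn : Ico 0 T ×ˢ (univ : Set (R3 × R3)) ∈ 𝓝 ((s, (x, v)) : ℝ × (R3 × R3)) := by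
      rw [mem_nhds_iff]
      exact ⟨Ioo 0 T ×ˢ univ, prod_mono Ioo_subset_Ico_self Subset.rfl,
        isOpen_Ioo.prod isOpen_univ, ⟨D.mem_strip hs, mem_univ _⟩⟩
    rw [fderivWithin_of_mem_nhds hn] at h1
    have hd : DifferentiableAt ℝ (fun q : ℝ × (R3 × R3) => f' q.1 q.2.1 q.2.2) (s, (x, v)) :=
      (hasFDerivAt_of_contDiffOn (H := fun s (p : R3 × R3) => f' s p.1 p.2) D.hf'
        (D.mem_strip hs) (x, v)).differentiableAt one_ne_zero
    have h2 := hd.hasFDerivAt.comp (f := fun w : R3 => ((s, (x, w)) : ℝ × (R3 × R3))) v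
      ((hasFDerivAt_const s v).prodMk ((hasFDerivAt_const x v).prodMk (hasFDerivAt_id v)))
    have h3 : pderiv (fun w => f' s x w) i v =
        fderiv ℝ (fun q : ℝ × (R3 × R3) => f' q.1 q.2.1 q.2.2) (s, (x, v))
          (0, (0, EuclideanSpace.single i 1)) := by
      rw [pderiv]
      have : (fun w => f' s x w) = (fun q : ℝ × (R3 × R3) => f' q.1 q.2.1 q.2.2) ∘
        (fun w : R3 => ((s, (x, w)) : ℝ × (R3 × R3))) := rfl
      rw [this, h2.fderiv]
      simp
    rw [h3]; exact h1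
  obtain ⟨C0, h00, h0⟩ := key 0
  obtain ⟨C1, h10, h1⟩ := key 1
  obtain ⟨C2, h20, h2⟩ := key 2
  refine ⟨C0 + C1 + C2, by positivity, fun s hs x v hp i => ?_⟩
  have a0 := h0 s hs x v hp
  have a1 := h1 s hs x v hp
  have a2 := h2 s hs x v hp
  fin_cases i
  · exact a0.trans (by linarith)
  · exact a1.trans (by linarith)
  · exact a2.trans (by linarith)

/-- pointwise inequality for the density part -/
theorem f_pt {C : ℝ} (hC0 : 0 ≤ C) (hC : ∀ s ∈ Ioo 0 T', ∀ x v : R3, (x, v) ∈ 𝕂 → ∀ i,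
    |pderiv (fun w => f' s x w) i v| ≤ C) {s : ℝ} (hs : s ∈ Ioo 0 T') (p : R3 × R3) :
    deriv (fun r => (f r p.1 p.2 - f' r p.1 p.2) * (f r p.1 p.2 - f' r p.1 p.2)) s ≤
      (- ∑ i, fderiv ℝ (fun p : R3 × R3 => relVel p.2 i * ((f s p.1 p.2 - f' s p.1 p.2) *
          (f s p.1 p.2 - f' s p.1 p.2))) p (EuclideanSpace.single i 1, 0)
       - ∑ i, fderiv ℝ (fun p : R3 × R3 => (E s p.1 i + cross3 (relVel p.2) (B s p.1) i) *
          ((f s p.1 p.2 - f' s p.1 p.2) * (f s p.1 p.2 - f' s p.1 p.2))) p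
            (0, EuclideanSpace.single i 1)) +
      (9 * C * ((f s p.1 p.2 - f' s p.1 p.2) * (f s p.1 p.2 - f' s p.1 p.2)) +
        6 * C * ((𝔹).indicator (fun x => ‖E s x - E' s x‖ ^ 2 + ‖B s x - B' s x‖ ^ 2) p.1 *
          (𝔹).indicator (fun _ => 1) p.2)) := by
  obtain ⟨x, v⟩ := p
  have hsT := D.mem_strip hs
  have hsI : s ∈ Ico 0 T := Ioo_subset_Ico_self hsT
  have hd := slice_hasDerivAt (H := fun s (p : R3 × R3) => f s p.1 p.2) D.hf hsT (x, v)
  have hd' := slice_hasDerivAt (H := fun s (p : R3 × R3) => f' s p.1 p.2) D.hf' hsT (x, v)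
  have hdd := hd.differentiableAt.hasDerivAt
  have hdd' := hd'.differentiableAt.hasDerivAt
  simp only at hdd hdd'
  have h1 : deriv (fun r => (f r x v - f' r x v) * (f r x v - f' r x v)) s =
      2 * (f s x v - f' s x v) * (deriv (fun r => f r x v) s - deriv (fun r => f' r x v) s) := by
    have h2 := (hdd.fun_sub hdd').fun_mul (hdd.fun_sub hdd')
    rw [h2.deriv]; ring
  have hfx : DifferentiableAt ℝ (fun y => f s y v) x :=
    ((D.slice_f hsI).differentiable one_ne_zero (x, v)).comp x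
      (f := fun y : R3 => ((y, v) : R3 × R3)) (by fun_prop)
  have hfx' : DifferentiableAt ℝ (fun y => f' s y v) x :=
    ((D.slice_f' hsI).differentiable one_ne_zero (x, v)).comp x
      (f := fun y : R3 => ((y, v) : R3 × R3)) (by fun_prop)
  have hfv : DifferentiableAt ℝ (fun w => f s x w) v :=
    ((D.slice_f hsI).differentiable one_ne_zero (x, v)).comp v
      (f := fun w : R3 => ((x, w) : R3 × R3)) (by fun_prop)
  have hfv' : DifferentiableAt ℝ (fun w => f' s x w) v :=
    ((D.slice_f' hsI).differentiable one_ne_zero (x, v)).comp v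
      (f := fun w : R3 => ((x, w) : R3 × R3)) (by fun_prop)
  have h2 := vlasov_pt hfx hfx' hfv hfv' ((D.eqs s hs.1 hsT.2 x).1 v) ((D.eqs' s hs.1 hsT.2 x).1 v)
  have hw : ∀ i : Fin 3, DifferentiableAt ℝ (fun p : R3 × R3 => relVel p.2 i *
      ((f s p.1 p.2 - f' s p.1 p.2) * (f s p.1 p.2 - f' s p.1 p.2))) (x, v) := fun i =>
    (((contDiff_relVel_apply (n := 1) i).comp contDiff_snd).mul
      (D.slice_FF hsI)).differentiable one_ne_zero _
  have hE1 := slice_contDiff D.hE hsI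
  have hB1 := slice_contDiff D.hB hsI
  have hEc : ∀ i : Fin 3, ContDiff ℝ 1 (fun p : R3 × R3 => E s p.1 i) := fun i =>
    (contDiff_coord i).comp (hE1.comp contDiff_fst)
  have hBc : ∀ i : Fin 3, ContDiff ℝ 1 (fun p : R3 × R3 => B s p.1 i) := fun i =>
    (contDiff_coord i).comp (hB1.comp contDiff_fst)
  have huc : ∀ i : Fin 3, ContDiff ℝ 1 (fun p : R3 × R3 => relVel p.2 i) := fun i =>
    (contDiff_relVel_apply (n := 1) i).comp contDiff_snd
  have hcr : ∀ i : Fin 3, ContDiff ℝ 1 (fun p : R3 × R3 => cross3 (relVel p.2) (B s p.1) i) := by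
    intro i
    fin_cases i
    · exact ((huc 1).mul (hBc 2)).sub ((huc 2).mul (hBc 1))
    · exact ((huc 2).mul (hBc 0)).sub ((huc 0).mul (hBc 2))
    · exact ((huc 0).mul (hBc 1)).sub ((huc 1).mul (hBc 0))
  have hz : ∀ i : Fin 3, DifferentiableAt ℝ (fun p : R3 × R3 =>
      (E s p.1 i + cross3 (relVel p.2) (B s p.1) i) *
      ((f s p.1 p.2 - f' s p.1 p.2) * (f s p.1 p.2 - f' s p.1 p.2))) (x, v) := fun i =>
    (((hEc i).add (hcr i)).mul (D.slice_FF hsI)).differentiable one_ne_zero _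
  have h3 : ∀ i, pderiv (fun y => relVel v i * ((f s y v - f' s y v) * (f s y v - f' s y v))) i x =
      fderiv ℝ (fun p : R3 × R3 => relVel p.2 i * ((f s p.1 p.2 - f' s p.1 p.2) *
          (f s p.1 p.2 - f' s p.1 p.2))) (x, v) (EuclideanSpace.single i 1, 0) := fun i =>
    pderiv_fst (hw i) i
  have h4 : ∀ i, pderiv (fun w => (E s x i + cross3 (relVel w) (B s x) i) *
        ((f s x w - f' s x w) * (f s x w - f' s x w))) i v =
      fderiv ℝ (fun p : R3 × R3 => (E s p.1 i + cross3 (relVel p.2) (B s p.1) i) *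
          ((f s p.1 p.2 - f' s p.1 p.2) * (f s p.1 p.2 - f' s p.1 p.2))) (x, v)
            (0, EuclideanSpace.single i 1) := fun i => pderiv_snd (hz i) i
  simp only [h3, h4] at h2
  simp only
  rw [h1, h2, sub_eq_add_neg _ (2 * (f s x v - f' s x v) * _)]
  refine add_le_add_right ?_ _ |>.trans (le_of_eq rfl)
  -- the error term
  by_cases hp : (x, v) ∈ 𝕂
  · have hx : x ∈ 𝔹 := hp.1
    have hv : v ∈ 𝔹 := hp.2
    rw [indicator_of_mem hx, indicator_of_mem hv, mul_one]
    set g := f s x v - f' s x v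
    set e := E s x - E' s x with he
    set b := B s x - B' s x
    have hei : ∀ i, |(E s x i - E' s x i)| ≤ ‖e‖ := fun i => abs_apply_le e i
    have hbi : ∀ i, |cross3 (relVel v) b i| ≤ 2 * ‖b‖ := abs_cross3_le (norm_relVel_lt v).le b
    have hterm : ∀ i, |((E s x i - E' s x i) + cross3 (relVel v) b i) *
        pderiv (fun w => f' s x w) i v| ≤ (‖e‖ + 2 * ‖b‖) * C := by
      intro i
      rw [abs_mul]
      have := abs_add_le (E s x i - E' s x i) (cross3 (relVel v) b i)
      have a1 := hei i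
      have a2 := hbi i
      exact mul_le_mul (by linarith) (hC s hs x v hp i) (abs_nonneg _) (by positivity)
    have hsum : |∑ i, ((E s x i - E' s x i) + cross3 (relVel v) b i) *
        pderiv (fun w => f' s x w) i v| ≤ 3 * ((‖e‖ + 2 * ‖b‖) * C) := by
      refine (Finset.abs_sum_le_sum_abs _ _).trans ?_
      refine (Finset.sum_le_sum fun i _ => hterm i).trans ?_
      simp
    set S := ∑ i, ((E s x i - E' s x i) + cross3 (relVel v) b i) *
        pderiv (fun w => f' s x w) i v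
    have h5 : -(2 * g * S) ≤ 2 * |g| * |S| := by
      have : |2 * g * S| = 2 * |g| * |S| := by rw [abs_mul, abs_mul]; norm_num
      rw [← this]; exact neg_le_abs _
    have h6 : 2 * |g| * |S| ≤ 2 * |g| * (3 * ((‖e‖ + 2 * ‖b‖) * C)) :=
      mul_le_mul_of_nonneg_left hsum (by positivity)
    have h7 : 2 * |g| * (3 * ((‖e‖ + 2 * ‖b‖) * C)) ≤
        9 * C * (g * g) + 6 * C * (‖e‖ ^ 2 + ‖b‖ ^ 2) := by
      have hgg : g * g = |g| ^ 2 := by rw [sq_abs]; ring
      rw [hgg]
      have i1 := two_mul_le_add_sq |g| ‖e‖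
      have i2 := two_mul_le_add_sq |g| ‖b‖
      have i3 : 0 ≤ C * (|g| ^ 2 + ‖e‖ ^ 2 - 2 * |g| * ‖e‖) := mul_nonneg hC0 (by linarith)
      have i4 : 0 ≤ C * (|g| ^ 2 + ‖b‖ ^ 2 - 2 * |g| * ‖b‖) := mul_nonneg hC0 (by linarith)
      have i5 : 0 ≤ C * ‖e‖ ^ 2 := by positivity
      nlinarith
    linarith
  · have hg := D.F_zero (Ioo_subset_Icc_self hs) hp
    simp only at hg
    rw [hg]
    have h8 : 0 ≤ (𝔹).indicator (fun x => ‖E s x - E' s x‖ ^ 2 + ‖B s x - B' s x‖ ^ 2) x *
          (𝔹).indicator (fun _ => (1:ℝ)) v := by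
      refine mul_nonneg (indicator_nonneg (fun _ _ => by positivity) _)
        (indicator_nonneg (fun _ _ => by positivity) _)
    have : 0 ≤ 6 * C := by positivity
    nlinarith [mul_nonneg this h8]



theorem contDiff_w {s : ℝ} (hs : s ∈ Ico 0 T) (i : Fin 3) : ContDiff ℝ 1 (fun p : R3 × R3 =>
    relVel p.2 i * ((f s p.1 p.2 - f' s p.1 p.2) * (f s p.1 p.2 - f' s p.1 p.2))) :=
  ((contDiff_relVel_apply (n := 1) i).comp contDiff_snd).mul (D.slice_FF hs)

theorem contDiff_z {s : ℝ} (hs : s ∈ Ico 0 T) (i : Fin 3) : ContDiff ℝ 1 (fun p : R3 × R3 =>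
    (E s p.1 i + cross3 (relVel p.2) (B s p.1) i) *
      ((f s p.1 p.2 - f' s p.1 p.2) * (f s p.1 p.2 - f' s p.1 p.2))) := by
  have hE1 := slice_contDiff D.hE hs
  have hB1 := slice_contDiff D.hB hs
  have hEc : ∀ i : Fin 3, ContDiff ℝ 1 (fun p : R3 × R3 => E s p.1 i) := fun i =>
    (contDiff_coord i).comp (hE1.comp contDiff_fst)
  have hBc : ∀ i : Fin 3, ContDiff ℝ 1 (fun p : R3 × R3 => B s p.1 i) := fun i =>
    (contDiff_coord i).comp (hB1.comp contDiff_fst)
  have huc : ∀ i : Fin 3, ContDiff ℝ 1 (fun p : R3 × R3 => relVel p.2 i) := fun i =>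
    (contDiff_relVel_apply (n := 1) i).comp contDiff_snd
  have hcr : ∀ i : Fin 3, ContDiff ℝ 1 (fun p : R3 × R3 => cross3 (relVel p.2) (B s p.1) i) := by
    intro i
    fin_cases i
    · exact ((huc 1).mul (hBc 2)).sub ((huc 2).mul (hBc 1))
    · exact ((huc 2).mul (hBc 0)).sub ((huc 0).mul (hBc 2))
    · exact ((huc 0).mul (hBc 1)).sub ((huc 1).mul (hBc 0))
  exact ((hEc i).add (hcr i)).mul (D.slice_FF hs)

theorem continuous_eb {s : ℝ} (hs : s ∈ Ico 0 T) :
    Continuous (fun x => ‖E s x - E' s x‖ ^ 2 + ‖B s x - B' s x‖ ^ 2) := by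
  have hE1 := (slice_contDiff D.hE hs).continuous
  have hB1 := (slice_contDiff D.hB hs).continuous
  have hE2 := (slice_contDiff D.hE' hs).continuous
  have hB2 := (slice_contDiff D.hB' hs).continuous
  fun_prop

/-- integrated inequality for the density part -/
theorem f_int {C : ℝ} (hC0 : 0 ≤ C) (hC : ∀ s ∈ Ioo 0 T', ∀ x v : R3, (x, v) ∈ 𝕂 → ∀ i,
    |pderiv (fun w => f' s x w) i v| ≤ C) {s : ℝ} (hs : s ∈ Ioo 0 T') :
    ∫ p : R3 × R3, deriv (fun r => (f r p.1 p.2 - f' r p.1 p.2) * (f r p.1 p.2 - f' r p.1 p.2)) s ≤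
      9 * C * (∫ p : R3 × R3, (f s p.1 p.2 - f' s p.1 p.2) * (f s p.1 p.2 - f' s p.1 p.2)) +
      6 * C * ((∫ x in 𝔹, (‖E s x - E' s x‖ ^ 2 + ‖B s x - B' s x‖ ^ 2)) *
        (volume : Measure R3).real 𝔹) := by
  have hsT := D.mem_strip hs
  have hsI : s ∈ Ico 0 T := Ioo_subset_Ico_self hsT
  have hs' := Ioo_subset_Icc_self hs
  have i1 : ∀ i : Fin 3, Integrable (fun p => fderiv ℝ (fun p : R3 × R3 => relVel p.2 i *
      ((f s p.1 p.2 - f' s p.1 p.2) * (f s p.1 p.2 - f' s p.1 p.2))) p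
        (EuclideanSpace.single i 1, 0)) := fun i =>
    integrable_fderiv volume (D.contDiff_w hsI i) (D.hasCompactSupport_mul hs' _) _
  have i2 : ∀ i : Fin 3, Integrable (fun p => fderiv ℝ (fun p : R3 × R3 =>
      (E s p.1 i + cross3 (relVel p.2) (B s p.1) i) *
      ((f s p.1 p.2 - f' s p.1 p.2) * (f s p.1 p.2 - f' s p.1 p.2))) p
        (0, EuclideanSpace.single i 1)) := fun i =>
    integrable_fderiv volume (D.contDiff_z hsI i) (D.hasCompactSupport_mul hs' _) _
  have j1 : ∀ i : Fin 3, ∫ p, fderiv ℝ (fun p : R3 × R3 => relVel p.2 i *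
      ((f s p.1 p.2 - f' s p.1 p.2) * (f s p.1 p.2 - f' s p.1 p.2))) p
        (EuclideanSpace.single i 1, 0) = 0 := fun i =>
    integral_fderiv_eq_zero volume (D.contDiff_w hsI i) (D.hasCompactSupport_mul hs' _) _
  have j2 : ∀ i : Fin 3, ∫ p, fderiv ℝ (fun p : R3 × R3 =>
      (E s p.1 i + cross3 (relVel p.2) (B s p.1) i) *
      ((f s p.1 p.2 - f' s p.1 p.2) * (f s p.1 p.2 - f' s p.1 p.2))) p
        (0, EuclideanSpace.single i 1) = 0 := fun i =>
    integral_fderiv_eq_zero volume (D.contDiff_z hsI i) (D.hasCompactSupport_mul hs' _) _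
  have i3 : Integrable (fun p : R3 × R3 => (f s p.1 p.2 - f' s p.1 p.2) *
      (f s p.1 p.2 - f' s p.1 p.2)) := by
    have := (D.slice_FF hsI).continuous.integrable_of_hasCompactSupport (μ := volume)
      (by simpa using D.hasCompactSupport_mul hs' (fun _ => 1))
    exact this
  have hB : MeasurableSet (𝔹) := Metric.isClosed_closedBall.measurableSet
  have i4a : Integrable ((𝔹).indicator (fun x => ‖E s x - E' s x‖ ^ 2 + ‖B s x - B' s x‖ ^ 2)) := by
    rw [integrable_indicator_iff hB]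
    exact (D.continuous_eb hsI).continuousOn.integrableOn_compact (isCompact_closedBall _ _)
  have i4b : Integrable ((𝔹).indicator (fun _ => (1:ℝ))) := by
    rw [integrable_indicator_iff hB]
    exact continuousOn_const.integrableOn_compact (isCompact_closedBall _ _)
  have i4 : Integrable (fun p : R3 × R3 =>
      (𝔹).indicator (fun x => ‖E s x - E' s x‖ ^ 2 + ‖B s x - B' s x‖ ^ 2) p.1 *
          (𝔹).indicator (fun _ => (1:ℝ)) p.2) := i4a.mul_prod i4b
  have j4 : ∫ p : R3 × R3,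
      (𝔹).indicator (fun x => ‖E s x - E' s x‖ ^ 2 + ‖B s x - B' s x‖ ^ 2) p.1 *
          (𝔹).indicator (fun _ => (1:ℝ)) p.2 =
      (∫ x in 𝔹, (‖E s x - E' s x‖ ^ 2 + ‖B s x - B' s x‖ ^ 2)) *
        (volume : Measure R3).real 𝔹 := by
    have := integral_prod_mul (μ := (volume : Measure R3)) (ν := (volume : Measure R3))
      ((𝔹).indicator (fun x => ‖E s x - E' s x‖ ^ 2 + ‖B s x - B' s x‖ ^ 2))
      ((𝔹).indicator (fun _ => (1:ℝ)))
    rw [Measure.volume_eq_prod, this, integral_indicator hB, integral_indicator hB]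
    simp
  have i0 := (hasDerivAt_integral (μ := (volume : Measure (R3 × R3))) D.hT
    (H := fun s (p : R3 × R3) => (f s p.1 p.2 - f' s p.1 p.2) * (f s p.1 p.2 - f' s p.1 p.2))
    D.hFF D.isCompact_K (fun r hr p hp => by rw [D.F_zero hr hp]; simp) hs).1
  have i12 := ((integrable_finsetSum Finset.univ fun i _ => i1 i).neg).sub
    (integrable_finsetSum Finset.univ fun i _ => i2 i)
  have i34 := (i3.const_mul (9 * C)).add (i4.const_mul (6 * C))
  refine (integral_mono i0 (i12.add i34) fun p => ?_).trans (le_of_eq ?_)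
  · exact D.f_pt hC0 hC hs p
  · rw [integral_add' i12 i34]
    have e1 : ∫ p, ((-fun p => ∑ i, fderiv ℝ (fun p : R3 × R3 => relVel p.2 i *
      ((f s p.1 p.2 - f' s p.1 p.2) * (f s p.1 p.2 - f' s p.1 p.2))) p
        (EuclideanSpace.single i 1, 0)) - fun p => ∑ i, fderiv ℝ (fun p : R3 × R3 =>
      (E s p.1 i + cross3 (relVel p.2) (B s p.1) i) *
      ((f s p.1 p.2 - f' s p.1 p.2) * (f s p.1 p.2 - f' s p.1 p.2))) p
        (0, EuclideanSpace.single i 1)) p = 0 := by
      rw [integral_sub' ((integrable_finsetSum Finset.univ fun i _ => i1 i).neg)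
        (integrable_finsetSum Finset.univ fun i _ => i2 i), integral_neg',
        integral_finsetSum _ (fun i _ => i1 i), integral_finsetSum _ (fun i _ => i2 i)]
      simp [j1, j2]
    rw [e1, integral_add' (i3.const_mul (9 * C)) (i4.const_mul (6 * C)), zero_add,
      integral_const_mul, integral_const_mul, j4]


/-- pointwise inequality for the field part -/
theorem field_pt {N : ℝ} {s : ℝ} (hs : s ∈ Ioo 0 T') (x : R3) :
    deriv (fun r => cut N r x * (‖E r x - E' r x‖ ^ 2 + ‖B r x - B' r x‖ ^ 2)) s ≤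
      -2 * ∑ i, pderiv (fun y => cut N s y * cross3 (E s y - E' s y) (B s y - B' s y) i) i x -
      2 * (cut N s x * ∑ i, (E s x - E' s x) i * (currentDensity f s x - currentDensity f' s x) i) := by
  have hsT := D.mem_strip hs
  have hsI : s ∈ Ico 0 T := Ioo_subset_Ico_self hsT
  have hE := (slice_hasDerivAt D.hE hsT x).differentiableAt.hasDerivAt
  have hE' := (slice_hasDerivAt D.hE' hsT x).differentiableAt.hasDerivAt
  have hB := (slice_hasDerivAt D.hB hsT x).differentiableAt.hasDerivAt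
  have hB' := (slice_hasDerivAt D.hB' hsT x).differentiableAt.hasDerivAt
  have hcoord : ∀ (G : ℝ → R3 → R3) (G1 : R3), HasDerivAt (fun r => G r x) G1 s → ∀ i,
      deriv (fun r => G r x i) s = G1 i := by
    intro G G1 hG i
    have h := ((EuclideanSpace.proj i : R3 →L[ℝ] ℝ).hasFDerivAt).comp_hasDerivAt s hG
    exact h.deriv
  set e1 := deriv (fun r => E r x) s
  set e1' := deriv (fun r => E' r x) s
  set b1 := deriv (fun r => B r x) s
  set b1' := deriv (fun r => B' r x) s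
  have he := (hE.fun_sub hE').norm_sq
  have hb := (hB.fun_sub hB').norm_sq
  have hH := (cut_time N s x).fun_mul (he.fun_add hb)
  rw [hH.deriv]
  obtain ⟨-, q1, q2, -, -⟩ := D.eqs s hs.1 hsT.2 x
  obtain ⟨-, q1', q2', -, -⟩ := D.eqs' s hs.1 hsT.2 x
  simp only [hcoord E e1 hE, hcoord B b1 hB] at q1 q2
  simp only [hcoord E' e1' hE', hcoord B' b1' hB'] at q1' q2'
  have hEd := (slice_contDiff D.hE hsI).differentiable one_ne_zero x
  have hE'd := (slice_contDiff D.hE' hsI).differentiable one_ne_zero x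
  have hBd := (slice_contDiff D.hB hsI).differentiable one_ne_zero x
  have hB'd := (slice_contDiff D.hB' hsI).differentiable one_ne_zero x
  have hcd : DifferentiableAt ℝ (cut N s) x := by
    have h1 : ContDiff ℝ 1 (fun y : R3 => cut N s y) :=
      (contDiff_cut N (n := 1)).comp (f := fun y : R3 => ((s, y) : ℝ × R3)) (by fun_prop)
    exact h1.differentiable one_ne_zero x
  have hpt := maxwell_pt (hEd.fun_sub hE'd) (hBd.fun_sub hB'd) hcd
  have hco : ∀ (G : R3 → R3), DifferentiableAt ℝ G x → ∀ j, DifferentiableAt ℝ (fun y => G y j) x :=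
    fun G hG j => ((EuclideanSpace.proj j : R3 →L[ℝ] ℝ).differentiableAt).comp x hG
  have hcurl : ∀ (G G' : R3 → R3), DifferentiableAt ℝ G x → DifferentiableAt ℝ G' x → ∀ i,
      curl3 (fun y => G y - G' y) x i = curl3 G x i - curl3 G' x i := by
    intro G G' hG hG' i
    have hp : ∀ j k, pderiv (fun y => (G y - G' y) j) k x =
        pderiv (fun y => G y j) k x - pderiv (fun y => G' y j) k x := fun j k =>
      pderiv_sub (hco G hG j) (hco G' hG' j) k
    fin_cases i
    · simp only [Fin.zero_eta, curl3_0, hp]; ring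
    · simp only [Fin.mk_one, curl3_1, hp]; ring
    · simp only [Fin.reduceFinMk, curl3_2, hp]; ring
  simp only [hcurl _ _ hEd hE'd, hcurl _ _ hBd hB'd, cut_space] at hpt
  have htri := triple_le (norm_relVel_lt x).le (E s x - E' s x) (B s x - B' s x)
  have hcD := cutD_nonneg N s x
  have hS : ∑ i, -cutD N s x * relVel x i * cross3 (E s x - E' s x) (B s x - B' s x) i =
      -cutD N s x * ∑ i, relVel x i * cross3 (E s x - E' s x) (B s x - B' s x) i := by
    rw [Finset.mul_sum]; exact Finset.sum_congr rfl fun i _ => by ring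
  rw [hS] at hpt
  set S := ∑ i, relVel x i * cross3 (E s x - E' s x) (B s x - B' s x) i
  set P := ∑ i, pderiv (fun y => cut N s y * cross3 (E s y - E' s y) (B s y - B' s y) i) i x
  have hkey : -cutD N s x * (‖E s x - E' s x‖ ^ 2 + ‖B s x - B' s x‖ ^ 2) -
      2 * cutD N s x * S ≤ 0 := by
    have h1 : -(‖E s x - E' s x‖ ^ 2 + ‖B s x - B' s x‖ ^ 2) - 2 * S ≤ 0 := by
      have := neg_abs_le S
      linarith
    nlinarith
  have hin : ∀ a b : R3, inner ℝ a b = a 0 * b 0 + a 1 * b 1 + a 2 * b 2 := by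
    intro a b
    rw [PiLp.inner_apply, Fin.sum_univ_three]
    simp [mul_comm]
  rw [hin, hin]
  have a0 := q1 0
  have a1 := q1 1
  have a2 := q1 2
  have b0 := q2 0
  have b1_ := q2 1
  have b2 := q2 2
  have a0' := q1' 0
  have a1' := q1' 1
  have a2' := q1' 2
  have b0' := q2' 0
  have b1_' := q2' 1
  have b2' := q2' 2
  simp only [Fin.sum_univ_three, PiLp.sub_apply] at hpt ⊢
  have hfin : -cutD N s x * (‖E s x - E' s x‖ ^ 2 + ‖B s x - B' s x‖ ^ 2) +
      cut N s x * (2 * ((E s x 0 - E' s x 0) * (e1 0 - e1' 0) + (E s x 1 - E' s x 1) * (e1 1 - e1' 1) +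
        (E s x 2 - E' s x 2) * (e1 2 - e1' 2)) +
        2 * ((B s x 0 - B' s x 0) * (b1 0 - b1' 0) + (B s x 1 - B' s x 1) * (b1 1 - b1' 1) +
        (B s x 2 - B' s x 2) * (b1 2 - b1' 2))) =
      (-cutD N s x * (‖E s x - E' s x‖ ^ 2 + ‖B s x - B' s x‖ ^ 2) - 2 * cutD N s x * S) +
      (-2 * P - 2 * (cut N s x * ((E s x 0 - E' s x 0) * (currentDensity f s x 0 - currentDensity f' s x 0) +
        (E s x 1 - E' s x 1) * (currentDensity f s x 1 - currentDensity f' s x 1) +
        (E s x 2 - E' s x 2) * (currentDensity f s x 2 - currentDensity f' s x 2)))) := by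
    linear_combination 2 * hpt +
      2 * cut N s x * (E s x 0 - E' s x 0) * (a0 - a0') +
      2 * cut N s x * (E s x 1 - E' s x 1) * (a1 - a1') +
      2 * cut N s x * (E s x 2 - E' s x 2) * (a2 - a2') +
      2 * cut N s x * (B s x 0 - B' s x 0) * (b0 - b0') +
      2 * cut N s x * (B s x 1 - B' s x 1) * (b1_ - b1_') +
      2 * cut N s x * (B s x 2 - B' s x 2) * (b2 - b2')
  linarith


theorem continuous_slice_v {s : ℝ} (hs : s ∈ Ico 0 T) (x : R3) :
    Continuous (fun v => f s x v) ∧ Continuous (fun v => f' s x v) :=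
  ⟨(D.slice_f hs).continuous.comp (f := fun v : R3 => ((x, v) : R3 × R3)) (by fun_prop),
    (D.slice_f' hs).continuous.comp (f := fun v : R3 => ((x, v) : R3 × R3)) (by fun_prop)⟩


/-- pointwise bound of the current term -/
theorem J_pt {N s : ℝ} (hs : s ∈ Icc 0 T') (x : R3) :
    -2 * (cut N s x * ∑ i, (E s x - E' s x) i * (currentDensity f s x - currentDensity f' s x) i) ≤
      (volume : Measure R3).real 𝔹 * (cut N s x * ‖E s x - E' s x‖ ^ 2) +
        ∫ v, (f s x v - f' s x v) * (f s x v - f' s x v) := by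
  have hsI : s ∈ Ico 0 T := ⟨hs.1, hs.2.trans_lt D.hT⟩
  obtain ⟨c1, c2⟩ := D.continuous_slice_v hsI x
  have cu : Continuous relVel := (contDiff_relVel (n := 1)).continuous
  have i1 : Integrable (fun v => f s x v • relVel v) := by
    refine (c1.smul cu).integrable_of_hasCompactSupport ?_
    refine HasCompactSupport.intro (isCompact_closedBall (0 : R3) R) fun v hv => ?_
    have h0 := D.supp s hs x v (Or.inr (by simpa using hv))
    show f s x v • relVel v = 0
    rw [h0, zero_smul]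
  have i2 : Integrable (fun v => f' s x v • relVel v) := by
    refine (c2.smul cu).integrable_of_hasCompactSupport ?_
    refine HasCompactSupport.intro (isCompact_closedBall (0 : R3) R) fun v hv => ?_
    have h0 := D.supp' s hs x v (Or.inr (by simpa using hv))
    show f' s x v • relVel v = 0
    rw [h0, zero_smul]
  have hJ : currentDensity f s x - currentDensity f' s x =
      ∫ v, (f s x v - f' s x v) • relVel v := by
    rw [currentDensity, currentDensity, ← integral_sub i1 i2]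
    congr 1; ext1 v; rw [sub_smul]
  have i3 : Integrable (fun v => (f s x v - f' s x v) • relVel v) := by
    have := i1.sub i2
    refine this.congr (Eventually.of_forall fun v => ?_)
    simp [sub_smul]
  have hsum : ∑ i, (E s x - E' s x) i * (currentDensity f s x - currentDensity f' s x) i =
      ∫ v, (f s x v - f' s x v) * inner ℝ (E s x - E' s x) (relVel v) := by
    rw [hJ]
    have h1 := integral_inner (𝕜 := ℝ) i3 (E s x - E' s x)
    have h2 : inner ℝ (E s x - E' s x) (∫ v, (f s x v - f' s x v) • relVel v) =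
        ∑ i, (E s x - E' s x) i * (∫ v, (f s x v - f' s x v) • relVel v) i := by
      rw [PiLp.inner_apply]
      exact Finset.sum_congr rfl fun i _ => by simp [mul_comm]
    rw [← h2, ← h1]
    congr 1; ext1 v
    rw [inner_smul_right]
  set e := E s x - E' s x
  have i4 : Integrable (fun v => (f s x v - f' s x v) * inner ℝ e (relVel v)) := by
    have := i3.const_inner (𝕜 := ℝ) e
    refine this.congr (Eventually.of_forall fun v => ?_)
    simp [inner_smul_right]
  have hB : MeasurableSet (𝔹) := Metric.isClosed_closedBall.measurableSet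
  have i5 : Integrable ((𝔹).indicator (fun _ => cut N s x * ‖e‖ ^ 2)) := by
    rw [integrable_indicator_iff hB]
    exact continuousOn_const.integrableOn_compact (isCompact_closedBall _ _)
  have i6 : Integrable (fun v => (f s x v - f' s x v) * (f s x v - f' s x v)) := by
    refine ((c1.sub c2).mul (c1.sub c2)).integrable_of_hasCompactSupport ?_
    refine HasCompactSupport.intro (isCompact_closedBall (0 : R3) R) fun v hv => ?_
    have hv' : R < ‖v‖ := by simpa using hv
    show (f s x v - f' s x v) * (f s x v - f' s x v) = 0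
    rw [D.supp s hs x v (Or.inr hv'), D.supp' s hs x v (Or.inr hv')]; simp
  rw [hsum, ← integral_const_mul, ← integral_const_mul]
  have hind : (volume : Measure R3).real 𝔹 * (cut N s x * ‖e‖ ^ 2) =
      ∫ v, (𝔹).indicator (fun _ => cut N s x * ‖e‖ ^ 2) v := by
    rw [integral_indicator hB]; simp
  rw [hind, ← integral_add i5 i6]
  refine integral_mono ((i4.const_mul _).const_mul _) (i5.add i6) fun v => ?_
  simp only
  by_cases hv : v ∈ 𝔹
  · rw [indicator_of_mem hv]
    have h1 : |inner ℝ e (relVel v)| ≤ ‖e‖ := by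
      refine (abs_real_inner_le_norm _ _).trans ?_
      have := (norm_relVel_lt v).le
      nlinarith [norm_nonneg e]
    have h2 := cut_nonneg N s x
    have h3 := cut_le_one N s x
    set g := f s x v - f' s x v
    set c := cut N s x
    set a := inner ℝ e (relVel v)
    have h4 : a ^ 2 ≤ ‖e‖ ^ 2 := by
      rw [← sq_abs]; exact pow_le_pow_left₀ (abs_nonneg _) h1 2
    have h5 : -2 * (c * (g * a)) ≤ c * (g ^ 2 + a ^ 2) := by nlinarith [sq_nonneg (g + a)]
    have h6 : c * (g ^ 2 + a ^ 2) ≤ g * g + c * ‖e‖ ^ 2 := by nlinarith [sq_nonneg g]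
    linarith
  · have hv' : R < ‖v‖ := by simpa using hv
    rw [indicator_of_notMem hv, D.supp s hs x v (Or.inr hv'), D.supp' s hs x v (Or.inr hv')]
    simp

omit D in
theorem contDiff_cut_slice (N s : ℝ) : ContDiff ℝ 1 (fun y : R3 => cut N s y) :=
  (contDiff_cut N (n := 1)).comp (f := fun y : R3 => ((s, y) : ℝ × R3)) (by fun_prop)

/-- integrated inequality for the field part -/
theorem field_int {N s : ℝ} (hs : s ∈ Ioo 0 T') :
    ∫ x, deriv (fun r => cut N r x * (‖E r x - E' r x‖ ^ 2 + ‖B r x - B' r x‖ ^ 2)) s ≤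
      (volume : Measure R3).real 𝔹 *
        (∫ x, cut N s x * (‖E s x - E' s x‖ ^ 2 + ‖B s x - B' s x‖ ^ 2)) +
      ∫ p : R3 × R3, (f s p.1 p.2 - f' s p.1 p.2) * (f s p.1 p.2 - f' s p.1 p.2) := by
  have hsT := D.mem_strip hs
  have hsI : s ∈ Ico 0 T := Ioo_subset_Ico_self hsT
  have hs' := Ioo_subset_Icc_self hs
  have hE1 := slice_contDiff D.hE hsI
  have hB1 := slice_contDiff D.hB hsI
  have hE2 := slice_contDiff D.hE' hsI
  have hB2 := slice_contDiff D.hB' hsI
  have hball : IsCompact (Metric.closedBall (0 : R3) (|N| + 1)) := isCompact_closedBall _ _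
  -- the divergence terms
  have hcr : ∀ i : Fin 3, ContDiff ℝ 1 (fun y : R3 =>
      cut N s y * cross3 (E s y - E' s y) (B s y - B' s y) i) := by
    have he : ∀ j : Fin 3, ContDiff ℝ 1 (fun y : R3 => (E s y - E' s y) j) := fun j =>
      (contDiff_coord j).comp (hE1.sub hE2)
    have hb : ∀ j : Fin 3, ContDiff ℝ 1 (fun y : R3 => (B s y - B' s y) j) := fun j =>
      (contDiff_coord j).comp (hB1.sub hB2)
    intro i
    refine (contDiff_cut_slice N s).mul ?_
    fin_cases i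
    · exact ((he 1).mul (hb 2)).sub ((he 2).mul (hb 1))
    · exact ((he 2).mul (hb 0)).sub ((he 0).mul (hb 2))
    · exact ((he 0).mul (hb 1)).sub ((he 1).mul (hb 0))
  have hcs : ∀ i : Fin 3, HasCompactSupport (fun y : R3 =>
      cut N s y * cross3 (E s y - E' s y) (B s y - B' s y) i) := fun i =>
    HasCompactSupport.intro hball fun x hx => by rw [cut_eq_zero hs'.1 hx]; simp
  have i1 : ∀ i : Fin 3, Integrable (fun x => pderiv (fun y : R3 =>
      cut N s y * cross3 (E s y - E' s y) (B s y - B' s y) i) i x) := fun i =>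
    integrable_fderiv volume (hcr i) (hcs i) _
  have j1 : ∀ i : Fin 3, ∫ x, pderiv (fun y : R3 =>
      cut N s y * cross3 (E s y - E' s y) (B s y - B' s y) i) i x = 0 := fun i =>
    integral_fderiv_eq_zero volume (hcr i) (hcs i) _
  -- the field energy
  have i2 : Integrable (fun x => cut N s x * ‖E s x - E' s x‖ ^ 2) := by
    refine Continuous.integrable_of_hasCompactSupport ?_ (HasCompactSupport.intro hball
      fun x hx => by rw [cut_eq_zero hs'.1 hx]; simp)
    exact (contDiff_cut_slice N s).continuous.mul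
      (((hE1.continuous.sub hE2.continuous).norm).pow 2)
  have i2' : Integrable (fun x => cut N s x * (‖E s x - E' s x‖ ^ 2 + ‖B s x - B' s x‖ ^ 2)) := by
    refine Continuous.integrable_of_hasCompactSupport ?_ (HasCompactSupport.intro hball
      fun x hx => by rw [cut_eq_zero hs'.1 hx]; simp)
    exact (contDiff_cut_slice N s).continuous.mul (D.continuous_eb hsI)
  have i3 : Integrable (fun p : R3 × R3 => (f s p.1 p.2 - f' s p.1 p.2) *
      (f s p.1 p.2 - f' s p.1 p.2)) := by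
    have := (D.slice_FF hsI).continuous.integrable_of_hasCompactSupport (μ := volume)
      (by simpa using D.hasCompactSupport_mul hs' (fun _ => 1))
    exact this
  have i4 : Integrable (fun x => ∫ v, (f s x v - f' s x v) * (f s x v - f' s x v)) := by
    rw [Measure.volume_eq_prod] at i3
    exact i3.integral_prod_left
  have j4 : ∫ x, ∫ v, (f s x v - f' s x v) * (f s x v - f' s x v) =
      ∫ p : R3 × R3, (f s p.1 p.2 - f' s p.1 p.2) * (f s p.1 p.2 - f' s p.1 p.2) := by
    rw [Measure.volume_eq_prod] at i3 ⊢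
    exact (integral_prod _ i3).symm
  have i0 := (hasDerivAt_integral (μ := (volume : Measure R3)) D.hT
    (H := fun s x => cut N s x * (‖E s x - E' s x‖ ^ 2 + ‖B s x - B' s x‖ ^ 2))
    ((contDiff_cut N (n := 1)).contDiffOn.mul (((D.hE.sub D.hE').norm_sq ℝ).add
      ((D.hB.sub D.hB').norm_sq ℝ))) hball
    (fun r hr x hx => by rw [cut_eq_zero hr.1 hx]; simp) hs).1
  have i5 := (integrable_finsetSum Finset.univ fun i _ => i1 i).const_mul (-2)
  have i6 := (i2.const_mul ((volume : Measure R3).real 𝔹)).add i4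
  refine (integral_mono i0 (i5.add i6) fun x => ?_).trans ?_
  · have h1 := D.field_pt (N := N) hs x
    have h2 := D.J_pt (N := N) hs' x
    simp only [Pi.add_apply]
    linarith
  · rw [integral_add' i5 i6, integral_add' (i2.const_mul _) i4, integral_const_mul,
      integral_finsetSum _ (fun i _ => i1 i), integral_const_mul, j4]
    simp only [j1, Finset.sum_const_zero, mul_zero, zero_add]
    have h3 : ∫ x, cut N s x * ‖E s x - E' s x‖ ^ 2 ≤
        ∫ x, cut N s x * (‖E s x - E' s x‖ ^ 2 + ‖B s x - B' s x‖ ^ 2) := by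
      refine integral_mono i2 i2' fun x => ?_
      have := cut_nonneg N s x
      have : 0 ≤ cut N s x * ‖B s x - B' s x‖ ^ 2 := by positivity
      simp only
      nlinarith
    have h4 : 0 ≤ (volume : Measure R3).real 𝔹 := measureReal_nonneg
    nlinarith


/-- the total difference energy vanishes -/
theorem energy_zero {N : ℝ} (hN : T' + Real.sqrt (1 + R ^ 2) ≤ N) {t : ℝ} (ht : t ∈ Icc 0 T')
    (h0f : ∀ x v, f 0 x v = f' 0 x v) (h0E : E 0 = E' 0) (h0B : B 0 = B' 0) :
    (∫ p : R3 × R3, (f t p.1 p.2 - f' t p.1 p.2) * (f t p.1 p.2 - f' t p.1 p.2)) +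
      ∫ x, cut N t x * (‖E t x - E' t x‖ ^ 2 + ‖B t x - B' t x‖ ^ 2) ≤ 0 := by
  obtain ⟨C, hC0, hC⟩ := D.exists_Dv
  set V := (volume : Measure R3).real 𝔹
  have hV : 0 ≤ V := measureReal_nonneg
  have hball : IsCompact (Metric.closedBall (0 : R3) (|N| + 1)) := isCompact_closedBall _ _
  have hH2 : ContDiffOn ℝ 1 (fun q : ℝ × R3 => cut N q.1 q.2 *
      (‖E q.1 q.2 - E' q.1 q.2‖ ^ 2 + ‖B q.1 q.2 - B' q.1 q.2‖ ^ 2)) (Ico 0 T ×ˢ univ) :=
    (contDiff_cut N (n := 1)).contDiffOn.mul (((D.hE.sub D.hE').norm_sq ℝ).add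
      ((D.hB.sub D.hB').norm_sq ℝ))
  have hz1 : ∀ s ∈ Icc 0 T', ∀ p : R3 × R3, p ∉ 𝕂 →
      (f s p.1 p.2 - f' s p.1 p.2) * (f s p.1 p.2 - f' s p.1 p.2) = 0 := fun s hs p hp => by
    rw [D.F_zero hs hp]; simp
  have hz2 : ∀ s ∈ Icc 0 T', ∀ x : R3, x ∉ Metric.closedBall (0 : R3) (|N| + 1) →
      cut N s x * (‖E s x - E' s x‖ ^ 2 + ‖B s x - B' s x‖ ^ 2) = 0 := fun s hs x hx => by
    rw [cut_eq_zero hs.1 hx]; simp
  have c1 := contOn_integral (μ := (volume : Measure (R3 × R3))) D.hT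
    (H := fun s (p : R3 × R3) => (f s p.1 p.2 - f' s p.1 p.2) * (f s p.1 p.2 - f' s p.1 p.2))
    D.hFF.continuousOn D.isCompact_K hz1
  have c2 := contOn_integral (μ := (volume : Measure R3)) D.hT
    (H := fun s x => cut N s x * (‖E s x - E' s x‖ ^ 2 + ‖B s x - B' s x‖ ^ 2))
    hH2.continuousOn hball hz2
  have d1 := fun s (hs : s ∈ Ioo 0 T') => (hasDerivAt_integral (μ := (volume : Measure (R3 × R3)))
    D.hT (H := fun s (p : R3 × R3) => (f s p.1 p.2 - f' s p.1 p.2) *
      (f s p.1 p.2 - f' s p.1 p.2)) D.hFF D.isCompact_K hz1 hs).2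
  have d2 := fun s (hs : s ∈ Ioo 0 T') => (hasDerivAt_integral (μ := (volume : Measure R3)) D.hT
    (H := fun s x => cut N s x * (‖E s x - E' s x‖ ^ 2 + ‖B s x - B' s x‖ ^ 2))
    hH2 hball hz2 hs).2
  refine gronwall_zero (C := 9 * C + 6 * C * V + V + 1) (c1.add c2)
    (fun s hs => (d1 s hs).fun_add (d2 s hs)) ?_ ?_ ht
  · intro s hs
    have hsT := D.mem_strip hs
    have hsI : s ∈ Ico 0 T := Ioo_subset_Ico_self hsT
    have hs' := Ioo_subset_Icc_self hs
    have a1 := D.f_int hC0 hC hs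
    have a2 := D.field_int (N := N) hs
    have hI1 : 0 ≤ ∫ p : R3 × R3, (f s p.1 p.2 - f' s p.1 p.2) * (f s p.1 p.2 - f' s p.1 p.2) :=
      integral_nonneg fun p => mul_self_nonneg _
    have hI2 : 0 ≤ ∫ x, cut N s x * (‖E s x - E' s x‖ ^ 2 + ‖B s x - B' s x‖ ^ 2) :=
      integral_nonneg fun x => mul_nonneg (cut_nonneg _ _ _) (by positivity)
    have hle : ∫ x in 𝔹, (‖E s x - E' s x‖ ^ 2 + ‖B s x - B' s x‖ ^ 2) ≤
        ∫ x, cut N s x * (‖E s x - E' s x‖ ^ 2 + ‖B s x - B' s x‖ ^ 2) := by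
      have hB : MeasurableSet (𝔹) := Metric.isClosed_closedBall.measurableSet
      rw [← integral_indicator hB]
      refine integral_mono ?_ ?_ fun x => ?_
      · rw [integrable_indicator_iff hB]
        exact (D.continuous_eb hsI).continuousOn.integrableOn_compact (isCompact_closedBall _ _)
      · exact integrable_slice (volume : Measure R3) D.hT hH2.continuousOn hball hz2 hs'
      · simp only
        by_cases hx : x ∈ 𝔹
        · rw [indicator_of_mem hx, cut_eq_one, one_mul]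
          have hx' : ‖x‖ ≤ R := by simpa using hx
          have h1 : Real.sqrt (1 + ‖x‖ ^ 2) ≤ Real.sqrt (1 + R ^ 2) :=
            Real.sqrt_le_sqrt (by nlinarith [norm_nonneg x])
          linarith [hs.2]
        · rw [indicator_of_notMem hx]
          exact mul_nonneg (cut_nonneg _ _ _) (by positivity)
    set I1 := ∫ p : R3 × R3, (f s p.1 p.2 - f' s p.1 p.2) * (f s p.1 p.2 - f' s p.1 p.2)
    set I2 := ∫ x, cut N s x * (‖E s x - E' s x‖ ^ 2 + ‖B s x - B' s x‖ ^ 2)
    have h1 : 6 * C * ((∫ x in 𝔹, (‖E s x - E' s x‖ ^ 2 + ‖B s x - B' s x‖ ^ 2)) * V) ≤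
        6 * C * (I2 * V) :=
      mul_le_mul_of_nonneg_left (mul_le_mul_of_nonneg_right hle hV) (by positivity)
    have h2 : 0 ≤ C * I2 := mul_nonneg hC0 hI2
    have h3 : 0 ≤ C * V * I1 := by positivity
    have h4 : 0 ≤ V * I1 := by positivity
    refine (add_le_add a1 a2).trans ?_
    rw [show (volume : Measure R3).real (𝔹) = V from rfl]
    have h5 : 9 * C * I1 + 6 * C * (I2 * V) + (V * I2 + I1) ≤
        (9 * C + 6 * C * V + V + 1) * (I1 + I2) := by nlinarith
    refine le_trans ?_ h5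
    linarith
  · simp [h0f, h0E, h0B]

end Diff

/-- **Uniqueness of classical solutions** with the same datum. -/
theorem uniq {T : ℝ} {f₀ : R3 → R3 → ℝ} {E₀ B₀ : R3 → R3} {f f' : ℝ → R3 → R3 → ℝ}
    {E B E' B' : ℝ → R3 → R3} (h : IsClassicalSolutionOn T f₀ E₀ B₀ f E B)
    (h' : IsClassicalSolutionOn T f₀ E₀ B₀ f' E' B') :
    ∀ t ∈ Ico 0 T, f' t = f t ∧ E' t = E t ∧ B' t = B t := by
  intro t ht
  obtain ⟨hf, hE, hB, f0, E0, B0, eqs, supp, -⟩ := h
  obtain ⟨hf', hE', hB', f0', E0', B0', eqs', supp', -⟩ := h'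
  set T' := (t + T) / 2 with hT'def
  have hT0 : 0 < T' := by have := ht.1; have := ht.2; simp only [T']; linarith
  have hT : T' < T := by have := ht.2; simp only [T']; linarith
  have htT : t ≤ T' := by have := ht.2; simp only [T']; linarith
  obtain ⟨R1, h1⟩ := supp T' hT0.le hT
  obtain ⟨R2, h2⟩ := supp' T' hT0.le hT
  set R := max (max R1 R2) 0
  have hR1 : R1 ≤ R := (le_max_left _ _).trans (le_max_left _ _)
  have hR2 : R2 ≤ R := (le_max_right _ _).trans (le_max_left _ _)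
  have D : Diff T T' R f f' E B E' B' :=
    { hT0 := hT0, hT := hT, hR := le_max_right _ _, hf := hf, hf' := hf', hE := hE, hB := hB,
      hE' := hE', hB' := hB', eqs := eqs, eqs' := eqs'
      supp := fun s hs x v hxv => h1 s hs x v (hxv.imp (hR1.trans_lt) (hR1.trans_lt))
      supp' := fun s hs x v hxv => h2 s hs x v (hxv.imp (hR2.trans_lt) (hR2.trans_lt)) }
  have hmem : t ∈ Icc 0 T' := ⟨ht.1, htT⟩
  have hH2 : ∀ N : ℝ, Continuous (fun x => cut N t x *
      (‖E t x - E' t x‖ ^ 2 + ‖B t x - B' t x‖ ^ 2)) := fun N =>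
    (Diff.contDiff_cut_slice N t).continuous.mul (D.continuous_eb ht)
  have key : ∀ N : ℝ, T' + Real.sqrt (1 + R ^ 2) ≤ N →
      (∀ p : R3 × R3, (f t p.1 p.2 - f' t p.1 p.2) * (f t p.1 p.2 - f' t p.1 p.2) = 0) ∧
      (∀ x, cut N t x * (‖E t x - E' t x‖ ^ 2 + ‖B t x - B' t x‖ ^ 2) = 0) := by
    intro N hN
    have h0 := D.energy_zero hN hmem (fun x v => by rw [f0, f0']) (by rw [E0, E0'])
      (by rw [B0, B0'])
    have hI1 : 0 ≤ ∫ p : R3 × R3, (f t p.1 p.2 - f' t p.1 p.2) * (f t p.1 p.2 - f' t p.1 p.2) :=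
      integral_nonneg fun p => mul_self_nonneg _
    have hI2 : 0 ≤ ∫ x, cut N t x * (‖E t x - E' t x‖ ^ 2 + ‖B t x - B' t x‖ ^ 2) :=
      integral_nonneg fun x => mul_nonneg (cut_nonneg _ _ _) (by positivity)
    constructor
    · intro p
      by_contra hne
      have := (D.slice_FF ht).continuous.integral_pos_of_hasCompactSupport_nonneg_nonzero
        (μ := volume) (x := p) (by simpa using D.hasCompactSupport_mul hmem (fun _ => 1))
        (fun p => mul_self_nonneg _) hne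
      linarith
    · intro x
      by_contra hne
      have := (hH2 N).integral_pos_of_hasCompactSupport_nonneg_nonzero (μ := volume) (x := x)
        (HasCompactSupport.intro (isCompact_closedBall (0 : R3) (|N| + 1))
          fun x hx => by rw [cut_eq_zero ht.1 hx]; simp)
        (fun x => mul_nonneg (cut_nonneg _ _ _) (by positivity)) hne
      linarith
  have hff : f' t = f t := by
    funext x v
    have := (key _ le_rfl).1 (x, v)
    simp only at this
    have h3 : f t x v - f' t x v = 0 := by simpa using this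
    linarith
  have hEB : ∀ x, E' t x = E t x ∧ B' t x = B t x := by
    intro x
    set N := T' + Real.sqrt (1 + R ^ 2) + (t + Real.sqrt (1 + ‖x‖ ^ 2))
    have hs1 := Real.sqrt_nonneg (1 + R ^ 2)
    have hs2 := Real.sqrt_nonneg (1 + ‖x‖ ^ 2)
    have h3 := (key N (by have := ht.1; simp only [N]; linarith)).2 x
    rw [cut_eq_one (by simp only [N]; linarith), one_mul] at h3
    have h4 : ‖E t x - E' t x‖ ^ 2 = 0 := by nlinarith [sq_nonneg ‖E t x - E' t x‖, sq_nonneg ‖B t x - B' t x‖]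
    have h5 : ‖B t x - B' t x‖ ^ 2 = 0 := by nlinarith [sq_nonneg ‖E t x - E' t x‖, sq_nonneg ‖B t x - B' t x‖]
    have h6 : E t x - E' t x = 0 := by simpa using h4
    have h7 : B t x - B' t x = 0 := by simpa using h5
    exact ⟨(sub_eq_zero.1 h6).symm, (sub_eq_zero.1 h7).symm⟩
  exact ⟨hff, funext fun x => (hEB x).1, funext fun x => (hEB x).2⟩

end Crest.Agent.R106.UQ
end

-- ▼ part R106/UniqM

/-! Row 106 (S0140): the frozen statement `Uniq` (helper756). -/

set_option autoImplicit false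
open MeasureTheory Set
open Crest.AnalysisR.VecCalc3 Crest.AnalysisR.PDE.RVM

namespace Crest.Agent.R106

theorem uniq : Uniq := by
  intro T f₀ E₀ B₀ f E B f' E' B' h h'
  exact UQ.uniq h h'

end Crest.Agent.R106
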