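import Crest.Agent.R106.Mix
import Crest.Agent.R106.MixLab_Mg
import Crest.Agent.R106.FlowTo
import Crest.Agent.R106.OccCM
import Crest.Agent.R106.EnLink
import Crest.Agent.R106.HSmall_Mg
import Crest.Agent.R106.AbsTop
import Crest.Agent.R106.GsrFin
import Crest.Agent.R106.UniqM
import Crest.Agent.R106.FBlogTop_Mg
import Crest.Agent.R106.FBDir_Mg
import Crest.Agent.R106.GsrRep
import Crest.Agent.R106.GsrTheta
import Mathlib
import Crest.Prelude.Def_VlasovMaxwell
import Crest.Agent.R106.GSRDefs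
import Crest.Agent.R106.EnMain

-- ▼ part R106/MixFinal
section

/-!
# Row 106, MIX: `MixP` and `FtP` for every solution of the class, from the representation (R)
(helper616; pieces by helper633, helper154, helper369, helper146, helper332, helper898, helper868,
helper824).
-/

set_option autoImplicit false

open MeasureTheory Set Filter Topology
open Crest.AnalysisR.VecCalc3 Crest.AnalysisR.PDE.RVM
open scoped InnerProductSpace ENNReal ContDiff

noncomputable section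

namespace Crest.Agent.R106.Mix

variable {T : ℝ} {f₀ : R3 → R3 → ℝ} {E₀ B₀ : R3 → R3} {f : ℝ → R3 → R3 → ℝ} {E B : ℝ → R3 → R3}

/-- the flow of a solution in label form -/
theorem exists_solFlow (hT : 0 < T) (hS : SolTo T f₀ E₀ B₀ f E B) :
    ∃ Φ Ψ : ℝ → R3 × R3 → R3 × R3, SolFlow T f₀ f E B Φ Ψ := by
  obtain ⟨Zf, Zi, a, L, ha, -, -, hf, -⟩ := FlowTo.exists_labelFlow hT hS
  have e : a = av E B := by
    funext τ w
    rw [ha]
    rfl
  subst e
  refine ⟨Zf, Zi, L, fun τ hτ w => ?_⟩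
  rw [hf τ hτ w, hS.f_zero]

/-- **(M)** for every solution of the class. -/
theorem mixP (hT : 0 < T) (hadm : IsAdmissibleDatum f₀ E₀ B₀) (hS : SolTo T f₀ E₀ B₀ f E B)
    (hrep : GsCor.GSRepOn T f E B) : Mom.MixP T f E B := by
  refine mixP_of hT hadm hS (repF hT hS.1 hrep) (ptBound E B) (ptDeriv E B) ?_
  intro T' hT' hT'T
  have hS' := solTo_mono hT' hT'T.le hS
  obtain ⟨Φ, Ψ, hF⟩ := exists_solFlow hT' hS'
  exact ⟨Φ, Ψ, hF, labInt hadm hS'.1 hF.L hF.hf (ptBound E B)⟩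

/-- `MixP` in the form of `MomIface`. -/
theorem mixP_sol (h : Mom.SmoothSol T f₀ E₀ B₀ f E B) (hrep : GsCor.GSRepOn T f E B) :
    Mom.MixP T f E B :=
  mixP h.T_pos h.adm ⟨h.sol, h.smf, h.smE, h.smB⟩ hrep

/-- `FtP` in the form of `MomIface`. -/
theorem ftP_sol (h : Mom.SmoothSol T f₀ E₀ B₀ f E B) (hrep : GsCor.GSRepOn T f E B) :
    Mom.FtP T f E B := by
  obtain ⟨Φ, Ψ, hF⟩ := exists_solFlow h.T_pos ⟨h.sol, h.smf, h.smE, h.smB⟩
  exact ftP h.T_pos h.sol (nonneg_of_flow hF h.adm.1) hrep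

end Crest.Agent.R106.Mix
end
end

-- ▼ part R106/OccSolB
section

set_option autoImplicit false

open MeasureTheory Set Filter Topology
open Crest.AnalysisR.VecCalc3 Crest.AnalysisR.PDE.RVM
open scoped InnerProductSpace ENNReal ContDiff

noncomputable section

namespace Crest.Agent.R106.OccSolB

open Crest.Agent.R106.Mom Crest.Agent.R106.CM Crest.Agent.R106.Occ
open Crest.Agent.R106.GSR (gam)

open Classical in
/-- `f` before time `T`, `0` afterwards -/
def ftr (T : ℝ) (f : ℝ → R3 → R3 → ℝ) (t : ℝ) (x v : R3) : ℝ := if t < T then f t x v else 0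

variable {T : ℝ} {f : ℝ → R3 → R3 → ℝ} {E B : ℝ → R3 → R3}

lemma ftr_eq {t : ℝ} (ht : t < T) : ftr T f t = f t := by
  funext x v
  unfold ftr
  rw [if_pos ht]

lemma measurable_ftr
    (hf : ContDiffOn ℝ ∞ (fun p : ℝ × R3 × R3 => f p.1 p.2.1 p.2.2) (Set.Iio T ×ˢ Set.univ)) :
    Measurable fun p : ℝ × R3 × R3 => ftr T f p.1 p.2.1 p.2.2 := by
  classical
  have hm : MeasurableSet (Set.Iio T ×ˢ (Set.univ : Set (R3 × R3))) :=
    measurableSet_Iio.prod MeasurableSet.univ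
  have h1 := ContinuousOn.measurable_piecewise hf.continuousOn
    (continuousOn_const (c := (0 : ℝ))) hm
  convert h1 using 1
  funext p
  by_cases hp : p.1 < T
  · have : p ∈ Set.Iio T ×ˢ (Set.univ : Set (R3 × R3)) := ⟨hp, mem_univ _⟩
    rw [piecewise_eq_of_mem _ _ _ this]
    simp only [ftr, if_pos hp]
  · have : p ∉ Set.Iio T ×ˢ (Set.univ : Set (R3 × R3)) := fun h => hp h.1
    rw [piecewise_eq_of_notMem _ _ _ this]
    simp only [ftr, if_neg hp]

lemma isChar_ftr (hT : 0 < T) {X p : ℝ → R3} :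
    IsChar T (ftr T f) E B X p ↔ IsChar T f E B X p := by
  constructor
  · intro h
    exact ⟨h.cX, h.cp, h.dX, h.dp, by have := h.supp; rwa [ftr_eq hT] at this⟩
  · intro h
    exact ⟨h.cX, h.cp, h.dX, h.dp, by rw [ftr_eq hT]; exact h.supp⟩

lemma kap_ftr {X : ℝ → R3} {s : ℝ} (hs : s < T) : kap (ftr T f) X s = kap f X s := by
  unfold kap
  congr 1
  funext q
  have h : ret X s q.1 < T := by
    unfold ret
    linarith [norm_nonneg (X s - q.1)]
  rw [ftr_eq h]

lemma labM_ftr (hT : 0 < T) : labM (ftr T f) = labM f := by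
  unfold labM
  rw [ftr_eq hT]

/-- `CMP` only sees `f` before time `T`. -/
lemma cmp_ftr (hT : 0 < T) (h : CMP T (ftr T f) E B) : CMP T f E B := by
  obtain ⟨Φ, h1, h2, ⟨E0, hE0, h3⟩, h4⟩ := h
  refine ⟨Φ, fun z hz => ?_, h2, ⟨E0, hE0, fun t ht => ?_⟩, ?_⟩
  · exact (isChar_ftr hT).1 (h1 z (by rw [ftr_eq hT]; exact hz))
  · rw [← labM_ftr hT]
    exact h3 t ht
  · intro X p hX R1 d1 e1 D1 Q1 hR hd he hD hQ a b ha hab hb
    obtain ⟨S, σ, h5, h6⟩ := h4 X p ((isChar_ftr hT).2 hX) R1 d1 e1 D1 Q1 hR hd he hD hQ a b ha hab hb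
    refine ⟨S, σ, ?_, ?_⟩
    · rw [labM_ftr hT] at h5
      refine le_trans (le_of_eq ?_) h5
      refine setLIntegral_congr_fun measurableSet_Icc fun s hs => ?_
      rw [kap_ftr (lt_of_le_of_lt hs.2 hb)]
    · intro z hz
      have := h6 z hz
      rwa [ftr_eq hT] at this

/-- energy of the particles -/
lemma exists_energy {f₀ : R3 → R3 → ℝ} {E₀ B₀ : R3 → R3} (h : Mom.SmoothSol T f₀ E₀ B₀ f E B) :
    ∃ E0 : ℝ, 0 ≤ E0 ∧ ∀ t ∈ Ico 0 T,
      ∫⁻ z : R3 × R3, ENNReal.ofReal (gam z.2 * f t z.1 z.2) ≤ ENNReal.ofReal E0 := by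
  have hr : En.Reg T f E B := En.Reg.of_sol h.sol
  obtain ⟨hf, -⟩ := En.sol_bounds h.adm h.sol
  have hz : (0 : ℝ) ∈ Ico 0 T := ⟨le_rfl, h.T_pos⟩
  have hL2 := h.sol.2.2.2.2.2.2.2.2 0 hz
  have htop := En.en_ne_top hr hz hL2.1 hL2.2.1
  refine ⟨(En.en f E B 0).toReal, ENNReal.toReal_nonneg, fun t ht => ?_⟩
  rw [ENNReal.ofReal_toReal htop, ← En.energy_eq hr hf hz ht]
  unfold En.en
  exact le_add_self

/-- **(d)** for the class of the new part. -/
theorem occD_sol {f₀ : R3 → R3 → ℝ} {E₀ B₀ : R3 → R3} (h : Mom.SmoothSol T f₀ E₀ B₀ f E B) :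
    OccD T f E B := by
  have hS : SolTo T f₀ E₀ B₀ f E B := FlowTo.solTo_of_smoothSol h
  have hT := h.T_pos
  obtain ⟨Zf, Zi, a, L, ha, -, hch, hfl, hmp, -, -, -⟩ := FlowTo.exists_labelFlow hT hS
  obtain ⟨E0, hE0, hen⟩ := exists_energy h
  refine occD (cmp_ftr hT (cmp_of (f := ftr T f) L (fun τ w => by rw [ha]) ?_
    (measurable_ftr h.smf) ?_ hmp hE0 ?_))
  · intro τ hτ w
    rw [ftr_eq hτ.2, ftr_eq hT]
    exact hfl τ hτ w
  · intro z hz
    rw [ftr_eq hT] at hz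
    exact (isChar_ftr hT).2 (hch z hz)
  · intro t ht
    rw [ftr_eq ht.2]
    exact hen t ht

end Crest.Agent.R106.OccSolB
end
end

-- ▼ part R106/MomNodes
section

set_option autoImplicit false

open MeasureTheory Set Filter Topology
open Crest.AnalysisR.VecCalc3 Crest.AnalysisR.PDE.RVM
open scoped ContDiff

namespace Crest.Agent.R106.Mom

theorem nodes_of (hrep : GSR.RepU) (T : ℝ) (f₀ : R3 → R3 → ℝ) (E₀ B₀ : R3 → R3)
    (f : ℝ → R3 → R3 → ℝ) (E B : ℝ → R3 → R3) (h : Mom.SmoothSol T f₀ E₀ B₀ f E B) :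
    Nodes T f E B := by
  have hr : Link.Reg T f E B := Link.reg_of_sol h.sol
  have hch : CharP T f E B := FlowTo.charP_smoothSol h
  obtain ⟨hA, hB, hC, hcA, hcB⟩ := En.occ_core h
  have hS : SolTo T f₀ E₀ B₀ f E B := FlowTo.solTo_of_smoothSol h
  have hg : GsCor.GSRepOn T f E B := GSR.gsRepW hrep T h.T_pos f₀ E₀ B₀ h.adm f E B hS
  exact
    { mix := Mix.mixP_sol h hg
      ft := Mix.ftP_sol h hg
      occA := hA
      occB := hB
      occC := hC
      coreA := hcA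
      coreB := hcB
      fsrc := fsrcP E B
      occD := OccSolB.occD_sol h
      loc := HSmall.locP h.T_pos h.sol
      bsmall := Link.bsmallP_of hr Abs.finB h.T_pos hch hA hB
      abs := Link.absP_of hr Abs.finH
      lip := HSmall.lipP h.T_pos h.sol
      char := hch }

/-- (kept for `Top.lean`) the nodes that were open at 17:00 -/
structure OpenNodes : Prop where
  repU : GSR.RepU
  mix : ∀ (T : ℝ) (f₀ : R3 → R3 → ℝ) (E₀ B₀ : R3 → R3) (f : ℝ → R3 → R3 → ℝ) (E B : ℝ → R3 → R3),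
    Mom.SmoothSol T f₀ E₀ B₀ f E B → MixP T f E B
  occD : ∀ (T : ℝ) (f₀ : R3 → R3 → ℝ) (E₀ B₀ : R3 → R3) (f : ℝ → R3 → R3 → ℝ) (E B : ℝ → R3 → R3),
    Mom.SmoothSol T f₀ E₀ B₀ f E B → OccD T f E B
  finH : Link.FinH
  finB : Link.FinB

theorem momBound1_of_open (H : OpenNodes) : MomBound1 :=
  momBound1_of (nodes_of H.repU)


end Crest.Agent.R106.Mom
end

-- ▼ part R106/Top
section

/-!
# Row 106 (S0140): TOP LINK (helper709).
-/

set_option autoImplicit false
open MeasureTheory Set Filter Topology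
open Crest.AnalysisR.VecCalc3 Crest.AnalysisR.PDE.RVM
open scoped ContDiff

namespace Crest.Agent.R106.Top

/-- Standard part: complete. -/
theorem truncEx : TruncEx :=
  Std.truncEx_of (FBDir.fb Gs2.supEst) (FBDir.fbz Gs2.supEst) Std.fbLog

/-- OCC (193, 743, 146): open. -/
def OccDN : Prop := ∀ (T : ℝ) (f₀ : R3 → R3 → ℝ) (E₀ B₀ : R3 → R3) (f : ℝ → R3 → R3 → ℝ)
  (E B : ℝ → R3 → R3), Mom.SmoothSol T f₀ E₀ B₀ f E B → Mom.OccD T f E B

theorem repOn (hRep : GSR.RepU) {T : ℝ} {f₀ : R3 → R3 → ℝ} {E₀ B₀ : R3 → R3}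
    {f : ℝ → R3 → R3 → ℝ} {E B : ℝ → R3 → R3} (h : Mom.SmoothSol T f₀ E₀ B₀ f E B) :
    GsCor.GSRepOn T f E B :=
  GSR.gsRepW hRep T h.T_pos f₀ E₀ B₀ h.adm f E B (FlowTo.solTo_of_smoothSol h)

theorem goal_of (hRep : GSR.RepU) (hD : OccDN) : Goal :=
  glue1 uniq truncEx (Mom.momBound1_of_open
    { repU := hRep
      mix := fun _ _ _ _ _ _ _ h => Mix.mixP_sol h (repOn hRep h)
      occD := hD
      finH := Abs.finH
      finB := Abs.finB })

end Crest.Agent.R106.Top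
end

-- ▼ part R106/GsrRepH
section

set_option autoImplicit false

open MeasureTheory Set Filter Topology Metric
open Crest.AnalysisR.VecCalc3 Crest.AnalysisR.PDE.RVM
open scoped ContDiff RealInnerProductSpace

namespace Crest.Agent.R106.Gsr

open Crest.Agent.R106.GSR (pt px box unc ft fx)

section
variable {f : ℝ → R3 → R3 → ℝ}

lemma fx_cont (hf : ContDiff ℝ ∞ (unc f)) (i : Fin 3) : Continuous (fx i (unc f)) :=
  (hf.continuous_fderiv (by simp)).clm_apply continuous_const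

lemma ft_cont (hf : ContDiff ℝ ∞ (unc f)) : Continuous (ft (unc f)) :=
  (hf.continuous_fderiv (by simp)).clm_apply continuous_const

lemma fderiv_zero_of_supp {T R : ℝ} (hR : ∀ τ ∈ Ioo 0 T, ∀ y p, R < ‖p‖ → f τ y p = 0)
    {τ : ℝ} (hτ : τ ∈ Ioo 0 T) (y : R3) {p : R3} (hp : R < ‖p‖) : fderiv ℝ (unc f) (τ, y, p) = 0 := by
  have : unc f =ᶠ[𝓝 (τ, y, p)] fun _ => 0 := by
    have h1 : {q : ℝ × R3 × R3 | q.1 ∈ Ioo 0 T ∧ R < ‖q.2.2‖} ∈ 𝓝 (τ, y, p) := by
      apply IsOpen.mem_nhds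
      · exact (isOpen_Ioo.preimage continuous_fst).inter
          (isOpen_lt continuous_const (continuous_snd.comp continuous_snd).norm)
      · exact ⟨hτ, hp⟩
    filter_upwards [h1] with q hq
    exact hR q.1 hq.1 q.2.1 q.2.2 hq.2
  rw [this.fderiv_eq]; simp

/-- slice at fixed momentum -/
lemma slice_px (hf : ContDiff ℝ ∞ (unc f)) (p : R3) (i : Fin 3) (q : ℝ × R3) :
    px i (fun q : ℝ × R3 => f q.1 q.2 p) q = fx i (unc f) (q.1, q.2, p) := by
  unfold px fx
  have h1 : HasFDerivAt (unc f) (fderiv ℝ (unc f) (q.1, q.2, p)) (q.1, q.2, p) :=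
    (hf.differentiable (by simp)).differentiableAt.hasFDerivAt
  have h2 : HasFDerivAt (fun q : ℝ × R3 => ((q.1, q.2, p) : ℝ × R3 × R3))
      ((ContinuousLinearMap.fst ℝ ℝ R3).prod ((ContinuousLinearMap.snd ℝ ℝ R3).prod (0 : ℝ × R3 →L[ℝ] R3))) q :=
    hasFDerivAt_fst.prodMk (hasFDerivAt_snd.prodMk (hasFDerivAt_const p q))
  have h3 := h1.comp q h2
  have h4 : HasFDerivAt (fun q : ℝ × R3 => f q.1 q.2 p) _ q := h3
  rw [h4.fderiv]
  simp

lemma slice_pt (hf : ContDiff ℝ ∞ (unc f)) (p : R3) (q : ℝ × R3) :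
    pt (fun q : ℝ × R3 => f q.1 q.2 p) q = ft (unc f) (q.1, q.2, p) := by
  unfold pt ft
  have h1 : HasFDerivAt (unc f) (fderiv ℝ (unc f) (q.1, q.2, p)) (q.1, q.2, p) :=
    (hf.differentiable (by simp)).differentiableAt.hasFDerivAt
  have h2 : HasFDerivAt (fun q : ℝ × R3 => ((q.1, q.2, p) : ℝ × R3 × R3))
      ((ContinuousLinearMap.fst ℝ ℝ R3).prod ((ContinuousLinearMap.snd ℝ ℝ R3).prod (0 : ℝ × R3 →L[ℝ] R3))) q :=
    hasFDerivAt_fst.prodMk (hasFDerivAt_snd.prodMk (hasFDerivAt_const p q))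
  have h3 := h1.comp q h2
  have h4 : HasFDerivAt (fun q : ℝ × R3 => f q.1 q.2 p) _ q := h3
  rw [h4.fderiv]
  simp

lemma slice_contDiff (hf : ContDiff ℝ ∞ (unc f)) (p : R3) {n : ℕ∞} :
    ContDiff ℝ n (fun q : ℝ × R3 => f q.1 q.2 p) := by
  have h1 : ContDiff ℝ n (unc f) := hf.of_le (by exact_mod_cast le_top)
  exact h1.comp (contDiff_fst.prodMk (contDiff_snd.prodMk contDiff_const))

end

/-- the representation at level `h` -/
theorem rep_h {f : ℝ → R3 → R3 → ℝ} (hf : ContDiff ℝ ∞ (unc f)) {u : ℝ × R3 → ℝ} (hu : ContDiff ℝ 2 u)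
    {c : R3 → R3} (hc : Continuous c) {σ T R t h : ℝ} (hh : 0 < h) (ht : h ≤ t) (htT : t < T) (x : R3)
    (hR : ∀ τ ∈ Ioo 0 T, ∀ y p, R < ‖p‖ → f τ y p = 0)
    (hbox : ∀ τ ∈ Ioo 0 T, ∀ y, box u (τ, y) = σ * ∫ p, (∑ i, c p i * fx i (unc f) (τ, y, p)
      + (∑ i, c p i * relVel p i) * ft (unc f) (τ, y, p)))
    {S : R3 → R3 → ℝ} (hSc : ContinuousOn (Function.uncurry S) ({0}ᶜ ×ˢ univ)) {CS : ℝ}
    (hSb : ∀ z, z ≠ 0 → ‖z‖ < t → ∀ p, ‖p‖ ≤ R → |S z p| ≤ CS * ‖z‖⁻¹ ^ 2)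
    (hS : ∀ z, z ≠ 0 → ‖z‖ < t → ∫ p, σ * kM c z p * (ft (unc f) (t - ‖z‖, x + z, p)
      + ∑ i, relVel p i * fx i (unc f) (t - ‖z‖, x + z, p)) = ∫ p, f (t - ‖z‖) (x + z) p * S z p) :
    4 * Real.pi * u (t, x)
      = (∫ z, th h (t - ‖z‖) * ∫ p, f (t - ‖z‖) (x + z) p * (σ * kT c z p + S z p))
        + ∫ z, th' h (t - ‖z‖) * (‖z‖⁻¹ * (pt u (ret t x z) + ∑ k, om k z * px k u (ret t x z))
          + ‖z‖⁻¹ ^ 2 * u (ret t x z)
          + ‖z‖⁻¹ * ∫ p, (σ * (kap (relVel p) (c p) z * (mm (relVel p) z)⁻¹ - ∑ i, c p i * relVel p i))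
              * f (t - ‖z‖) (x + z) p) := by
  have ht0 : 0 < t := lt_of_lt_of_le hh ht
  -- the four density functions
  let F1 : Fin 3 → ℝ × R3 × R3 → ℝ := fun i q => th h q.1 * fx i (unc f) q
  let F2 : ℝ × R3 × R3 → ℝ := fun q => th h q.1 * ft (unc f) q
  let F3 : ℝ × R3 × R3 → ℝ := fun q => th' h q.1 * unc f q
  let F4 : ℝ × R3 × R3 → ℝ := fun q => th h q.1 * unc f q
  have cth : Continuous (fun q : ℝ × R3 × R3 => th h q.1) := (th_contDiff h (n := 0)).continuous.comp continuous_fst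
  have cth' : Continuous (fun q : ℝ × R3 × R3 => th' h q.1) := (th'_continuous h).comp continuous_fst
  have hF1c : ∀ i, Continuous (F1 i) := fun i => cth.mul (fx_cont hf i)
  have hF2c : Continuous F2 := cth.mul (ft_cont hf)
  have hF3c : Continuous F3 := cth'.mul hf.continuous
  have hF4c : Continuous F4 := cth.mul hf.continuous
  have hF1z : ∀ i, ∀ τ ≤ 0, ∀ y p, F1 i (τ, y, p) = 0 := fun i τ hτ y p => by simp [F1, th_zero hh hτ]
  have hF2z : ∀ τ ≤ 0, ∀ y p, F2 (τ, y, p) = 0 := fun τ hτ y p => by simp [F2, th_zero hh hτ]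
  have hF3z : ∀ τ ≤ 0, ∀ y p, F3 (τ, y, p) = 0 := fun τ hτ y p => by simp [F3, th'_zero hh hτ]
  have hF4z : ∀ τ ≤ 0, ∀ y p, F4 (τ, y, p) = 0 := fun τ hτ y p => by simp [F4, th_zero hh hτ]
  have hF1R : ∀ i, ∀ τ ∈ Ioo 0 T, ∀ y p, R < ‖p‖ → F1 i (τ, y, p) = 0 := fun i τ hτ y p hp => by
    simp [F1, fx, fderiv_zero_of_supp hR hτ y hp]
  have hF2R : ∀ τ ∈ Ioo 0 T, ∀ y p, R < ‖p‖ → F2 (τ, y, p) = 0 := fun τ hτ y p hp => by
    simp [F2, ft, fderiv_zero_of_supp hR hτ y hp]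
  have hF3R : ∀ τ ∈ Ioo 0 T, ∀ y p, R < ‖p‖ → F3 (τ, y, p) = 0 := fun τ hτ y p hp => by
    simp [F3, unc, hR τ hτ y p hp]
  have hF4R : ∀ τ ∈ Ioo 0 T, ∀ y p, R < ‖p‖ → F4 (τ, y, p) = 0 := fun τ hτ y p hp => by
    simp [F4, unc, hR τ hτ y p hp]
  obtain ⟨M, hM0, hMb⟩ := kernel_bounds hc R t
  -- product integrability
  have iC1 : ∀ i, Integrable (fun q : R3 × R3 => kC c i q.1 q.2 * F1 i (t - ‖q.1‖, x + q.1, q.2)) ((volume : Measure R3).prod volume) :=
    fun i => prod_int htT (cont_kC hc i) (fun z hz hzt p hp => (hMb z hz hzt.le p hp).2.2.2.1 i) (hF1c i) (hF1z i) (hF1R i) x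
  have iV1 : ∀ i, Integrable (fun q : R3 × R3 => kV c i q.1 q.2 * F1 i (t - ‖q.1‖, x + q.1, q.2)) ((volume : Measure R3).prod volume) :=
    fun i => prod_int htT (cont_kV hc i) (fun z hz hzt p hp => (hMb z hz hzt.le p hp).2.2.2.2 i) (hF1c i) (hF1z i) (hF1R i) x
  have iX2 : Integrable (fun q : R3 × R3 => kX c q.1 q.2 * F2 (t - ‖q.1‖, x + q.1, q.2)) ((volume : Measure R3).prod volume) :=
    prod_int htT (cont_kX hc) (fun z hz hzt p hp => (hMb z hz hzt.le p hp).2.2.1) hF2c hF2z hF2R x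
  have iM2 : Integrable (fun q : R3 × R3 => kM c q.1 q.2 * F2 (t - ‖q.1‖, x + q.1, q.2)) ((volume : Measure R3).prod volume) :=
    prod_int htT (cont_kM hc) (fun z hz hzt p hp => (hMb z hz hzt.le p hp).2.1) hF2c hF2z hF2R x
  have iX3 : Integrable (fun q : R3 × R3 => kX c q.1 q.2 * F3 (t - ‖q.1‖, x + q.1, q.2)) ((volume : Measure R3).prod volume) :=
    prod_int htT (cont_kX hc) (fun z hz hzt p hp => (hMb z hz hzt.le p hp).2.2.1) hF3c hF3z hF3R x
  have iM3 : Integrable (fun q : R3 × R3 => kM c q.1 q.2 * F3 (t - ‖q.1‖, x + q.1, q.2)) ((volume : Measure R3).prod volume) :=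
    prod_int htT (cont_kM hc) (fun z hz hzt p hp => (hMb z hz hzt.le p hp).2.1) hF3c hF3z hF3R x
  have iT4 : Integrable (fun q : R3 × R3 => kT c q.1 q.2 * F4 (t - ‖q.1‖, x + q.1, q.2)) ((volume : Measure R3).prod volume) :=
    prod_int htT (cont_kT hc) (fun z hz hzt p hp => (hMb z hz hzt.le p hp).1) hF4c hF4z hF4R x
  have iS4 : Integrable (fun q : R3 × R3 => S q.1 q.2 * F4 (t - ‖q.1‖, x + q.1, q.2)) ((volume : Measure R3).prod volume) :=
    prod_int htT hSc hSb hF4c hF4z hF4R x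
  -- the four groups
  let a1 : R3 × R3 → ℝ := fun q => (∑ i, kC c i q.1 q.2 * F1 i (t - ‖q.1‖, x + q.1, q.2)) + kX c q.1 q.2 * F2 (t - ‖q.1‖, x + q.1, q.2)
  let a2 : R3 × R3 → ℝ := fun q => kT c q.1 q.2 * F4 (t - ‖q.1‖, x + q.1, q.2)
  let a3 : R3 × R3 → ℝ := fun q => kM c q.1 q.2 * F3 (t - ‖q.1‖, x + q.1, q.2) - kX c q.1 q.2 * F3 (t - ‖q.1‖, x + q.1, q.2)
  let a4 : R3 × R3 → ℝ := fun q => (∑ i, kV c i q.1 q.2 * F1 i (t - ‖q.1‖, x + q.1, q.2)) + kM c q.1 q.2 * F2 (t - ‖q.1‖, x + q.1, q.2)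
  have i1 : Integrable a1 ((volume : Measure R3).prod volume) := (integrable_finsetSum Finset.univ fun i _ => iC1 i).add iX2
  have i2 : Integrable a2 ((volume : Measure R3).prod volume) := iT4
  have i3 : Integrable a3 ((volume : Measure R3).prod volume) := iM3.sub iX3
  have i4 : Integrable a4 ((volume : Measure R3).prod volume) := (integrable_finsetSum Finset.univ fun i _ => iV1 i).add iM2
  let H : R3 × R3 → ℝ := fun q => a1 q - a2 q - a3 q - a4 q
  have iH : Integrable H ((volume : Measure R3).prod volume) := ((i1.sub i2).sub i3).sub i4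
  -- for fixed momentum the z-integral vanishes
  have hzero : ∀ p : R3, ∫ z, H (z, p) = 0 := by
    intro p
    have hgd : ∀ q : ℝ × R3, DifferentiableAt ℝ (fun q : ℝ × R3 => f q.1 q.2 p) q := fun q =>
      ((slice_contDiff hf p (n := 1)).differentiable (by norm_num)).differentiableAt
    have hthd : ∀ q : ℝ × R3, DifferentiableAt ℝ (fun q : ℝ × R3 => th h q.1) q := fun q =>
      (((th_contDiff h (n := 1)).comp contDiff_fst).differentiable (by norm_num)).differentiableAt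
    let g : ℝ × R3 → ℝ := fun q => th h q.1 * f q.1 q.2 p
    have hg : ContDiff ℝ 1 g := ((th_contDiff h (n := 1)).comp contDiff_fst).mul (slice_contDiff hf p (n := 1))
    have hg0 : ∀ τ ≤ 0, ∀ y, g (τ, y) = 0 := fun τ hτ y => by simp [g, th_zero hh hτ]
    have hptg : ∀ q, pt g q = th' h q.1 * f q.1 q.2 p + th h q.1 * ft (unc f) (q.1, q.2, p) := by
      intro q
      rw [show g = fun q : ℝ × R3 => (fun q : ℝ × R3 => th h q.1) q * (fun q : ℝ × R3 => f q.1 q.2 p) q from rfl,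
        pt_mul (hthd q) (hgd q), pt_time (th_hasDerivAt h q.1), slice_pt hf p q]
    have hpxg : ∀ i q, px i g q = th h q.1 * fx i (unc f) (q.1, q.2, p) := by
      intro i q
      rw [show g = fun q : ℝ × R3 => (fun q : ℝ × R3 => th h q.1) q * (fun q : ℝ × R3 => f q.1 q.2 p) q from rfl,
        px_mul (hthd q) (hgd q), px_time (th_hasDerivAt h q.1), slice_px hf p i q, zero_mul, zero_add]
    obtain ⟨-, -, -, hz⟩ := cone_ibp_aux hg hg0 (relVel_lt p) (c p) t x
    rw [← hz]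
    congr 1
    ext z
    simp only [H, a1, a2, a3, a4, F1, F2, F3, F4, hptg, hpxg, kC, kV, kX, kM, kT, ret, unc, g, Fin.sum_univ_three]
    ring
  have hFub : ∫ z, ∫ p, H (z, p) = 0 := by
    rw [← integral_prod H iH, integral_prod_symm H iH]
    simp [hzero]
  -- fibers
  have hfib : ∀ z : R3, z ≠ 0 → σ * ∫ p, H (z, p)
      = ‖z‖⁻¹ * (th h (t - ‖z‖) * box u (ret t x z))
        - th h (t - ‖z‖) * (∫ p, f (t - ‖z‖) (x + z) p * (σ * kT c z p + S z p))
        - th' h (t - ‖z‖) * (‖z‖⁻¹ * ∫ p, (σ * (kap (relVel p) (c p) z * (mm (relVel p) z)⁻¹ - ∑ i, c p i * relVel p i))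
              * f (t - ‖z‖) (x + z) p) := by
    intro z hz
    by_cases hzt : t ≤ ‖z‖
    · have e1 : th h (t - ‖z‖) = 0 := th_zero hh (by linarith)
      have e2 : th' h (t - ‖z‖) = 0 := th'_zero hh (by linarith)
      have e3 : ∀ p, H (z, p) = 0 := fun p => by
        simp only [H, a1, a2, a3, a4, F1, F2, F3, F4, e1, e2]
        simp
      simp [e1, e2, e3]
    push Not at hzt
    have hzp : 0 < ‖z‖ := norm_pos_iff.2 hz
    have hτ : t - ‖z‖ ∈ Ioo 0 T := ⟨by linarith, by linarith⟩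
    have f1 : ∀ i, Integrable (fun p : R3 => kC c i z p * F1 i (t - ‖z‖, x + z, p)) := fun i =>
      fiber_int htT (cont_kC hc i) (hF1c i) (hF1z i) (hF1R i) x hz
    have f1' : ∀ i, Integrable (fun p : R3 => kV c i z p * F1 i (t - ‖z‖, x + z, p)) := fun i =>
      fiber_int htT (cont_kV hc i) (hF1c i) (hF1z i) (hF1R i) x hz
    have f2 : Integrable (fun p : R3 => kX c z p * F2 (t - ‖z‖, x + z, p)) := fiber_int htT (cont_kX hc) hF2c hF2z hF2R x hz
    have f2' : Integrable (fun p : R3 => kM c z p * F2 (t - ‖z‖, x + z, p)) := fiber_int htT (cont_kM hc) hF2c hF2z hF2R x hz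
    have f3 : Integrable (fun p : R3 => kX c z p * F3 (t - ‖z‖, x + z, p)) := fiber_int htT (cont_kX hc) hF3c hF3z hF3R x hz
    have f3' : Integrable (fun p : R3 => kM c z p * F3 (t - ‖z‖, x + z, p)) := fiber_int htT (cont_kM hc) hF3c hF3z hF3R x hz
    have f4 : Integrable (fun p : R3 => kT c z p * F4 (t - ‖z‖, x + z, p)) := fiber_int htT (cont_kT hc) hF4c hF4z hF4R x hz
    have f5 : Integrable (fun p : R3 => S z p * F4 (t - ‖z‖, x + z, p)) := fiber_int htT hSc hF4c hF4z hF4R x hz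
    have j1 : Integrable (fun p : R3 => a1 (z, p)) := (integrable_finsetSum Finset.univ fun i _ => f1 i).add f2
    have j2 : Integrable (fun p : R3 => a2 (z, p)) := f4
    have j3 : Integrable (fun p : R3 => a3 (z, p)) := f3'.sub f3
    have j4 : Integrable (fun p : R3 => a4 (z, p)) := (integrable_finsetSum Finset.univ fun i _ => f1' i).add f2'
    have hHs : ∫ p, H (z, p) = (∫ p, a1 (z, p)) - (∫ p, a2 (z, p)) - (∫ p, a3 (z, p)) - ∫ p, a4 (z, p) := by
      have s1 := integral_sub ((j1.sub j2).sub j3) j4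
      have s2 := integral_sub (j1.sub j2) j3
      have s3 := integral_sub j1 j2
      simp only [Pi.sub_apply] at s1 s2 s3
      simp only [H]
      rw [s1, s2, s3]
    have g1 : σ * ∫ p, a1 (z, p) = ‖z‖⁻¹ * (th h (t - ‖z‖) * box u (ret t x z)) := by
      have : ∫ p, a1 (z, p) = ‖z‖⁻¹ * th h (t - ‖z‖) * ∫ p, (∑ i, c p i * fx i (unc f) (t - ‖z‖, x + z, p)
          + (∑ i, c p i * relVel p i) * ft (unc f) (t - ‖z‖, x + z, p)) := by
        rw [← integral_const_mul]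
        congr 1
        ext p
        simp only [a1, kC, kX, F1, F2, Fin.sum_univ_three]
        ring
      rw [this]
      simp only [ret]
      rw [hbox _ hτ]
      ring
    have g4 : σ * ∫ p, a4 (z, p) = th h (t - ‖z‖) * ∫ p, f (t - ‖z‖) (x + z) p * S z p := by
      rw [← hS z hz hzt, ← integral_const_mul, ← integral_const_mul]
      congr 1
      ext p
      simp only [a4, kV, F1, F2, Fin.sum_univ_three]
      ring
    have g2 : σ * (∫ p, a2 (z, p)) + th h (t - ‖z‖) * (∫ p, f (t - ‖z‖) (x + z) p * S z p)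
        = th h (t - ‖z‖) * (∫ p, f (t - ‖z‖) (x + z) p * (σ * kT c z p + S z p)) := by
      rw [← integral_const_mul, ← integral_const_mul, ← integral_const_mul, ← integral_add]
      · congr 1
        ext p
        simp only [a2, F4, unc]
        ring
      · exact j2.const_mul σ
      · refine f5.congr (Eventually.of_forall fun p => ?_)
        simp only [F4, unc]
        ring
    have g3 : σ * ∫ p, a3 (z, p) = th' h (t - ‖z‖) * (‖z‖⁻¹ * ∫ p, (σ * (kap (relVel p) (c p) z * (mm (relVel p) z)⁻¹ - ∑ i, c p i * relVel p i))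
              * f (t - ‖z‖) (x + z) p) := by
      rw [← integral_const_mul, ← integral_const_mul, ← integral_const_mul]
      congr 1
      ext p
      simp only [a3, kM, kX, F3, unc, Fin.sum_univ_three]
      ring
    rw [hHs, mul_sub, mul_sub, mul_sub, g1, g3, g4, ← g2]
    ring
  -- integrability in z
  have hboxc : Continuous (box u) := by
    have hpx : ∀ k, ContDiff ℝ 1 (px k u) := fun k => px_contDiff2 hu k
    have hpt : ContDiff ℝ 1 (pt u) := pt_contDiff2 hu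
    have h1 : ∀ {F : ℝ × R3 → ℝ} (k : Fin 3), ContDiff ℝ 1 F → Continuous (px k F) := fun k hF =>
      (hF.continuous_fderiv (by norm_num)).clm_apply continuous_const
    have h2 : Continuous (pt (pt u)) := (hpt.continuous_fderiv (by norm_num)).clm_apply continuous_const
    exact h2.sub (continuous_finsetSum _ fun k _ => h1 k (hpx k))
  have cth2 : Continuous (fun q : ℝ × R3 => th h q.1) := (th_contDiff h (n := 0)).continuous.comp continuous_fst
  have cth2' : Continuous (fun q : ℝ × R3 => th' h q.1) := (th'_continuous h).comp continuous_fst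
  have hrho : ContinuousOn (fun z : R3 => ‖z‖⁻¹) {0}ᶜ := (contDiffOn_rho (n := 0)).continuousOn
  have hJ1 : Integrable (fun z => ‖z‖⁻¹ * (th h (t - ‖z‖) * box u (ret t x z))) :=
    cone_kernel_integrable' (F := fun q => th h q.1 * box u q) (fun τ hτ y => by simp [th_zero hh hτ])
      (cth2.mul hboxc) t x (C := 1) hrho (fun z _ => by rw [abs_inv, abs_norm, one_mul])
  have hae : ∀ᵐ z : R3, z ≠ 0 := by
    have : ({0}ᶜ : Set R3) ∈ ae (volume : Measure R3) := by
      rw [mem_ae_iff, compl_compl]; exact measure_singleton _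
    exact this
  have hJ2 : Integrable (fun z => th h (t - ‖z‖) * (∫ p, f (t - ‖z‖) (x + z) p * (σ * kT c z p + S z p))) := by
    have h1 := ((iT4.const_mul σ).add iS4).integral_prod_left
    refine h1.congr ?_
    filter_upwards [hae] with z hz
    rw [← integral_const_mul]
    congr 1
    ext p
    simp only [Pi.add_apply, F4, unc]
    ring
  have hJ3 : Integrable (fun z => th' h (t - ‖z‖) * (‖z‖⁻¹ * ∫ p, (σ * (kap (relVel p) (c p) z * (mm (relVel p) z)⁻¹ - ∑ i, c p i * relVel p i))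
              * f (t - ‖z‖) (x + z) p)) := by
    have h1 := (i3.const_mul σ).integral_prod_left
    refine h1.congr ?_
    filter_upwards [hae] with z hz
    rw [← integral_const_mul, ← integral_const_mul]
    congr 1
    ext p
    simp only [a3, kM, kX, F3, unc, Fin.sum_univ_three]
    ring
  have hcomb : ∫ z, ‖z‖⁻¹ * (th h (t - ‖z‖) * box u (ret t x z))
      = (∫ z, th h (t - ‖z‖) * (∫ p, f (t - ‖z‖) (x + z) p * (σ * kT c z p + S z p)))
        + ∫ z, th' h (t - ‖z‖) * (‖z‖⁻¹ * ∫ p, (σ * (kap (relVel p) (c p) z * (mm (relVel p) z)⁻¹ - ∑ i, c p i * relVel p i))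
              * f (t - ‖z‖) (x + z) p) := by
    have h1 : ∫ z, σ * ∫ p, H (z, p) = 0 := by rw [integral_const_mul, hFub, mul_zero]
    have h2 : ∫ z, σ * ∫ p, H (z, p) = ∫ z, (‖z‖⁻¹ * (th h (t - ‖z‖) * box u (ret t x z))
        - th h (t - ‖z‖) * (∫ p, f (t - ‖z‖) (x + z) p * (σ * kT c z p + S z p))
        - th' h (t - ‖z‖) * (‖z‖⁻¹ * ∫ p, (σ * (kap (relVel p) (c p) z * (mm (relVel p) z)⁻¹ - ∑ i, c p i * relVel p i))
              * f (t - ‖z‖) (x + z) p)) := by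
      apply integral_congr_ae
      filter_upwards [hae] with z hz using hfib z hz
    have s1 := integral_sub (hJ1.sub hJ2) hJ3
    have s2 := integral_sub hJ1 hJ2
    simp only [Pi.sub_apply] at s1 s2
    rw [h2, s1, s2] at h1
    linarith
  have hJ4 : Integrable (fun z => th' h (t - ‖z‖) * (‖z‖⁻¹ * (pt u (ret t x z) + ∑ k, om k z * px k u (ret t x z))
          + ‖z‖⁻¹ ^ 2 * u (ret t x z))) := by
    have hpx : ∀ k, ContDiff ℝ 1 (px k u) := fun k => px_contDiff2 hu k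
    have hpt : ContDiff ℝ 1 (pt u) := pt_contDiff2 hu
    have b1 : Integrable (fun z => ‖z‖⁻¹ * (th' h (t - ‖z‖) * pt u (ret t x z))) :=
      cone_kernel_integrable' (F := fun q => th' h q.1 * pt u q) (fun τ hτ y => by simp [th'_zero hh hτ])
        (cth2'.mul hpt.continuous) t x (C := 1) hrho (fun z _ => by rw [abs_inv, abs_norm, one_mul])
    have b2 : ∀ k, Integrable (fun z => (‖z‖⁻¹ * om k z) * (th' h (t - ‖z‖) * px k u (ret t x z))) := fun k =>
      cone_kernel_integrable' (F := fun q => th' h q.1 * px k u q) (fun τ hτ y => by simp [th'_zero hh hτ])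
        (cth2'.mul (hpx k).continuous) t x (C := 1)
        ((contDiffOn_rho (n := 0)).mul (contDiffOn_om (n := 0) k)).continuousOn
        (fun z _ => by
          rw [abs_mul, abs_inv, abs_norm, one_mul]
          exact mul_le_of_le_one_right (by positivity) (abs_om_le k z))
    have b3 : Integrable (fun z => ‖z‖⁻¹ ^ 2 * (th' h (t - ‖z‖) * u (ret t x z))) :=
      cone_kernel_integrable (F := fun q => th' h q.1 * u q) (fun τ hτ y => by simp [th'_zero hh hτ])
        (cth2'.mul hu.continuous) t x (K := fun z => ‖z‖⁻¹ ^ 2) (C := 1)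
        (hrho.pow 2) (fun z _ => by rw [abs_of_nonneg (by positivity), one_mul])
    refine ((b1.add (integrable_finsetSum Finset.univ fun k _ => b2 k)).add b3).congr (Eventually.of_forall fun z => ?_)
    simp only [Pi.add_apply, Fin.sum_univ_three]
    ring
  rw [kirchhoff_theta hu hh ht x, hcomb, add_assoc]
  congr 1
  rw [← integral_add hJ3 hJ4]
  congr 1
  ext z
  ring

end Crest.Agent.R106.Gsr
end

-- ▼ part R106/GsrLayer
section

set_option autoImplicit false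

open MeasureTheory Set Filter Topology Metric
open Crest.AnalysisR.VecCalc3
open scoped ContDiff RealInnerProductSpace

namespace Crest.Agent.R106.Gsr

open Crest.Agent.R106.GSR (pt px box)

/-- tube lemma in the form needed for the layer -/
lemma layer_tube {g : ℝ × R3 → ℝ} {O : Set (ℝ × R3)} (hO : IsOpen O) (hg : ContinuousOn g O)
    {S : Set R3} (hS : IsCompact S) (hSO : ∀ z ∈ S, ((0:ℝ), z) ∈ O) {M : ℝ}
    (hM : ∀ z ∈ S, |g (0, z)| ≤ M) :
    ∃ h0 > 0, ∀ τ : ℝ, 0 < τ → τ < h0 → ∀ z ∈ S, |g (τ, z)| ≤ M + 1 := by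
  have hN : IsOpen (O ∩ (fun q => |g q|) ⁻¹' Iio (M + 1)) :=
    (hg.abs).isOpen_inter_preimage hO isOpen_Iio
  have hsub : ({0} : Set ℝ) ×ˢ S ⊆ O ∩ (fun q => |g q|) ⁻¹' Iio (M + 1) := by
    rintro ⟨τ, z⟩ ⟨h1, h2⟩
    simp only [mem_singleton_iff] at h1
    subst h1
    exact ⟨hSO z h2, by simp only [mem_preimage, mem_Iio]; linarith [hM z h2]⟩
  obtain ⟨U, V, hU, -, h0U, hSV, hUV⟩ := generalized_tube_lemma isCompact_singleton hS hN hsub
  obtain ⟨r, hr, hball⟩ := Metric.isOpen_iff.1 hU 0 (h0U rfl)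
  refine ⟨r, hr, fun τ h1 h2 z hz => ?_⟩
  have h3 : τ ∈ U := hball (by rw [Metric.mem_ball, dist_zero_right, Real.norm_of_nonneg h1.le]; exact h2)
  exact (hUV (mk_mem_prod h3 (hSV hz))).2.le

/-- **layer bound** -/
theorem layer_bound {u : ℝ × R3 → ℝ} (hu : ContDiff ℝ 2 u) {f : ℝ → R3 → R3 → ℝ}
    (hf : Continuous (GSR.unc f)) {A R T CK : ℝ} (hA : 0 ≤ A) (hT : 0 < T)
    (hu0 : ∀ y, |u (0,y)| ≤ A ∧ |pt u (0,y)| ≤ A ∧ ∀ k, |px k u (0,y)| ≤ A)
    (hf0 : ∀ y p, |f 0 y p| ≤ A) (hfs : ∀ y p, A < ‖p‖ → f 0 y p = 0)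
    (hR : ∀ τ ∈ Ioo 0 T, ∀ y p, R < ‖p‖ → f τ y p = 0) {K : R3 → R3 → ℝ}
    (hK : ContinuousOn (Function.uncurry K) ({0}ᶜ ×ˢ univ))
    (hKb : ∀ z, z ≠ 0 → ∀ p, ‖p‖ ≤ A → |K z p| ≤ CK) {t : ℝ} (ht : 0 < t) (x : R3) :
    ∃ h0 > 0, ∀ z, 0 < t-‖z‖ → t-‖z‖ < h0 →
      |‖z‖⁻¹ * (pt u (ret t x z) + ∑ k, om k z * px k u (ret t x z)) + ‖z‖⁻¹^2 * u (ret t x z)
        + ‖z‖⁻¹ * ∫ p, K z p * f (t-‖z‖) (x+z) p|
      ≤ (4*(A+1) + (CK*A*(volume (closedBall (0:R3) A)).toReal + 1)) * (‖z‖⁻¹ + ‖z‖⁻¹^2) := by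
  -- the compact set of directions
  set S : Set R3 := closedBall (0:R3) t \ ball 0 (t/2) with hSdef
  have hS : IsCompact S := (isCompact_closedBall (0:R3) t).diff isOpen_ball
  have hSne : ∀ z ∈ S, z ≠ 0 := by
    rintro z hz rfl
    exact hz.2 (mem_ball_self (by positivity))
  have hcx : Continuous (fun q : ℝ × R3 => ((q.1, x + q.2) : ℝ × R3)) := by fun_prop
  obtain ⟨a0, ha0, Ha0⟩ := layer_tube (g := fun q => u (q.1, x + q.2)) isOpen_univ
    ((hu.continuous.comp hcx).continuousOn) hS (fun z _ => mem_univ _) (M := A)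
    (fun z _ => (hu0 (x + z)).1)
  obtain ⟨a1, ha1, Ha1⟩ := layer_tube (g := fun q => pt u (q.1, x + q.2)) isOpen_univ
    (((pt_contDiff2 hu).continuous.comp hcx).continuousOn) hS (fun z _ => mem_univ _) (M := A)
    (fun z _ => (hu0 (x + z)).2.1)
  have hk : ∀ k : Fin 3, ∃ b > 0, ∀ τ : ℝ, 0 < τ → τ < b → ∀ z ∈ S,
      |px k u (τ, x + z)| ≤ A + 1 := fun k =>
    layer_tube (g := fun q => px k u (q.1, x + q.2)) isOpen_univ
      (((px_contDiff2 hu k).continuous.comp hcx).continuousOn) hS (fun z _ => mem_univ _) (M := A)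
      (fun z _ => (hu0 (x + z)).2.2 k)
  obtain ⟨b0, hb0, Hb0⟩ := hk 0
  obtain ⟨b1, hb1, Hb1⟩ := hk 1
  obtain ⟨b2, hb2, Hb2⟩ := hk 2
  -- the momentum integral
  set J : ℝ × R3 → ℝ := fun q => ∫ p, K q.2 p * f (max q.1 0) (x + q.2) p with hJ
  have hO : IsOpen (Iio T ×ˢ ({0}ᶜ : Set R3)) := isOpen_Iio.prod isOpen_compl_singleton
  have hJc : ContinuousOn J (Iio T ×ˢ ({0}ᶜ : Set R3)) := by
    refine continuousOn_integral_of_compact_support
      (f := fun (q : ℝ × R3) p => K q.2 p * f (max q.1 0) (x + q.2) p)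
      (isCompact_closedBall (0:R3) (max R A)) ?_ ?_
    · refine ContinuousOn.mul ?_ ?_
      · exact hK.comp (f := fun w : (ℝ × R3) × R3 => ((w.1.2, w.2) : R3 × R3))
          (by fun_prop) (fun w hw => ⟨hw.1.2, mem_univ _⟩)
      · exact (hf.comp (g := GSR.unc f)
          (f := fun w : (ℝ × R3) × R3 => ((max w.1.1 0, x + w.1.2, w.2) : ℝ × R3 × R3))
          (by fun_prop)).continuousOn
    · intro q p hq hp
      have hp' : max R A < ‖p‖ := by
        simpa [mem_closedBall, dist_zero_right] using hp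
      have hz : f (max q.1 0) (x + q.2) p = 0 := by
        rcases le_or_gt q.1 0 with h | h
        · rw [max_eq_right h]
          exact hfs _ _ ((le_max_right _ _).trans_lt hp')
        · rw [max_eq_left h.le]
          exact hR _ ⟨h, hq.1⟩ _ _ ((le_max_left _ _).trans_lt hp')
      rw [hz, mul_zero]
  set M : ℝ := CK*A*(volume (closedBall (0:R3) A)).toReal with hMdef
  have hJ0 : ∀ z ∈ S, |J (0, z)| ≤ M := by
    intro z hz
    have hz0 := hSne z hz
    have hCK : 0 ≤ CK := (abs_nonneg _).trans (hKb z hz0 0 (by simpa using hA))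
    have h1 : J (0, z) = ∫ p in closedBall (0:R3) A, K z p * f 0 (x + z) p := by
      simp only [hJ, max_self]
      rw [setIntegral_eq_integral_of_forall_compl_eq_zero]
      intro p hp
      rw [hfs _ _ (by simpa [mem_closedBall, dist_zero_right] using hp), mul_zero]
    rw [h1]
    have h2 := norm_setIntegral_le_of_norm_le_const (μ := (volume : Measure R3))
      (s := closedBall (0:R3) A) (f := fun p => K z p * f 0 (x + z) p) (C := CK * A)
      (measure_closedBall_lt_top) (fun p hp => by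
        rw [norm_mul, Real.norm_eq_abs, Real.norm_eq_abs]
        exact mul_le_mul (hKb z hz0 p (by simpa [mem_closedBall, dist_zero_right] using hp))
          (hf0 _ _) (abs_nonneg _) hCK)
    rw [Real.norm_eq_abs] at h2
    exact h2
  obtain ⟨c, hc, Hc⟩ := layer_tube hO hJc hS (fun z hz => ⟨hT, hSne z hz⟩) hJ0
  -- conclusion
  refine ⟨min (min (min a0 a1) (min (min b0 b1) b2)) (min c (t/2)), by positivity, ?_⟩
  intro z h1 h2
  simp only [lt_min_iff] at h2
  obtain ⟨⟨⟨h3, h4⟩, ⟨h5, h6⟩, h7⟩, h8, h9⟩ := h2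
  have hzS : z ∈ S := by
    refine ⟨?_, ?_⟩
    · rw [mem_closedBall, dist_zero_right]; linarith
    · rw [mem_ball, dist_zero_right]; linarith
  have hz0 := hSne z hzS
  have hn : 0 < ‖z‖ := norm_pos_iff.2 hz0
  have e0 : |u (ret t x z)| ≤ A + 1 := Ha0 _ h1 h3 z hzS
  have e1 : |pt u (ret t x z)| ≤ A + 1 := Ha1 _ h1 h4 z hzS
  have e2 : |px 0 u (ret t x z)| ≤ A + 1 := Hb0 _ h1 h5 z hzS
  have e3 : |px 1 u (ret t x z)| ≤ A + 1 := Hb1 _ h1 h6 z hzS
  have e4 : |px 2 u (ret t x z)| ≤ A + 1 := Hb2 _ h1 h7 z hzS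
  have e5 : |∫ p, K z p * f (t-‖z‖) (x+z) p| ≤ M + 1 := by
    have := Hc _ h1 h8 z hzS
    simp only [hJ, max_eq_left h1.le] at this
    exact this
  have hom : ∀ (k : Fin 3) (a : ℝ), |a| ≤ A + 1 → |om k z * a| ≤ A + 1 := by
    intro k a ha
    rw [abs_mul]
    calc |om k z| * |a| ≤ 1 * (A + 1) :=
          mul_le_mul (abs_om_le k z) ha (abs_nonneg _) (by norm_num)
      _ = A + 1 := one_mul _
  have e6 : |pt u (ret t x z) + ∑ k, om k z * px k u (ret t x z)| ≤ 4 * (A + 1) := by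
    rw [Fin.sum_univ_three]
    have g0 := abs_le.1 (hom 0 _ e2)
    have g1 := abs_le.1 (hom 1 _ e3)
    have g2 := abs_le.1 (hom 2 _ e4)
    have g3 := abs_le.1 e1
    rw [abs_le]
    constructor <;> linarith [g0.1, g0.2, g1.1, g1.2, g2.1, g2.2, g3.1, g3.2]
  have hi : 0 < ‖z‖⁻¹ := by positivity
  have hi2 : 0 < ‖z‖⁻¹^2 := by positivity
  have hM1 : 0 ≤ M + 1 := (abs_nonneg _).trans e5
  have t1 : |‖z‖⁻¹ * (pt u (ret t x z) + ∑ k, om k z * px k u (ret t x z))|
      ≤ ‖z‖⁻¹ * (4 * (A + 1)) := by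
    rw [abs_mul, abs_of_pos hi]; exact mul_le_mul_of_nonneg_left e6 hi.le
  have t2 : |‖z‖⁻¹^2 * u (ret t x z)| ≤ ‖z‖⁻¹^2 * (A + 1) := by
    rw [abs_mul, abs_of_pos hi2]; exact mul_le_mul_of_nonneg_left e0 hi2.le
  have t3 : |‖z‖⁻¹ * ∫ p, K z p * f (t-‖z‖) (x+z) p| ≤ ‖z‖⁻¹ * (M + 1) := by
    rw [abs_mul, abs_of_pos hi]; exact mul_le_mul_of_nonneg_left e5 hi.le
  calc _ ≤ |‖z‖⁻¹ * (pt u (ret t x z) + ∑ k, om k z * px k u (ret t x z))|
        + |‖z‖⁻¹^2 * u (ret t x z)| + |‖z‖⁻¹ * ∫ p, K z p * f (t-‖z‖) (x+z) p| := by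
        refine (abs_add_le _ _).trans ?_
        gcongr
        exact abs_add_le _ _
    _ ≤ ‖z‖⁻¹ * (4 * (A + 1)) + ‖z‖⁻¹^2 * (A + 1) + ‖z‖⁻¹ * (M + 1) := by linarith
    _ ≤ (4*(A+1) + (M + 1)) * (‖z‖⁻¹ + ‖z‖⁻¹^2) := by
        nlinarith [mul_nonneg hM1 hi2.le, mul_nonneg hA hi2.le]

end Crest.Agent.R106.Gsr
end

-- ▼ part R106/GsrComp
section

set_option autoImplicit false

open MeasureTheory Set Filter Topology Metric
open Crest.AnalysisR.VecCalc3 Crest.AnalysisR.PDE.RVM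
open scoped ContDiff RealInnerProductSpace

namespace Crest.Agent.R106.Gsr

open Crest.Agent.R106.GSR (pt px box unc ft fx)

lemma limit_h {t : ℝ} (ht : 0 < t) {G L : R3 → ℝ} {U C : ℝ}
    (hG : IntegrableOn G (ball 0 t))
    (hid : ∀ h ∈ Ioo 0 t, U = (∫ z, th h (t - ‖z‖) * G z) + ∫ z, th' h (t - ‖z‖) * L z)
    (hL : ∃ h0 > 0, ∀ z : R3, 0 < t - ‖z‖ → t - ‖z‖ < h0 → |L z| ≤ C * (‖z‖⁻¹ + ‖z‖⁻¹ ^ 2)) :
    |U - ∫ z in ball 0 t, G z| ≤ C * (4 * Real.pi * (t + 1)) := by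
  obtain ⟨h0, hh0, hLb⟩ := hL
  have hC : 0 ≤ C := by
    -- choose a point with 0 < t - ‖z‖ < h0
    set r : ℝ := max (t / 2) (t - h0 / 2) with hr
    have hr0 : 0 < r := lt_of_lt_of_le (by linarith) (le_max_left _ _)
    have hrt : r < t := max_lt (by linarith) (by linarith)
    have hn : ‖r • (e 0)‖ = r := by
      rw [norm_smul, Real.norm_of_nonneg hr0.le]; simp [e]
    have h1 := hLb (r • e 0) (by rw [hn]; linarith) (by rw [hn]; linarith [le_max_right (t / 2) (t - h0 / 2)])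
    rw [hn] at h1
    have h2 : 0 ≤ C * (r⁻¹ + r⁻¹ ^ 2) := (abs_nonneg _).trans h1
    have h3 : 0 < r⁻¹ + r⁻¹ ^ 2 := by positivity
    exact nonneg_of_mul_nonneg_left h2 h3
  have hbound : ∀ h ∈ Ioo 0 (min t h0), |U - ∫ z, th h (t - ‖z‖) * G z| ≤ C * (4 * Real.pi * (t + 1)) := by
    intro h hh
    have hht : h < t := lt_of_lt_of_le hh.2 (min_le_left _ _)
    have hhh0 : h < h0 := lt_of_lt_of_le hh.2 (min_le_right _ _)
    have h1 := hid h ⟨hh.1, hht⟩
    obtain ⟨hm1, hm2⟩ := layer_mass hh.1 hht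
    have h2 : U - ∫ z, th h (t - ‖z‖) * G z = ∫ z, th' h (t - ‖z‖) * L z := by rw [h1]; ring
    rw [h2, ← Real.norm_eq_abs]
    calc ‖∫ z, th' h (t - ‖z‖) * L z‖ ≤ ∫ z : R3, C * (th' h (t - ‖z‖) * (‖z‖⁻¹ + ‖z‖⁻¹ ^ 2)) := by
          apply norm_integral_le_of_norm_le (hm1.const_mul C)
          filter_upwards with z
          by_cases hz : t - ‖z‖ ≤ 0
          · rw [th'_zero hh.1 hz]; simp
          · by_cases hz2 : h < t - ‖z‖
            · rw [th'_zero' hh.1 hz2]; simp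
            · have h3 := hLb z (not_le.1 hz) (lt_of_le_of_lt (not_lt.1 hz2) hhh0)
              have h4 := th'_nonneg hh.1 (t - ‖z‖)
              rw [norm_mul, Real.norm_of_nonneg h4, Real.norm_eq_abs]
              calc th' h (t - ‖z‖) * |L z| ≤ th' h (t - ‖z‖) * (C * (‖z‖⁻¹ + ‖z‖⁻¹ ^ 2)) := by gcongr
                _ = _ := by ring
      _ = C * ∫ z : R3, (th' h (t - ‖z‖) * (‖z‖⁻¹ + ‖z‖⁻¹ ^ 2)) := integral_const_mul _ _
      _ ≤ _ := by gcongr
  have hset : ∀ h, 0 < h → ∫ z, th h (t - ‖z‖) * G z = ∫ z in ball 0 t, th h (t - ‖z‖) * G z := by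
    intro h hh
    rw [setIntegral_eq_integral_of_forall_compl_eq_zero]
    intro z hz
    have : t ≤ ‖z‖ := by simpa using hz
    rw [th_zero hh (by linarith), zero_mul]
  have hlim : Tendsto (fun h : ℝ => ∫ z, th h (t - ‖z‖) * G z) (𝓝[>] 0) (𝓝 (∫ z in ball 0 t, G z)) := by
    have h1 : Tendsto (fun h : ℝ => ∫ z in ball 0 t, th h (t - ‖z‖) * G z) (𝓝[>] 0) (𝓝 (∫ z in ball 0 t, G z)) := by
      apply tendsto_integral_filter_of_dominated_convergence (fun z => ‖G z‖)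
      · filter_upwards with h
        have : Continuous fun z : R3 => th h (t - ‖z‖) := (th_contDiff h (n := 0)).continuous.comp (by fun_prop)
        exact this.aestronglyMeasurable.mul hG.1
      · filter_upwards with h
        filter_upwards with z
        rw [norm_mul, Real.norm_of_nonneg (th_nonneg _ _)]
        exact mul_le_of_le_one_left (norm_nonneg _) (th_le_one _ _)
      · exact hG.norm
      · rw [ae_restrict_iff' measurableSet_ball]
        filter_upwards with z hz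
        have hz' : 0 < t - ‖z‖ := by
          have : ‖z‖ < t := by simpa using hz
          linarith
        apply tendsto_const_nhds.congr'
        have : Ioo (0:ℝ) (t - ‖z‖) ∈ 𝓝[>] (0:ℝ) := Ioo_mem_nhdsGT hz'
        filter_upwards [this] with h hh
        rw [th_one hh.1 hh.2.le, one_mul]
    refine h1.congr' ?_
    filter_upwards [self_mem_nhdsWithin] with h hh using (hset h hh).symm
  have hlim2 : Tendsto (fun h : ℝ => |U - ∫ z, th h (t - ‖z‖) * G z|) (𝓝[>] 0) (𝓝 |U - ∫ z in ball 0 t, G z|) :=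
    (tendsto_const_nhds.sub hlim).abs
  apply le_of_tendsto hlim2
  have : Ioo (0:ℝ) (min t h0) ∈ 𝓝[>] (0:ℝ) := Ioo_mem_nhdsGT (lt_min ht hh0)
  filter_upwards [this] with h hh using hbound h hh

/-- component form of the representation -/
theorem comp_rep {f : ℝ → R3 → R3 → ℝ} (hf : ContDiff ℝ ∞ (unc f)) {u : ℝ × R3 → ℝ} (hu : ContDiff ℝ 2 u)
    {c : R3 → R3} (hc : Continuous c) {σ T R t A CK : ℝ} (ht : 0 < t) (htT : t < T) (x : R3)
    (hR : ∀ τ ∈ Ioo 0 T, ∀ y p, R < ‖p‖ → f τ y p = 0)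
    (hbox : ∀ τ ∈ Ioo 0 T, ∀ y, box u (τ, y) = σ * ∫ p, (∑ i, c p i * fx i (unc f) (τ, y, p)
      + (∑ i, c p i * relVel p i) * ft (unc f) (τ, y, p)))
    {S : R3 → R3 → ℝ} (hSc : ContinuousOn (Function.uncurry S) ({0}ᶜ ×ˢ univ)) {CS : ℝ}
    (hSb : ∀ z, z ≠ 0 → ‖z‖ < t → ∀ p, ‖p‖ ≤ R → |S z p| ≤ CS * ‖z‖⁻¹ ^ 2)
    (hS : ∀ z, z ≠ 0 → ‖z‖ < t → ∫ p, σ * kM c z p * (ft (unc f) (t - ‖z‖, x + z, p)
      + ∑ i, relVel p i * fx i (unc f) (t - ‖z‖, x + z, p)) = ∫ p, f (t - ‖z‖) (x + z) p * S z p)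
    (hA : 0 ≤ A) (hu0 : ∀ y, |u (0,y)| ≤ A ∧ |pt u (0,y)| ≤ A ∧ ∀ k, |px k u (0,y)| ≤ A)
    (hf0 : ∀ y p, |f 0 y p| ≤ A) (hfs : ∀ y p, A < ‖p‖ → f 0 y p = 0)
    (hKb : ∀ z, z ≠ 0 → ∀ p, ‖p‖ ≤ A →
      |σ * (kap (relVel p) (c p) z * (mm (relVel p) z)⁻¹ - ∑ i, c p i * relVel p i)| ≤ CK)
    (hint : IntegrableOn (fun z => ∫ p, f (t - ‖z‖) (x + z) p * (σ * kT c z p + S z p)) (ball 0 t)) :
    |4 * Real.pi * u (t, x) - ∫ z in ball 0 t, ∫ p, f (t - ‖z‖) (x + z) p * (σ * kT c z p + S z p)|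
      ≤ (4 * (A + 1) + (CK * A * (volume (closedBall (0:R3) A)).toReal + 1)) * (4 * Real.pi * (t + 1)) := by
  apply limit_h ht hint (L := fun z => ‖z‖⁻¹ * (pt u (ret t x z) + ∑ k, om k z * px k u (ret t x z))
          + ‖z‖⁻¹ ^ 2 * u (ret t x z)
          + ‖z‖⁻¹ * ∫ p, (σ * (kap (relVel p) (c p) z * (mm (relVel p) z)⁻¹ - ∑ i, c p i * relVel p i))
              * f (t - ‖z‖) (x + z) p)
  · intro h hh
    exact rep_h hf hu hc hh.1 hh.2.le htT x hR hbox hSc hSb hS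
  · have hK : ContinuousOn (Function.uncurry fun z p => σ * (kap (relVel p) (c p) z * (mm (relVel p) z)⁻¹ - ∑ i, c p i * relVel p i))
        ({0}ᶜ ×ˢ univ) :=
      continuousOn_const.mul (((cont_kap hc).mul (cont_mmi hc)).sub ((cont_cv hc).comp continuous_snd).continuousOn)
    exact layer_bound hu hf.continuous hA (ht.trans htT) hu0 hf0 hfs hR hK hKb ht x

end Crest.Agent.R106.Gsr
end

-- ▼ part R106/GsrWave
section

/-!
Row 106, module GSR, file GsrWave (helper374): from the frozen `EquationsHoldAt` to Fréchet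
derivative form; wave equations for E and B; derivatives of momentum integrals.
-/

set_option autoImplicit false

namespace Crest.Agent.R106.Gsr

open Crest.AnalysisR.VecCalc3 Crest.AnalysisR.PDE.RVM
open MeasureTheory Set Filter Topology
open scoped ContDiff

/-- standard basis vector of R3 -/
noncomputable abbrev eb (i : Fin 3) : R3 := EuclideanSpace.single i (1 : ℝ)

/-- uncurried density -/
def unc3 (f : ℝ → R3 → R3 → ℝ) : ℝ × R3 × R3 → ℝ := fun q => f q.1 q.2.1 q.2.2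

/-- uncurried component of a field -/
def uncI (E : ℝ → R3 → R3) (i : Fin 3) : ℝ × R3 → ℝ := fun q => E q.1 q.2 i


/-- derivative of a function on space-time in the direction `a` -/
noncomputable def dd (a : ℝ × R3) (u : ℝ × R3 → ℝ) : ℝ × R3 → ℝ := fun q => fderiv ℝ u q a

/-- time derivative -/
noncomputable abbrev Dt (u : ℝ × R3 → ℝ) : ℝ × R3 → ℝ := dd (1, 0) u

/-- space derivative -/
noncomputable abbrev Dx (k : Fin 3) (u : ℝ × R3 → ℝ) : ℝ × R3 → ℝ := dd (0, eb k) u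

/-- the d'Alembertian `∂ₜ² - Δ` -/
noncomputable def box (u : ℝ × R3 → ℝ) : ℝ × R3 → ℝ :=
  fun q => Dt (Dt u) q - ∑ k : Fin 3, Dx k (Dx k u) q

/-- the open slab -/
def slab (T : ℝ) : Set (ℝ × R3) := Ioo 0 T ×ˢ univ

/-- the open slab of phase space -/
def slab3 (T : ℝ) : Set (ℝ × R3 × R3) := Ioo 0 T ×ˢ univ

lemma isOpen_slab (T : ℝ) : IsOpen (slab T) := isOpen_Ioo.prod isOpen_univ
lemma isOpen_slab3 (T : ℝ) : IsOpen (slab3 T) := isOpen_Ioo.prod isOpen_univ

lemma mem_slab {T : ℝ} {q : ℝ × R3} : q ∈ slab T ↔ 0 < q.1 ∧ q.1 < T := by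
  simp [slab]

lemma mem_slab3 {T : ℝ} {q : ℝ × R3 × R3} : q ∈ slab3 T ↔ 0 < q.1 ∧ q.1 < T := by
  simp [slab3]

/-- A solution on the open slab, of class `C²`, in the sense needed for the representation. -/
structure Sol2 (T : ℝ) (f : ℝ → R3 → R3 → ℝ) (E B : ℝ → R3 → R3) : Prop where
  hf : ContDiffOn ℝ 2 (unc3 f) (slab3 T)
  hE : ∀ i, ContDiffOn ℝ 2 (uncI E i) (slab T)
  hB : ∀ i, ContDiffOn ℝ 2 (uncI B i) (slab T)
  heq : ∀ t, 0 < t → t < T → ∀ x, EquationsHoldAt f E B t x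
  hsupp : ∀ T' : ℝ, 0 ≤ T' → T' < T → ∃ R : ℝ, ∀ t ∈ Set.Icc 0 T', ∀ x v : R3,
      (R < ‖x‖ ∨ R < ‖v‖) → f t x v = 0

section calculus

variable {u w : ℝ × R3 → ℝ} {q : ℝ × R3} {a b : ℝ × R3} {T : ℝ}

lemma dd_congr {s : Set (ℝ × R3)} (hs : IsOpen s) (hq : q ∈ s) (h : EqOn u w s) :
    dd a u q = dd a w q := by
  unfold dd
  have : u =ᶠ[𝓝 q] w := Filter.eventuallyEq_of_mem (hs.mem_nhds hq) h
  rw [this.fderiv_eq]


lemma dd_sub (hu : DifferentiableAt ℝ u q) (hw : DifferentiableAt ℝ w q) :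
    dd a (fun r => u r - w r) q = dd a u q - dd a w q := by
  unfold dd
  rw [fderiv_fun_sub hu hw]; rfl

lemma dd_sum3 {g : Fin 3 → ℝ × R3 → ℝ} (hg : ∀ k, DifferentiableAt ℝ (g k) q) :
    dd a (fun r => ∑ k : Fin 3, g k r) q = ∑ k : Fin 3, dd a (g k) q := by
  unfold dd
  rw [fderiv_fun_sum fun k _ => hg k]
  simp

lemma dd_neg : dd a (fun r => - u r) q = - dd a u q := by
  unfold dd
  rw [fderiv_fun_neg]; rfl

/-- directional derivatives commute -/
lemma dd_comm (hu : ContDiffAt ℝ 2 u q) : dd a (dd b u) q = dd b (dd a u) q := by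
  have h2 : DifferentiableAt ℝ (fderiv ℝ u) q := by
    have := hu.fderiv_right (m := 1) (by norm_num)
    exact this.differentiableAt (by norm_num)
  have key : ∀ c d : ℝ × R3, dd c (dd d u) q = (fderiv ℝ (fderiv ℝ u) q c) d := by
    intro c d
    unfold dd
    rw [fderiv_clm_apply h2 (differentiableAt_const d)]
    simp
  rw [key, key]
  have hs : IsSymmSndFDerivAt ℝ u q := hu.isSymmSndFDerivAt (by simp)
  exact hs a b


lemma differentiableAt_dd (hu : ContDiffAt ℝ 2 u q) : DifferentiableAt ℝ (dd a u) q := by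
  have h : ContDiffAt ℝ 1 (fderiv ℝ u) q := hu.fderiv_right (by norm_num)
  exact (h.differentiableAt (by norm_num)).clm_apply (differentiableAt_const _)

end calculus

section bridge

variable {T : ℝ} {f : ℝ → R3 → R3 → ℝ} {E B : ℝ → R3 → R3}

/-- the time derivative of the frozen definition is the Fréchet derivative -/
lemma deriv_eq_Dt {E : ℝ → R3 → R3} {i : Fin 3} {t : ℝ} {x : R3}
    (h : DifferentiableAt ℝ (uncI E i) (t, x)) :
    deriv (fun s => E s x i) t = Dt (uncI E i) (t, x) := by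
  have h1 : HasDerivAt (fun s : ℝ => ((s, x) : ℝ × R3)) ((1 : ℝ), (0 : R3)) t :=
    (hasDerivAt_id t).prodMk (hasDerivAt_const t x)
  have h2 := h.hasFDerivAt.comp_hasDerivAt t h1
  exact h2.deriv

/-- the space derivative of the frozen definition is the Fréchet derivative -/
lemma pderiv_eq_Dx {E : ℝ → R3 → R3} {i k : Fin 3} {t : ℝ} {x : R3}
    (h : DifferentiableAt ℝ (uncI E i) (t, x)) :
    pderiv (fun y => E t y i) k x = Dx k (uncI E i) (t, x) := by
  have h1 : HasFDerivAt (fun y : R3 => ((t, y) : ℝ × R3))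
      (ContinuousLinearMap.inr ℝ ℝ R3) x := hasFDerivAt_prodMk_right t x
  have h2 := h.hasFDerivAt.comp x h1
  unfold pderiv
  have h3 : fderiv ℝ (fun y => E t y i) x
      = (fderiv ℝ (uncI E i) (t, x)).comp (ContinuousLinearMap.inr ℝ ℝ R3) := h2.fderiv
  rw [h3]
  simp [dd]


end bridge

section maxwell

variable {T : ℝ} {f : ℝ → R3 → R3 → ℝ} {E B : ℝ → R3 → R3}

lemma slab_diff {u : ℝ × R3 → ℝ} (hu : ContDiffOn ℝ 2 u (slab T)) {q : ℝ × R3} (hq : q ∈ slab T) :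
    DifferentiableAt ℝ u q :=
  ((hu.contDiffAt ((isOpen_slab T).mem_nhds hq)).differentiableAt (by norm_num))

lemma slab_cda {u : ℝ × R3 → ℝ} (hu : ContDiffOn ℝ 2 u (slab T)) {q : ℝ × R3} (hq : q ∈ slab T) :
    ContDiffAt ℝ 2 u q :=
  hu.contDiffAt ((isOpen_slab T).mem_nhds hq)

/-- the current component as a function on space-time -/
noncomputable def jI (f : ℝ → R3 → R3 → ℝ) (i : Fin 3) : ℝ × R3 → ℝ :=
  fun q => currentDensity f q.1 q.2 i

/-- the charge density as a function on space-time -/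
noncomputable def rhoF (f : ℝ → R3 → R3 → ℝ) : ℝ × R3 → ℝ :=
  fun q => chargeDensity f q.1 q.2

/-- components of the curl of an uncurried field -/
noncomputable def curlI (E : ℝ → R3 → R3) (i : Fin 3) : ℝ × R3 → ℝ := fun q =>
  Dx (i + 1) (uncI E (i + 2)) q - Dx (i + 2) (uncI E (i + 1)) q

lemma curl3_eq {E : ℝ → R3 → R3} (hE : ∀ i, ContDiffOn ℝ 2 (uncI E i) (slab T))
    {q : ℝ × R3} (hq : q ∈ slab T) (i : Fin 3) : curl3 (E q.1) q.2 i = curlI E i q := by
  have hd : ∀ i k, pderiv (fun y => E q.1 y i) k q.2 = Dx k (uncI E i) q := fun i k =>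
    pderiv_eq_Dx (slab_diff (hE i) (q := (q.1, q.2)) hq)
  fin_cases i
  · simp only [curl3, curlI]
    simp only [hd]
    simp
  · simp only [curl3, curlI]
    simp only [hd]
    rfl
  · simp only [curl3, curlI]
    simp only [hd]
    rfl

lemma ampere (h : Sol2 T f E B) {q : ℝ × R3} (hq : q ∈ slab T) (i : Fin 3) :
    Dt (uncI E i) q = curlI B i q - jI f i q := by
  obtain ⟨_, h1, _⟩ := h.heq q.1 (mem_slab.1 hq).1 (mem_slab.1 hq).2 q.2
  have := h1 i
  rw [deriv_eq_Dt (slab_diff (h.hE i) (q := (q.1, q.2)) hq), curl3_eq h.hB hq] at this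
  simp only [jI]
  have e : ((q.1, q.2) : ℝ × R3) = q := rfl
  rw [e] at this
  linarith

lemma faraday (h : Sol2 T f E B) {q : ℝ × R3} (hq : q ∈ slab T) (i : Fin 3) :
    Dt (uncI B i) q = - curlI E i q := by
  obtain ⟨_, _, h1, _⟩ := h.heq q.1 (mem_slab.1 hq).1 (mem_slab.1 hq).2 q.2
  have := h1 i
  rw [deriv_eq_Dt (slab_diff (h.hB i) (q := (q.1, q.2)) hq), curl3_eq h.hE hq] at this
  have e : ((q.1, q.2) : ℝ × R3) = q := rfl
  rw [e] at this
  linarith

lemma gauss (h : Sol2 T f E B) {q : ℝ × R3} (hq : q ∈ slab T) :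
    ∑ k : Fin 3, Dx k (uncI E k) q = rhoF f q := by
  obtain ⟨_, _, _, h1, _⟩ := h.heq q.1 (mem_slab.1 hq).1 (mem_slab.1 hq).2 q.2
  have hd : ∀ i k, pderiv (fun y => E q.1 y i) k q.2 = Dx k (uncI E i) q := fun i k =>
    pderiv_eq_Dx (slab_diff (h.hE i) (q := (q.1, q.2)) hq)
  simp only [div3, hd] at h1
  exact h1

lemma gaussB (h : Sol2 T f E B) {q : ℝ × R3} (hq : q ∈ slab T) :
    ∑ k : Fin 3, Dx k (uncI B k) q = 0 := by
  obtain ⟨_, _, _, _, h1⟩ := h.heq q.1 (mem_slab.1 hq).1 (mem_slab.1 hq).2 q.2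
  have hd : ∀ i k, pderiv (fun y => B q.1 y i) k q.2 = Dx k (uncI B i) q := fun i k =>
    pderiv_eq_Dx (slab_diff (h.hB i) (q := (q.1, q.2)) hq)
  simp only [div3, hd] at h1
  exact h1

lemma diff_dd {u : ℝ × R3 → ℝ} (hu : ContDiffOn ℝ 2 u (slab T)) {q : ℝ × R3} (hq : q ∈ slab T)
    (a : ℝ × R3) : DifferentiableAt ℝ (dd a u) q := differentiableAt_dd (slab_cda hu hq)

lemma diff_curlI {E : ℝ → R3 → R3} (hE : ∀ i, ContDiffOn ℝ 2 (uncI E i) (slab T))
    {q : ℝ × R3} (hq : q ∈ slab T) (i : Fin 3) : DifferentiableAt ℝ (curlI E i) q :=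
  (diff_dd (hE _) hq _).sub (diff_dd (hE _) hq _)

lemma diff_jI (h : Sol2 T f E B) {q : ℝ × R3} (hq : q ∈ slab T) (i : Fin 3) :
    DifferentiableAt ℝ (jI f i) q := by
  have h1 : DifferentiableAt ℝ (fun r => curlI B i r - Dt (uncI E i) r) q :=
    (diff_curlI h.hB hq i).sub (diff_dd (h.hE i) hq _)
  refine h1.congr_of_eventuallyEq ?_
  filter_upwards [(isOpen_slab T).mem_nhds hq] with r hr
  have := ampere h hr i
  linarith


lemma dd_curlI {E : ℝ → R3 → R3} (hE : ∀ i, ContDiffOn ℝ 2 (uncI E i) (slab T))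
    {q : ℝ × R3} (hq : q ∈ slab T) (i : Fin 3) (a : ℝ × R3) :
    dd a (curlI E i) q = Dx (i + 1) (dd a (uncI E (i + 2))) q - Dx (i + 2) (dd a (uncI E (i + 1))) q := by
  have e : dd a (curlI E i) q
      = dd a (Dx (i + 1) (uncI E (i + 2))) q - dd a (Dx (i + 2) (uncI E (i + 1))) q :=
    dd_sub (diff_dd (hE _) hq _) (diff_dd (hE _) hq _)
  rw [e, dd_comm (slab_cda (hE _) hq), dd_comm (a := a) (slab_cda (hE _) hq)]

/-- **Wave equation for the electric field.** -/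
theorem box_E (h : Sol2 T f E B) {q : ℝ × R3} (hq : q ∈ slab T) (i : Fin 3) :
    box (uncI E i) q = - Dx i (rhoF f) q - Dt (jI f i) q := by
  have hop := isOpen_slab T
  -- second time derivative
  have e1 : Dt (Dt (uncI E i)) q = Dt (curlI B i) q - Dt (jI f i) q := by
    rw [← dd_sub (diff_curlI h.hB hq i) (diff_jI h hq i)]
    exact dd_congr hop hq fun r hr => ampere h hr i
  have e2 : Dt (curlI B i) q
      = Dx (i + 1) (Dt (uncI B (i + 2))) q - Dx (i + 2) (Dt (uncI B (i + 1))) q :=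
    dd_curlI h.hB hq i _
  have e3 : ∀ k l : Fin 3, Dx k (Dt (uncI B l)) q = - Dx k (curlI E l) q := by
    intro k l
    rw [← dd_neg]
    exact dd_congr hop hq fun r hr => faraday h hr l
  have e4 : ∀ k l : Fin 3, Dx k (curlI E l) q
      = Dx k (Dx (l + 1) (uncI E (l + 2))) q - Dx k (Dx (l + 2) (uncI E (l + 1))) q := by
    intro k l
    unfold curlI
    exact dd_sub (diff_dd (h.hE _) hq _) (diff_dd (h.hE _) hq _)
  have e5 : Dx i (rhoF f) q = ∑ k : Fin 3, Dx i (Dx k (uncI E k)) q := by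
    have : Dx i (rhoF f) q = Dx i (fun r => ∑ k : Fin 3, Dx k (uncI E k) r) q :=
      dd_congr hop hq fun r hr => (gauss h hr).symm
    rw [this]
    exact dd_sum3 (fun k => diff_dd (h.hE k) hq _)
  have hc : ∀ k l m : Fin 3, Dx k (Dx l (uncI E m)) q = Dx l (Dx k (uncI E m)) q :=
    fun k l m => dd_comm (slab_cda (h.hE _) hq)
  unfold box
  rw [e1, e2, e3, e3, e4, e4, e5]
  simp only [Fin.sum_univ_three]
  fin_cases i
  · simp only [Fin.zero_eta, Fin.isValue]
    have a1 : (0 : Fin 3) + 1 = 1 := rfl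
    have a2 : (0 : Fin 3) + 2 = 2 := rfl
    have a3 : (2 : Fin 3) + 1 = 0 := rfl
    have a4 : (2 : Fin 3) + 2 = 1 := rfl
    have a5 : (1 : Fin 3) + 1 = 2 := rfl
    have a6 : (1 : Fin 3) + 2 = 0 := rfl
    simp only [a1, a2, a3, a4, a5, a6]
    rw [hc 1 0 1, hc 2 0 2]
    ring
  · simp only [Fin.mk_one, Fin.isValue]
    have a1 : (0 : Fin 3) + 1 = 1 := rfl
    have a2 : (0 : Fin 3) + 2 = 2 := rfl
    have a3 : (2 : Fin 3) + 1 = 0 := rfl
    have a4 : (2 : Fin 3) + 2 = 1 := rfl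
    have a5 : (1 : Fin 3) + 1 = 2 := rfl
    have a6 : (1 : Fin 3) + 2 = 0 := rfl
    simp only [a1, a2, a3, a4, a5, a6]
    rw [hc 2 1 2, hc 0 1 0]
    ring
  · simp only [Fin.reduceFinMk, Fin.isValue]
    have a1 : (0 : Fin 3) + 1 = 1 := rfl
    have a2 : (0 : Fin 3) + 2 = 2 := rfl
    have a3 : (2 : Fin 3) + 1 = 0 := rfl
    have a4 : (2 : Fin 3) + 2 = 1 := rfl
    have a5 : (1 : Fin 3) + 1 = 2 := rfl
    have a6 : (1 : Fin 3) + 2 = 0 := rfl
    simp only [a1, a2, a3, a4, a5, a6]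
    rw [hc 0 2 0, hc 1 2 1]
    ring

/-- **Wave equation for the magnetic field.** -/
theorem box_B (h : Sol2 T f E B) {q : ℝ × R3} (hq : q ∈ slab T) (i : Fin 3) :
    box (uncI B i) q = Dx (i + 1) (jI f (i + 2)) q - Dx (i + 2) (jI f (i + 1)) q := by
  have hop := isOpen_slab T
  have e1 : Dt (Dt (uncI B i)) q = - Dt (curlI E i) q := by
    rw [← dd_neg]
    exact dd_congr hop hq fun r hr => faraday h hr i
  have e2 : Dt (curlI E i) q
      = Dx (i + 1) (Dt (uncI E (i + 2))) q - Dx (i + 2) (Dt (uncI E (i + 1))) q :=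
    dd_curlI h.hE hq i _
  have e3 : ∀ k l : Fin 3, Dx k (Dt (uncI E l)) q = Dx k (curlI B l) q - Dx k (jI f l) q := by
    intro k l
    rw [← dd_sub (diff_curlI h.hB hq l) (diff_jI h hq l)]
    exact dd_congr hop hq fun r hr => ampere h hr l
  have e4 : ∀ k l : Fin 3, Dx k (curlI B l) q
      = Dx k (Dx (l + 1) (uncI B (l + 2))) q - Dx k (Dx (l + 2) (uncI B (l + 1))) q := by
    intro k l
    unfold curlI
    exact dd_sub (diff_dd (h.hB _) hq _) (diff_dd (h.hB _) hq _)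
  have e5 : ∑ k : Fin 3, Dx i (Dx k (uncI B k)) q = 0 := by
    have : Dx i (fun r => ∑ k : Fin 3, Dx k (uncI B k) r) q = 0 := by
      have h0 : Dx i (fun r => ∑ k : Fin 3, Dx k (uncI B k) r) q = Dx i (fun _ => (0 : ℝ)) q :=
        dd_congr hop hq fun r hr => gaussB h hr
      rw [h0]
      unfold Dx dd
      simp
    rw [← this]
    exact (dd_sum3 (fun k => diff_dd (h.hB k) hq _)).symm
  have hc : ∀ k l m : Fin 3, Dx k (Dx l (uncI B m)) q = Dx l (Dx k (uncI B m)) q :=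
    fun k l m => dd_comm (slab_cda (h.hB _) hq)
  unfold box
  rw [e1, e2, e3, e3, e4, e4]
  simp only [Fin.sum_univ_three] at e5 ⊢
  fin_cases i
  · simp only [Fin.zero_eta, Fin.isValue] at e5 ⊢
    have a1 : (0 : Fin 3) + 1 = 1 := rfl
    have a2 : (0 : Fin 3) + 2 = 2 := rfl
    have a3 : (2 : Fin 3) + 1 = 0 := rfl
    have a4 : (2 : Fin 3) + 2 = 1 := rfl
    have a5 : (1 : Fin 3) + 1 = 2 := rfl
    have a6 : (1 : Fin 3) + 2 = 0 := rfl
    simp only [a1, a2, a3, a4, a5, a6]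
    rw [hc 1 0 1, hc 2 0 2]
    linarith
  · simp only [Fin.mk_one, Fin.isValue] at e5 ⊢
    have a1 : (0 : Fin 3) + 1 = 1 := rfl
    have a2 : (0 : Fin 3) + 2 = 2 := rfl
    have a3 : (2 : Fin 3) + 1 = 0 := rfl
    have a4 : (2 : Fin 3) + 2 = 1 := rfl
    have a5 : (1 : Fin 3) + 1 = 2 := rfl
    have a6 : (1 : Fin 3) + 2 = 0 := rfl
    simp only [a1, a2, a3, a4, a5, a6]
    rw [hc 2 1 2, hc 0 1 0]
    linarith
  · simp only [Fin.reduceFinMk, Fin.isValue] at e5 ⊢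
    have a1 : (0 : Fin 3) + 1 = 1 := rfl
    have a2 : (0 : Fin 3) + 2 = 2 := rfl
    have a3 : (2 : Fin 3) + 1 = 0 := rfl
    have a4 : (2 : Fin 3) + 2 = 1 := rfl
    have a5 : (1 : Fin 3) + 1 = 2 := rfl
    have a6 : (1 : Fin 3) + 2 = 0 := rfl
    simp only [a1, a2, a3, a4, a5, a6]
    rw [hc 0 2 0, hc 1 2 1]
    linarith

end maxwell

section transport

variable {T : ℝ} {f : ℝ → R3 → R3 → ℝ} {E B : ℝ → R3 → R3}

lemma slab3_diff {u : ℝ × R3 × R3 → ℝ} (hu : ContDiffOn ℝ 2 u (slab3 T)) {q : ℝ × R3 × R3}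
    (hq : q ∈ slab3 T) : DifferentiableAt ℝ u q :=
  ((hu.contDiffAt ((isOpen_slab3 T).mem_nhds hq)).differentiableAt (by norm_num))

lemma clm_sum_R3 (L : R3 →L[ℝ] ℝ) (b : R3) : L b = ∑ i : Fin 3, b i * L (eb i) := by
  conv_lhs => rw [← (EuclideanSpace.basisFun (Fin 3) ℝ).sum_repr b]
  simp [map_sum]

/-- the transport equation in Fréchet form -/
theorem transport (h : Sol2 T f E B) {t : ℝ} (ht : 0 < t) (htT : t < T) (x v : R3) :
    fderiv ℝ (unc3 f) (t, x, v) (1, relVel v, E t x + cross3 (relVel v) (B t x)) = 0 := by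
  have hd : DifferentiableAt ℝ (unc3 f) (t, x, v) :=
    slab3_diff h.hf (mem_slab3.2 ⟨ht, htT⟩)
  obtain ⟨h1, _⟩ := h.heq t ht htT x
  have h2 := h1 v
  set L := fderiv ℝ (unc3 f) (t, x, v) with hL
  -- time derivative
  have e1 : deriv (fun s => f s x v) t = L (1, 0, 0) := by
    have c1 : HasDerivAt (fun s : ℝ => ((s, x, v) : ℝ × R3 × R3)) ((1 : ℝ), (0 : R3), (0 : R3)) t :=
      (hasDerivAt_id t).prodMk ((hasDerivAt_const t x).prodMk (hasDerivAt_const t v))
    exact (hd.hasFDerivAt.comp_hasDerivAt t c1).deriv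
  have e2 : ∀ i, pderiv (fun y => f t y v) i x = L (0, eb i, 0) := by
    intro i
    have c1 : HasFDerivAt (fun y : R3 => ((t, y, v) : ℝ × R3 × R3))
        ((ContinuousLinearMap.inr ℝ ℝ (R3 × R3)).comp (ContinuousLinearMap.inl ℝ R3 R3)) x :=
      (hasFDerivAt_prodMk_right t (x, v)).comp x (hasFDerivAt_prodMk_left x v)
    have c2 := (hd.hasFDerivAt.comp x c1).fderiv
    unfold pderiv
    have c3 : fderiv ℝ (fun y => f t y v) x = L.comp
        ((ContinuousLinearMap.inr ℝ ℝ (R3 × R3)).comp (ContinuousLinearMap.inl ℝ R3 R3)) := c2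
    rw [c3]
    simp
  have e3 : ∀ i, pderiv (fun w => f t x w) i v = L (0, 0, eb i) := by
    intro i
    have c1 : HasFDerivAt (fun w : R3 => ((t, x, w) : ℝ × R3 × R3))
        ((ContinuousLinearMap.inr ℝ ℝ (R3 × R3)).comp (ContinuousLinearMap.inr ℝ R3 R3)) v :=
      (hasFDerivAt_prodMk_right t (x, v)).comp v (hasFDerivAt_prodMk_right x v)
    have c2 := (hd.hasFDerivAt.comp v c1).fderiv
    unfold pderiv
    have c3 : fderiv ℝ (fun w => f t x w) v = L.comp
        ((ContinuousLinearMap.inr ℝ ℝ (R3 × R3)).comp (ContinuousLinearMap.inr ℝ R3 R3)) := c2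
    rw [c3]
    simp
  simp only [e1, e2, e3] at h2
  have s1 : L (0, relVel v, 0) = ∑ i : Fin 3, relVel v i * L (0, eb i, 0) := by
    have := clm_sum_R3 (L.comp ((ContinuousLinearMap.inr ℝ ℝ (R3 × R3)).comp
      (ContinuousLinearMap.inl ℝ R3 R3))) (relVel v)
    simpa using this
  have s2 : L (0, 0, E t x + cross3 (relVel v) (B t x))
      = ∑ i : Fin 3, (E t x i + cross3 (relVel v) (B t x) i) * L (0, 0, eb i) := by
    have := clm_sum_R3 (L.comp ((ContinuousLinearMap.inr ℝ ℝ (R3 × R3)).comp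
      (ContinuousLinearMap.inr ℝ R3 R3))) (E t x + cross3 (relVel v) (B t x))
    simpa using this
  have s3 : ((1 : ℝ), relVel v, E t x + cross3 (relVel v) (B t x))
      = (1, 0, 0) + (0, relVel v, 0) + (0, 0, E t x + cross3 (relVel v) (B t x)) := by
    simp
  rw [s3, map_add, map_add, s1, s2]
  exact h2

/-- derivative of a momentum integral -/
theorem hasFDerivAt_momInt (hf : ContDiffOn ℝ 1 (unc3 f) (slab3 T))
    (hsupp : ∀ T' : ℝ, 0 ≤ T' → T' < T → ∃ R : ℝ, ∀ t ∈ Set.Icc 0 T', ∀ x v : R3,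
      (R < ‖x‖ ∨ R < ‖v‖) → f t x v = 0)
    {w : R3 → ℝ} (hw : Continuous w) {t : ℝ} (ht : 0 < t) (htT : t < T) (x : R3) :
    HasFDerivAt (fun q : ℝ × R3 => ∫ p, f q.1 q.2 p * w p)
      (∫ p, w p • (fderiv ℝ (unc3 f) (t, x, p)).comp
        (ContinuousLinearMap.prodMap (ContinuousLinearMap.id ℝ ℝ)
          (ContinuousLinearMap.inl ℝ R3 R3))) (t, x) ∧
    Integrable (fun p => w p • (fderiv ℝ (unc3 f) (t, x, p)).comp
        (ContinuousLinearMap.prodMap (ContinuousLinearMap.id ℝ ℝ)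
          (ContinuousLinearMap.inl ℝ R3 R3))) := by
  set L : (ℝ × R3) →L[ℝ] ℝ × R3 × R3 := ContinuousLinearMap.prodMap (ContinuousLinearMap.id ℝ ℝ)
          (ContinuousLinearMap.inl ℝ R3 R3) with hL
  obtain ⟨δ, hδ, hδ1, hδ2⟩ : ∃ δ : ℝ, 0 < δ ∧ δ < t ∧ t + δ < T := by
    refine ⟨min (t / 2) ((T - t) / 2), ?_, ?_, ?_⟩
    · apply lt_min <;> linarith
    · have := min_le_left (t / 2) ((T - t) / 2); linarith
    · have := min_le_right (t / 2) ((T - t) / 2); linarith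
  obtain ⟨R, hR⟩ := hsupp (t + δ) (by linarith) hδ2
  have hopen := isOpen_slab3 T
  have hcf : ContinuousOn (fderiv ℝ (unc3 f)) (slab3 T) :=
    hf.continuousOn_fderiv_of_isOpen hopen (by norm_num)
  -- compact set
  set K : Set (ℝ × R3 × R3) := Icc (t - δ) (t + δ) ×ˢ (Metric.closedBall x δ ×ˢ Metric.closedBall 0 R)
    with hK
  have hKc : IsCompact K := isCompact_Icc.prod ((isCompact_closedBall x δ).prod
    (isCompact_closedBall 0 R))
  have hKs : K ⊆ slab3 T := by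
    rintro ⟨s, y, p⟩ ⟨⟨h1, h2⟩, _⟩
    exact mem_slab3.2 ⟨by simp only; linarith, by simp only; linarith⟩
  obtain ⟨C, hC⟩ := (hKc.image_of_continuousOn (hcf.mono hKs)).isBounded.exists_norm_le
  have hC' : ∀ q ∈ K, ‖fderiv ℝ (unc3 f) q‖ ≤ C := fun q hq => hC _ ⟨q, hq, rfl⟩
  have hnhds : Metric.ball ((t, x) : ℝ × R3) δ ∈ 𝓝 ((t, x) : ℝ × R3) := Metric.ball_mem_nhds _ hδ
  have hball : ∀ q ∈ Metric.ball ((t, x) : ℝ × R3) δ,
      (t - δ < q.1 ∧ q.1 < t + δ) ∧ dist q.2 x < δ := by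
    intro q hq
    rw [Metric.mem_ball, Prod.dist_eq, max_lt_iff] at hq
    rw [Real.dist_eq, abs_lt] at hq
    exact ⟨⟨by linarith [hq.1.1], by linarith [hq.1.2]⟩, hq.2⟩
  have hzero : ∀ q ∈ Metric.ball ((t, x) : ℝ × R3) δ, ∀ p : R3, R < ‖p‖ → f q.1 q.2 p = 0 := by
    intro q hq p hp
    have := hball q hq
    exact hR q.1 ⟨by linarith [this.1.1], by linarith [this.1.2]⟩ q.2 p (Or.inr hp)
  have hdiff : ∀ q ∈ Metric.ball ((t, x) : ℝ × R3) δ, ∀ p : R3,
      HasFDerivAt (fun q : ℝ × R3 => f q.1 q.2 p * w p)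
        (w p • (fderiv ℝ (unc3 f) (q.1, q.2, p)).comp L) q := by
    intro q hq p
    have hm : (q.1, q.2, p) ∈ slab3 T := by
      have := hball q hq
      exact mem_slab3.2 ⟨by simp only; linarith [this.1.1], by simp only; linarith [this.1.2]⟩
    have hd : DifferentiableAt ℝ (unc3 f) (q.1, q.2, p) :=
      (hf.contDiffAt (hopen.mem_nhds hm)).differentiableAt (by norm_num)
    have c1 : HasFDerivAt (fun q : ℝ × R3 => ((q.1, q.2, p) : ℝ × R3 × R3)) L q := by
      have c2 : HasFDerivAt (fun q : ℝ × R3 => L q + ((0, 0, p) : ℝ × R3 × R3)) L q :=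
        L.hasFDerivAt.add_const _
      refine c2.congr_of_eventuallyEq (Filter.Eventually.of_forall fun r => ?_)
      simp [hL, Prod.ext_iff]
    have c4 := (hd.hasFDerivAt.comp q c1).mul_const (w p)
    exact c4
  -- measurability
  have hmeasF : ∀ q ∈ Metric.ball ((t, x) : ℝ × R3) δ,
      AEStronglyMeasurable (fun p => f q.1 q.2 p * w p) volume := by
    intro q hq
    have hb := hball q hq
    have hc : Continuous (fun p => f q.1 q.2 p) := by
      have : ContinuousOn (unc3 f) (slab3 T) := hf.continuousOn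
      have h2 : Continuous (fun p : R3 => ((q.1, q.2, p) : ℝ × R3 × R3)) := by fun_prop
      have h3 := this.comp_continuous h2 (fun p => mem_slab3.2
        ⟨by simp only; linarith [hb.1.1], by simp only; linarith [hb.1.2]⟩)
      exact h3
    exact (hc.mul hw).aestronglyMeasurable
  have hcD : Continuous (fun p => w p • (fderiv ℝ (unc3 f) (t, x, p)).comp L) := by
    have h2 : Continuous (fun p : R3 => ((t, x, p) : ℝ × R3 × R3)) := by fun_prop
    have h3 : Continuous (fun p : R3 => fderiv ℝ (unc3 f) (t, x, p)) :=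
      hcf.comp_continuous h2 (fun p => mem_slab3.2 ⟨ht, htT⟩)
    exact hw.smul (h3.clm_comp continuous_const)
  have hx0 : ((t, x) : ℝ × R3) ∈ Metric.ball ((t, x) : ℝ × R3) δ := Metric.mem_ball_self hδ
  have hintF : Integrable (fun p => f t x p * w p) := by
    have hc : Continuous (fun p => f t x p * w p) := by
      have : ContinuousOn (unc3 f) (slab3 T) := hf.continuousOn
      have h2 : Continuous (fun p : R3 => ((t, x, p) : ℝ × R3 × R3)) := by fun_prop
      have h3 : Continuous (fun p : R3 => f t x p) :=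
        this.comp_continuous h2 (fun p => mem_slab3.2 ⟨ht, htT⟩)
      exact h3.mul hw
    refine hc.integrable_of_hasCompactSupport ?_
    refine HasCompactSupport.intro (isCompact_closedBall (0 : R3) R) fun p hp => ?_
    have : R < ‖p‖ := by simpa using hp
    rw [hzero (t, x) hx0 p this, zero_mul]
  have hbound : ∀ᵐ p ∂(volume : Measure R3), ∀ q ∈ Metric.ball ((t, x) : ℝ × R3) δ,
      ‖w p • (fderiv ℝ (unc3 f) (q.1, q.2, p)).comp L‖
        ≤ (Metric.closedBall (0 : R3) R).indicator (fun p => |w p| * (|C| * ‖L‖)) p := by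
    refine Filter.Eventually.of_forall fun p q hq => ?_
    by_cases hp : p ∈ Metric.closedBall (0 : R3) R
    · rw [Set.indicator_of_mem hp, norm_smul]
      refine mul_le_mul (le_of_eq (Real.norm_eq_abs _)) ?_ (norm_nonneg _) (abs_nonneg _)
      refine (ContinuousLinearMap.opNorm_comp_le _ _).trans ?_
      refine mul_le_mul_of_nonneg_right ?_ (norm_nonneg _)
      have hb := hball q hq
      refine (hC' (q.1, q.2, p) ⟨⟨hb.1.1.le, hb.1.2.le⟩, ?_, hp⟩).trans (le_abs_self C)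
      exact Metric.mem_closedBall.2 hb.2.le
    · rw [Set.indicator_of_notMem hp]
      have hp' : R < ‖p‖ := by simpa using hp
      -- the function vanishes near q
      have h0 : HasFDerivAt (fun q : ℝ × R3 => f q.1 q.2 p * w p) (0 : (ℝ × R3) →L[ℝ] ℝ) q := by
        have : (fun q : ℝ × R3 => f q.1 q.2 p * w p) =ᶠ[𝓝 q] fun _ => 0 := by
          filter_upwards [Metric.isOpen_ball.mem_nhds hq] with r hr
          rw [hzero r hr p hp', zero_mul]
        exact (hasFDerivAt_const (0 : ℝ) q).congr_of_eventuallyEq this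
      rw [(hdiff q hq p).unique h0]
      simp
  have hbint : Integrable ((Metric.closedBall (0 : R3) R).indicator
      (fun p => |w p| * (|C| * ‖L‖))) := by
    rw [integrable_indicator_iff Metric.isClosed_closedBall.measurableSet]
    exact (ContinuousOn.integrableOn_compact (isCompact_closedBall 0 R)
      (hw.abs.mul continuous_const).continuousOn)
  constructor
  · exact hasFDerivAt_integral_of_dominated_of_fderiv_le (F := fun (q : ℝ × R3) (p : R3) =>
        f q.1 q.2 p * w p) (F' := fun q p => w p • (fderiv ℝ (unc3 f) (q.1, q.2, p)).comp L)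
      (bound := (Metric.closedBall (0 : R3) R).indicator (fun p => |w p| * (|C| * ‖L‖)))
      (x₀ := ((t, x) : ℝ × R3)) hnhds
      (by filter_upwards [hnhds] with q hq using hmeasF q hq) hintF hcD.aestronglyMeasurable
      hbound hbint (Filter.Eventually.of_forall fun p q hq => hdiff q hq p)
  · refine Integrable.mono' hbint hcD.aestronglyMeasurable ?_
    filter_upwards [hbound] with p hp using hp (t, x) hx0

/-- directional form of `hasFDerivAt_momInt` -/
theorem dd_momInt (hf : ContDiffOn ℝ 1 (unc3 f) (slab3 T))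
    (hsupp : ∀ T' : ℝ, 0 ≤ T' → T' < T → ∃ R : ℝ, ∀ t ∈ Set.Icc 0 T', ∀ x v : R3,
      (R < ‖x‖ ∨ R < ‖v‖) → f t x v = 0)
    {w : R3 → ℝ} (hw : Continuous w) {t : ℝ} (ht : 0 < t) (htT : t < T) (x : R3) (a : ℝ) (b : R3) :
    dd (a, b) (fun q : ℝ × R3 => ∫ p, f q.1 q.2 p * w p) (t, x)
      = ∫ p, fderiv ℝ (unc3 f) (t, x, p) (a, b, 0) * w p ∧
    Integrable (fun p => fderiv ℝ (unc3 f) (t, x, p) (a, b, 0) * w p) := by
  obtain ⟨h1, h2⟩ := hasFDerivAt_momInt hf hsupp hw ht htT x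
  constructor
  · unfold dd
    rw [h1.fderiv, ContinuousLinearMap.integral_apply h2]
    refine integral_congr_ae (Filter.Eventually.of_forall fun p => ?_)
    simp [mul_comm]
  · have h3 := h2.apply_continuousLinearMap ((a, b) : ℝ × R3)
    refine h3.congr (Filter.Eventually.of_forall fun p => ?_)
    simp [mul_comm]

end transport

section sources

variable {T : ℝ} {f : ℝ → R3 → R3 → ℝ} {E B : ℝ → R3 → R3}

lemma continuous_relVel : Continuous relVel := by
  have h1 : Continuous (fun v : R3 => Real.sqrt (1 + ‖v‖ ^ 2)) :=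
    Real.continuous_sqrt.comp (continuous_const.add (continuous_norm.pow 2))
  have h2 : ∀ v : R3, Real.sqrt (1 + ‖v‖ ^ 2) ≠ 0 := fun v => by positivity
  exact (h1.inv₀ h2).smul continuous_id

lemma continuous_relVel_apply (i : Fin 3) : Continuous (fun p => relVel p i) := by
  have h1 : Continuous (fun x : R3 => x i) := by fun_prop
  exact h1.comp continuous_relVel

/-- space-time derivatives of the charge density -/
theorem dd_rho (h : Sol2 T f E B) {t : ℝ} (ht : 0 < t) (htT : t < T) (x : R3) (a : ℝ) (b : R3) :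
    dd (a, b) (rhoF f) (t, x) = ∫ p, fderiv ℝ (unc3 f) (t, x, p) (a, b, 0) := by
  have h1 := (dd_momInt (w := fun _ => (1 : ℝ)) (h.hf.of_le (by norm_num)) h.hsupp
    continuous_const ht htT x a b).1
  simp only [mul_one] at h1
  rw [← h1]
  rfl

/-- the current density componentwise, at fixed time and position -/
lemma jI_eq (h : Sol2 T f E B) {q : ℝ × R3} (hq : q ∈ slab T) (i : Fin 3) :
    jI f i q = ∫ p, f q.1 q.2 p * relVel p i := by
  unfold jI currentDensity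
  have hq' := mem_slab.1 hq
  obtain ⟨R, hR⟩ := h.hsupp q.1 hq'.1.le hq'.2
  have hc : Continuous (fun p => f q.1 q.2 p) := by
    have h1 : ContinuousOn (unc3 f) (slab3 T) := h.hf.continuousOn
    have h2 : Continuous (fun p : R3 => ((q.1, q.2, p) : ℝ × R3 × R3)) := by fun_prop
    exact h1.comp_continuous h2 (fun p => mem_slab3.2 ⟨hq'.1, hq'.2⟩)
  have hint : Integrable (fun p => f q.1 q.2 p • relVel p) := by
    refine (hc.smul continuous_relVel).integrable_of_hasCompactSupport ?_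
    refine HasCompactSupport.intro (isCompact_closedBall (0 : R3) R) fun p hp => ?_
    have : R < ‖p‖ := by simpa using hp
    change f q.1 q.2 p • relVel p = 0
    rw [hR q.1 ⟨hq'.1.le, le_refl _⟩ q.2 p (Or.inr this), zero_smul]
  have := (ContinuousLinearMap.integral_comp_comm
    (EuclideanSpace.proj i : R3 →L[ℝ] ℝ) hint)
  simpa using this.symm

/-- space-time derivatives of the current density -/
theorem dd_j (h : Sol2 T f E B) {t : ℝ} (ht : 0 < t) (htT : t < T) (x : R3) (i : Fin 3)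
    (a : ℝ) (b : R3) :
    dd (a, b) (jI f i) (t, x) = ∫ p, fderiv ℝ (unc3 f) (t, x, p) (a, b, 0) * relVel p i := by
  have h1 := (dd_momInt (w := fun p => relVel p i) (h.hf.of_le (by norm_num)) h.hsupp
    (continuous_relVel_apply i) ht htT x a b).1
  rw [← h1]
  exact dd_congr (isOpen_slab T) (mem_slab.2 ⟨ht, htT⟩) fun r hr => jI_eq h hr i

/-- **Source of the wave equation for `E`** as a momentum integral:
`□ E_i = - ∫ (∂_i f + v_i ∂_t f) dp`. -/
theorem box_E' (h : Sol2 T f E B) {t : ℝ} (ht : 0 < t) (htT : t < T) (x : R3) (i : Fin 3) :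
    box (uncI E i) (t, x)
      = - ∫ p, fderiv ℝ (unc3 f) (t, x, p) (relVel p i, eb i, 0) := by
  have hf1 : ContDiffOn ℝ 1 (unc3 f) (slab3 T) := h.hf.of_le (by norm_num)
  rw [box_E h (mem_slab.2 ⟨ht, htT⟩)]
  have e1 : Dx i (rhoF f) (t, x) = ∫ p, fderiv ℝ (unc3 f) (t, x, p) (0, eb i, 0) :=
    dd_rho h ht htT x 0 (eb i)
  have e2 : Dt (jI f i) (t, x) = ∫ p, fderiv ℝ (unc3 f) (t, x, p) (1, 0, 0) * relVel p i :=
    dd_j h ht htT x i 1 0
  have i1 : Integrable (fun p => fderiv ℝ (unc3 f) (t, x, p) (0, eb i, 0)) := by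
    have := (dd_momInt (w := fun _ => (1 : ℝ)) hf1 h.hsupp continuous_const ht htT x 0 (eb i)).2
    simpa using this
  have i2 := (dd_momInt (w := fun p => relVel p i) hf1 h.hsupp
    (continuous_relVel_apply i) ht htT x 1 0).2
  rw [e1, e2, ← neg_add', ← integral_add i1 i2]
  congr 1
  refine integral_congr_ae (Filter.Eventually.of_forall fun p => ?_)
  simp only
  have e3 : ((relVel p i, eb i, 0) : ℝ × R3 × R3) = (0, eb i, 0) + relVel p i • ((1 : ℝ), (0 : R3), (0 : R3)) := by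
    simp
  rw [e3, map_add, map_smul, smul_eq_mul, mul_comm (relVel p i)]

/-- **Source of the wave equation for `B`** as a momentum integral:
`□ B_i = ∫ (∇_x f × v)_i dp`. -/
theorem box_B' (h : Sol2 T f E B) {t : ℝ} (ht : 0 < t) (htT : t < T) (x : R3) (i : Fin 3) :
    box (uncI B i) (t, x)
      = ∫ p, fderiv ℝ (unc3 f) (t, x, p)
          (0, relVel p (i + 2) • eb (i + 1) - relVel p (i + 1) • eb (i + 2), 0) := by
  have hf1 : ContDiffOn ℝ 1 (unc3 f) (slab3 T) := h.hf.of_le (by norm_num)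
  rw [box_B h (mem_slab.2 ⟨ht, htT⟩)]
  have e1 : Dx (i + 1) (jI f (i + 2)) (t, x)
      = ∫ p, fderiv ℝ (unc3 f) (t, x, p) (0, eb (i + 1), 0) * relVel p (i + 2) :=
    dd_j h ht htT x _ 0 _
  have e2 : Dx (i + 2) (jI f (i + 1)) (t, x)
      = ∫ p, fderiv ℝ (unc3 f) (t, x, p) (0, eb (i + 2), 0) * relVel p (i + 1) :=
    dd_j h ht htT x _ 0 _
  have i1 := (dd_momInt (w := fun p => relVel p (i + 2)) hf1 h.hsupp
    (continuous_relVel_apply _) ht htT x 0 (eb (i + 1))).2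
  have i2 := (dd_momInt (w := fun p => relVel p (i + 1)) hf1 h.hsupp
    (continuous_relVel_apply _) ht htT x 0 (eb (i + 2))).2
  rw [e1, e2, ← integral_sub i1 i2]
  refine integral_congr_ae (Filter.Eventually.of_forall fun p => ?_)
  simp only
  have e3 : ((0, relVel p (i + 2) • eb (i + 1) - relVel p (i + 1) • eb (i + 2), 0) : ℝ × R3 × R3)
      = relVel p (i + 2) • ((0 : ℝ), eb (i + 1), (0 : R3))
        - relVel p (i + 1) • ((0 : ℝ), eb (i + 2), (0 : R3)) := by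
    simp
  rw [e3, map_sub, map_smul, map_smul, smul_eq_mul, smul_eq_mul, mul_comm (relVel p (i + 2)),
    mul_comm (relVel p (i + 1))]

end sources

section final

/-! Final statements in the notation of `GSRDefs`. -/

variable {T : ℝ} {f : ℝ → R3 → R3 → ℝ} {E B : ℝ → R3 → R3}

lemma two_le_inf : (2 : WithTop ℕ∞) ≤ ∞ := by
  have : ((2 : ℕ∞) : WithTop ℕ∞) ≤ ((⊤ : ℕ∞) : WithTop ℕ∞) := by exact_mod_cast le_top
  exact this

/-- constructor of `Sol2` from globally smooth data -/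
lemma Sol2.of_smooth (hf : ContDiff ℝ ∞ (GSR.unc f))
    (hE : ContDiff ℝ ∞ (fun q : ℝ × R3 => E q.1 q.2))
    (hB : ContDiff ℝ ∞ (fun q : ℝ × R3 => B q.1 q.2))
    (heq : ∀ t, 0 < t → t < T → ∀ x, EquationsHoldAt f E B t x)
    (hsupp : ∀ T' : ℝ, 0 ≤ T' → T' < T → ∃ R : ℝ, ∀ t ∈ Set.Icc 0 T', ∀ x v : R3,
      (R < ‖x‖ ∨ R < ‖v‖) → f t x v = 0) : Sol2 T f E B := by
  have hp : ∀ i : Fin 3, ContDiff ℝ ∞ (fun x : R3 => x i) := fun i =>
    (EuclideanSpace.proj i : R3 →L[ℝ] ℝ).contDiff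
  refine ⟨?_, ?_, ?_, heq, hsupp⟩
  · exact (hf.of_le two_le_inf).contDiffOn
  · intro i
    exact (((hp i).comp hE).of_le two_le_inf).contDiffOn
  · intro i
    exact (((hp i).comp hB).of_le two_le_inf).contDiffOn

/-- **Wave equation for `E`** -/
theorem wave_E (h : Sol2 T f E B) {t : ℝ} (ht : 0 < t) (htT : t < T) (x : R3) (i : Fin 3) :
    GSR.box (GSR.cmp E i) (t, x)
      = - ∫ p, (GSR.fx i (GSR.unc f) (t, x, p) + relVel p i * GSR.ft (GSR.unc f) (t, x, p)) := by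
  have h1 := box_E' h ht htT x i
  have h2 : GSR.box (GSR.cmp E i) (t, x) = box (uncI E i) (t, x) := rfl
  rw [h2, h1]
  congr 1
  refine integral_congr_ae (Filter.Eventually.of_forall fun p => ?_)
  simp only
  have e3 : ((relVel p i, eb i, 0) : ℝ × R3 × R3)
      = (0, eb i, 0) + relVel p i • ((1 : ℝ), (0 : R3), (0 : R3)) := by
    simp
  rw [e3, map_add, map_smul, smul_eq_mul]
  rfl

/-- **Wave equation for `B`** -/
theorem wave_B (h : Sol2 T f E B) {t : ℝ} (ht : 0 < t) (htT : t < T) (x : R3) (i : Fin 3) :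
    GSR.box (GSR.cmp B i) (t, x)
      = ∫ p, (relVel p (i + 2) * GSR.fx (i + 1) (GSR.unc f) (t, x, p)
          - relVel p (i + 1) * GSR.fx (i + 2) (GSR.unc f) (t, x, p)) := by
  have h1 := box_B' h ht htT x i
  have h2 : GSR.box (GSR.cmp B i) (t, x) = box (uncI B i) (t, x) := rfl
  rw [h2, h1]
  refine integral_congr_ae (Filter.Eventually.of_forall fun p => ?_)
  simp only
  have e3 : ((0, relVel p (i + 2) • eb (i + 1) - relVel p (i + 1) • eb (i + 2), 0) : ℝ × R3 × R3)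
      = relVel p (i + 2) • ((0 : ℝ), eb (i + 1), (0 : R3))
        - relVel p (i + 1) • ((0 : ℝ), eb (i + 2), (0 : R3)) := by
    simp
  rw [e3, map_sub, map_smul, map_smul, smul_eq_mul, smul_eq_mul]
  rfl

/-- **Transport equation** -/
theorem transport_ft (h : Sol2 T f E B) {t : ℝ} (ht : 0 < t) (htT : t < T) (x p : R3) :
    GSR.ft (GSR.unc f) (t, x, p) + ∑ j, relVel p j * GSR.fx j (GSR.unc f) (t, x, p)
      = - fderiv ℝ (GSR.unc f) (t, x, p) (0, 0, GSR.lor E B t x p) := by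
  have h1 := transport h ht htT x p
  have e1 : ((1 : ℝ), relVel p, E t x + cross3 (relVel p) (B t x))
      = (1, 0, 0) + (0, relVel p, 0) + (0, 0, E t x + cross3 (relVel p) (B t x)) := by
    simp
  rw [e1, map_add, map_add] at h1
  have s1 : fderiv ℝ (unc3 f) (t, x, p) (0, relVel p, 0)
      = ∑ i : Fin 3, relVel p i * fderiv ℝ (unc3 f) (t, x, p) (0, eb i, 0) := by
    have := clm_sum_R3 ((fderiv ℝ (unc3 f) (t, x, p)).comp
      ((ContinuousLinearMap.inr ℝ ℝ (R3 × R3)).comp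
      (ContinuousLinearMap.inl ℝ R3 R3))) (relVel p)
    simpa using this
  rw [s1] at h1
  have h2 : GSR.unc f = unc3 f := rfl
  have h3 : GSR.lor E B t x p = E t x + cross3 (relVel p) (B t x) := rfl
  rw [h2, h3]
  simp only [GSR.ft, GSR.fx]
  linarith

end final

end Crest.Agent.R106.Gsr
end

-- ▼ part R106/GsrRepU
section

set_option autoImplicit false

open MeasureTheory Set Filter Topology Metric
open Crest.AnalysisR.VecCalc3 Crest.AnalysisR.PDE.RVM
open scoped ContDiff RealInnerProductSpace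

namespace Crest.Agent.R106.GsrU

open Crest.Agent.R106.GSR (pt px unc ft fx cmp lor gam acc eT eS nv cone DataBd lorF)
open Crest.Agent.R106.Gsr (ret om mm kap kT kM kX sdot e)

lemma ae_ne_zero : ∀ᵐ z : R3, z ≠ 0 := by
  have : ({0}ᶜ : Set R3) ∈ ae (volume : Measure R3) := by
    rw [mem_ae_iff, compl_compl]; exact measure_singleton _
  exact this

lemma preimage_ball (x : R3) (t : ℝ) : (fun z : R3 => x + z) ⁻¹' (ball x t) = ball 0 t := by
  ext z; simp [dist_eq_norm]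

lemma bridge {φ : R3 × R3 → ℝ} {x : R3} {t : ℝ} (hφ : Integrable φ (cone x t)) {ψ : R3 → R3 → ℝ}
    (h : ∀ z, z ≠ 0 → ∀ p, φ (x + z, p) = ψ z p) :
    IntegrableOn (fun z => ∫ p, ψ z p) (ball 0 t) ∧ ∫ q, φ q ∂(cone x t) = ∫ z in ball 0 t, ∫ p, ψ z p := by
  have hmp : MeasurePreserving (fun z : R3 => x + z) volume volume := measurePreserving_add_left volume x
  have hme : MeasurableEmbedding (fun z : R3 => x + z) := (Homeomorph.addLeft x).measurableEmbedding
  have h1 : Integrable (fun y => ∫ p, φ (y, p)) ((volume : Measure R3).restrict (ball x t)) :=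
    Integrable.integral_prod_left hφ
  have h2 : IntegrableOn (fun z => ∫ p, φ (x + z, p)) (ball 0 t) := by
    have := (hmp.integrableOn_comp_preimage hme (f := fun y => ∫ p, φ (y, p)) (s := ball x t)).2 h1
    rw [preimage_ball] at this
    exact this
  have h3 : ∀ᵐ z ∂((volume : Measure R3).restrict (ball 0 t)), (∫ p, φ (x + z, p)) = ∫ p, ψ z p := by
    filter_upwards [ae_restrict_of_ae ae_ne_zero] with z hz
    congr 1
    ext p
    exact h z hz p
  constructor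
  · exact Integrable.congr h2 h3
  · have h4 : ∫ q, φ q ∂(cone x t) = ∫ y in ball x t, ∫ p, φ (y, p) := by
      unfold cone at hφ ⊢
      exact integral_prod φ hφ
    have h5 := hmp.setIntegral_preimage_emb hme (fun y => ∫ p, φ (y, p)) (ball x t)
    rw [preimage_ball] at h5
    rw [h4, ← h5]
    exact integral_congr_ae h3

lemma nv_apply (x z : R3) (i : Fin 3) : nv x (x + z) i = - om i z := by
  unfold nv om
  have h1 : x - (x + z) = -z := by abel
  rw [h1, norm_neg]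
  simp
  ring

lemma norm_ret (x z : R3) : ‖x - (x + z)‖ = ‖z‖ := by
  have h1 : x - (x + z) = -z := by abel
  rw [h1, norm_neg]

lemma mm_eq (x z v : R3) : mm v z = 1 - ⟪nv x (x + z), v⟫ := by
  unfold mm sdot
  rw [PiLp.inner_apply]
  simp only [Fin.sum_univ_three, nv_apply]
  simp
  ring

lemma one_sub_norm (p : R3) : 1 - ‖relVel p‖ ^ 2 = ((gam p) ^ 2)⁻¹ := by
  rw [GSR.norm_sq_relVel, inv_pow]; ring

lemma kT_eq (c : R3 → R3) (x z p : R3) :
    kT c z p = kap (relVel p) (c p) z * ((gam p) ^ 2 * (1 - ⟪nv x (x + z), relVel p⟫) ^ 2 * ‖x - (x + z)‖ ^ 2)⁻¹ := by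
  unfold kT
  rw [one_sub_norm, mm_eq x z, norm_ret, mul_inv, mul_inv, inv_pow, inv_pow]
  ring

/-! ### the two families of covectors -/

/-- electric: `c = e_i` -/
noncomputable def cE (i : Fin 3) : R3 → R3 := fun _ => e i
/-- magnetic: `c · w = (w × v)_i` -/
noncomputable def cB (i : Fin 3) : R3 → R3 := fun p => relVel p (i + 2) • e (i + 1) - relVel p (i + 1) • e (i + 2)

lemma kap_E (i : Fin 3) (x z p : R3) :
    kap (relVel p) (cE i p) z = -(nv x (x + z) i - relVel p i) := by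
  rw [nv_apply]
  unfold kap sdot cE
  fin_cases i <;> simp [Fin.sum_univ_three, e] <;> ring

lemma kap_B (i : Fin 3) (x z p : R3) :
    kap (relVel p) (cB i p) z = cross3 (nv x (x + z)) (nv x (x + z) - relVel p) i := by
  unfold kap sdot cB
  fin_cases i
  · show _ = cross3 (nv x (x + z)) (nv x (x + z) - relVel p) 0
    rw [GSR.cross3_0]
    simp only [PiLp.sub_apply, nv_apply]
    simp [Fin.sum_univ_three, e]
    ring
  · show _ = cross3 (nv x (x + z)) (nv x (x + z) - relVel p) 1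
    rw [GSR.cross3_1]
    simp only [PiLp.sub_apply, nv_apply]
    simp [Fin.sum_univ_three, e]
    ring
  · show _ = cross3 (nv x (x + z)) (nv x (x + z) - relVel p) 2
    rw [GSR.cross3_2]
    simp only [PiLp.sub_apply, nv_apply]
    simp [Fin.sum_univ_three, e]
    ring

lemma cE_dot (i : Fin 3) (p : R3) : ∑ j, cE i p j * relVel p j = relVel p i := by
  unfold cE
  fin_cases i <;> simp [Fin.sum_univ_three, e]

lemma cB_dot (i : Fin 3) (p : R3) : ∑ j, cB i p j * relVel p j = 0 := by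
  unfold cB
  fin_cases i <;> simp [Fin.sum_univ_three, e] <;> ring

lemma cE_cont (i : Fin 3) : Continuous (cE i) := continuous_const
lemma cB_cont (i : Fin 3) : Continuous (cB i) := by
  unfold cB
  have h : ∀ j : Fin 3, Continuous (fun p : R3 => relVel p j) := fun j =>
    (EuclideanSpace.proj (𝕜 := ℝ) j).continuous.comp Gsr.relVel_cont
  exact ((h _).smul continuous_const).sub ((h _).smul continuous_const)

lemma abs_apply_le (v : R3) (i : Fin 3) : |v i| ≤ ‖v‖ := by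
  have := PiLp.norm_apply_le v i
  simpa using this

lemma norm_cE (i : Fin 3) (p : R3) : ‖cE i p‖ ≤ 2 := by
  unfold cE; simp [e]

lemma norm_cB (i : Fin 3) (p : R3) : ‖cB i p‖ ≤ 2 := by
  unfold cB
  have h1 := abs_apply_le (relVel p) (i + 2)
  have h2 := abs_apply_le (relVel p) (i + 1)
  have h3 := Gsr.relVel_lt p
  calc _ ≤ ‖relVel p (i + 2) • e (i + 1)‖ + ‖relVel p (i + 1) • e (i + 2)‖ := norm_sub_le _ _
    _ = |relVel p (i + 2)| + |relVel p (i + 1)| := by
        rw [norm_smul, norm_smul]; simp [e]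
    _ ≤ 2 := by linarith

/-- bound of the layer kernel -/
lemma layer_kernel_bound {c : R3 → R3} {σ A M : ℝ} (hσ : |σ| = 1) (hc2 : ∀ p, ‖c p‖ ≤ 2)
    (hcv : ∀ p, |∑ i, c p i * relVel p i| ≤ 1) (hM : ∀ p ∈ closedBall (0:R3) A, ‖(1 - ‖relVel p‖)⁻¹‖ ≤ M)
    (z : R3) (p : R3) (hp : ‖p‖ ≤ A) :
    |σ * (kap (relVel p) (c p) z * (mm (relVel p) z)⁻¹ - ∑ i, c p i * relVel p i)| ≤ 3 * M + 1 := by
  rw [abs_mul, hσ, one_mul]
  have h1 : |kap (relVel p) (c p) z| ≤ 3 := by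
    have h1 : |sdot (c p) z| ≤ 2 := (Gsr.abs_sdot_le _ _).trans (hc2 p)
    calc _ ≤ |sdot (c p) z| + |∑ i, c p i * relVel p i| := abs_add_le _ _
      _ ≤ 3 := by linarith [hcv p]
  have hv1 : 0 < 1 - ‖relVel p‖ := by linarith [Gsr.relVel_lt p]
  have hmi0 : 0 ≤ (mm (relVel p) z)⁻¹ := inv_nonneg.2 (Gsr.mm_pos (Gsr.relVel_lt p) z).le
  have hmi : (mm (relVel p) z)⁻¹ ≤ M := by
    refine (inv_anti₀ hv1 (Gsr.mm_ge z)).trans ?_
    have := hM p (by simpa using hp)
    rwa [Real.norm_of_nonneg (inv_nonneg.2 hv1.le)] at this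
  refine (abs_sub _ _).trans ?_
  rw [abs_mul, abs_of_nonneg hmi0]
  have h2 := hcv p
  have : |kap (relVel p) (c p) z| * (mm (relVel p) z)⁻¹ ≤ 3 * M := by gcongr
  linarith

/-- one component -/
theorem one_comp {f : ℝ → R3 → R3 → ℝ} {E B : ℝ → R3 → R3} (hf : ContDiff ℝ ∞ (unc f))
    (hE : ContDiff ℝ ∞ (fun q : ℝ × R3 => E q.1 q.2)) (hB : ContDiff ℝ ∞ (fun q : ℝ × R3 => B q.1 q.2))
    {u : ℝ × R3 → ℝ} (hu : ContDiff ℝ 2 u)
    {c : R3 → R3} (hc : Continuous c) {σ T R t A M : ℝ} (ht : 0 < t) (htT : t < T) (x : R3)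
    (hσ : |σ| = 1) (hc2 : ∀ p, ‖c p‖ ≤ 2)
    (hcv : ∀ p, |∑ i, c p i * relVel p i| ≤ 1)
    (hR : ∀ τ ∈ Ioo 0 T, ∀ y p, R < ‖p‖ → f τ y p = 0)
    (htr : ∀ τ ∈ Ioo 0 T, ∀ y p, ft (unc f) (τ, y, p) + ∑ j, relVel p j * fx j (unc f) (τ, y, p)
      = - fderiv ℝ (unc f) (τ, y, p) (0, 0, lor E B τ y p))
    (hbox : ∀ τ ∈ Ioo 0 T, ∀ y, GSR.box u (τ, y) = σ * ∫ p, (∑ i, c p i * fx i (unc f) (τ, y, p)
      + (∑ i, c p i * relVel p i) * ft (unc f) (τ, y, p)))
    {W : R3 → R3 → R3 → ℝ} -- W z p a : the acceleration kernel component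
    (hWc : ContinuousOn (fun q : R3 × R3 => W q.1 q.2 (acc q.2 (lor E B (t - ‖q.1‖) (x + q.1) q.2))) ({0}ᶜ ×ˢ univ))
    (hWb : ∀ z, z ≠ 0 → ∀ p a, |W z p a| ≤ 32 * gam p ^ 4 * ‖a‖ * ‖z‖⁻¹)
    (hWibp : ∀ z, z ≠ 0 → ∀ φ : R3 → ℝ, ContDiff ℝ 1 φ → HasCompactSupport φ → ∀ E' B' : R3,
      ∫ p, (σ * kM c z p) * fderiv ℝ φ p (lorF E' B' p) = - ∫ p, φ p * W z p (acc p (lorF E' B' p)))
    (hA : 0 ≤ A) (hu0 : ∀ y, |u (0,y)| ≤ A ∧ |pt u (0,y)| ≤ A ∧ ∀ k, |px k u (0,y)| ≤ A)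
    (hf0 : ∀ y p, |f 0 y p| ≤ A) (hfs : ∀ y p, A < ‖p‖ → f 0 y p = 0)
    (hM : ∀ p ∈ closedBall (0:R3) A, ‖(1 - ‖relVel p‖)⁻¹‖ ≤ M)
    {φ : R3 × R3 → ℝ} (hφ : Integrable φ (cone x t))
    (hφe : ∀ z, z ≠ 0 → ∀ p, φ (x + z, p) = f (t - ‖z‖) (x + z) p *
      (σ * kT c z p + W z p (acc p (lor E B (t - ‖z‖) (x + z) p)))) :
    |4 * Real.pi * u (t, x) - ∫ q, φ q ∂(cone x t)|
      ≤ (4 * (A + 1) + ((3 * M + 1) * A * (volume (closedBall (0:R3) A)).toReal + 1)) * (4 * Real.pi * (t + 1)) := by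
  obtain ⟨hi, he⟩ := bridge hφ (ψ := fun z p => f (t - ‖z‖) (x + z) p *
      (σ * kT c z p + W z p (acc p (lor E B (t - ‖z‖) (x + z) p)))) hφe
  rw [he]
  obtain ⟨Ma, hMa0, hMa⟩ := GSR.exists_bound_acc hE.continuous hB.continuous t R x
  have hS : ∀ z, z ≠ 0 → ‖z‖ < t → ∫ p, σ * kM c z p * (ft (unc f) (t - ‖z‖, x + z, p)
      + ∑ i, relVel p i * fx i (unc f) (t - ‖z‖, x + z, p))
      = ∫ p, f (t - ‖z‖) (x + z) p * W z p (acc p (lor E B (t - ‖z‖) (x + z) p)) := by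
    intro z hz hzt
    have hτ : t - ‖z‖ ∈ Ioo 0 T := ⟨by linarith, by linarith [norm_nonneg z]⟩
    have hφ1 : ContDiff ℝ 1 (fun p => f (t - ‖z‖) (x + z) p) := by
      have h1 : ContDiff ℝ 1 (unc f) := hf.of_le (by exact_mod_cast le_top)
      exact h1.comp (contDiff_const.prodMk (contDiff_const.prodMk contDiff_id))
    have hφ2 : HasCompactSupport (fun p => f (t - ‖z‖) (x + z) p) := by
      apply HasCompactSupport.intro (isCompact_closedBall (0 : R3) R)
      intro p hp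
      exact hR _ hτ _ _ (by simpa using hp)
    have hib := hWibp z hz _ hφ1 hφ2 (E (t - ‖z‖) (x + z)) (B (t - ‖z‖) (x + z))
    have hfd : ∀ p w, fderiv ℝ (fun p => f (t - ‖z‖) (x + z) p) p w
        = fderiv ℝ (unc f) (t - ‖z‖, x + z, p) (0, 0, w) := by
      intro p w
      have h1 : HasFDerivAt (unc f) (fderiv ℝ (unc f) (t - ‖z‖, x + z, p)) (t - ‖z‖, x + z, p) :=
        (hf.differentiable (by simp)).differentiableAt.hasFDerivAt
      have h2 : HasFDerivAt (fun p : R3 => ((t - ‖z‖, x + z, p) : ℝ × R3 × R3))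
          ((0 : R3 →L[ℝ] ℝ).prod ((0 : R3 →L[ℝ] R3).prod (ContinuousLinearMap.id ℝ R3))) p :=
        (hasFDerivAt_const _ p).prodMk ((hasFDerivAt_const _ p).prodMk (hasFDerivAt_id p))
      have h3 := h1.comp p h2
      have h4 : HasFDerivAt (fun p => f (t - ‖z‖) (x + z) p) _ p := h3
      rw [h4.fderiv]
      simp
    have h1 : ∀ p, σ * kM c z p * (ft (unc f) (t - ‖z‖, x + z, p)
      + ∑ i, relVel p i * fx i (unc f) (t - ‖z‖, x + z, p))
      = - (σ * kM c z p * fderiv ℝ (fun p => f (t - ‖z‖) (x + z) p) p (lorF (E (t - ‖z‖) (x + z)) (B (t - ‖z‖) (x + z)) p)) := by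
      intro p
      rw [htr _ hτ, hfd]
      have : lor E B (t - ‖z‖) (x + z) p = lorF (E (t - ‖z‖) (x + z)) (B (t - ‖z‖) (x + z)) p := rfl
      rw [this]; ring
    simp only [h1]
    rw [integral_neg, hib, neg_neg]
    rfl
  refine Gsr.comp_rep hf hu hc ht htT x hR hbox (S := fun z p => W z p (acc p (lor E B (t - ‖z‖) (x + z) p)))
    (CS := 32 * (1 + R ^ 2) ^ 2 * Ma * |t|) hWc ?_ hS hA hu0 hf0 hfs
    (fun z _ p hp => layer_kernel_bound hσ hc2 hcv hM z p hp) hi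
  intro z hz hzt p hp
  have hzp : 0 < ‖z‖ := norm_pos_iff.2 hz
  have hr : ‖z‖⁻¹ ≤ |t| * ‖z‖⁻¹ ^ 2 := by
    have := Gsr.rho_le hz (hzt.le.trans (le_abs_self t))
    rwa [div_eq_mul_inv, ← inv_pow] at this
  have ha : ‖acc p (lor E B (t - ‖z‖) (x + z) p)‖ ≤ Ma := by
    have h1 := hMa (x + z) (by simpa [dist_eq_norm] using hzt) p hp
    rwa [norm_ret] at h1
  have hg : gam p ^ 4 ≤ (1 + R ^ 2) ^ 2 := by
    have h1 := GSR.gam_sq p
    have h2 : gam p ^ 2 ≤ 1 + R ^ 2 := by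
      rw [h1]; nlinarith [norm_nonneg p]
    calc gam p ^ 4 = (gam p ^ 2) ^ 2 := by ring
      _ ≤ (1 + R ^ 2) ^ 2 := by gcongr
  calc |W z p (acc p (lor E B (t - ‖z‖) (x + z) p))| ≤ 32 * gam p ^ 4 * ‖acc p (lor E B (t - ‖z‖) (x + z) p)‖ * ‖z‖⁻¹ :=
        hWb z hz p _
    _ ≤ 32 * (1 + R ^ 2) ^ 2 * Ma * (|t| * ‖z‖⁻¹ ^ 2) := by gcongr
    _ = _ := by ring

/-- electric acceleration kernel component -/
noncomputable def WE (x : R3) (i : Fin 3) (z p a : R3) : ℝ := eS (nv x (x + z)) p a ‖x - (x + z)‖ i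
/-- magnetic acceleration kernel component -/
noncomputable def WB (x : R3) (i : Fin 3) (z p a : R3) : ℝ :=
  cross3 (nv x (x + z)) (eS (nv x (x + z)) p a ‖x - (x + z)‖) i

lemma norm_nv' (x : R3) {z : R3} (hz : z ≠ 0) : ‖nv x (x + z)‖ = 1 := GSR.norm_nv (by simpa using hz)

lemma norm_WE (x : R3) (i : Fin 3) {z : R3} (hz : z ≠ 0) (p a : R3) :
    |WE x i z p a| ≤ 32 * gam p ^ 4 * ‖a‖ * ‖z‖⁻¹ := by
  have hzp : 0 < ‖z‖ := norm_pos_iff.2 hz
  have h1 := GSR.norm_eS_le (norm_nv' x hz) p a (R := ‖x - (x + z)‖) (by rw [norm_ret]; exact hzp)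
  rw [norm_ret] at h1
  have h2 : |WE x i z p a| ≤ ‖eS (nv x (x + z)) p a ‖x - (x + z)‖‖ := abs_apply_le _ i
  rw [norm_ret] at h2
  have : 0 ≤ 16 * gam p ^ 4 * ‖a‖ * ‖z‖⁻¹ := by
    have := GSR.gam_pos p
    positivity
  linarith

lemma norm_WB (x : R3) (i : Fin 3) {z : R3} (hz : z ≠ 0) (p a : R3) :
    |WB x i z p a| ≤ 32 * gam p ^ 4 * ‖a‖ * ‖z‖⁻¹ := by
  have hzp : 0 < ‖z‖ := norm_pos_iff.2 hz
  have h1 := GSR.norm_eS_le (norm_nv' x hz) p a (R := ‖x - (x + z)‖) (by rw [norm_ret]; exact hzp)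
  have h2 : |WB x i z p a| ≤ ‖cross3 (nv x (x + z)) (eS (nv x (x + z)) p a ‖x - (x + z)‖)‖ := abs_apply_le _ i
  have h3 := GSR.norm_cross3_le (nv x (x + z)) (eS (nv x (x + z)) p a ‖x - (x + z)‖)
  rw [norm_nv' x hz, one_mul] at h3
  rw [norm_ret] at h1 h2 h3
  have : 0 ≤ 16 * gam p ^ 4 * ‖a‖ * ‖z‖⁻¹ := by
    have := GSR.gam_pos p
    positivity
  linarith

lemma cont_shift (x : R3) : MapsTo (fun q : R3 × R3 => ((x + q.1, q.2) : R3 × R3)) ({0}ᶜ ×ˢ univ) ({x}ᶜ ×ˢ univ) := by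
  rintro ⟨z, p⟩ ⟨hz, -⟩
  refine ⟨?_, mem_univ _⟩
  simpa using hz

lemma cont_W {f : ℝ → R3 → R3 → ℝ} {E B : ℝ → R3 → R3}
    (hE : ContDiff ℝ ∞ (fun q : ℝ × R3 => E q.1 q.2)) (hB : ContDiff ℝ ∞ (fun q : ℝ × R3 => B q.1 q.2))
    (x : R3) (t : ℝ) (i : Fin 3) :
    ContinuousOn (fun q : R3 × R3 => WE x i q.1 q.2 (acc q.2 (lor E B (t - ‖q.1‖) (x + q.1) q.2))) ({0}ᶜ ×ˢ univ) ∧
    ContinuousOn (fun q : R3 × R3 => WB x i q.1 q.2 (acc q.2 (lor E B (t - ‖q.1‖) (x + q.1) q.2))) ({0}ᶜ ×ˢ univ) := by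
  have h1 := GSR.continuousOn_eS x (GSR.continuous_acc hE.continuous hB.continuous t x).continuousOn
  have h2 := GSR.continuous_cross3 (GSR.continuousOn_nv x) h1
  have hs : ContinuousOn (fun q : R3 × R3 => ((x + q.1, q.2) : R3 × R3)) ({0}ᶜ ×ˢ univ) := by fun_prop
  have h3 := h1.comp hs (cont_shift x)
  have h4 := h2.comp hs (cont_shift x)
  constructor
  · have := (EuclideanSpace.proj (𝕜 := ℝ) i).continuous.comp_continuousOn h3
    refine this.congr ?_
    intro q _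
    simp only [WE, Function.comp, norm_ret]
    rfl
  · have := (EuclideanSpace.proj (𝕜 := ℝ) i).continuous.comp_continuousOn h4
    refine this.congr ?_
    intro q _
    simp only [WB, Function.comp, norm_ret]
    rfl

lemma kM_E (i : Fin 3) (x : R3) {z : R3} (p : R3) :
    (-1) * kM (cE i) z p = GSR.kE (nv x (x + z)) i p / ‖x - (x + z)‖ := by
  unfold kM GSR.kE
  rw [kap_E i x, mm_eq x, norm_ret]
  simp only [div_eq_mul_inv]
  ring

lemma kM_B (i : Fin 3) (x : R3) {z : R3} (p : R3) :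
    1 * kM (cB i) z p = GSR.kB (nv x (x + z)) i p / ‖x - (x + z)‖ := by
  unfold kM GSR.kB
  rw [kap_B i x, mm_eq x, norm_ret]
  simp only [div_eq_mul_inv]
  ring

lemma norm_le_sum (w : R3) : ‖w‖ ≤ ∑ i, |w i| := by
  have h1 : w = ∑ i, w i • e i := by
    ext j
    fin_cases j <;> simp [Fin.sum_univ_three, e]
  calc ‖w‖ = ‖∑ i, w i • e i‖ := by rw [← h1]
    _ ≤ ∑ i, ‖w i • e i‖ := norm_sum_le _ _
    _ = ∑ i, |w i| := by
        apply Finset.sum_congr rfl
        intro i _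
        rw [norm_smul]; simp [e]

lemma comp_cone {F : R3 × R3 → R3} {x : R3} {t : ℝ} (hF : Integrable F (cone x t)) (i : Fin 3) :
    Integrable (fun q => F q i) (cone x t) ∧ (∫ q, F q ∂(cone x t)) i = ∫ q, F q i ∂(cone x t) := by
  constructor
  · exact (EuclideanSpace.proj (𝕜 := ℝ) i).integrable_comp hF
  · exact ((EuclideanSpace.proj (𝕜 := ℝ) i).integral_comp_comm hF).symm

lemma final_norm {w v : R3} {C : ℝ} (h : ∀ i, |4 * Real.pi * w i - v i| ≤ C) :
    ‖w - (4 * Real.pi)⁻¹ • v‖ ≤ 3 * C := by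
  have hp := Real.pi_gt_three
  refine (norm_le_sum _).trans ?_
  have h1 : ∀ i, |(w - (4 * Real.pi)⁻¹ • v) i| ≤ C := by
    intro i
    have h2 : (w - (4 * Real.pi)⁻¹ • v) i = (4 * Real.pi)⁻¹ * (4 * Real.pi * w i - v i) := by
      simp only [PiLp.sub_apply, PiLp.smul_apply, smul_eq_mul]
      field_simp
    rw [h2, abs_mul, abs_of_pos (by positivity)]
    have h3 : (4 * Real.pi)⁻¹ ≤ 1 := inv_le_one_of_one_le₀ (by linarith)
    calc (4 * Real.pi)⁻¹ * |4 * Real.pi * w i - v i| ≤ 1 * C := by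
          apply mul_le_mul h3 (h i) (abs_nonneg _) zero_le_one
      _ = C := one_mul C
  calc ∑ i, |(w - (4 * Real.pi)⁻¹ • v) i| ≤ ∑ _i : Fin 3, C := Finset.sum_le_sum fun i _ => h1 i
    _ = 3 * C := by simp

/-- **(R)**: the Glassey--Strauss representation, uniform constant. -/
theorem repU : GSR.RepU := by
  intro A T
  have hcont : Continuous (fun p : R3 => (1 - ‖relVel p‖)⁻¹) := by
    apply Continuous.inv₀ (continuous_const.sub Gsr.relVel_cont.norm)
    intro p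
    have := Gsr.relVel_lt p
    have h4 : (0:ℝ) < 1 - ‖relVel p‖ := by linarith
    exact h4.ne'
  obtain ⟨M, hM⟩ := (isCompact_closedBall (0 : R3) A).exists_bound_of_continuousOn hcont.continuousOn
  refine ⟨3 * ((4 * (A + 1) + ((3 * |M| + 1) * A * (volume (closedBall (0:R3) A)).toReal + 1)) * (4 * Real.pi * (T + 1))), ?_⟩
  intro T' hT' hT'T f E B hf hE hB heq hsupp hd t ht x
  have hA := hd.A0
  have hM' : ∀ p ∈ closedBall (0:R3) A, ‖(1 - ‖relVel p‖)⁻¹‖ ≤ |M| := fun p hp => (hM p hp).trans (le_abs_self _)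
  obtain ⟨ht0, htT⟩ := ht
  set T2 : ℝ := (t + T') / 2 with hT2
  have htT2 : t < T2 := by rw [hT2]; linarith
  have hT2T : T2 < T' := by rw [hT2]; linarith
  obtain ⟨R, hR⟩ := hsupp T2 (by linarith) hT2T
  have hR' : ∀ τ ∈ Ioo 0 T2, ∀ y p : R3, R < ‖p‖ → f τ y p = 0 := fun τ hτ y p hp =>
    hR τ ⟨hτ.1.le, hτ.2.le⟩ y p (Or.inr hp)
  have hRc : ∀ s ∈ Icc 0 t, ∀ y p : R3, R < ‖p‖ → f s y p = 0 := fun s hs y p hp =>
    hR s ⟨hs.1, by linarith [hs.2]⟩ y p (Or.inr hp)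
  have hsol : Gsr.Sol2 T' f E B := Gsr.Sol2.of_smooth hf hE hB heq hsupp
  have htr : ∀ τ ∈ Ioo 0 T2, ∀ y p, ft (unc f) (τ, y, p) + ∑ j, relVel p j * fx j (unc f) (τ, y, p)
      = - fderiv ℝ (unc f) (τ, y, p) (0, 0, lor E B τ y p) := fun τ hτ y p =>
    Gsr.transport_ft hsol hτ.1 (by linarith [hτ.2]) y p
  have hcmp : ∀ {E : ℝ → R3 → R3} (i : Fin 3), ContDiff ℝ ∞ (fun q : ℝ × R3 => E q.1 q.2) → ContDiff ℝ 2 (cmp E i) := by
    intro E i hE
    have h1 : ContDiff ℝ ∞ (cmp E i) := (EuclideanSpace.proj i : R3 →L[ℝ] ℝ).contDiff.comp hE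
    exact h1.of_le Gsr.two_le_inf
  have iT := GSR.integrable_eT hf.continuous hRc x
  have iS := GSR.integrable_eS hf.continuous hE.continuous hB.continuous hRc x
  have iE : Integrable (fun q : R3 × R3 => f (t - ‖x - q.1‖) q.1 q.2 • Field.eK E B t x q.1 q.2) (cone x t) := by
    refine (iT.add iS).congr (Eventually.of_forall fun q => ?_)
    simp only [Pi.add_apply]
    rw [← smul_add]
    rfl
  have cross_smul : ∀ (a : ℝ) (n w : R3), cross3 n (a • w) = a • cross3 n w := by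
    intro a n w
    ext j
    fin_cases j
    · show cross3 n (a • w) 0 = (a • cross3 n w) 0
      rw [PiLp.smul_apply, GSR.cross3_0, GSR.cross3_0]; simp; ring
    · show cross3 n (a • w) 1 = (a • cross3 n w) 1
      rw [PiLp.smul_apply, GSR.cross3_1, GSR.cross3_1]; simp; ring
    · show cross3 n (a • w) 2 = (a • cross3 n w) 2
      rw [PiLp.smul_apply, GSR.cross3_2, GSR.cross3_2]; simp; ring
  have cross_add : ∀ (n w w' : R3), cross3 n (w + w') = cross3 n w + cross3 n w' := by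
    intro n w w'
    ext j
    fin_cases j
    · show cross3 n (w + w') 0 = (cross3 n w + cross3 n w') 0
      rw [PiLp.add_apply, GSR.cross3_0, GSR.cross3_0, GSR.cross3_0]; simp; ring
    · show cross3 n (w + w') 1 = (cross3 n w + cross3 n w') 1
      rw [PiLp.add_apply, GSR.cross3_1, GSR.cross3_1, GSR.cross3_1]; simp; ring
    · show cross3 n (w + w') 2 = (cross3 n w + cross3 n w') 2
      rw [PiLp.add_apply, GSR.cross3_2, GSR.cross3_2, GSR.cross3_2]; simp; ring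
  have iB : Integrable (fun q : R3 × R3 => f (t - ‖x - q.1‖) q.1 q.2 •
      cross3 (Field.nn x q.1) (Field.eK E B t x q.1 q.2)) (cone x t) := by
    have h1 := GSR.integrable_cross iE
    refine h1.congr (Eventually.of_forall fun q => ?_)
    simp only
    rw [cross_smul]
    rfl
  have hC0 : 0 ≤ 4 * (A + 1) + ((3 * |M| + 1) * A * (volume (closedBall (0:R3) A)).toReal + 1) := by positivity
  have hpi := Real.pi_pos
  have hmono : (4 * (A + 1) + ((3 * |M| + 1) * A * (volume (closedBall (0:R3) A)).toReal + 1)) * (4 * Real.pi * (t + 1))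
      ≤ (4 * (A + 1) + ((3 * |M| + 1) * A * (volume (closedBall (0:R3) A)).toReal + 1)) * (4 * Real.pi * (T + 1)) := by
    gcongr
    linarith
  constructor
  · apply final_norm
    intro i
    have hcc := comp_cone iE i
    show |4 * Real.pi * E t x i - (∫ q, f (t - ‖x - q.1‖) q.1 q.2 • Field.eK E B t x q.1 q.2 ∂(cone x t)) i| ≤ _
    rw [hcc.2]
    refine le_trans ?_ hmono
    refine one_comp hf hE hB (hcmp (E := E) i hE) (cE_cont i) (σ := -1) ht0 htT2 x (by simp) (norm_cE i) ?_ hR' htr ?_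
      (W := WE x i) (cont_W (f := f) hE hB x t i).1 (fun z hz p a => norm_WE x i hz p a) ?_ hA
      (fun y => ⟨hd.leE y i, hd.ptE y i, fun k => hd.pxE y i k⟩) hd.lef hd.supp hM' hcc.1 ?_
    · intro p
      rw [cE_dot]
      exact (abs_apply_le _ i).trans (Gsr.relVel_lt p).le
    · intro τ hτ y
      rw [Gsr.wave_E hsol hτ.1 (by linarith [hτ.2]) y i, neg_one_mul]
      congr 2
      ext p
      rw [cE_dot]
      congr 1
      unfold cE
      fin_cases i <;> simp [Fin.sum_univ_three, e]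
    · intro z hz φ hφ hφc E' B'
      simp only [kM_E i x]
      exact GSR.ibp_E (norm_nv' x hz) i (by rw [norm_ret]; exact norm_ne_zero_iff.2 hz) hφ hφc E' B'
    · intro z hz p
      simp only [norm_ret, PiLp.smul_apply, smul_eq_mul]
      congr 1
      rw [kT_eq (cE i) x, kap_E i x]
      have h1 : Field.eK E B t x (x + z) p i = eT (nv x (x + z)) p ‖x - (x + z)‖ i
        + eS (nv x (x + z)) p (acc p (lor E B (t - ‖x - (x + z)‖) (x + z) p)) ‖x - (x + z)‖ i := rfl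
      rw [h1, GSR.eT_apply]
      unfold WE
      rw [norm_ret]
      ring
  · apply final_norm
    intro i
    have hcc := comp_cone iB i
    show |4 * Real.pi * B t x i - (∫ q, f (t - ‖x - q.1‖) q.1 q.2 •
      cross3 (Field.nn x q.1) (Field.eK E B t x q.1 q.2) ∂(cone x t)) i| ≤ _
    rw [hcc.2]
    refine le_trans ?_ hmono
    refine one_comp hf hE hB (hcmp (E := B) i hB) (cB_cont i) (σ := 1) ht0 htT2 x (by simp) (norm_cB i) ?_ hR' htr ?_
      (W := WB x i) (cont_W (f := f) hE hB x t i).2 (fun z hz p a => norm_WB x i hz p a) ?_ hA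
      (fun y => ⟨hd.leB y i, hd.ptB y i, fun k => hd.pxB y i k⟩) hd.lef hd.supp hM' hcc.1 ?_
    · intro p
      rw [cB_dot]
      simp
    · intro τ hτ y
      rw [Gsr.wave_B hsol hτ.1 (by linarith [hτ.2]) y i, one_mul]
      congr 1
      ext p
      rw [cB_dot, zero_mul, add_zero]
      unfold cB
      fin_cases i <;> simp [Fin.sum_univ_three, e] <;> ring
    · intro z hz φ hφ hφc E' B'
      simp only [kM_B i x]
      exact GSR.ibp_B (norm_nv' x hz) i (by rw [norm_ret]; exact norm_ne_zero_iff.2 hz) hφ hφc E' B'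
    · intro z hz p
      simp only [norm_ret, PiLp.smul_apply, smul_eq_mul]
      congr 1
      rw [kT_eq (cB i) x, kap_B i x]
      have h1 : cross3 (Field.nn x (x + z)) (Field.eK E B t x (x + z) p) i
        = cross3 (nv x (x + z)) (eT (nv x (x + z)) p ‖x - (x + z)‖) i
        + cross3 (nv x (x + z)) (eS (nv x (x + z)) p (acc p (lor E B (t - ‖x - (x + z)‖) (x + z) p)) ‖x - (x + z)‖) i := by
        have := cross_add (nv x (x + z)) (eT (nv x (x + z)) p ‖x - (x + z)‖)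
          (eS (nv x (x + z)) p (acc p (lor E B (t - ‖x - (x + z)‖) (x + z) p)) ‖x - (x + z)‖)
        have h2 := congrArg (fun w : R3 => w i) this
        exact h2
      rw [h1, GSR.cross_eT_apply]
      unfold WB
      rw [norm_ret]
      ring

end Crest.Agent.R106.GsrU
end

-- ▼ part R106/FlowPos
section

/-!
Row 106, module FLOW: sign, sup bound, support and mass of a solution of the class `SolTo`.
-/

set_option autoImplicit false

open Set Filter Topology MeasureTheory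
open scoped ContDiff
open Crest.AnalysisR.VecCalc3 Crest.AnalysisR.PDE.RVM

noncomputable section

namespace Crest.Agent.R106.SolTo

open Crest.Agent.R106.FlowTo Crest.Agent.R106.Flow

variable {T : ℝ} {f₀ : R3 → R3 → ℝ} {E₀ B₀ : R3 → R3} {f : ℝ → R3 → R3 → ℝ} {E B : ℝ → R3 → R3}

/-- Every value of `f t` is a value of the datum (at the label). -/
theorem eq_label (h : SolTo T f₀ E₀ B₀ f E B) {t : ℝ} (ht : t ∈ Ico 0 T) (x v : R3) :
    f t x v = f₀ (Zi E B T t (x, v)).1 (Zi E B T t (x, v)).2 := by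
  have hT : 0 < T := ht.1.trans_lt ht.2
  have h3 := FlowTo.const_char h (s := 0) ⟨le_rfl, hT⟩ ht ht.2 (x, v)
  rw [Ξt_self h.hE h.hB ht.2, h.f_zero] at h3
  exact h3

theorem nonneg (h : SolTo T f₀ E₀ B₀ f E B) (h0 : ∀ x v, 0 ≤ f₀ x v) {t : ℝ}
    (ht : t ∈ Ico 0 T) (x v : R3) : 0 ≤ f t x v := by
  rw [h.eq_label ht]; exact h0 _ _






end Crest.Agent.R106.SolTo
end
end

-- ▼ part R106/OccSol
section

/-!
# Row 106, OCC: the occupation bound (d) for the class `Mom.SmoothSol` (instance of `cmp_of`)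
-/

set_option autoImplicit false

open MeasureTheory Set Filter Topology
open Crest.AnalysisR.VecCalc3 Crest.AnalysisR.PDE.RVM
open scoped ENNReal NNReal InnerProductSpace ContDiff

noncomputable section

namespace Crest.Agent.R106.OccSol

open Crest.Agent.R106.CM Crest.Agent.R106.Mom Crest.Agent.R106.Occ
open Crest.Agent.R106.GSR (gam acc lor)

variable {T : ℝ} {f : ℝ → R3 → R3 → ℝ} {E B : ℝ → R3 → R3} {f₀ : R3 → R3 → ℝ} {E₀ B₀ : R3 → R3}

open Classical in
/-- `f` cut at time `T` -/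
def cutT (T : ℝ) (f : ℝ → R3 → R3 → ℝ) : ℝ → R3 → R3 → ℝ :=
  fun t x v => if t < T then f t x v else 0

lemma cutT_eq {t : ℝ} (ht : t < T) : cutT T f t = f t := by
  funext x v; simp [cutT, ht]

lemma kap_cutT (X : ℝ → R3) {s : ℝ} (hs : s < T) : kap (cutT T f) X s = kap f X s := by
  unfold kap
  congr 1
  funext q
  have : Mom.ret X s q.1 < T := by
    unfold Mom.ret
    linarith [norm_nonneg (X s - q.1)]
  rw [cutT_eq this]

lemma isChar_cutT (hT : 0 < T) {X p : ℝ → R3} : IsChar T (cutT T f) E B X p ↔ IsChar T f E B X p := by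
  constructor
  · intro h
    exact ⟨h.cX, h.cp, h.dX, h.dp, by have := h.supp; rwa [cutT_eq hT] at this⟩
  · intro h
    exact ⟨h.cX, h.cp, h.dX, h.dp, by rw [cutT_eq hT]; exact h.supp⟩

lemma cmp_cutT (hT : 0 < T) (h : CMP T (cutT T f) E B) : CMP T f E B := by
  obtain ⟨Φ, h1, h2, ⟨E0, hE0, h3⟩, h4⟩ := h
  have e0 : cutT T f 0 = f 0 := cutT_eq hT
  have eM : labM (cutT T f) = labM f := by unfold labM; rw [e0]
  refine ⟨Φ, fun z hz => (isChar_cutT hT).1 (h1 z (by rwa [e0])), h2, ⟨E0, hE0, fun t ht => ?_⟩, ?_⟩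
  · have := h3 t ht
    rwa [eM] at this
  · intro X p hX R1 d1 e1 D1 Q1 hR1 hd1 he1 hD1 hQ1 a b ha hab hb
    obtain ⟨S, σ, h5, h6⟩ := h4 X p ((isChar_cutT hT).2 hX) R1 d1 e1 D1 Q1 hR1 hd1 he1 hD1 hQ1
      a b ha hab hb
    refine ⟨S, σ, ?_, fun z hz => ?_⟩
    · have e : ∫⁻ s in Icc a b, kap f X s (shell X p R1 d1 e1 D1 Q1 s)
          = ∫⁻ s in Icc a b, kap (cutT T f) X s (shell X p R1 d1 e1 D1 Q1 s) := by
        refine setLIntegral_congr_fun measurableSet_Icc fun s hs => ?_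
        rw [kap_cutT X (hs.2.trans_lt hb)]
      rw [e, ← eM]
      exact h5
    · have := h6 z hz
      rw [e0] at this
      exact this

theorem cmp_of_solTo (hT : 0 < T) (h : SolTo T f₀ E₀ B₀ f E B) (hd : IsAdmissibleDatum f₀ E₀ B₀) :
    CMP T f E B := by
  classical
  obtain ⟨Zf, Zi, av, hL, hav, -, hchar, hfZi, hmp, -, hZf, hZi⟩ := FlowTo.exists_labelFlow hT h
  have hpos : ∀ t ∈ Ico 0 T, ∀ x v, 0 ≤ f t x v := fun t ht x v => h.nonneg hd.1 ht x v
  have hreg : En.Reg T f E B := En.Reg.of_sol h.sol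
  have h0T : (0 : ℝ) ∈ Ico 0 T := ⟨le_rfl, hT⟩
  have hfin : En.en f E B 0 ≠ ⊤ := by
    have hm := h.sol.2.2.2.2.2.2.2.2 0 h0T
    exact En.en_ne_top hreg h0T hm.1 hm.2.1
  refine cmp_cutT hT (cmp_of hL (fun τ w => by rw [hav]) ?_ ?_ ?_ hmp
    (E0 := (En.en f E B 0).toReal) ENNReal.toReal_nonneg ?_)
  · intro τ hτ w
    rw [cutT_eq hτ.2, cutT_eq hT]
    exact hfZi τ hτ w
  · have h1 : (fun p : ℝ × R3 × R3 => cutT T f p.1 p.2.1 p.2.2)
        = (Iio T ×ˢ (univ : Set (R3 × R3))).piecewise (fun p : ℝ × (R3 × R3) => f p.1 p.2.1 p.2.2)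
          (fun _ => 0) := by
      funext p
      by_cases hp : p.1 < T
      · rw [Set.piecewise_eq_of_mem _ _ _ (show p ∈ Iio T ×ˢ (univ : Set (R3 × R3)) from
          ⟨hp, mem_univ _⟩)]
        simp [cutT, hp]
      · rw [Set.piecewise_eq_of_notMem _ _ _ (show p ∉ Iio T ×ˢ (univ : Set (R3 × R3)) from
          fun h => hp h.1)]
        simp [cutT, hp]
    rw [h1]
    exact (h.hf.continuousOn).measurable_piecewise continuousOn_const
      (measurableSet_Iio.prod MeasurableSet.univ)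
  · intro z hz
    rw [cutT_eq hT] at hz
    exact (isChar_cutT hT).2 (hchar z hz)
  · intro t ht
    rw [ENNReal.ofReal_toReal hfin, cutT_eq ht.2, ← En.energy_eq hreg hpos h0T ht]
    exact le_add_self

/-- **The occupation bound (d) for smooth solutions.** -/
theorem occD_of_sol (h : Mom.SmoothSol T f₀ E₀ B₀ f E B) : OccD T f E B :=
  occD (cmp_of_solTo h.T_pos (FlowTo.solTo_of_smoothSol h) h.adm)

end Crest.Agent.R106.OccSol
end
end

-- ▼ part R106/TopFinal

/-!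
# Row 106 (S0140): final link (helper709).
-/

set_option autoImplicit false

namespace Crest.Agent.R106.Top

theorem goal : Goal := goal_of GsrU.repU fun _ _ _ _ _ _ _ h => OccSol.occD_of_sol h

end Crest.Agent.R106.Top
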